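import Vale.Agent.P130.MathlibUsed
attribute [-instance] ProperSMul.toContinuousSMul IsTopologicalTorsor.toContinuousSMul IdemSemiring.toCanonicallyOrderedAdd IdemSemiring.toMulLeftMono IdemSemiring.toMulRightMono AddQuantale.instAddLeftMono AddQuantale.instAddRightMono Quantale.instMulLeftMono Quantale.instMulRightMono FiniteDimensional.rclike_to_real IsScalarTower.complexToReal FiniteDimensional.complexToReal

set_option linter.all false

section

set_option linter.all false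

section

/-!
# P110: interfaces between the modules

Every module proves one of the `...Statement` propositions below; the final file combines them.
-/

namespace Vale.Agent.P110

open Finset

/-- `e t = exp(2 pi i t)` -/
noncomputable def e (t : ℝ) : ℂ := Complex.exp (((2 * Real.pi * t : ℝ) : ℂ) * Complex.I)

/-! ## Final goal -/

/-! ## RT: rounding -/

/-- RT1: colouring of a constant proportion of the variables. -/
def PartialColoringStatement : Prop :=
  ∃ C : ℝ, ∃ c : ℝ, 0 < c ∧ ∀ (n m : ℕ), 1 ≤ n → n ≤ m → ∀ a : Fin m → Fin n → ℝ,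
    (∀ i j, |a i j| ≤ 1) → ∃ χ : Fin n → ℝ, (∀ j, χ j = -1 ∨ χ j = 0 ∨ χ j = 1) ∧
      c * n ≤ ((univ.filter fun j => χ j ≠ 0).card : ℝ) ∧
      ∀ i, |∑ j, a i j * χ j| ≤ C * (m / n : ℝ) ^ (1 / 4 : ℝ) * Real.sqrt n

/-! ## Slot systems (interface between the combinatorial and the analytic part) -/

/-- A slot system. `[0,1/2]` is cut into `n` slots `[τ i, τ (i+1)]`; slot `i` belongs to the
frequency block `blk i < P`; in an `up` slot the frequency sweeps the block upwards, otherwise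
downwards; `ω i` is the phase; `β p` is the length of block `p`. -/
structure SlotSystem (η : ℝ) where
  n : ℕ
  P : ℕ
  τ : ℕ → ℝ
  up : ℕ → Bool
  blk : ℕ → ℕ
  ω : ℕ → ℝ
  β : ℕ → ℝ
  n_pos : 0 < n
  τ_zero : τ 0 = 0
  τ_last : τ n = 1 / 2
  τ_lt : ∀ i < n, τ i < τ (i + 1)
  blk_lt : ∀ i < n, blk i < P
  β_pos : ∀ p, 0 < β p
  sum_β : ∑ p ∈ range P, β p ≤ 1 + η
  alg : ∀ p < P, ∀ k : ℤ, ∀ ζ : ℝ,
    |∑ i ∈ (range n).filter (fun i => blk i = p),
      2 * Real.sqrt ((τ (i + 1) - τ i) / β p) *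
        Real.cos (2 * Real.pi * (ω i - k * (if up i then τ i else τ (i + 1))
          - (if up i then 1 else -1) * (τ (i + 1) - τ i) * ζ))| ≤ 1

/-! ## AT: internal interfaces -/

/-- AT-Fresnel. -/
def FresnelStatement : Prop :=
  ∃ C : ℝ, ∀ R : ℝ, 0 < R → ‖(∫ s in (-R)..R, e (s ^ 2 / 2)) - e (1 / 8)‖ ≤ C / R

namespace SlotSystem
variable {η : ℝ} (S : SlotSystem η)

end SlotSystem

/-! ## Combinatorial part -/

/-- integer dot product -/
def dot {d : ℕ} (x y : Fin d → ℤ) : ℤ := ∑ i, x i * y i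

/-- A finite set of integer vectors whose last nonzero coordinate is `1` (so distinct elements are
never parallel), and a vector `V` with `χ·V > 0` on the set. -/
structure GoodSet (d : ℕ) (X : Finset (Fin d → ℤ)) (V : Fin d → ℤ) : Prop where
  two_le : 2 ≤ d
  nonempty : X.Nonempty
  top : ∀ χ ∈ X, ∃ j, χ j = 1 ∧ ∀ i, j < i → χ i = 0
  V_pos : ∀ χ ∈ X, 0 < dot χ V

/-- COL: the random colouring lemma. `J` = number of shifts, `c χ j` = shift. -/
def ColoringStatement : Prop :=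
  ∀ (d : ℕ) (X : Finset (Fin d → ℤ)) (V : Fin d → ℤ), GoodSet d X V →
    ∀ p : (Fin d → ℤ) → ℝ, (∀ χ ∈ X, 0 < p χ) → 2 * ∑ χ ∈ X, p χ = 1 →
    ∀ (J : ℕ) (c : (Fin d → ℤ) → ℕ → ℕ), 1 ≤ J → ∀ ε : ℝ, 0 < ε →
    ∃ m₀ : ℕ, ∀ m : ℕ, m₀ ≤ m → m.Prime →
      ∃ (col : ZMod m → Option (Fin d → ℤ)) (G : Finset ((Fin d → ZMod m) × ℕ)),
        (∀ t, col t ≠ none → col (-1 - t) = none) ∧
        (∀ r ∈ G, r.2 < J) ∧
        (∀ r ∈ G, ∀ χ ∈ X, col (∑ i, (χ i : ZMod m) * r.1 i + c χ r.2) = some χ) ∧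
        (∀ χ ∈ X, ∀ t : ZMod m, ∀ j < J,
          (((G.filter fun r => r.2 = j ∧
            ∑ i, (χ i : ZMod m) * r.1 i + c χ r.2 = t).card : ℝ) * (J * m * p χ)
            ≤ (1 + ε) * G.card)) ∧
        (∏ χ ∈ X, p χ) / 2 * (m : ℝ) ^ d ≤ G.card

/-- GAUSS: chirps on `ZMod m`. -/
def GaussStatement : Prop :=
  ∀ m : ℕ, Odd m → ∀ A : ℤ, IsCoprime A (m : ℤ) → ∃ w : ℕ → ℝ, ∀ k : ℤ,
    ∑ s ∈ range m, e (w s - k * s / m) = (Real.sqrt m : ℂ) * e (-(A * k ^ 2 / m))

/-- A comb system: `P` combs with vectors `R p`, mode `χ` of comb `p` occupies the integers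
`χ·R_p + i + s q_χ g`, `0 ≤ i < χ·V`, `s` any integer. -/
structure CombSystem (d : ℕ) (X : Finset (Fin d → ℤ)) (V : Fin d → ℤ) where
  g : ℕ
  P : ℕ
  q : (Fin d → ℤ) → ℕ
  c : Fin d → ℤ
  R : ℕ → Fin d → ℤ
  g_pos : 0 < g
  g_even : Even g
  P_pos : 0 < P
  q_odd : ∀ χ ∈ X, Odd (q χ)
  q_coprime : ∀ χ ∈ X, ∀ χ' ∈ X, χ ≠ χ' → (q χ).Coprime (q χ')
  c_dvd : ∀ χ ∈ X, (q χ : ℤ) ∣ dot χ c
  c_coprime : ∀ χ ∈ X, ∀ χ' ∈ X, χ ≠ χ' → IsCoprime (dot χ' c) (q χ : ℤ)
  disj : ∀ p < P, ∀ p' < P, ∀ χ ∈ X, ∀ χ' ∈ X, ∀ x i i' : ℤ,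
    0 ≤ i → i < dot χ V → 0 ≤ i' → i' < dot χ' V →
    ((q χ : ℤ) * g) ∣ (x - dot χ (R p) - i) →
    ((q χ' : ℤ) * g) ∣ (x - dot χ' (R p') - i') → p = p' ∧ χ = χ'
  disj' : ∀ p < P, ∀ p' < P, ∀ χ ∈ X, ∀ χ' ∈ X, ∀ x i i' : ℤ,
    0 ≤ i → i < dot χ V → 0 ≤ i' → i' < dot χ' V →
    ((q χ : ℤ) * g) ∣ (x - dot χ (R p) - i) →
    ¬ ((q χ' : ℤ) * g) ∣ ((-1 - x) - dot χ' (R p') - i')

/-- COMB: comb systems with near optimal density exist. -/
def CombStatement : Prop :=
  ∀ (d : ℕ) (X : Finset (Fin d → ℤ)) (V : Fin d → ℤ), GoodSet d X V →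
    ∀ p : (Fin d → ℤ) → ℝ, (∀ χ ∈ X, 0 < p χ) → 2 * ∑ χ ∈ X, p χ = 1 →
    ∀ ε : ℝ, 0 < ε → ∃ S : CombSystem d X V, ∀ χ ∈ X,
      (S.P * dot χ V : ℝ) / (S.g * p χ) ≤ S.q χ ∧
      (S.q χ : ℝ) ≤ (1 + ε) * ((S.P * dot χ V : ℝ) / (S.g * p χ))

end Vale.Agent.P110
end

section

/-! # C3: chirps on `ZMod m` have a flat spectrum -/

namespace Vale.Agent.P110.C3

open Finset

theorem e_add (x y : ℝ) : e (x + y) = e x * e y := by
  unfold e
  rw [← Complex.exp_add]
  congr 1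
  push_cast
  ring

theorem norm_e (x : ℝ) : ‖e x‖ = 1 := by
  unfold e
  rw [Complex.norm_exp_ofReal_mul_I]

theorem e_zero : e 0 = 1 := by simp [e]

/-- `e` in terms of the standard additive character -/
theorem e_div_eq (m : ℕ) [NeZero m] (j : ℤ) :
    e ((j : ℝ) / m) = ZMod.stdAddChar (N := m) (j : ZMod m) := by
  rw [ZMod.stdAddChar_coe]
  unfold e
  congr 1
  push_cast
  ring

theorem sum_range_zmod {m : ℕ} [NeZero m] (f : ZMod m → ℂ) :
    ∑ s ∈ range m, f (s : ZMod m) = ∑ x : ZMod m, f x := by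
  classical
  refine Finset.sum_bij' (fun s _ => (s : ZMod m)) (fun x _ => x.val) ?_ ?_ ?_ ?_ ?_
  · intro s _; exact mem_univ _
  · intro x _; exact mem_range.mpr (ZMod.val_lt x)
  · intro s hs; exact ZMod.val_cast_of_lt (mem_range.mp hs)
  · intro x _; exact ZMod.natCast_zmod_val x
  · intro s _; rfl

theorem gauss_norm_sq (m : ℕ) [NeZero m] (a : ZMod m) (ha : IsUnit (2 * a)) :
    Complex.normSq (∑ x : ZMod m, ZMod.stdAddChar (N := m) (a * x ^ 2)) = m := by
  classical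
  set ψ := ZMod.stdAddChar (N := m) with hψ
  have hprim := ZMod.isPrimitive_stdAddChar m
  have key : (∑ x : ZMod m, ψ (a * x ^ 2)) * (starRingEnd ℂ) (∑ x : ZMod m, ψ (a * x ^ 2))
      = (m : ℂ) := by
    rw [map_sum]
    have hconj : ∀ y : ZMod m, (starRingEnd ℂ) (ψ (a * y ^ 2)) = ψ (-(a * y ^ 2)) := by
      intro y
      rw [AddChar.map_neg_eq_conj]
    simp_rw [hconj]
    rw [Finset.sum_mul_sum]
    -- sum over x, y; put x = y + h
    rw [Finset.sum_comm]
    have h1 : ∀ y : ZMod m, ∑ x : ZMod m, ψ (a * x ^ 2) * ψ (-(a * y ^ 2))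
        = ∑ h : ZMod m, ψ (a * h ^ 2) * ψ (y * (2 * a * h)) := by
      intro y
      rw [← Equiv.sum_comp (Equiv.addRight y)]
      refine Finset.sum_congr rfl (fun h _ => ?_)
      rw [← AddChar.map_add_eq_mul, ← AddChar.map_add_eq_mul]
      congr 1
      simp only [Equiv.coe_addRight]
      ring
    simp_rw [h1]
    rw [Finset.sum_comm]
    simp_rw [← Finset.mul_sum]
    have h2 : ∀ h : ZMod m, ∑ y : ZMod m, ψ (y * (2 * a * h)) = if h = 0 then (m : ℂ) else 0 := by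
      intro h
      rw [AddChar.sum_mulShift _ hprim]
      have : (2 * a * h = 0) ↔ h = 0 := by
        constructor
        · intro hh
          exact (IsUnit.mul_right_eq_zero ha).mp hh
        · intro hh; rw [hh, mul_zero]
      simp only [this, ZMod.card]
      split_ifs <;> simp
    simp_rw [h2]
    simp
  have h3 : ((Complex.normSq (∑ x : ZMod m, ψ (a * x ^ 2)) : ℝ) : ℂ) = (m : ℂ) := by
    rw [← key, Complex.mul_conj]
  exact_mod_cast h3

theorem exists_e_eq (z : ℂ) : ∃ t : ℝ, z = (‖z‖ : ℂ) * e t := by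
  refine ⟨z.arg / (2 * Real.pi), ?_⟩
  unfold e
  have : ((2 * Real.pi * (z.arg / (2 * Real.pi)) : ℝ) : ℂ) = (z.arg : ℂ) := by
    congr 1
    field_simp
  rw [this]
  exact (Complex.norm_mul_exp_arg_mul_I z).symm

theorem gauss_main : GaussStatement := by
  intro m hm A hA
  have hm0 : m ≠ 0 := by rintro rfl; simp at hm
  have : NeZero m := ⟨hm0⟩
  -- inverse of 4A mod m
  have hcop : IsCoprime (4 * A) (m : ℤ) := by
    refine IsCoprime.mul_left ?_ hA
    have h2 : IsCoprime (2 : ℤ) (m : ℤ) := by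
      rw [Int.isCoprime_iff_gcd_eq_one]
      have := Nat.coprime_two_left.mpr hm
      exact_mod_cast this
    have : (4 : ℤ) = 2 * 2 := by norm_num
    rw [this]
    exact IsCoprime.mul_left h2 h2
  obtain ⟨a, b, hab⟩ := hcop
  -- a * (4A) + b * m = 1
  have haz : (a : ZMod m) * (4 * (A : ZMod m)) = 1 := by
    have := congrArg (fun x : ℤ => (x : ZMod m)) hab
    push_cast at this
    simpa using this
  have hunit : IsUnit (2 * (a : ZMod m)) :=
    IsUnit.of_mul_eq_one (2 * (A : ZMod m)) (by linear_combination haz)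
  set ψ := ZMod.stdAddChar (N := m) with hψ
  set G : ℂ := ∑ x : ZMod m, ψ ((a : ZMod m) * x ^ 2) with hG
  have hGn : ‖G‖ = Real.sqrt m := by
    rw [Complex.norm_def, hG, gauss_norm_sq m (a : ZMod m) hunit]
  obtain ⟨t, ht⟩ := exists_e_eq G
  rw [hGn] at ht
  refine ⟨fun s => ((a * s ^ 2 : ℤ) : ℝ) / m - t, fun k => ?_⟩
  have hterm : ∀ s ∈ range m, e (((a * s ^ 2 : ℤ) : ℝ) / m - t - k * s / m)
      = e (-t) * ψ ((a : ZMod m) * (s : ZMod m) ^ 2 - (k : ZMod m) * (s : ZMod m)) := by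
    intro s _
    have h1 : ((a * s ^ 2 : ℤ) : ℝ) / m - t - k * s / m
        = -t + (((a * s ^ 2 - k * s : ℤ)) : ℝ) / m := by
      push_cast; ring
    rw [h1, e_add, e_div_eq]
    congr 2
    push_cast
    ring
  rw [Finset.sum_congr rfl hterm, ← Finset.mul_sum,
    sum_range_zmod (m := m) (fun x => ψ ((a : ZMod m) * x ^ 2 - (k : ZMod m) * x))]
  have hshift : ∑ x : ZMod m, ψ ((a : ZMod m) * x ^ 2 - (k : ZMod m) * x)
      = ψ (-((A : ZMod m) * (k : ZMod m) ^ 2)) * G := by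
    rw [hG, Finset.mul_sum, ← Equiv.sum_comp (Equiv.addRight (2 * (A : ZMod m) * (k : ZMod m)))]
    refine Finset.sum_congr rfl (fun x _ => ?_)
    rw [← AddChar.map_add_eq_mul]
    congr 1
    simp only [Equiv.coe_addRight]
    linear_combination (x * (k : ZMod m) + (A : ZMod m) * (k : ZMod m) ^ 2) * haz
  rw [hshift]
  have hAk : ψ (-((A : ZMod m) * (k : ZMod m) ^ 2)) = e (-(A * k ^ 2 / m)) := by
    have : (-(A * k ^ 2 / m) : ℝ) = (((-(A * k ^ 2) : ℤ)) : ℝ) / m := by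
      push_cast; ring
    rw [this, e_div_eq]
    congr 1
    push_cast
    ring
  rw [hAk, ht]
  have hee : e (-t) * e t = 1 := by
    rw [← e_add]; simp [e_zero]
  linear_combination (e (-(A * k ^ 2 / m)) * (Real.sqrt m : ℂ)) * hee

end Vale.Agent.P110.C3

namespace Vale.Agent.P110

/-- C3 -/
theorem gaussStatement : GaussStatement := C3.gauss_main

end Vale.Agent.P110
end

section

open Finset

namespace Vale.Agent.P110.LinCount

variable {m : ℕ} [Fact m.Prime] {ι : Type*} [Fintype ι] [DecidableEq ι]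

/-- nonzero two by two minor over the integers -/
lemma exists_minor {d : ℕ} {X : Finset (Fin d → ℤ)} {V : Fin d → ℤ} (hX : GoodSet d X V)
    {χ χ' : Fin d → ℤ} (h : χ ∈ X) (h' : χ' ∈ X) (hne : χ ≠ χ') :
    ∃ i j, χ i * χ' j - χ j * χ' i ≠ 0 := by
  obtain ⟨j, hj, hj'⟩ := hX.top χ h
  obtain ⟨k, hk, hk'⟩ := hX.top χ' h'
  rcases lt_trichotomy j k with hlt | heq | hgt
  · refine ⟨j, k, ?_⟩
    rw [hj, hk, hj' k hlt]
    simp
  · subst heq
    obtain ⟨i, hi⟩ := Function.ne_iff.mp hne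
    refine ⟨i, j, ?_⟩
    rw [hj, hk]
    intro h0
    apply hi
    linarith
  · refine ⟨j, k, ?_⟩
    rw [hj, hk, hk' j hgt]
    simp

lemma cast_ne_zero_of_lt {z : ℤ} (hz : z ≠ 0) {m : ℕ} (hm : z.natAbs < m) :
    ((z : ℤ) : ZMod m) ≠ 0 := by
  rw [Ne, ZMod.intCast_zmod_eq_zero_iff_dvd]
  intro hd
  have := Int.natAbs_dvd_natAbs.mpr hd
  rw [Int.natAbs_natCast] at this
  have := Nat.le_of_dvd (Int.natAbs_pos.mpr hz) this
  omega

/-- for all large moduli the minors stay nonzero -/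
theorem exists_minor_zmod {d : ℕ} {X : Finset (Fin d → ℤ)} {V : Fin d → ℤ}
    (hX : GoodSet d X V) :
    ∃ m₁ : ℕ, ∀ m : ℕ, m₁ ≤ m → ∀ χ ∈ X, ∀ χ' ∈ X, χ ≠ χ' →
      ∃ i j, ((χ i : ZMod m) * (χ' j : ZMod m) - (χ j : ZMod m) * (χ' i : ZMod m)) ≠ 0 := by
  classical
  refine ⟨(∑ χ ∈ X, ∑ χ' ∈ X, ∑ i, ∑ j, (χ i * χ' j - χ j * χ' i).natAbs) + 1, ?_⟩
  intro m hm χ h χ' h' hne
  obtain ⟨i, j, hij⟩ := exists_minor hX h h' hne
  refine ⟨i, j, ?_⟩
  have h1 : (χ i * χ' j - χ j * χ' i).natAbs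
      ≤ ∑ χ ∈ X, ∑ χ' ∈ X, ∑ i, ∑ j, (χ i * χ' j - χ j * χ' i).natAbs :=
    calc (χ i * χ' j - χ j * χ' i).natAbs ≤ ∑ j, (χ i * χ' j - χ j * χ' i).natAbs :=
          Finset.single_le_sum (f := fun j => (χ i * χ' j - χ j * χ' i).natAbs)
            (fun _ _ => Nat.zero_le _) (Finset.mem_univ j)
      _ ≤ ∑ i, ∑ j, (χ i * χ' j - χ j * χ' i).natAbs :=
          Finset.single_le_sum (f := fun i => ∑ j, (χ i * χ' j - χ j * χ' i).natAbs)
            (fun _ _ => Nat.zero_le _) (Finset.mem_univ i)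
      _ ≤ ∑ χ' ∈ X, ∑ i, ∑ j, (χ i * χ' j - χ j * χ' i).natAbs :=
          Finset.single_le_sum (f := fun χ' : Fin d → ℤ => ∑ i, ∑ j,
            (χ i * χ' j - χ j * χ' i).natAbs) (fun _ _ => Nat.zero_le _) h'
      _ ≤ _ :=
          Finset.single_le_sum (f := fun χ : Fin d → ℤ => ∑ χ' ∈ X, ∑ i, ∑ j,
            (χ i * χ' j - χ j * χ' i).natAbs) (fun _ _ => Nat.zero_le _) h
  have h2 := cast_ne_zero_of_lt hij (m := m) (by omega)
  push_cast at h2
  exact h2

end Vale.Agent.P110.LinCount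
end

section

/-!
# P110, module COL: the random colouring lemma
-/

namespace Vale.Agent.P110

open Finset

namespace Col

/-! ### fibres of linear forms -/

theorem card_fiber {G H : Type*} [AddGroup G] [Fintype G] [AddGroup H] [Fintype H]
    [DecidableEq H] (φ : G →+ H) (hφ : Function.Surjective φ) (b : H) :
    (univ.filter fun g => φ g = b).card * Fintype.card H = Fintype.card G := by
  classical
  have h1 : ∀ b' : H, (univ.filter fun g => φ g = b').card
      = (univ.filter fun g => φ g = b).card := by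
    intro b'
    exact AddMonoidHom.card_fiber_eq_of_mem_range φ (hφ b') (hφ b)
  have h2 : Fintype.card G = ∑ b' : H, (univ.filter fun g => φ g = b').card := by
    rw [← Finset.card_univ]
    exact Finset.card_eq_sum_card_fiberwise (fun _ _ => mem_univ _)
  rw [h2, Finset.sum_congr rfl (fun b' _ => h1 b'), Finset.sum_const, Finset.card_univ,
    smul_eq_mul, mul_comm]

section forms

variable {m : ℕ} [Fact m.Prime] {n : ℕ}

/-- the linear form with coefficients `a` -/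
def form (a : Fin n → ZMod m) : (Fin n → ZMod m) →+ ZMod m where
  toFun σ := ∑ i, a i * σ i
  map_zero' := by simp
  map_add' x y := by simp [mul_add, Finset.sum_add_distrib]

@[simp] theorem form_apply (a : Fin n → ZMod m) (σ : Fin n → ZMod m) :
    form a σ = ∑ i, a i * σ i := rfl

theorem form_single (a : Fin n → ZMod m) (i : Fin n) (x : ZMod m) :
    form a (Pi.single i x) = a i * x := by
  rw [form_apply, Finset.sum_eq_single i]
  · simp
  · intro j _ hj
    simp [Pi.single_eq_of_ne hj]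
  · simp

theorem card_form (a : Fin n → ZMod m) (i : Fin n) (ha : a i ≠ 0) (b : ZMod m) :
    (univ.filter fun σ : Fin n → ZMod m => ∑ i, a i * σ i = b).card * m = m ^ n := by
  have h := card_fiber (form a) (fun b' => ⟨Pi.single i ((a i)⁻¹ * b'), by
    rw [form_single, mul_inv_cancel_left₀ ha]⟩) b
  have h2 : Fintype.card (Fin n → ZMod m) = m ^ n := by simp [ZMod.card]
  rw [h2, ZMod.card] at h
  exact h

theorem card_form2 (a a' : Fin n → ZMod m) (i j : Fin n)
    (ha : a i * a' j - a j * a' i ≠ 0) (b b' : ZMod m) :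
    (univ.filter fun σ : Fin n → ZMod m =>
      ∑ i, a i * σ i = b ∧ ∑ i, a' i * σ i = b').card * (m * m) = m ^ n := by
  have h := card_fiber ((form a).prod (form a')) (fun y => by
    refine ⟨Pi.single i ((a i * a' j - a j * a' i)⁻¹ * (y.1 * a' j - y.2 * a j)) +
      Pi.single j ((a i * a' j - a j * a' i)⁻¹ * (a i * y.2 - a' i * y.1)), ?_⟩
    rw [AddMonoidHom.prod_apply, map_add, map_add, form_single, form_single, form_single,
      form_single]
    ext
    · simp only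
      have : a i * ((a i * a' j - a j * a' i)⁻¹ * (y.1 * a' j - y.2 * a j)) +
          a j * ((a i * a' j - a j * a' i)⁻¹ * (a i * y.2 - a' i * y.1))
          = ((a i * a' j - a j * a' i)⁻¹ * (a i * a' j - a j * a' i)) * y.1 := by ring
      rw [this, inv_mul_cancel₀ ha, one_mul]
    · simp only
      have : a' i * ((a i * a' j - a j * a' i)⁻¹ * (y.1 * a' j - y.2 * a j)) +
          a' j * ((a i * a' j - a j * a' i)⁻¹ * (a i * y.2 - a' i * y.1))
          = ((a i * a' j - a j * a' i)⁻¹ * (a i * a' j - a j * a' i)) * y.2 := by ring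
      rw [this, inv_mul_cancel₀ ha, one_mul]) (b, b')
  simpa [ZMod.card, Prod.ext_iff] using h

end forms

section expectation

variable {m : ℕ} [Fact m.Prime] {n : ℕ}

/-- sample space: every residue gets a side and a colour -/
def Om (m : ℕ) [Fact m.Prime] {n : ℕ} (X : Finset (Fin n → ℤ)) :
    Finset (ZMod m → Bool × (Fin n → ℤ)) :=
  Fintype.piFinset fun _ => (univ : Finset Bool) ×ˢ X

/-- expectation -/
noncomputable def E (X : Finset (Fin n → ℤ)) (p : (Fin n → ℤ) → ℝ)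
    (F : (ZMod m → Bool × (Fin n → ℤ)) → ℝ) : ℝ :=
  ∑ ω ∈ Om m X, (∏ i, p (ω i).2) * F ω

variable (X : Finset (Fin n → ℤ)) (p : (Fin n → ℤ) → ℝ)

theorem E_sum {S : Type*} (s : Finset S) (F : S → (ZMod m → Bool × (Fin n → ℤ)) → ℝ) :
    E X p (fun ω => ∑ k ∈ s, F k ω) = ∑ k ∈ s, E X p (F k) := by
  unfold E
  simp_rw [Finset.mul_sum]
  exact Finset.sum_comm

theorem E_add (F G : (ZMod m → Bool × (Fin n → ℤ)) → ℝ) :
    E X p (fun ω => F ω + G ω) = E X p F + E X p G := by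
  unfold E
  simp_rw [mul_add]
  exact Finset.sum_add_distrib

theorem E_sub (F G : (ZMod m → Bool × (Fin n → ℤ)) → ℝ) :
    E X p (fun ω => F ω - G ω) = E X p F - E X p G := by
  unfold E
  simp_rw [mul_sub]
  exact Finset.sum_sub_distrib _ _

theorem E_smul (c : ℝ) (F : (ZMod m → Bool × (Fin n → ℤ)) → ℝ) :
    E X p (fun ω => c * F ω) = c * E X p F := by
  unfold E
  rw [Finset.mul_sum]
  exact Finset.sum_congr rfl fun ω _ => by ring

theorem E_prod (g : ZMod m → Bool × (Fin n → ℤ) → ℝ) :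
    E X p (fun ω => ∏ i, g i (ω i))
      = ∏ i, ∑ a ∈ (univ : Finset Bool) ×ˢ X, p a.2 * g i a := by
  unfold E Om
  rw [Finset.prod_univ_sum]
  exact Finset.sum_congr rfl fun ω _ => by rw [Finset.prod_mul_distrib]

variable {X p}

theorem sum_weights (h : 2 * ∑ χ ∈ X, p χ = 1) :
    ∑ a ∈ (univ : Finset Bool) ×ˢ X, p a.2 = 1 := by
  rw [Finset.sum_product]
  simp only [Finset.sum_const, Finset.card_univ, Fintype.card_bool, nsmul_eq_mul]
  exact_mod_cast h

theorem E_const (h : 2 * ∑ χ ∈ X, p χ = 1) (c : ℝ) :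
    E X p (fun _ : ZMod m → Bool × (Fin n → ℤ) => c) = c := by
  have h1 := E_prod (m := m) X p (fun _ _ => 1)
  simp only [Finset.prod_const_one, mul_one, sum_weights h] at h1
  have h2 := E_smul (m := m) X p c (fun _ => 1)
  simp only [mul_one] at h2
  rw [h2, h1, mul_one]

theorem E_mono (hp : ∀ χ ∈ X, 0 < p χ) {F G : (ZMod m → Bool × (Fin n → ℤ)) → ℝ}
    (hFG : ∀ ω, F ω ≤ G ω) : E X p F ≤ E X p G := by
  unfold E
  refine Finset.sum_le_sum fun ω hω => ?_
  refine mul_le_mul_of_nonneg_left (hFG ω) (Finset.prod_nonneg fun i _ => ?_)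
  have := Fintype.mem_piFinset.1 hω i
  exact (hp _ (Finset.mem_product.1 this).2).le

/-- there is an outcome at least as large as the expectation -/
theorem exists_ge (hp : ∀ χ ∈ X, 0 < p χ) (h : 2 * ∑ χ ∈ X, p χ = 1)
    (F : (ZMod m → Bool × (Fin n → ℤ)) → ℝ) : ∃ ω, E X p F ≤ F ω := by
  by_contra hcon
  push Not at hcon
  have h1 : E X p F < E X p (fun _ : ZMod m → Bool × (Fin n → ℤ) => E X p F) := by
    obtain ⟨χ, hχ⟩ : X.Nonempty := by
      rw [Finset.nonempty_iff_ne_empty]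
      rintro rfl
      simp at h
    refine Finset.sum_lt_sum_of_nonempty ⟨fun _ => (true, χ), ?_⟩ fun ω hω => ?_
    · exact Fintype.mem_piFinset.2 fun i => Finset.mem_product.2 ⟨mem_univ _, hχ⟩
    · refine mul_lt_mul_of_pos_left (hcon ω) (Finset.prod_pos fun i _ => ?_)
      have := Fintype.mem_piFinset.1 hω i
      exact hp _ (Finset.mem_product.1 this).2
  rw [E_const h] at h1
  exact lt_irrefl _ h1

/-- representative of the pair `{t, -1-t}` -/
def rep (t : ZMod m) : ZMod m := if t.val < (-1 - t).val then t else -1 - t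

/-- side of `t` in its pair -/
def side (t : ZMod m) : Bool := decide (t.val < (-1 - t).val)

theorem rep_eq {t t' : ZMod m} (h : rep t = rep t') : t = t' ∨ t = -1 - t' := by
  unfold rep at h
  split_ifs at h
  · exact Or.inl h
  · exact Or.inr h
  · right; rw [← h]; ring
  · left; linear_combination -h

theorem neg_neg' (t : ZMod m) : -1 - (-1 - t) = t := by ring

theorem val_ne {t : ZMod m} (ht : t ≠ -1 - t) : t.val ≠ (-1 - t).val := by
  intro h
  exact ht (ZMod.val_injective m h)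

theorem rep_neg {t : ZMod m} (ht : t ≠ -1 - t) : rep (-1 - t) = rep t := by
  unfold rep
  rw [neg_neg']
  have := val_ne ht
  split_ifs with h1 h2 h2
  · omega
  · rfl
  · rfl
  · omega

theorem side_neg {t : ZMod m} (ht : t ≠ -1 - t) : side (-1 - t) = !side t := by
  unfold side
  rw [neg_neg']
  have := val_ne ht
  by_cases h : t.val < (-1 - t).val
  · have h2 : ¬ (-1 - t).val < t.val := by omega
    simp [h, h2]
  · have h2 : (-1 - t).val < t.val := by omega
    simp [h, h2]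

/-- the random colouring -/
def col (ω : ZMod m → Bool × (Fin n → ℤ)) (t : ZMod m) : Option (Fin n → ℤ) :=
  if t = -1 - t then none else if (ω (rep t)).1 = side t then some (ω (rep t)).2 else none

theorem col_neg (ω : ZMod m → Bool × (Fin n → ℤ)) (t : ZMod m) (h : col ω t ≠ none) :
    col ω (-1 - t) = none := by
  by_cases ht : t = -1 - t
  · exact absurd (if_pos ht) h
  · unfold col at h ⊢
    rw [if_neg ht] at h
    have h1 : (ω (rep t)).1 = side t := by
      by_contra h2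
      exact h (if_neg h2)
    rw [if_neg (by rw [neg_neg']; exact fun h' => ht h'.symm), rep_neg ht, side_neg ht,
      if_neg (by rw [h1]; cases side t <;> simp)]

theorem col_eq_some (ω : ZMod m → Bool × (Fin n → ℤ)) {t : ZMod m} (ht : t ≠ -1 - t)
    (χ : Fin n → ℤ) : col ω t = some χ ↔ ω (rep t) = (side t, χ) := by
  unfold col
  rw [if_neg ht]
  constructor
  · intro h
    split_ifs at h with h1
    exact Prod.ext h1 (Option.some.inj h)
  · intro h
    rw [h]
    simp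

/-- indicator that `t` has colour `χ` -/
def ind (ω : ZMod m → Bool × (Fin n → ℤ)) (t : ZMod m) (χ : Fin n → ℤ) : ℝ :=
  if col ω t = some χ then 1 else 0

theorem E_ind_prod (h : 2 * ∑ χ ∈ X, p χ = 1) {S : Type*} (s : Finset S) (t : S → ZMod m)
    (κ : S → (Fin n → ℤ)) (hκ : ∀ k ∈ s, κ k ∈ X) (hmid : ∀ k ∈ s, t k ≠ -1 - t k)
    (hdis : ∀ k ∈ s, ∀ l ∈ s, k ≠ l → t k ≠ t l ∧ t k ≠ -1 - t l) :
    E X p (fun ω => ∏ k ∈ s, ind ω (t k) (κ k)) = ∏ k ∈ s, p (κ k) := by
  classical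
  have h1 : (fun ω : ZMod m → Bool × (Fin n → ℤ) => ∏ k ∈ s, ind ω (t k) (κ k))
      = fun ω => ∏ i, ∏ k ∈ s with rep (t k) = i,
        (if ω i = (side (t k), κ k) then (1 : ℝ) else 0) := by
    funext ω
    rw [← Finset.prod_fiberwise s (fun k => rep (t k))]
    refine Finset.prod_congr rfl fun i _ => Finset.prod_congr rfl fun k hk => ?_
    rw [Finset.mem_filter] at hk
    unfold ind
    rw [← hk.2]
    exact if_congr (col_eq_some ω (hmid k hk.1) (κ k)) rfl rfl
  rw [h1, E_prod X p (fun i a => ∏ k ∈ s with rep (t k) = i,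
    (if a = (side (t k), κ k) then (1 : ℝ) else 0)),
    ← Finset.prod_fiberwise s (fun k => rep (t k))]
  refine Finset.prod_congr rfl fun i _ => ?_
  rcases Finset.eq_empty_or_nonempty (s.filter fun k => rep (t k) = i) with h2 | ⟨k, hk⟩
  · rw [h2]
    simp only [Finset.prod_empty, mul_one]
    exact sum_weights h
  · have h3 : (s.filter fun k => rep (t k) = i) = {k} := by
      refine Finset.eq_singleton_iff_unique_mem.2 ⟨hk, fun l hl => ?_⟩
      rw [Finset.mem_filter] at hk hl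
      by_contra hne
      have h4 := hdis l hl.1 k hk.1 hne
      rcases rep_eq (hl.2.trans hk.2.symm) with h5 | h5
      · exact h4.1 h5
      · exact h4.2 h5
    rw [h3]
    simp only [Finset.prod_singleton, mul_ite, mul_one, mul_zero]
    rw [Finset.sum_ite_eq' (univ ×ˢ X) (side (t k), κ k) (fun a => p a.2), if_pos]
    exact Finset.mem_product.2 ⟨mem_univ _, hκ k (Finset.mem_filter.1 hk).1⟩

theorem ind_nonneg (ω : ZMod m → Bool × (Fin n → ℤ)) (t : ZMod m) (χ : Fin n → ℤ) :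
    0 ≤ ind ω t χ := by
  unfold ind; split_ifs <;> norm_num

theorem ind_le_one (ω : ZMod m → Bool × (Fin n → ℤ)) (t : ZMod m) (χ : Fin n → ℤ) :
    ind ω t χ ≤ 1 := by
  unfold ind; split_ifs <;> norm_num

end expectation

section counting

variable {m : ℕ} [Fact m.Prime] {n : ℕ}

/-- the point of the form `χ` -/
def pt (c : (Fin n → ℤ) → ZMod m) (χ : Fin n → ℤ) (σ : Fin n → ZMod m) : ZMod m :=
  ∑ i, (χ i : ZMod m) * σ i + c χ

/-- `m` is not one of finitely many exceptional primes -/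
structure Nice (m : ℕ) [Fact m.Prime] {n : ℕ} (X : Finset (Fin n → ℤ)) : Prop where
  two : (2 : ZMod m) ≠ 0
  ne : ∀ χ ∈ X, ∃ i, (χ i : ZMod m) ≠ 0
  minor : ∀ χ ∈ X, ∀ χ' ∈ X, χ ≠ χ' → ∃ i j,
    (χ i : ZMod m) * χ' j - (χ j : ZMod m) * χ' i ≠ 0

theorem m_pos (m : ℕ) [h : Fact m.Prime] : (0 : ℝ) < m := by
  exact_mod_cast h.out.pos

variable {X : Finset (Fin n → ℤ)} (hN : Nice m X) (c : (Fin n → ℤ) → ZMod m)
include hN

theorem card_pt {χ : Fin n → ℤ} (hχ : χ ∈ X) (t : ZMod m) :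
    ((univ.filter fun σ => pt c χ σ = t).card : ℝ) = (m : ℝ) ^ n / m := by
  obtain ⟨i, hi⟩ := hN.ne χ hχ
  have h := card_form (fun i => (χ i : ZMod m)) i hi (t - c χ)
  have h2 : (univ.filter fun σ => pt c χ σ = t)
      = univ.filter fun σ : Fin n → ZMod m => ∑ i, (χ i : ZMod m) * σ i = t - c χ := by
    refine Finset.filter_congr fun σ _ => ?_
    unfold pt
    rw [eq_sub_iff_add_eq]
  rw [h2, eq_div_iff (m_pos m).ne']
  exact_mod_cast h

theorem card_add {χ χ' : Fin n → ℤ} (hχ : χ ∈ X) (hχ' : χ' ∈ X) :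
    ((univ.filter fun σ => pt c χ σ = -1 - pt c χ' σ).card : ℝ) ≤ (m : ℝ) ^ n / m := by
  have h0 : ∃ i, ((χ i : ZMod m) + χ' i) ≠ 0 := by
    by_cases hne : χ = χ'
    · obtain ⟨i, hi⟩ := hN.ne χ hχ
      refine ⟨i, ?_⟩
      rw [← hne, ← two_mul]
      exact mul_ne_zero hN.two hi
    · obtain ⟨i, j, hij⟩ := hN.minor χ hχ χ' hχ' hne
      by_contra hcon
      push Not at hcon
      apply hij
      have h1 := hcon i
      have h2 := hcon j
      linear_combination (χ' j : ZMod m) * h1 - (χ' i : ZMod m) * h2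
  obtain ⟨i, hi⟩ := h0
  have h := card_form (fun i => (χ i : ZMod m) + (χ' i : ZMod m)) i hi (-1 - c χ - c χ')
  have h2 : (univ.filter fun σ => pt c χ σ = -1 - pt c χ' σ)
      = univ.filter fun σ : Fin n → ZMod m =>
        ∑ i, ((χ i : ZMod m) + (χ' i : ZMod m)) * σ i = -1 - c χ - c χ' := by
    refine Finset.filter_congr fun σ _ => ?_
    unfold pt
    simp only [add_mul, Finset.sum_add_distrib]
    constructor
    · intro h; linear_combination h
    · intro h; linear_combination h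
  rw [h2]
  refine le_of_eq ?_
  rw [eq_div_iff (m_pos m).ne']
  exact_mod_cast h

theorem card_sub {χ χ' : Fin n → ℤ} (hχ : χ ∈ X) (hχ' : χ' ∈ X) (hne : χ ≠ χ') :
    ((univ.filter fun σ => pt c χ σ = pt c χ' σ).card : ℝ) ≤ (m : ℝ) ^ n / m := by
  have h0 : ∃ i, ((χ i : ZMod m) - χ' i) ≠ 0 := by
    obtain ⟨i, j, hij⟩ := hN.minor χ hχ χ' hχ' hne
    by_contra hcon
    push Not at hcon
    apply hij
    have h1 := hcon i
    have h2 := hcon j
    linear_combination (χ' j : ZMod m) * h1 - (χ' i : ZMod m) * h2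
  obtain ⟨i, hi⟩ := h0
  have h := card_form (fun i => (χ i : ZMod m) - (χ' i : ZMod m)) i hi (c χ' - c χ)
  have h2 : (univ.filter fun σ => pt c χ σ = pt c χ' σ)
      = univ.filter fun σ : Fin n → ZMod m =>
        ∑ i, ((χ i : ZMod m) - (χ' i : ZMod m)) * σ i = c χ' - c χ := by
    refine Finset.filter_congr fun σ _ => ?_
    unfold pt
    simp only [sub_mul, Finset.sum_sub_distrib]
    constructor
    · intro h; linear_combination h
    · intro h; linear_combination h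
  rw [h2]
  refine le_of_eq ?_
  rw [eq_div_iff (m_pos m).ne']
  exact_mod_cast h

theorem card_pair {χ χ' : Fin n → ℤ} (hχ : χ ∈ X) (hχ' : χ' ∈ X) (hne : χ ≠ χ')
    (t t' : ZMod m) :
    ((univ.filter fun σ => pt c χ σ = t ∧ pt c χ' σ = t').card : ℝ)
      ≤ (m : ℝ) ^ n / (m * m) := by
  obtain ⟨i, j, hij⟩ := hN.minor χ hχ χ' hχ' hne
  have h := card_form2 (fun i => (χ i : ZMod m)) (fun i => (χ' i : ZMod m)) i j hij
    (t - c χ) (t' - c χ')
  have h2 : (univ.filter fun σ => pt c χ σ = t ∧ pt c χ' σ = t')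
      = univ.filter fun σ : Fin n → ZMod m => ∑ i, (χ i : ZMod m) * σ i = t - c χ ∧
        ∑ i, (χ' i : ZMod m) * σ i = t' - c χ' := by
    refine Finset.filter_congr fun σ _ => ?_
    unfold pt
    rw [eq_sub_iff_add_eq, eq_sub_iff_add_eq]
  rw [h2]
  refine le_of_eq ?_
  have hm := m_pos m
  rw [eq_div_iff (mul_pos hm hm).ne']
  exact_mod_cast h

omit hN in
/-- degenerate `σ` -/
def deg (X : Finset (Fin n → ℤ)) (c : (Fin n → ℤ) → ZMod m) : Finset (Fin n → ZMod m) :=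
  X.biUnion fun χ => X.biUnion fun χ' =>
    (univ.filter fun σ => pt c χ σ = -1 - pt c χ' σ) ∪
      (univ.filter fun σ => χ ≠ χ' ∧ pt c χ σ = pt c χ' σ)

omit hN in
theorem not_mem_deg {σ : Fin n → ZMod m} (h : σ ∉ deg X c) {χ χ' : Fin n → ℤ} (hχ : χ ∈ X)
    (hχ' : χ' ∈ X) : pt c χ σ ≠ -1 - pt c χ' σ ∧ (χ ≠ χ' → pt c χ σ ≠ pt c χ' σ) := by
  unfold deg at h
  simp only [Finset.mem_biUnion, Finset.mem_union, Finset.mem_filter, Finset.mem_univ,
    true_and, not_exists, not_and, not_or] at h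
  exact ⟨(h χ hχ χ' hχ').1, (h χ hχ χ' hχ').2⟩

theorem card_deg : ((deg X c).card : ℝ) ≤ 2 * (X.card : ℝ) ^ 2 * ((m : ℝ) ^ n / m) := by
  have hW : 0 ≤ (m : ℝ) ^ n / m := by positivity
  have h1 : ∀ χ ∈ X, ((X.biUnion fun χ' =>
      (univ.filter fun σ => pt c χ σ = -1 - pt c χ' σ) ∪
      (univ.filter fun σ => χ ≠ χ' ∧ pt c χ σ = pt c χ' σ)).card : ℝ)
      ≤ X.card * (2 * ((m : ℝ) ^ n / m)) := by
    intro χ hχ
    refine le_trans (Nat.cast_le.2 Finset.card_biUnion_le) ?_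
    rw [Nat.cast_sum, ← nsmul_eq_mul]
    refine Finset.sum_le_card_nsmul _ _ _ fun χ' hχ' => ?_
    refine le_trans (Nat.cast_le.2 (Finset.card_union_le _ _)) ?_
    rw [Nat.cast_add, two_mul]
    refine add_le_add (card_add hN c hχ hχ') ?_
    by_cases hne : χ = χ'
    · rw [Finset.filter_false_of_mem (fun σ _ h => h.1 hne)]
      simpa using hW
    · refine le_trans ?_ (card_sub hN c hχ hχ' hne)
      refine Nat.cast_le.2 (Finset.card_le_card fun σ h => ?_)
      rw [Finset.mem_filter] at h ⊢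
      exact ⟨h.1, h.2.2⟩
  refine le_trans (Nat.cast_le.2 Finset.card_biUnion_le) ?_
  rw [Nat.cast_sum]
  refine le_trans (Finset.sum_le_card_nsmul _ _ _ h1) ?_
  rw [nsmul_eq_mul]
  exact le_of_eq (by ring)

end counting

section moment

variable {m : ℕ} [Fact m.Prime] {n : ℕ} {X : Finset (Fin n → ℤ)} {p : (Fin n → ℤ) → ℝ}

theorem E_prod_ge (hp : ∀ χ ∈ X, 0 < p χ) (h : 2 * ∑ χ ∈ X, p χ = 1)
    (c : (Fin n → ℤ) → ZMod m) (s : Finset (Fin n → ℤ)) (hs : s ⊆ X) (σ : Fin n → ZMod m) :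
    (∏ χ ∈ s, p χ) * (1 - if σ ∈ deg X c then 1 else 0)
      ≤ E X p (fun ω => ∏ χ ∈ s, ind ω (pt c χ σ) χ) := by
  by_cases hσ : σ ∈ deg X c
  · rw [if_pos hσ, sub_self, mul_zero]
    have h1 := E_mono (m := m) hp (F := fun _ => 0)
      (G := fun ω => ∏ χ ∈ s, ind ω (pt c χ σ) χ)
      (fun ω => Finset.prod_nonneg fun χ _ => ind_nonneg _ _ _)
    rwa [E_const h] at h1
  · rw [if_neg hσ, sub_zero, mul_one]
    refine le_of_eq ?_
    symm
    refine E_ind_prod h s (fun χ => pt c χ σ) (fun χ => χ) (fun χ hχ => hs hχ) ?_ ?_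
    · intro χ hχ
      exact (not_mem_deg c hσ (hs hχ) (hs hχ)).1
    · intro χ hχ χ' hχ' hne
      exact ⟨(not_mem_deg c hσ (hs hχ) (hs hχ')).2 hne,
        (not_mem_deg c hσ (hs hχ) (hs hχ')).1⟩

/-- all modes except `χ₀` have the correct colour -/
def Y (X : Finset (Fin n → ℤ)) (c : (Fin n → ℤ) → ZMod m) (χ₀ : Fin n → ℤ)
    (ω : ZMod m → Bool × (Fin n → ℤ)) (σ : Fin n → ZMod m) : ℝ :=
  ∏ χ ∈ X.erase χ₀, ind ω (pt c χ σ) χ

theorem Y_nonneg (c : (Fin n → ℤ) → ZMod m) (χ₀ : Fin n → ℤ)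
    (ω : ZMod m → Bool × (Fin n → ℤ)) (σ : Fin n → ZMod m) : 0 ≤ Y X c χ₀ ω σ :=
  Finset.prod_nonneg fun _ _ => ind_nonneg _ _ _

theorem Y_le_one (c : (Fin n → ℤ) → ZMod m) (χ₀ : Fin n → ℤ)
    (ω : ZMod m → Bool × (Fin n → ℤ)) (σ : Fin n → ZMod m) : Y X c χ₀ ω σ ≤ 1 :=
  Finset.prod_le_one (fun _ _ => ind_nonneg _ _ _) fun _ _ => ind_le_one _ _ _

/-- the error term of a pair `(σ, σ')` -/
def R (X : Finset (Fin n → ℤ)) (c : (Fin n → ℤ) → ZMod m) (χ₀ : Fin n → ℤ)
    (σ σ' : Fin n → ZMod m) : ℝ :=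
  (if σ ∈ deg X c then 1 else 0) + (if σ' ∈ deg X c then 1 else 0) +
    ∑ χ ∈ X.erase χ₀, ∑ χ' ∈ X.erase χ₀,
      ((if pt c χ' σ' = pt c χ σ then 1 else 0) +
        (if pt c χ' σ' = -1 - pt c χ σ then 1 else 0))

theorem E_YY (hp : ∀ χ ∈ X, 0 < p χ) (h : 2 * ∑ χ ∈ X, p χ = 1)
    (c : (Fin n → ℤ) → ZMod m) (χ₀ : Fin n → ℤ) (σ σ' : Fin n → ZMod m) :
    E X p (fun ω => Y X c χ₀ ω σ * Y X c χ₀ ω σ')
      ≤ (∏ χ ∈ X.erase χ₀, p χ) ^ 2 + R X c χ₀ σ σ' := by
  have hi : ∀ (P : Prop) [Decidable P], (0 : ℝ) ≤ if P then 1 else 0 := by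
    intro P _; split_ifs <;> norm_num
  have hs : 0 ≤ ∑ χ ∈ X.erase χ₀, ∑ χ' ∈ X.erase χ₀,
      ((if pt c χ' σ' = pt c χ σ then (1 : ℝ) else 0) +
        (if pt c χ' σ' = -1 - pt c χ σ then 1 else 0)) :=
    Finset.sum_nonneg fun χ _ => Finset.sum_nonneg fun χ' _ => add_nonneg (hi _) (hi _)
  have hle1 : E X p (fun ω => Y X c χ₀ ω σ * Y X c χ₀ ω σ') ≤ 1 := by
    have h1 := E_mono (m := m) hp (F := fun ω => Y X c χ₀ ω σ * Y X c χ₀ ω σ')
      (G := fun _ => 1) (fun ω => mul_le_one₀ (Y_le_one _ _ _ _) (Y_nonneg _ _ _ _)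
        (Y_le_one _ _ _ _))
    rwa [E_const h] at h1
  by_cases h1 : σ ∈ deg X c
  · have : 1 ≤ R X c χ₀ σ σ' := by
      unfold R
      rw [if_pos h1]
      linarith [hi (σ' ∈ deg X c)]
    linarith only [sq_nonneg (∏ χ ∈ X.erase χ₀, p χ), hle1, this]
  by_cases h2 : σ' ∈ deg X c
  · have : 1 ≤ R X c χ₀ σ σ' := by
      unfold R
      rw [if_pos h2]
      linarith [hi (σ ∈ deg X c)]
    linarith only [sq_nonneg (∏ χ ∈ X.erase χ₀, p χ), hle1, this]
  by_cases h3 : ∃ χ ∈ X.erase χ₀, ∃ χ' ∈ X.erase χ₀,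
      pt c χ' σ' = pt c χ σ ∨ pt c χ' σ' = -1 - pt c χ σ
  · obtain ⟨χ, hχ, χ', hχ', h4⟩ := h3
    have h5 : 1 ≤ R X c χ₀ σ σ' := by
      have h6 : (1 : ℝ) ≤ ∑ χ ∈ X.erase χ₀, ∑ χ' ∈ X.erase χ₀,
          ((if pt c χ' σ' = pt c χ σ then (1 : ℝ) else 0) +
            (if pt c χ' σ' = -1 - pt c χ σ then 1 else 0)) := by
        refine le_trans ?_ (Finset.single_le_sum (fun χ _ => Finset.sum_nonneg fun χ' _ =>
          add_nonneg (hi _) (hi _)) hχ)
        refine le_trans ?_ (Finset.single_le_sum (fun χ' _ =>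
          add_nonneg (hi _) (hi _)) hχ')
        rcases h4 with h4 | h4
        · rw [if_pos h4]
          linarith [hi (pt c χ' σ' = -1 - pt c χ σ)]
        · rw [if_pos h4]
          linarith [hi (pt c χ' σ' = pt c χ σ)]
      unfold R
      linarith [hi (σ ∈ deg X c), hi (σ' ∈ deg X c)]
    linarith only [sq_nonneg (∏ χ ∈ X.erase χ₀, p χ), hle1, h5]
  · push Not at h3
    have h4 := E_ind_prod (m := m) h ((X.erase χ₀) ×ˢ (univ : Finset Bool))
      (fun k => pt c k.1 (if k.2 then σ else σ')) (fun k => k.1)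
      (fun k hk => Finset.mem_of_mem_erase (Finset.mem_product.1 hk).1)
      (by
        rintro ⟨χ, b⟩ hk
        have hχ := Finset.mem_of_mem_erase (Finset.mem_product.1 hk).1
        cases b
        · exact (not_mem_deg c h2 hχ hχ).1
        · exact (not_mem_deg c h1 hχ hχ).1)
      (by
        rintro ⟨χ, b⟩ hk ⟨χ', b'⟩ hk' hne
        have hχ0 := (Finset.mem_product.1 hk).1
        have hχ0' := (Finset.mem_product.1 hk').1
        have hχ := Finset.mem_of_mem_erase hχ0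
        have hχ' := Finset.mem_of_mem_erase hχ0'
        cases b <;> cases b'
        · have hne' : χ ≠ χ' := fun h => hne (by rw [h])
          exact ⟨(not_mem_deg c h2 hχ hχ').2 hne', (not_mem_deg c h2 hχ hχ').1⟩
        · exact h3 χ' hχ0' χ hχ0
        · refine ⟨fun h5 => (h3 χ hχ0 χ' hχ0').1 h5.symm, fun h5 => ?_⟩
          refine (h3 χ hχ0 χ' hχ0').2 ?_
          simp only [if_true] at h5
          change pt c χ σ = -1 - pt c χ' σ' at h5
          rw [h5]
          ring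
        · have hne' : χ ≠ χ' := fun h => hne (by rw [h])
          exact ⟨(not_mem_deg c h1 hχ hχ').2 hne', (not_mem_deg c h1 hχ hχ').1⟩)
    have h5 : (fun ω => ∏ k ∈ (X.erase χ₀) ×ˢ (univ : Finset Bool),
        ind ω (pt c k.1 (if k.2 then σ else σ')) k.1)
        = fun ω => Y X c χ₀ ω σ * Y X c χ₀ ω σ' := by
      funext ω
      rw [Finset.prod_product]
      unfold Y
      rw [← Finset.prod_mul_distrib]
      refine Finset.prod_congr rfl fun χ _ => ?_
      rw [Fintype.prod_bool]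
      simp
    have h6 : ∏ k ∈ (X.erase χ₀) ×ˢ (univ : Finset Bool), p k.1
        = (∏ χ ∈ X.erase χ₀, p χ) ^ 2 := by
      rw [Finset.prod_product, ← Finset.prod_pow]
      refine Finset.prod_congr rfl fun χ _ => ?_
      rw [Fintype.prod_bool, sq]
    rw [h5, h6] at h4
    rw [h4]
    have : 0 ≤ R X c χ₀ σ σ' := by
      unfold R
      linarith [hi (σ ∈ deg X c), hi (σ' ∈ deg X c)]
    linarith

theorem sum_ite_one {α : Type*} [Fintype α] (P : α → Prop) [DecidablePred P] :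
    ∑ a, (if P a then (1 : ℝ) else 0) = (univ.filter P).card := by
  rw [Finset.sum_boole]

theorem sum_R (hN : Nice m X) (c : (Fin n → ℤ) → ZMod m) {χ₀ : Fin n → ℤ} (h₀ : χ₀ ∈ X) :
    ∑ σ, ∑ σ', (if pt c χ₀ σ' = pt c χ₀ σ then R X c χ₀ σ σ' else 0)
      ≤ 6 * (X.card : ℝ) ^ 2 * ((m : ℝ) ^ n / m) ^ 2 := by
  have hm := m_pos m
  have hW : 0 ≤ (m : ℝ) ^ n / m := by positivity
  have hdeg := card_deg hN c
  have hcard : (Fintype.card (Fin n → ZMod m) : ℝ) = (m : ℝ) ^ n := by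
    simp [ZMod.card]
  -- part 1
  have h1 : ∑ σ, ∑ σ', (if pt c χ₀ σ' = pt c χ₀ σ then
      (if σ ∈ deg X c then (1 : ℝ) else 0) else 0)
      ≤ 2 * (X.card : ℝ) ^ 2 * ((m : ℝ) ^ n / m) ^ 2 := by
    have h2 : ∀ σ : Fin n → ZMod m, ∑ σ', (if pt c χ₀ σ' = pt c χ₀ σ then
        (if σ ∈ deg X c then (1 : ℝ) else 0) else 0)
        = (if σ ∈ deg X c then (1 : ℝ) else 0) * ((m : ℝ) ^ n / m) := by
      intro σ
      rw [← card_pt hN c h₀ (pt c χ₀ σ), ← sum_ite_one, Finset.mul_sum]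
      refine Finset.sum_congr rfl fun σ' _ => ?_
      split_ifs <;> simp
    rw [Finset.sum_congr rfl fun σ _ => h2 σ, ← Finset.sum_mul, sum_ite_one,
      Finset.filter_mem_eq_inter, Finset.univ_inter]
    nlinarith only [hW, hdeg]
  have h1' : ∑ σ, ∑ σ', (if pt c χ₀ σ' = pt c χ₀ σ then
      (if σ' ∈ deg X c then (1 : ℝ) else 0) else 0)
      ≤ 2 * (X.card : ℝ) ^ 2 * ((m : ℝ) ^ n / m) ^ 2 := by
    rw [Finset.sum_comm]
    refine le_trans (le_of_eq ?_) h1
    refine Finset.sum_congr rfl fun σ _ => Finset.sum_congr rfl fun σ' _ => ?_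
    exact if_congr eq_comm rfl rfl
  have h3 : ∑ σ, ∑ σ', (if pt c χ₀ σ' = pt c χ₀ σ then
      (∑ χ ∈ X.erase χ₀, ∑ χ' ∈ X.erase χ₀,
      ((if pt c χ' σ' = pt c χ σ then (1 : ℝ) else 0) +
        (if pt c χ' σ' = -1 - pt c χ σ then 1 else 0))) else 0)
      ≤ 2 * (X.card : ℝ) ^ 2 * ((m : ℝ) ^ n / m) ^ 2 := by
    have h4 : ∀ σ : Fin n → ZMod m, ∑ σ', (if pt c χ₀ σ' = pt c χ₀ σ then
        (∑ χ ∈ X.erase χ₀, ∑ χ' ∈ X.erase χ₀,
        ((if pt c χ' σ' = pt c χ σ then (1 : ℝ) else 0) +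
          (if pt c χ' σ' = -1 - pt c χ σ then 1 else 0))) else 0)
        ≤ (X.card : ℝ) ^ 2 * (2 * ((m : ℝ) ^ n / (m * m))) := by
      intro σ
      have h5 : ∑ σ', (if pt c χ₀ σ' = pt c χ₀ σ then
          (∑ χ ∈ X.erase χ₀, ∑ χ' ∈ X.erase χ₀,
          ((if pt c χ' σ' = pt c χ σ then (1 : ℝ) else 0) +
            (if pt c χ' σ' = -1 - pt c χ σ then 1 else 0))) else 0)
          = ∑ χ ∈ X.erase χ₀, ∑ χ' ∈ X.erase χ₀,
            (((univ.filter fun σ' => pt c χ₀ σ' = pt c χ₀ σ ∧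
              pt c χ' σ' = pt c χ σ).card : ℝ) +
            ((univ.filter fun σ' => pt c χ₀ σ' = pt c χ₀ σ ∧
              pt c χ' σ' = -1 - pt c χ σ).card : ℝ)) := by
        have h6 : ∀ σ' : Fin n → ZMod m, (if pt c χ₀ σ' = pt c χ₀ σ then
          (∑ χ ∈ X.erase χ₀, ∑ χ' ∈ X.erase χ₀,
          ((if pt c χ' σ' = pt c χ σ then (1 : ℝ) else 0) +
            (if pt c χ' σ' = -1 - pt c χ σ then 1 else 0))) else 0)
            = ∑ χ ∈ X.erase χ₀, ∑ χ' ∈ X.erase χ₀,
            ((if pt c χ₀ σ' = pt c χ₀ σ ∧ pt c χ' σ' = pt c χ σ then (1 : ℝ) else 0) +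
            (if pt c χ₀ σ' = pt c χ₀ σ ∧ pt c χ' σ' = -1 - pt c χ σ then 1 else 0)) := by
          intro σ'
          by_cases h7 : pt c χ₀ σ' = pt c χ₀ σ
          · simp [h7]
          · simp [h7]
        rw [Finset.sum_congr rfl fun σ' _ => h6 σ', Finset.sum_comm]
        refine Finset.sum_congr rfl fun χ _ => ?_
        rw [Finset.sum_comm]
        refine Finset.sum_congr rfl fun χ' _ => ?_
        rw [Finset.sum_add_distrib, sum_ite_one, sum_ite_one]
      rw [h5]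
      have h8 : ∀ χ ∈ X.erase χ₀, ∑ χ' ∈ X.erase χ₀,
            (((univ.filter fun σ' => pt c χ₀ σ' = pt c χ₀ σ ∧
              pt c χ' σ' = pt c χ σ).card : ℝ) +
            ((univ.filter fun σ' => pt c χ₀ σ' = pt c χ₀ σ ∧
              pt c χ' σ' = -1 - pt c χ σ).card : ℝ))
            ≤ (X.erase χ₀).card • (2 * ((m : ℝ) ^ n / (m * m))) := by
        intro χ _
        refine Finset.sum_le_card_nsmul _ _ _ fun χ' hχ' => ?_
        rw [two_mul]
        exact add_le_add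
          (card_pair hN c h₀ (Finset.mem_of_mem_erase hχ') (Finset.ne_of_mem_erase hχ').symm _ _)
          (card_pair hN c h₀ (Finset.mem_of_mem_erase hχ') (Finset.ne_of_mem_erase hχ').symm _ _)
      refine le_trans (Finset.sum_le_card_nsmul _ _ _ h8) ?_
      rw [nsmul_eq_mul, nsmul_eq_mul, ← mul_assoc, ← sq]
      have h9 : ((X.erase χ₀).card : ℝ) ≤ X.card := by
        exact_mod_cast Finset.card_le_card (Finset.erase_subset _ _)
      gcongr
    refine le_trans (Finset.sum_le_card_nsmul univ _ _ fun σ _ => h4 σ) ?_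
    rw [nsmul_eq_mul, Finset.card_univ, hcard]
    refine le_of_eq ?_
    field_simp
  have h10 : ∀ σ σ' : Fin n → ZMod m, (if pt c χ₀ σ' = pt c χ₀ σ then R X c χ₀ σ σ' else 0)
      = (if pt c χ₀ σ' = pt c χ₀ σ then
      (if σ ∈ deg X c then (1 : ℝ) else 0) else 0) + (if pt c χ₀ σ' = pt c χ₀ σ then
      (if σ' ∈ deg X c then (1 : ℝ) else 0) else 0) + (if pt c χ₀ σ' = pt c χ₀ σ then
      (∑ χ ∈ X.erase χ₀, ∑ χ' ∈ X.erase χ₀,
      ((if pt c χ' σ' = pt c χ σ then (1 : ℝ) else 0) +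
        (if pt c χ' σ' = -1 - pt c χ σ then 1 else 0))) else 0) := by
    intro σ σ'
    unfold R
    by_cases h7 : pt c χ₀ σ' = pt c χ₀ σ
    · rw [if_pos h7, if_pos h7, if_pos h7, if_pos h7]
    · rw [if_neg h7, if_neg h7, if_neg h7, if_neg h7]
      ring
  have h11 : ∀ f g k : (Fin n → ZMod m) → (Fin n → ZMod m) → ℝ,
      ∑ σ, ∑ σ', (f σ σ' + g σ σ' + k σ σ')
        = ∑ σ, ∑ σ', f σ σ' + ∑ σ, ∑ σ', g σ σ' + ∑ σ, ∑ σ', k σ σ' := by
    intro f g k
    simp only [Finset.sum_add_distrib]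
  rw [Finset.sum_congr rfl fun σ _ => Finset.sum_congr rfl fun σ' _ => h10 σ σ',
    h11 (fun σ σ' => if pt c χ₀ σ' = pt c χ₀ σ then
      (if σ ∈ deg X c then (1 : ℝ) else 0) else 0) (fun σ σ' => if pt c χ₀ σ' = pt c χ₀ σ then
      (if σ' ∈ deg X c then (1 : ℝ) else 0) else 0) (fun σ σ' =>
      if pt c χ₀ σ' = pt c χ₀ σ then
      (∑ χ ∈ X.erase χ₀, ∑ χ' ∈ X.erase χ₀,
      ((if pt c χ' σ' = pt c χ σ then (1 : ℝ) else 0) +
        (if pt c χ' σ' = -1 - pt c χ σ then 1 else 0))) else 0)]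
  linarith only [h1, h1', h3]

/-- number of `σ` through `t` in mode `χ₀`, all other modes correct -/
def Nt (X : Finset (Fin n → ℤ)) (c : (Fin n → ℤ) → ZMod m) (χ₀ : Fin n → ℤ)
    (ω : ZMod m → Bool × (Fin n → ℤ)) (t : ZMod m) : ℝ :=
  ∑ σ : Fin n → ZMod m, if pt c χ₀ σ = t then Y X c χ₀ ω σ else 0

theorem sum_Nt (c : (Fin n → ℤ) → ZMod m) (χ₀ : Fin n → ℤ)
    (ω : ZMod m → Bool × (Fin n → ℤ)) : ∑ t, Nt X c χ₀ ω t = ∑ σ, Y X c χ₀ ω σ := by
  unfold Nt
  rw [Finset.sum_comm]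
  refine Finset.sum_congr rfl fun σ _ => ?_
  simp

theorem sum_Nt_sq (c : (Fin n → ℤ) → ZMod m) (χ₀ : Fin n → ℤ)
    (ω : ZMod m → Bool × (Fin n → ℤ)) : ∑ t, Nt X c χ₀ ω t ^ 2
      = ∑ σ, ∑ σ', if pt c χ₀ σ' = pt c χ₀ σ then Y X c χ₀ ω σ * Y X c χ₀ ω σ' else 0 := by
  unfold Nt
  simp_rw [sq, Finset.sum_mul_sum]
  rw [Finset.sum_comm]
  refine Finset.sum_congr rfl fun σ _ => ?_
  rw [Finset.sum_comm]
  refine Finset.sum_congr rfl fun σ' _ => ?_
  simp_rw [ite_mul, zero_mul]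
  rw [Finset.sum_ite_eq univ (pt c χ₀ σ), if_pos (mem_univ _), mul_ite, mul_zero]

/-- second moment bound -/
theorem variance (hp : ∀ χ ∈ X, 0 < p χ) (h : 2 * ∑ χ ∈ X, p χ = 1) (hN : Nice m X)
    (c : (Fin n → ℤ) → ZMod m) {χ₀ : Fin n → ℤ} (h₀ : χ₀ ∈ X) :
    E X p (fun ω => ∑ t, (Nt X c χ₀ ω t - (∏ χ ∈ X.erase χ₀, p χ) * ((m : ℝ) ^ n / m)) ^ 2)
      ≤ 10 * (X.card : ℝ) ^ 2 * ((m : ℝ) ^ n / m) ^ 2 := by
  have hm := m_pos m
  set W : ℝ := (m : ℝ) ^ n / m with hWdef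
  have hW : 0 ≤ W := by positivity
  set P : ℝ := ∏ χ ∈ X.erase χ₀, p χ with hP
  have hcard : (Fintype.card (Fin n → ZMod m) : ℝ) = (m : ℝ) ^ n := by
    simp [ZMod.card]
  have hWm : (m : ℝ) ^ n = W * m := by
    rw [hWdef]; field_simp
  have hP0 : 0 ≤ P := Finset.prod_nonneg fun χ hχ => (hp χ (Finset.mem_of_mem_erase hχ)).le
  have hP1 : P ≤ 1 := Finset.prod_le_one
    (fun χ hχ => (hp χ (Finset.mem_of_mem_erase hχ)).le) fun χ hχ => by
      have h1 := Finset.single_le_sum (fun χ hχ => (hp χ hχ).le) (Finset.mem_of_mem_erase hχ)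
      have h2 : p χ ≤ ∑ χ ∈ X, p χ := h1
      linarith [hp χ (Finset.mem_of_mem_erase hχ)]
  -- expectation of the sum
  have h1 : P * (m ^ n - 2 * (X.card : ℝ) ^ 2 * W)
      ≤ E X p (fun ω => ∑ t, Nt X c χ₀ ω t) := by
    simp_rw [sum_Nt]
    rw [E_sum]
    have h2 : ∀ σ : Fin n → ZMod m, P * (1 - if σ ∈ deg X c then 1 else 0)
        ≤ E X p (fun ω => Y X c χ₀ ω σ) := fun σ =>
      E_prod_ge hp h c (X.erase χ₀) (Finset.erase_subset _ _) σ
    refine le_trans ?_ (Finset.sum_le_sum fun σ _ => h2 σ)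
    rw [← Finset.mul_sum, Finset.sum_sub_distrib, sum_ite_one,
      Finset.filter_mem_eq_inter, Finset.univ_inter, Finset.sum_const, nsmul_eq_mul,
      Finset.card_univ, hcard, mul_one]
    have := card_deg hN c
    refine mul_le_mul_of_nonneg_left ?_ hP0
    linarith only [this]
  have h2 : E X p (fun ω => ∑ t, Nt X c χ₀ ω t ^ 2)
      ≤ P ^ 2 * (m ^ n * W) + 6 * (X.card : ℝ) ^ 2 * W ^ 2 := by
    simp_rw [sum_Nt_sq]
    rw [E_sum]
    have h3 : ∀ σ : Fin n → ZMod m, E X p (fun ω => ∑ σ',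
        if pt c χ₀ σ' = pt c χ₀ σ then Y X c χ₀ ω σ * Y X c χ₀ ω σ' else 0)
        ≤ P ^ 2 * W + ∑ σ', (if pt c χ₀ σ' = pt c χ₀ σ then R X c χ₀ σ σ' else 0) := by
      intro σ
      rw [E_sum]
      have h4 : ∀ σ' : Fin n → ZMod m, E X p (fun ω =>
          if pt c χ₀ σ' = pt c χ₀ σ then Y X c χ₀ ω σ * Y X c χ₀ ω σ' else 0)
          ≤ P ^ 2 * (if pt c χ₀ σ' = pt c χ₀ σ then 1 else 0) +
            (if pt c χ₀ σ' = pt c χ₀ σ then R X c χ₀ σ σ' else 0) := by
        intro σ'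
        by_cases h5 : pt c χ₀ σ' = pt c χ₀ σ
        · simp only [h5, if_true, mul_one]
          exact E_YY hp h c χ₀ σ σ'
        · simp only [h5, if_false, mul_zero, add_zero]
          rw [E_const h]
      refine le_trans (Finset.sum_le_sum fun σ' _ => h4 σ') ?_
      rw [Finset.sum_add_distrib, ← Finset.mul_sum, sum_ite_one,
        card_pt hN c h₀ (pt c χ₀ σ)]
    refine le_trans (Finset.sum_le_sum fun σ _ => h3 σ) ?_
    rw [Finset.sum_add_distrib, Finset.sum_const, nsmul_eq_mul, Finset.card_univ, hcard]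
    have := sum_R hN c h₀
    linarith only [this]
  have h3 : (fun ω => ∑ t, (Nt X c χ₀ ω t - P * W) ^ 2)
      = fun ω => (∑ t, Nt X c χ₀ ω t ^ 2 - 2 * (P * W) * ∑ t, Nt X c χ₀ ω t)
        + m * (P * W) ^ 2 := by
    funext ω
    have h4 : ∀ t, (Nt X c χ₀ ω t - P * W) ^ 2
        = Nt X c χ₀ ω t ^ 2 - 2 * (P * W) * Nt X c χ₀ ω t + (P * W) ^ 2 := fun t => by ring
    rw [Finset.sum_congr rfl fun t _ => h4 t, Finset.sum_add_distrib,
      Finset.sum_sub_distrib, ← Finset.mul_sum, Finset.sum_const,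
      nsmul_eq_mul, Finset.card_univ, ZMod.card]
  rw [h3, E_add, E_sub, E_smul, E_const h]
  have h5 : 2 * (P * W) * (P * (m ^ n - 2 * (X.card : ℝ) ^ 2 * W))
      ≤ 2 * (P * W) * E X p (fun ω => ∑ t, Nt X c χ₀ ω t) :=
    mul_le_mul_of_nonneg_left h1 (mul_nonneg two_pos.le (mul_nonneg hP0 hW))
  have h6 : P ^ 2 * (4 * (X.card : ℝ) ^ 2 * W ^ 2) ≤ 1 * (4 * (X.card : ℝ) ^ 2 * W ^ 2) :=
    mul_le_mul_of_nonneg_right (pow_le_one₀ hP0 hP1)
      (mul_nonneg (mul_nonneg (by norm_num) (sq_nonneg _)) (sq_nonneg _))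
  rw [hWm] at h2 h5
  linarith only [h2, h5, h6]

end moment

section main

theorem cast_ne_zero {m : ℕ} (a : ℤ) (ha : a ≠ 0) (h : a.natAbs < m) : (a : ZMod m) ≠ 0 := by
  rw [Ne, ZMod.intCast_zmod_eq_zero_iff_dvd]
  intro hd
  have h1 : m ∣ a.natAbs := by
    have := Int.natAbs_dvd_natAbs.2 hd
    simpa using this
  have := Nat.le_of_dvd (Int.natAbs_pos.2 ha) h1
  omega

theorem nice_of_large {d : ℕ} {X : Finset (Fin d → ℤ)} {V : Fin d → ℤ} (hX : GoodSet d X V) :
    ∃ B : ℕ, ∀ (m : ℕ) [Fact m.Prime], B < m → Nice m X := by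
  obtain ⟨m₁, hm₁⟩ := LinCount.exists_minor_zmod hX
  refine ⟨m₁ + 2, fun m _ hm => ⟨?_, ?_, ?_⟩⟩
  · have := cast_ne_zero (m := m) 2 two_ne_zero (by
      have : (2 : ℤ).natAbs = 2 := rfl
      omega)
    simpa using this
  · intro χ hχ
    obtain ⟨j, hj, -⟩ := hX.top χ hχ
    refine ⟨j, ?_⟩
    rw [hj]
    simp
  · intro χ hχ χ' hχ' hne
    exact hm₁ m (by omega) χ hχ χ' hχ' hne

variable {m : ℕ} [Fact m.Prime] {n : ℕ} {X : Finset (Fin n → ℤ)} {p : (Fin n → ℤ) → ℝ}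

open Classical in
/-- overloaded points -/
noncomputable def Bad (X : Finset (Fin n → ℤ)) (p : (Fin n → ℤ) → ℝ) (ε₁ : ℝ)
    (c : (Fin n → ℤ) → ZMod m) (χ₀ : Fin n → ℤ) (ω : ZMod m → Bool × (Fin n → ℤ)) :
    Finset (ZMod m) :=
  univ.filter fun t =>
    (1 + ε₁) * ((∏ χ ∈ X.erase χ₀, p χ) * ((m : ℝ) ^ n / m)) < Nt X c χ₀ ω t

theorem E_Bad (hp : ∀ χ ∈ X, 0 < p χ) (h : 2 * ∑ χ ∈ X, p χ = 1) (hN : Nice m X)
    {ε₁ : ℝ} (hε : 0 < ε₁)
    (c : (Fin n → ℤ) → ZMod m) {χ₀ : Fin n → ℤ} (h₀ : χ₀ ∈ X) :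
    E X p (fun ω => ((Bad X p ε₁ c χ₀ ω).card : ℝ))
      ≤ 10 * (X.card : ℝ) ^ 2 / (ε₁ * ∏ χ ∈ X, p χ) ^ 2 := by
  have hm := m_pos m
  have hv := variance hp h hN c h₀
  have hW : 0 < (m : ℝ) ^ n / m := by positivity
  have hP : 0 < ∏ χ ∈ X.erase χ₀, p χ :=
    Finset.prod_pos fun χ hχ => hp χ (Finset.mem_of_mem_erase hχ)
  have h1 : ∀ ω : ZMod m → Bool × (Fin n → ℤ), (ε₁ * ((∏ χ ∈ X.erase χ₀, p χ) *
      ((m : ℝ) ^ n / m))) ^ 2 * ((Bad X p ε₁ c χ₀ ω).card : ℝ)
      ≤ ∑ t, (Nt X c χ₀ ω t - (∏ χ ∈ X.erase χ₀, p χ) * ((m : ℝ) ^ n / m)) ^ 2 := by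
    intro ω
    have h2 : (Bad X p ε₁ c χ₀ ω).card • (ε₁ * ((∏ χ ∈ X.erase χ₀, p χ) *
        ((m : ℝ) ^ n / m))) ^ 2 ≤ ∑ t ∈ Bad X p ε₁ c χ₀ ω,
        (Nt X c χ₀ ω t - (∏ χ ∈ X.erase χ₀, p χ) * ((m : ℝ) ^ n / m)) ^ 2 := by
      refine Finset.card_nsmul_le_sum _ _ _ fun t ht => ?_
      unfold Bad at ht
      rw [Finset.mem_filter] at ht
      have := ht.2
      refine pow_le_pow_left₀ (by positivity) ?_ 2
      linarith only [ht]
    rw [nsmul_eq_mul, mul_comm] at h2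
    exact h2.trans (Finset.sum_le_sum_of_subset_of_nonneg (Finset.subset_univ _)
      fun t _ _ => sq_nonneg _)
  have h2 := (E_mono hp h1).trans hv
  rw [E_smul] at h2
  have h3 : ∏ χ ∈ X, p χ ≤ ∏ χ ∈ X.erase χ₀, p χ := by
    rw [← Finset.mul_prod_erase X p h₀]
    have h4 : p χ₀ ≤ 1 := by
      have h5 := Finset.single_le_sum (fun χ hχ => (hp χ hχ).le) h₀
      linarith only [hp χ₀ h₀, h, h5]
    nlinarith only [hP, h4]
  have hPi : 0 < ∏ χ ∈ X, p χ := Finset.prod_pos hp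
  have h6 : E X p (fun ω => ((Bad X p ε₁ c χ₀ ω).card : ℝ))
      ≤ 10 * (X.card : ℝ) ^ 2 / (ε₁ * ∏ χ ∈ X.erase χ₀, p χ) ^ 2 := by
    rw [le_div_iff₀ (by positivity)]
    have h7 : 0 < ((m : ℝ) ^ n / m) ^ 2 := by positivity
    refine le_of_mul_le_mul_right ?_ h7
    refine le_trans (le_of_eq (by ring)) h2
  refine h6.trans ?_
  gcongr

open Classical in
/-- the good pairs -/
noncomputable def GG (X : Finset (Fin n → ℤ)) (p : (Fin n → ℤ) → ℝ) (ε₁ : ℝ) (J : ℕ)
    (c : (Fin n → ℤ) → ℕ → ℕ) (ω : ZMod m → Bool × (Fin n → ℤ)) :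
    Finset ((Fin n → ZMod m) × ℕ) :=
  ((univ : Finset (Fin n → ZMod m)) ×ˢ range J).filter fun r =>
    ∀ χ ∈ X, col ω (pt (fun χ => (c χ r.2 : ZMod m)) χ r.1) = some χ ∧
      pt (fun χ => (c χ r.2 : ZMod m)) χ r.1 ∉
        Bad X p ε₁ (fun χ => (c χ r.2 : ZMod m)) χ ω

theorem E_GG (hp : ∀ χ ∈ X, 0 < p χ) (h : 2 * ∑ χ ∈ X, p χ = 1) (hN : Nice m X)
    {ε₁ : ℝ} (hε : 0 < ε₁) (J : ℕ) (c : (Fin n → ℤ) → ℕ → ℕ) :
    J * ((∏ χ ∈ X, p χ) * (m ^ n - 2 * (X.card : ℝ) ^ 2 * ((m : ℝ) ^ n / m)) -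
      X.card * (10 * (X.card : ℝ) ^ 2 / (ε₁ * ∏ χ ∈ X, p χ) ^ 2 * ((m : ℝ) ^ n / m)))
      ≤ E X p (fun ω : ZMod m → Bool × (Fin n → ℤ) => ((GG X p ε₁ J c ω).card : ℝ)) := by
  classical
  have hm := m_pos m
  have hW : 0 < (m : ℝ) ^ n / m := by positivity
  have hPi : 0 < ∏ χ ∈ X, p χ := Finset.prod_pos hp
  have hcard : (Fintype.card (Fin n → ZMod m) : ℝ) = (m : ℝ) ^ n := by
    simp [ZMod.card]
  set cc : ℕ → (Fin n → ℤ) → ZMod m := fun j χ => (c χ j : ZMod m) with hcc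
  -- pointwise lower bound
  have h1 : ∀ ω : ZMod m → Bool × (Fin n → ℤ),
      ∑ j ∈ range J, (∑ σ, ∏ χ ∈ X, ind ω (pt (cc j) χ σ) χ -
        ∑ χ ∈ X, ((m : ℝ) ^ n / m) * ((Bad X p ε₁ (cc j) χ ω).card : ℝ))
      ≤ ((GG X p ε₁ J c ω).card : ℝ) := by
    intro ω
    have h2 : ((GG X p ε₁ J c ω).card : ℝ) = ∑ j ∈ range J, ∑ σ : Fin n → ZMod m,
        if (∀ χ ∈ X, col ω (pt (cc j) χ σ) = some χ ∧
          pt (cc j) χ σ ∉ Bad X p ε₁ (cc j) χ ω) then (1 : ℝ) else 0 := by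
      unfold GG
      rw [← Finset.sum_boole, Finset.sum_product_right]
    rw [h2]
    refine Finset.sum_le_sum fun j _ => ?_
    have h3 : ∀ χ ∈ X, ((m : ℝ) ^ n / m) * ((Bad X p ε₁ (cc j) χ ω).card : ℝ)
        = ∑ σ : Fin n → ZMod m,
          if pt (cc j) χ σ ∈ Bad X p ε₁ (cc j) χ ω then (1 : ℝ) else 0 := by
      intro χ hχ
      have h4 : ∀ σ : Fin n → ZMod m,
          (if pt (cc j) χ σ ∈ Bad X p ε₁ (cc j) χ ω then (1 : ℝ) else 0)
          = ∑ t ∈ Bad X p ε₁ (cc j) χ ω, if pt (cc j) χ σ = t then (1 : ℝ) else 0 := by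
        intro σ
        rw [Finset.sum_ite_eq]
      rw [Finset.sum_congr rfl fun σ _ => h4 σ, Finset.sum_comm,
        Finset.sum_congr rfl fun t _ => (sum_ite_one _).trans (card_pt hN (cc j) hχ t),
        Finset.sum_const, nsmul_eq_mul, mul_comm]
    rw [Finset.sum_congr rfl h3, Finset.sum_comm, ← Finset.sum_sub_distrib]
    refine Finset.sum_le_sum fun σ _ => ?_
    have hi : ∀ (P : Prop) [Decidable P], (0 : ℝ) ≤ if P then 1 else 0 := by
      intro P _; split_ifs <;> norm_num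
    by_cases h5 : ∀ χ ∈ X, col ω (pt (cc j) χ σ) = some χ ∧
          pt (cc j) χ σ ∉ Bad X p ε₁ (cc j) χ ω
    · rw [if_pos h5]
      have h6 : ∏ χ ∈ X, ind ω (pt (cc j) χ σ) χ ≤ 1 :=
        Finset.prod_le_one (fun _ _ => ind_nonneg _ _ _) fun _ _ => ind_le_one _ _ _
      have h7 : 0 ≤ ∑ χ ∈ X, (if pt (cc j) χ σ ∈ Bad X p ε₁ (cc j) χ ω
          then (1 : ℝ) else 0) := Finset.sum_nonneg fun _ _ => hi _
      linarith
    · rw [if_neg h5]
      push Not at h5
      obtain ⟨χ, hχ, h6⟩ := h5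
      by_cases h7 : col ω (pt (cc j) χ σ) = some χ
      · have h8 := h6 h7
        have h9 : ∏ χ ∈ X, ind ω (pt (cc j) χ σ) χ ≤ 1 :=
          Finset.prod_le_one (fun _ _ => ind_nonneg _ _ _) fun _ _ => ind_le_one _ _ _
        have h10 := Finset.single_le_sum (f := fun χ =>
          (if pt (cc j) χ σ ∈ Bad X p ε₁ (cc j) χ ω then (1 : ℝ) else 0))
          (fun _ _ => hi _) hχ
        simp only [if_pos h8] at h10
        linarith
      · have h9 : ∏ χ ∈ X, ind ω (pt (cc j) χ σ) χ = 0 := by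
          refine Finset.prod_eq_zero hχ ?_
          unfold ind
          rw [if_neg h7]
        have h10 : 0 ≤ ∑ χ ∈ X, (if pt (cc j) χ σ ∈ Bad X p ε₁ (cc j) χ ω
          then (1 : ℝ) else 0) := Finset.sum_nonneg fun _ _ => hi _
        linarith
  refine le_trans ?_ (E_mono hp h1)
  rw [E_sum, ← nsmul_eq_mul]
  nth_rewrite 1 [← Finset.card_range J]
  refine Finset.card_nsmul_le_sum _ _ _ fun j _ => ?_
  rw [E_sub, E_sum, E_sum]
  refine sub_le_sub ?_ ?_
  · refine le_trans ?_ (Finset.sum_le_sum fun σ _ =>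
      E_prod_ge hp h (cc j) X (Finset.Subset.refl _) σ)
    rw [← Finset.mul_sum, Finset.sum_sub_distrib, sum_ite_one,
      Finset.filter_mem_eq_inter, Finset.univ_inter, Finset.sum_const, nsmul_eq_mul,
      Finset.card_univ, hcard, mul_one]
    have := card_deg hN (cc j)
    refine mul_le_mul_of_nonneg_left ?_ hPi.le
    linarith only [this]
  · rw [← nsmul_eq_mul]
    refine Finset.sum_le_card_nsmul _ _ _ fun χ hχ => ?_
    rw [E_smul, mul_comm]
    exact mul_le_mul_of_nonneg_right (E_Bad hp h hN hε (cc j) hχ) hW.le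

end main

end Col

open Col in
/-- COL: the random colouring lemma -/
theorem coloring : ColoringStatement := by
  intro d X V hX p hp h J c hJ ε hε
  classical
  obtain ⟨B, hB⟩ := nice_of_large hX
  set ε₁ : ℝ := min ε 1 / 4 with hε₁def
  have hε₁ : 0 < ε₁ := by
    have : 0 < min ε 1 := lt_min hε one_pos
    positivity
  have hε₁' : ε₁ ≤ 1 / 4 := by
    have : min ε 1 ≤ 1 := min_le_right _ _
    rw [hε₁def]; linarith only [this]
  have hε₁'' : 4 * ε₁ ≤ ε := by
    have : min ε 1 ≤ ε := min_le_left _ _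
    rw [hε₁def]; linarith only [this]
  clear_value ε₁
  set P : ℝ := ∏ χ ∈ X, p χ with hPdef
  have hP : 0 < P := Finset.prod_pos hp
  have hJ' : (1 : ℝ) ≤ J := by exact_mod_cast hJ
  set A : ℝ := 2 * (X.card : ℝ) ^ 2 * P + X.card * (10 * (X.card : ℝ) ^ 2 / (ε₁ * P) ^ 2)
    with hAdef
  obtain ⟨m₁, hm₁⟩ := exists_nat_ge (A / (ε₁ * P))
  refine ⟨max (B + 1) m₁, fun m hm hprime => ?_⟩
  have : Fact m.Prime := ⟨hprime⟩
  have hN : Nice m X := hB m (by omega)
  have hm0 := m_pos m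
  have hA : A ≤ ε₁ * P * m := by
    have h1 : (m₁ : ℝ) ≤ m := by exact_mod_cast (le_max_right _ _).trans hm
    have h2 := hm₁.trans h1
    rw [div_le_iff₀ (by positivity)] at h2
    linarith only [h2]
  have hW : 0 < (m : ℝ) ^ (d) / m := by positivity
  have hWm : (m : ℝ) ^ (d) = (m : ℝ) ^ (d) / m * m := by field_simp
  obtain ⟨ω, hω⟩ := exists_ge (m := m) hp h
    (fun ω => ((GG X p ε₁ J c ω).card : ℝ))
  have hG : J * P * (1 - ε₁) * (m : ℝ) ^ (d) ≤ ((GG X p ε₁ J c ω).card : ℝ) := by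
    refine le_trans ?_ ((E_GG hp h hN hε₁ J c).trans hω)
    rw [← hPdef]
    have h1 : P * ((m : ℝ) ^ (d) - 2 * (X.card : ℝ) ^ 2 * ((m : ℝ) ^ (d) / m)) -
      X.card * (10 * (X.card : ℝ) ^ 2 / (ε₁ * P) ^ 2 * ((m : ℝ) ^ (d) / m))
      = P * (m : ℝ) ^ (d) - A * ((m : ℝ) ^ (d) / m) := by
      rw [hAdef]; ring
    rw [h1]
    have h2 : A * ((m : ℝ) ^ (d) / m) ≤ ε₁ * P * (m : ℝ) ^ (d) := by
      calc A * ((m : ℝ) ^ (d) / m) ≤ (ε₁ * P * m) * ((m : ℝ) ^ (d) / m) :=
            mul_le_mul_of_nonneg_right hA hW.le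
        _ = ε₁ * P * (m : ℝ) ^ (d) := by field_simp
    calc J * P * (1 - ε₁) * (m : ℝ) ^ (d)
        = J * (P * (m : ℝ) ^ (d) - ε₁ * P * (m : ℝ) ^ (d)) := by ring
      _ ≤ _ := mul_le_mul_of_nonneg_left (by linarith only [h2]) (by positivity)
  refine ⟨col ω, GG X p ε₁ J c ω, col_neg ω, ?_, ?_, ?_, ?_⟩
  · intro r hr
    unfold GG at hr
    rw [Finset.mem_filter, Finset.mem_product, Finset.mem_range] at hr
    exact hr.1.2
  · intro r hr χ hχ
    unfold GG at hr
    rw [Finset.mem_filter] at hr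
    exact (hr.2 χ hχ).1
  · intro χ hχ t j hj
    have hcnt : ((((GG X p ε₁ J c ω).filter fun r => r.2 = j ∧
            ∑ i, (χ i : ZMod m) * r.1 i + c χ r.2 = t).card : ℝ))
        ≤ (1 + ε₁) * ((∏ χ' ∈ X.erase χ, p χ') * ((m : ℝ) ^ (d) / m)) := by
      have hpos : 0 ≤ (1 + ε₁) * ((∏ χ' ∈ X.erase χ, p χ') * ((m : ℝ) ^ (d) / m)) := by
        have : 0 < ∏ χ' ∈ X.erase χ, p χ' :=
          Finset.prod_pos fun χ' hχ' => hp χ' (Finset.mem_of_mem_erase hχ')
        positivity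
      by_cases hbad : t ∈ Bad X p ε₁ (fun χ => (c χ j : ZMod m)) χ ω
      · rw [Finset.filter_false_of_mem]
        · simpa using hpos
        · rintro ⟨σ, j'⟩ hr ⟨h1, h2⟩
          unfold GG at hr
          rw [Finset.mem_filter] at hr
          have h3 := (hr.2 χ hχ).2
          simp only at h1
          subst h1
          apply h3
          have h4 : pt (fun χ => (c χ j' : ZMod m)) χ σ = t := h2
          simp only
          rw [h4]
          exact hbad
      · have h1 : Nt X (fun χ => (c χ j : ZMod m)) χ ω t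
            ≤ (1 + ε₁) * ((∏ χ' ∈ X.erase χ, p χ') * ((m : ℝ) ^ (d) / m)) := by
          by_contra hcon
          push Not at hcon
          apply hbad
          unfold Bad
          rw [Finset.mem_filter]
          exact ⟨mem_univ _, hcon⟩
        refine le_trans ?_ h1
        -- inject into the `σ` counted by `Nt`
        have h2 : ((GG X p ε₁ J c ω).filter fun r => r.2 = j ∧
            ∑ i, (χ i : ZMod m) * r.1 i + c χ r.2 = t).card
            ≤ ((univ : Finset (Fin (d) → ZMod m)).filter fun σ =>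
              pt (fun χ => (c χ j : ZMod m)) χ σ = t ∧
              ∀ χ' ∈ X.erase χ, col ω (pt (fun χ => (c χ j : ZMod m)) χ' σ) = some χ').card := by
          refine Finset.card_le_card_of_injOn (fun r => r.1) ?_ ?_
          · rintro ⟨σ, j'⟩ hr
            rw [Finset.mem_coe, Finset.mem_filter] at hr
            obtain ⟨hr, h3, h4⟩ := hr
            simp only at h3
            subst h3
            unfold GG at hr
            rw [Finset.mem_filter] at hr
            rw [Finset.mem_coe, Finset.mem_filter]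
            exact ⟨mem_univ _, h4, fun χ' hχ' => (hr.2 χ' (Finset.mem_of_mem_erase hχ')).1⟩
          · rintro ⟨σ, j'⟩ hr ⟨σ', j''⟩ hr' heq
            rw [Finset.mem_coe, Finset.mem_filter] at hr hr'
            simp only at hr hr' heq
            rw [heq, hr.2.1, hr'.2.1]
        refine le_trans (Nat.cast_le.2 h2) ?_
        unfold Nt
        rw [← Finset.sum_boole]
        refine Finset.sum_le_sum fun σ _ => ?_
        by_cases h3 : pt (fun χ => (c χ j : ZMod m)) χ σ = t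
        · rw [if_pos h3]
          by_cases h4 : ∀ χ' ∈ X.erase χ,
              col ω (pt (fun χ => (c χ j : ZMod m)) χ' σ) = some χ'
          · rw [if_pos ⟨h3, h4⟩]
            refine le_of_eq ?_
            symm
            unfold Y
            refine Finset.prod_eq_one fun χ' hχ' => ?_
            unfold ind
            rw [if_pos (h4 χ' hχ')]
          · rw [if_neg (fun h5 => h4 h5.2)]
            exact Y_nonneg _ _ _ _
        · rw [if_neg h3, if_neg (fun h5 => h3 h5.1)]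
    have h2 : (1 + ε₁) * ((∏ χ' ∈ X.erase χ, p χ') * ((m : ℝ) ^ (d) / m)) * (J * m * p χ)
        = (1 + ε₁) * (J * P * (m : ℝ) ^ (d)) := by
      rw [hPdef, ← Finset.mul_prod_erase X p hχ]
      field_simp
    have h3 : 0 ≤ (J : ℝ) * m * p χ := by
      have := hp χ hχ
      positivity
    refine le_trans (mul_le_mul_of_nonneg_right hcnt h3) ?_
    rw [h2]
    have h4 : (1 + ε₁) ≤ (1 + ε) * (1 - ε₁) := by nlinarith only [hε, hε₁, hε₁', hε₁'']
    have h5 : 0 ≤ (J : ℝ) * P * (m : ℝ) ^ (d) := by positivity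
    calc (1 + ε₁) * (J * P * (m : ℝ) ^ (d))
        ≤ ((1 + ε) * (1 - ε₁)) * (J * P * (m : ℝ) ^ (d)) :=
          mul_le_mul_of_nonneg_right h4 h5
      _ = (1 + ε) * (J * P * (1 - ε₁) * (m : ℝ) ^ (d)) := by ring
      _ ≤ _ := mul_le_mul_of_nonneg_left hG (by linarith only [hε₁, hε₁', hε₁''])
  · refine le_trans ?_ hG
    have h1 : 0 < P * (m : ℝ) ^ (d) := by positivity
    have h2 : (1 : ℝ) / 2 ≤ J * (1 - ε₁) := by nlinarith only [hε₁, hε₁', hJ']
    calc P / 2 * (m : ℝ) ^ (d) = 1 / 2 * (P * (m : ℝ) ^ (d)) := by ring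
      _ ≤ (J * (1 - ε₁)) * (P * (m : ℝ) ^ (d)) := mul_le_mul_of_nonneg_right h2 h1.le
      _ = _ := by ring

end Vale.Agent.P110
end

section

/-!
# P130R: rank one transformation with simple Lebesgue spectrum, interfaces between the modules

Every module proves one of the `...Statement` propositions below.
-/

set_option autoImplicit false

namespace Vale.Agent.P130R

open Finset MeasureTheory Filter Topology
open Vale.Agent.P110 (e dot GoodSet)

/-! ## Part 1: the torus function -/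

/-- surviving mass: `A 0 = 1`, `A (i+1) = (1-p) A i - f i` -/
noncomputable def alv (p : ℝ) (f : ℕ → ℝ) (n : ℕ) : ℝ :=
  Nat.rec 1 (fun i A => (1 - p) * A - f i) n

theorem alv_zero (p : ℝ) (f : ℕ → ℝ) : alv p f 0 = 1 := rfl

theorem alv_succ (p : ℝ) (f : ℕ → ℝ) (i : ℕ) : alv p f (i + 1) = (1 - p) * alv p f i - f i := rfl

/-- the modes with label `i`, evaluated at `γ` -/
noncomputable def fl {d : ℕ} (X : Finset (Fin d → ℤ)) (a : (Fin d → ℤ) → ℝ)
    (lab : (Fin d → ℤ) → ℕ) (γ : Fin d → ℝ) (i : ℕ) : ℝ :=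
  ∑ χ ∈ X.filter (fun χ => lab χ = i), 2 * a χ * Real.cos (2 * Real.pi * ∑ j, χ j * γ j)

/-- the mass of the modes with label `i` -/
noncomputable def ml {d : ℕ} (X : Finset (Fin d → ℤ)) (a : (Fin d → ℤ) → ℝ)
    (lab : (Fin d → ℤ) → ℕ) (i : ℕ) : ℝ :=
  ∑ χ ∈ X.filter (fun χ => lab χ = i), 2 * a χ ^ 2

/-- VEC: the torus function: `A (i+1)` takes values between `0` and `A i`, and its mean
`(1-p)^(i+1)` and its second moment almost coincide (so it is almost `0/1` valued). -/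
def VecStatement : Prop :=
  ∀ p : ℝ, 0 < p → p < 1 → ∀ K : ℕ, 1 ≤ K → ∀ δ : ℝ, 0 < δ →
    ∃ (d : ℕ) (X : Finset (Fin d → ℤ)) (V : Fin d → ℤ) (a : (Fin d → ℤ) → ℝ)
      (lab : (Fin d → ℤ) → ℕ), GoodSet d X V ∧ (∀ χ ∈ X, a χ ≠ 0) ∧ (∀ χ ∈ X, lab χ < K) ∧
      (∀ γ : Fin d → ℝ, ∀ i < K, 0 ≤ alv p (fl X a lab γ) (i + 1) ∧
        alv p (fl X a lab γ) (i + 1) ≤ alv p (fl X a lab γ) i) ∧
      (∀ i < K, (1 - p) ^ (i + 1) - ((1 - p) ^ (2 * (i + 1)) +
        ∑ j ∈ range (i + 1), (1 - p) ^ (2 * (i - j)) * ml X a lab j) ≤ δ)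

/-! ## Part 2: time-frequency theorem -/

/-- CHIRP: a linear chirp on `[0,l)` has a flat spectrum on `[0,B)` up to a small error in
`L²`. -/
def ChirpStatement : Prop :=
  ∀ l : ℝ, 0 < l → l ≤ 1 → Tendsto (fun B : ℕ => ∫ x in (0 : ℝ)..1,
    ‖(if x < l then e (B * x ^ 2 / (2 * l)) else 0) -
      ((Real.sqrt (l / B) : ℝ) : ℂ) * e (1 / 8) *
        ∑ k ∈ range B, e (k * x - l * k ^ 2 / (2 * B))‖ ^ 2) atTop (𝓝 0)

/-- TF: for all large `q` there are times `γ k` such that every mode `χ` has a flat spectrum on a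
set `{M = χ}`. -/
def TFStatement : Prop :=
  ∀ (d : ℕ) (X : Finset (Fin d → ℤ)) (V : Fin d → ℤ), GoodSet d X V →
    ∀ a : (Fin d → ℤ) → ℝ, (∀ χ ∈ X, a χ ≠ 0) → ∀ ε : ℝ, 0 < ε →
    ∃ q₀ : ℕ, ∀ q : ℕ, q₀ ≤ q →
      ∃ (γ : ℕ → Fin d → ℝ) (u : ℝ → ℂ) (M : ℝ → Option (Fin d → ℤ)),
        Measurable u ∧ (∀ χ, MeasurableSet {x | M x = some χ}) ∧ (∀ x, ‖u x‖ = 1) ∧
        (∀ x, u (x + 1) = u x) ∧ (∀ x, M (x + 1) = M x) ∧ (∀ x χ, M x = some χ → χ ∈ X) ∧
        (∀ χ ∈ X, ∫ x in (0 : ℝ)..1,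
          ‖((Real.sqrt q : ℝ) : ℂ)⁻¹ * ∑ k ∈ range q,
              ((2 * a χ * Real.cos (2 * Real.pi * ∑ j, χ j * γ k j) : ℝ) : ℂ) * e (k * x)
            - ((Real.sqrt (2 * ∑ χ' ∈ X, a χ' ^ 2) : ℝ) : ℂ) *
              (if M x = some χ then u x else 0)‖ ^ 2 ≤ ε) ∧
        (∀ χ ∈ X, |(volume {x : ℝ | 0 ≤ x ∧ x < 1 ∧ M x = some χ}).toReal
            - 2 * a χ ^ 2 / (2 * ∑ χ' ∈ X, a χ' ^ 2)| ≤ ε)

/-! ## Part 3: flat spacer sequences -/

/-- `S` is a spacer sequence of length `q` with values in `[0,K]` that is flat up to `C p²`. -/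
def Flat (C p : ℝ) (K q : ℕ) (S : ℕ → ℕ) : Prop :=
  S 0 = 0 ∧ (∀ k, S k ≤ K) ∧ ∃ (u : ℝ → ℂ) (L : ℝ → ℕ), Measurable u ∧ Measurable L ∧
    (∀ x, ‖u x‖ = 1) ∧ (∀ x, u (x + 1) = u x) ∧ (∀ x, L (x + 1) = L x) ∧ (∀ x, L x ≤ K) ∧
    ∀ θ : ℝ, ‖1 - e θ‖ ^ 2 * ∫ x in (0 : ℝ)..1,
      ‖((Real.sqrt q : ℝ) : ℂ)⁻¹ * ∑ k ∈ range q, e (k * x + S k * θ) - u x * e (L x * θ)‖ ^ 2
        ≤ C * p ^ 2

/-- ROUND: rounding of the torus function along the times `γ k`. Here `ξ i k` is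
`(1-p) 1[i ≤ S k] - 1[i < S k]`; the label `L x = K` stands for the absence of a label. -/
def RoundStatement : Prop :=
  ∀ p : ℝ, 0 < p → p < 1 / 2 → ∀ K : ℕ, 1 ≤ K → ∀ η : ℝ, 0 < η → ∃ q₀ : ℕ, ∀ q : ℕ, q₀ ≤ q →
    ∃ (S : ℕ → ℕ) (u : ℝ → ℂ) (L : ℝ → ℕ) (ρ : ℝ), S 0 = 0 ∧ (∀ k, S k ≤ K) ∧
      Measurable u ∧ Measurable L ∧ (∀ x, ‖u x‖ = 1) ∧ (∀ x, u (x + 1) = u x) ∧
      (∀ x, L (x + 1) = L x) ∧ (∀ x, L x ≤ K) ∧ 0 ≤ ρ ∧
      |ρ ^ 2 - (1 - p) * (1 - (1 - p) ^ K)| ≤ η ∧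
      (∀ i < K, ∫ x in (0 : ℝ)..1,
        ‖((Real.sqrt q : ℝ) : ℂ)⁻¹ * ∑ k ∈ range q,
            (((1 - p) * (if i ≤ S k then 1 else 0) - (if i < S k then 1 else 0) : ℝ) : ℂ) *
              e (k * x)
          - (ρ : ℂ) * (if L x = i then u x else 0)‖ ^ 2 ≤ η) ∧
      (volume {x : ℝ | 0 ≤ x ∧ x < 1 ∧ L x = K}).toReal ≤ η ∧
      (∀ i < K, (volume {x : ℝ | 0 ≤ x ∧ x < 1 ∧ L x = i}).toReal * ρ ^ 2 ≤
        p * (1 - p) ^ (i + 1) + η)

/-- FLAT: flat spacer sequences exist. -/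
def FlatStatement : Prop :=
  ∃ C : ℝ, ∀ p : ℝ, 0 < p → p < 1 / 2 → ∃ K q₀ : ℕ, ∀ q : ℕ, q₀ ≤ q →
    ∃ S : ℕ → ℕ, Flat C p K q S

/-! ## Part 4: decoupling -/

/-- normalised polynomial of one rank one step -/
noncomputable def PP (q H : ℕ) (S : ℕ → ℕ) (x : ℝ) : ℂ :=
  ((Real.sqrt q : ℝ) : ℂ)⁻¹ * ∑ k ∈ range q, e ((k * H + S k : ℕ) * x)

/-- DEC: decoupling. -/
def DecoupleStatement : Prop :=
  ∀ (C p : ℝ) (K q : ℕ) (S : ℕ → ℕ), Flat C p K q S → ∀ H : ℕ, 1 ≤ H →
    ∃ U : ℝ → ℂ, Measurable U ∧ (∀ x, ‖U x‖ = 1) ∧ (∀ x, U (x + 1) = U x) ∧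
      ∀ D : ℕ, D + K + 1 ≤ H → ∀ c : ℕ → ℂ,
        ∫ x in (0 : ℝ)..1, ‖1 - e x‖ ^ 2 * ‖∑ j ∈ range D, c j * e (j * x)‖ ^ 2 *
          ‖PP q H S x - U x‖ ^ 2 ≤ C * p ^ 2 * ∑ j ∈ range D, ‖c j‖ ^ 2

/-! ## Part 5: the cutting parameters -/

/-- Parameters of a rank one construction: at stage `n` the tower of height `h n` is cut into
`2 ^ ex n` columns, column `k` is placed at height `a n k`. -/
structure Cuts where
  ex : ℕ → ℕ
  K : ℕ → ℕ
  h : ℕ → ℕ
  S : ℕ → ℕ → ℕ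
  ex_pos : ∀ n, 1 ≤ ex n
  S_zero : ∀ n, S n 0 = 0
  S_le : ∀ n k, S n k ≤ K n
  h_succ : ∀ n, h (n + 1) = 2 ^ ex n * (h n + K n + 2)
  h_big : ∀ n, 2 ^ (n + 1) * (K n + 2) ≤ h n

namespace Cuts
/-- number of columns -/
def q (D : Cuts) (n : ℕ) : ℕ := 2 ^ D.ex n
/-- height of a column including the mean number of spacers -/
def H (D : Cuts) (n : ℕ) : ℕ := D.h n + D.K n + 2
/-- position of column `k` -/
def a (D : Cuts) (n k : ℕ) : ℕ := k * D.H n + D.S n k
end Cuts

/-- the analytic property of the parameters -/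
def FlatCuts (D : Cuts) (C : ℝ) (U : ℕ → ℝ → ℂ) : Prop :=
  (∀ n, Measurable (U n)) ∧ (∀ n x, ‖U n x‖ = 1) ∧ (∀ n x, U n (x + 1) = U n x) ∧
  ∀ n, ∀ c : ℕ → ℂ, ∫ x in (0 : ℝ)..1, ‖1 - e x‖ ^ 2 *
    ‖∑ j ∈ range (D.h n), c j * e (j * x)‖ ^ 2 * ‖PP (D.q n) (D.H n) (D.S n) x - U n x‖ ^ 2
      ≤ C * (1 / 4) ^ n * ∑ j ∈ range (D.h n), ‖c j‖ ^ 2

/-- CUTS -/
def CutsStatement : Prop := ∃ (D : Cuts) (C : ℝ) (U : ℕ → ℝ → ℂ), FlatCuts D C U

/-! ## Part 6: the dynamical system -/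

/-- level `i` of tower `n` -/
def level {X : Type} [MeasurableSpace X] (T : X ≃ᵐ X) (B : ℕ → Set X) (n i : ℕ) : Set X :=
  (T.symm)^[i] ⁻¹' B n

/-- the rank one system with parameters `D` -/
def IsRankOne (D : Cuts) {X : Type} [MeasurableSpace X] (μ : Measure X) (T : X ≃ᵐ X)
    (B : ℕ → Set X) : Prop :=
  MeasurePreserving T μ μ ∧ (∀ n, MeasurableSet (B n)) ∧ (∀ n, 0 < μ (B n)) ∧
  (∀ n, ∀ i < D.h n, ∀ j < D.h n, i ≠ j → Disjoint (level T B n i) (level T B n j)) ∧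
  (∀ n, B n = ⋃ k ∈ range (D.q n), level T B (n + 1) (D.a n k)) ∧
  (∀ A : Set X, MeasurableSet A → ∀ ε : ENNReal, 0 < ε → ∃ (n : ℕ) (F : Finset ℕ),
    (∀ i ∈ F, i < D.h n) ∧ μ (symmDiff A (⋃ i ∈ F, level T B n i)) ≤ ε)

/-- SYS: the rank one system exists on a standard nonatomic probability space. -/
def SystemStatement : Prop :=
  ∀ D : Cuts, ∃ (X : Type) (_ : MeasurableSpace X) (_ : StandardBorelSpace X) (μ : Measure X)
    (_ : IsProbabilityMeasure μ) (T : X ≃ᵐ X) (B : ℕ → Set X),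
    (∀ x, μ {x} = 0) ∧ IsRankOne D μ T B

/-- ODO: the binary odometer. `r n y` is the residue of `y` modulo `2 ^ n`. -/
def OdoStatement : Prop :=
  ∃ (Y : Type) (_ : MeasurableSpace Y) (_ : StandardBorelSpace Y) (ν : Measure Y)
    (_ : IsProbabilityMeasure ν) (O : Y ≃ᵐ Y) (r : ℕ → Y → ℕ),
    MeasurePreserving O ν ν ∧ (∀ y, ν {y} = 0) ∧ (∀ n, Measurable (r n)) ∧
    (∀ n y, r n y < 2 ^ n) ∧ (∀ n y, r n (O y) = (r n y + 1) % 2 ^ n) ∧
    (∀ n y, r (n + 1) y % 2 ^ n = r n y) ∧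
    (∀ n, ∀ j < 2 ^ n, ν {y | r n y = j} = (2 ^ n : ENNReal)⁻¹) ∧
    (∀ A : Set Y, MeasurableSet A → ∀ ε : ENNReal, 0 < ε → ∃ (n : ℕ) (F : Finset ℕ),
      ν (symmDiff A {y | r n y ∈ F}) ≤ ε)

/-- SUSP: the tower over `(Y, ν, O)` with roof function `ρ`. -/
def SuspStatement : Prop :=
  ∀ (Y : Type) (_ : MeasurableSpace Y) (_ : StandardBorelSpace Y) (ν : Measure Y)
    (_ : IsProbabilityMeasure ν) (O : Y ≃ᵐ Y) (ρ : Y → ℕ), MeasurePreserving O ν ν →
    (∀ y, ν {y} = 0) → Measurable ρ → (∀ y, 1 ≤ ρ y) → (∫⁻ y, (ρ y : ENNReal) ∂ν) < ⊤ →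
    ∃ (X : Type) (_ : MeasurableSpace X) (_ : StandardBorelSpace X) (μ : Measure X)
      (_ : IsProbabilityMeasure μ) (T : X ≃ᵐ X) (ι : Y → ℕ → X),
      MeasurePreserving T μ μ ∧ (∀ x, μ {x} = 0) ∧
      (∀ x, ∃ y i, i < ρ y ∧ ι y i = x) ∧
      (∀ y i y' i', i < ρ y → i' < ρ y' → ι y i = ι y' i' → y = y' ∧ i = i') ∧
      (∀ y i, i + 1 < ρ y → T (ι y i) = ι y (i + 1)) ∧
      (∀ y, T (ι y (ρ y - 1)) = ι (O y) 0) ∧
      (∀ (i : ℕ) (s : Set X), MeasurableSet s → MeasurableSet {y | i < ρ y ∧ ι y i ∈ s}) ∧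
      (∀ (i : ℕ) (A : Set Y), MeasurableSet A →
        MeasurableSet {x | ∃ y ∈ A, i < ρ y ∧ ι y i = x} ∧
        μ {x | ∃ y ∈ A, i < ρ y ∧ ι y i = x} =
          ν (A ∩ {y | i < ρ y}) / ∫⁻ y, (ρ y : ENNReal) ∂ν)

/-! ## Part 7: Hilbert space -/

/-- the Hilbert space picture of the rank one system: `V` = inverse Koopman operator, `E n` =
indicator of the base of tower `n`, `β n` = its measure, `w` = constant function one. -/
structure HilbertTower (D : Cuts) (𝓗 : Type) [NormedAddCommGroup 𝓗] [InnerProductSpace ℂ 𝓗] where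
  V : 𝓗 ≃ₗᵢ[ℂ] 𝓗
  E : ℕ → 𝓗
  β : ℕ → ℝ
  w : 𝓗
  β_pos : ∀ n, 0 < β n
  V_w : V w = w
  norm_w : ‖w‖ = 1
  inner_w_E : ∀ n, inner ℂ w (E n) = (β n : ℂ)
  orth : ∀ n, ∀ i < D.h n, ∀ j < D.h n,
    inner ℂ ((V ^ i) (E n)) ((V ^ j) (E n)) = if i = j then (β n : ℂ) else 0
  rel : ∀ n, E n = ∑ k ∈ range (D.q n), (V ^ (D.a n k)) (E (n + 1))
  dense : Dense ((Submodule.span ℂ {x | ∃ n i, i < D.h n ∧ x = (V ^ i) (E n)} :
    Submodule ℂ 𝓗) : Set 𝓗)

/-- ABS: abstract spectral theorem. -/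
def AbstractStatement : Prop :=
  ∀ (D : Cuts) (C : ℝ) (U : ℕ → ℝ → ℂ), FlatCuts D C U →
    ∀ (𝓗 : Type) [NormedAddCommGroup 𝓗] [InnerProductSpace ℂ 𝓗] [CompleteSpace 𝓗]
      (Y : HilbertTower D 𝓗),
      ∃ f : 𝓗, inner ℂ Y.w f = 0 ∧ Orthonormal ℂ (fun k : ℤ => (Y.V ^ k) f) ∧
        ∀ g : 𝓗, inner ℂ Y.w g = 0 → (∀ k : ℤ, inner ℂ ((Y.V ^ k) f) g = 0) → g = 0

/-! ## Part 8: final statement -/

/-- `T` has simple Lebesgue spectrum: there is a mean zero `f` in `L²` such that the functions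
`f ∘ T ^ n`, `n ∈ ℤ`, form an orthonormal basis of the mean zero part of `L²`. -/
def SimpleLebesgue {X : Type} [MeasurableSpace X] (μ : Measure X) (T : X ≃ᵐ X) : Prop :=
  ∃ f : X → ℂ, MemLp f 2 μ ∧ ∫ x, f x ∂μ = 0 ∧
    (∀ n : ℤ, ∫ x, f (((T.toEquiv : Equiv.Perm X) ^ n) x) * starRingEnd ℂ (f x) ∂μ =
      if n = 0 then 1 else 0) ∧
    ∀ g : X → ℂ, MemLp g 2 μ → ∫ x, g x ∂μ = 0 →
      (∀ n : ℤ, ∫ x, f (((T.toEquiv : Equiv.Perm X) ^ n) x) * starRingEnd ℂ (g x) ∂μ = 0) →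
      g =ᵐ[μ] 0

/-- KOOP: from the system to the Hilbert space and back. -/
def KoopmanStatement : Prop :=
  ∀ (D : Cuts) (C : ℝ) (U : ℕ → ℝ → ℂ), FlatCuts D C U →
    ∀ (X : Type) (_ : MeasurableSpace X) (μ : Measure X) (_ : IsProbabilityMeasure μ)
      (T : X ≃ᵐ X) (B : ℕ → Set X), IsRankOne D μ T B → SimpleLebesgue μ T

end Vale.Agent.P130R
end

section

open AddMonoidAlgebra Finset

namespace Vale.Agent.P110.TrigF

/-- unit vector -/
def uv (e : ℕ) (j : ℕ) : Fin e → ℤ := fun i => if (i : ℕ) = j then 1 else 0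

noncomputable def Hp (e j : ℕ) : AddMonoidAlgebra ℝ (Fin e → ℤ) :=
  single (uv e j) 1 + single (- uv e j) 1

variable {e : ℕ}

def Low (j : ℕ) (P : AddMonoidAlgebra ℝ (Fin e → ℤ)) : Prop :=
  ∀ χ, P.coeff χ ≠ 0 → ∀ i : Fin e, j ≤ (i : ℕ) → χ i = 0

lemma Low.mul {j : ℕ} {P Q : AddMonoidAlgebra ℝ (Fin e → ℤ)} (hP : Low j P) (hQ : Low j Q) :
    Low j (P * Q) := by
  classical
  intro χ hχ i hi
  have h1 : χ ∈ (P * Q).coeff.support := by simpa using hχ
  have h2 := support_coeff_mul_subset P Q h1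
  rw [Finset.mem_add] at h2
  obtain ⟨a, ha, b, hb, rfl⟩ := h2
  have h3 := hP a (by simpa using ha) i hi
  have h4 := hQ b (by simpa using hb) i hi
  simp [h3, h4]

lemma Low.add {j : ℕ} {P Q : AddMonoidAlgebra ℝ (Fin e → ℤ)} (hP : Low j P) (hQ : Low j Q) :
    Low j (P + Q) := by
  intro χ hχ i hi
  by_cases h : P.coeff χ = 0
  · have : Q.coeff χ ≠ 0 := by
      intro h'
      apply hχ
      simp [h, h']
    exact hQ χ this i hi
  · exact hP χ h i hi

lemma Low.sub {j : ℕ} {P Q : AddMonoidAlgebra ℝ (Fin e → ℤ)} (hP : Low j P) (hQ : Low j Q) :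
    Low j (P - Q) := by
  intro χ hχ i hi
  by_cases h : P.coeff χ = 0
  · have : Q.coeff χ ≠ 0 := by
      intro h'
      apply hχ
      simp [h, h']
    exact hQ χ this i hi
  · exact hP χ h i hi

lemma Low.smul {j : ℕ} {P : AddMonoidAlgebra ℝ (Fin e → ℤ)} (hP : Low j P) (c : ℝ) :
    Low j (c • P) := by
  intro χ hχ i hi
  refine hP χ ?_ i hi
  intro h
  apply hχ
  simp [h]

lemma Low.one {j : ℕ} : Low j (1 : AddMonoidAlgebra ℝ (Fin e → ℤ)) := by
  classical
  intro χ hχ i hi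
  rw [AddMonoidAlgebra.one_def, AddMonoidAlgebra.coeff_single, Finsupp.single_apply] at hχ
  by_cases h : (0 : Fin e → ℤ) = χ
  · subst h
    rfl
  · simp [h] at hχ

lemma Low.mono {j k : ℕ} (h : j ≤ k) {P : AddMonoidAlgebra ℝ (Fin e → ℤ)} (hP : Low j P) :
    Low k P := fun χ hχ i hi => hP χ hχ i (h.trans hi)

lemma Low.Hp (j : ℕ) : Low (j + 1) (Hp e j) := by
  classical
  intro χ hχ i hi
  rw [TrigF.Hp, AddMonoidAlgebra.coeff_add, Finsupp.add_apply, AddMonoidAlgebra.coeff_single,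
    AddMonoidAlgebra.coeff_single, Finsupp.single_apply, Finsupp.single_apply] at hχ
  by_cases h : uv e j = χ
  · subst h
    have : (i : ℕ) ≠ j := by omega
    simp [uv, this]
  · by_cases h' : - uv e j = χ
    · subst h'
      have : (i : ℕ) ≠ j := by omega
      simp [uv, this]
    · simp [h, h'] at hχ

/-- symmetry -/
def Sym (P : AddMonoidAlgebra ℝ (Fin e → ℤ)) : Prop :=
  domCongr ℝ ℝ (AddEquiv.neg (Fin e → ℤ)) P = P

lemma Sym.coeff {P : AddMonoidAlgebra ℝ (Fin e → ℤ)} (h : Sym P) (χ : Fin e → ℤ) :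
    P.coeff (-χ) = P.coeff χ := by
  have h1 : (domCongr ℝ ℝ (AddEquiv.neg (Fin e → ℤ)) P).coeff χ = P.coeff χ := by rw [h]
  rw [coeff_domCongr] at h1
  exact h1

lemma sym_Hp (j : ℕ) : Sym (Hp e j) := by
  unfold Sym Hp
  rw [map_add, domCongr_single, domCongr_single]
  simp [add_comm]

/-- mean of the square -/
noncomputable def mass (P : AddMonoidAlgebra ℝ (Fin e → ℤ)) : ℝ := (P * P).coeff 0

lemma mass_eq {P : AddMonoidAlgebra ℝ (Fin e → ℤ)} (h : Sym P) :
    mass P = ∑ χ ∈ P.coeff.support, P.coeff χ ^ 2 := by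
  unfold mass
  rw [coeff_mul_apply_left]
  rw [Finsupp.sum]
  apply Finset.sum_congr rfl
  intro χ _
  rw [add_zero, h.coeff, sq]

lemma sq_le_mass {P : AddMonoidAlgebra ℝ (Fin e → ℤ)} (h : Sym P) :
    P.coeff 0 ^ 2 ≤ mass P := by
  rw [mass_eq h]
  by_cases h0 : (0 : Fin e → ℤ) ∈ P.coeff.support
  · exact Finset.single_le_sum (f := fun χ => P.coeff χ ^ 2) (fun χ _ => sq_nonneg _) h0
  · have : P.coeff 0 = 0 := by simpa using h0
    rw [this]
    simpa using Finset.sum_nonneg (fun χ _ => sq_nonneg (P.coeff χ))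

lemma coeff_eq_zero_of_low {j : ℕ} (hj : j < e) {P : AddMonoidAlgebra ℝ (Fin e → ℤ)}
    (hP : Low j P) (χ : Fin e → ℤ) (hχ : χ ⟨j, hj⟩ ≠ 0) : P.coeff χ = 0 := by
  by_contra h
  exact hχ (hP χ h ⟨j, hj⟩ le_rfl)

/-- evaluation -/
noncomputable def charHom (x : Fin e → ℝ) : Multiplicative (Fin e → ℤ) →* ℂ where
  toFun χ := Complex.exp (2 * Real.pi * Complex.I * ((∑ i, (Multiplicative.toAdd χ i : ℝ) * x i : ℝ) : ℂ))
  map_one' := by simp
  map_mul' a b := by
    rw [← Complex.exp_add]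
    congr 1
    push_cast
    simp only [toAdd_mul, Pi.add_apply, Int.cast_add, add_mul, Finset.sum_add_distrib]
    ring

noncomputable def ev (x : Fin e → ℝ) : AddMonoidAlgebra ℝ (Fin e → ℤ) →ₐ[ℝ] ℂ :=
  AddMonoidAlgebra.lift ℝ ℂ (Fin e → ℤ) (charHom x)

lemma sum_uv (x : Fin e → ℝ) (j : ℕ) (hj : j < e) :
    (∑ i, (uv e j i : ℝ) * x i) = x ⟨j, hj⟩ := by
  rw [Finset.sum_eq_single ⟨j, hj⟩]
  · simp [uv]
  · intro b _ hb
    have : (b : ℕ) ≠ j := by
      intro h
      apply hb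
      ext
      exact h
    simp [uv, this]
  · simp

lemma ev_Hp (x : ℕ → ℝ) (j : ℕ) (hj : j < e) :
    ev (fun i : Fin e => x i) (Hp e j) = ((2 * Real.cos (2 * Real.pi * x j) : ℝ) : ℂ) := by
  unfold ev Hp
  rw [map_add, lift_single, lift_single]
  simp only [charHom, MonoidHom.coe_mk, OneHom.coe_mk, toAdd_ofAdd, one_smul, Pi.neg_apply,
    Int.cast_neg, neg_mul, Finset.sum_neg_distrib]
  rw [sum_uv (fun i : Fin e => x i) j hj]
  push_cast
  rw [Complex.two_cos]
  congr 1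
  · congr 1
    ring
  · congr 1
    ring

lemma ev_eq_sum (x : Fin e → ℝ) (P : AddMonoidAlgebra ℝ (Fin e → ℤ)) :
    (ev x P).re = ∑ χ ∈ P.coeff.support,
      P.coeff χ * Real.cos (2 * Real.pi * ∑ i, (χ i : ℝ) * x i) := by
  unfold ev
  rw [lift_apply, Finsupp.sum, Complex.re_sum]
  apply Finset.sum_congr rfl
  intro χ _
  rw [Complex.real_smul, Complex.re_ofReal_mul]
  congr 1
  simp only [charHom, MonoidHom.coe_mk, OneHom.coe_mk, toAdd_ofAdd]
  have : (2 * (Real.pi : ℂ) * Complex.I * ((∑ i, (χ i : ℝ) * x i : ℝ) : ℂ))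
      = ((2 * Real.pi * ∑ i, (χ i : ℝ) * x i : ℝ) : ℂ) * Complex.I := by
    push_cast
    ring
  rw [this, Complex.exp_ofReal_mul_I_re]

/-- last nonzero coordinate equal to one -/
def Pos (χ : Fin e → ℤ) : Prop := ∃ m : Fin e, χ m = 1 ∧ ∀ i, m < i → χ i = 0

lemma not_pos_neg {χ : Fin e → ℤ} (h : Pos χ) : ¬ Pos (-χ) := by
  rintro ⟨m', h1', h2'⟩
  obtain ⟨m, h1, h2⟩ := h
  simp only [Pi.neg_apply] at h1' h2'
  rcases lt_trichotomy m m' with hlt | heq | hgt
  · have := h2 m' hlt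
    omega
  · subst heq
    omega
  · have := h2' m hgt
    omega

end Vale.Agent.P110.TrigF
end

section

/-!
Shared definitions for the analytic part (AT): basic facts on `e`, profiles, slot integrals,
frequency paths and their oscillatory integrals `J`.
-/

namespace Vale.Agent.P110.AT

open Vale.Agent.P110 (e)

theorem norm_e (x : ℝ) : ‖e x‖ = 1 := by
  unfold e
  rw [Complex.norm_exp_ofReal_mul_I]

theorem e_add (x y : ℝ) : e (x + y) = e x * e y := by
  unfold e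
  rw [← Complex.exp_add]
  congr 1
  push_cast
  ring

theorem e_neg (x : ℝ) : e (-x) = starRingEnd ℂ (e x) := by
  unfold e
  rw [← Complex.exp_conj, map_mul, Complex.conj_ofReal, Complex.conj_I]
  congr 1
  push_cast
  ring

theorem e_zero : e 0 = 1 := by simp [e]

theorem e_int (m : ℤ) : e m = 1 := by
  unfold e
  rw [Complex.exp_eq_one_iff]
  exact ⟨m, by push_cast; ring⟩

theorem e_add_int (x : ℝ) (m : ℤ) : e (x + m) = e x := by
  rw [e_add, e_int, mul_one]

theorem e_re (x : ℝ) : (e x).re = Real.cos (2 * Real.pi * x) := by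
  unfold e
  rw [Complex.exp_ofReal_mul_I_re]

theorem continuous_e : Continuous e := by
  unfold e
  fun_prop

end Vale.Agent.P110.AT
end

section

/-! P110, AT: Fresnel integrals and the asymptotics of one slot. -/

open Finset MeasureTheory

namespace Vale.Agent.P110.AT

open Vale.Agent.P110 (e)

/-- First derivative bound: `F' = c (y - a) g F`, then `∫ g F` is small away from `a`
(interval to the right of `a`). -/
lemma by_parts_right {F : ℝ → ℂ} {g : ℝ → ℝ} {c : ℂ} {a y1 y2 δ : ℝ} (hc : c ≠ 0) (hδ : 0 < δ)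
    (h12 : y1 ≤ y2) (hg : Continuous g)
    (hF : ∀ y, HasDerivAt F (c * ((y - a : ℝ) : ℂ) * (g y : ℂ) * F y) y)
    (hF1 : ∀ y, ‖F y‖ ≤ 1)
    (hsep : a + δ ≤ y1) :
    ‖∫ y in y1..y2, (g y : ℂ) * F y‖ ≤ 2 / (‖c‖ * δ) := by
  have hpos : ∀ y ∈ Set.uIcc y1 y2, 0 < y - a := by
    intro y hy
    rw [Set.uIcc_of_le h12] at hy
    linarith [hy.1]
  have hne : ∀ y ∈ Set.uIcc y1 y2, y - a ≠ 0 := fun y hy => (hpos y hy).ne'
  have hneC : ∀ y ∈ Set.uIcc y1 y2, ((y - a : ℝ) : ℂ) ≠ 0 := fun y hy => by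
    exact_mod_cast hne y hy
  have hFc : Continuous F := continuous_iff_continuousAt.mpr fun y => (hF y).continuousAt
  -- the function `F / (y - a)`
  have hH : ∀ y ∈ Set.uIcc y1 y2, HasDerivAt (fun y : ℝ => F y / ((y - a : ℝ) : ℂ))
      (c * (g y : ℂ) * F y - F y / ((y - a : ℝ) : ℂ) ^ 2) y := by
    intro y hy
    have h1 : HasDerivAt (fun y : ℝ => ((y - a : ℝ) : ℂ)) 1 y := by
      have := ((hasDerivAt_id y).sub_const a).ofReal_comp
      simpa using this
    have h2 := (hF y).div h1 (hneC y hy)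
    refine h2.congr_deriv ?_
    have h3 := hneC y hy
    rw [div_eq_iff (pow_ne_zero 2 h3), sub_mul, div_mul_cancel₀ _ (pow_ne_zero 2 h3)]
    ring
  have hcont1 : ContinuousOn (fun y : ℝ => c * (g y : ℂ) * F y) (Set.uIcc y1 y2) := by
    apply Continuous.continuousOn
    fun_prop
  have hcont2 : ContinuousOn (fun y : ℝ => F y / ((y - a : ℝ) : ℂ) ^ 2) (Set.uIcc y1 y2) := by
    apply ContinuousOn.div hFc.continuousOn
    · fun_prop
    · intro y hy
      exact pow_ne_zero 2 (hneC y hy)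
  have hint := intervalIntegral.integral_eq_sub_of_hasDerivAt hH
    (hcont1.intervalIntegrable.sub hcont2.intervalIntegrable)
  rw [intervalIntegral.integral_sub hcont1.intervalIntegrable hcont2.intervalIntegrable] at hint
  have hc1 : ∫ y in y1..y2, c * (g y : ℂ) * F y = c * ∫ y in y1..y2, (g y : ℂ) * F y := by
    rw [← intervalIntegral.integral_const_mul]
    congr 1
    funext y
    ring
  rw [hc1] at hint
  -- bound of the second integral
  have hre : ∀ y ∈ Set.uIcc y1 y2,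
      HasDerivAt (fun y : ℝ => - (y - a)⁻¹) (((y - a) ^ 2)⁻¹) y := by
    intro y hy
    have h1 : HasDerivAt (fun y : ℝ => y - a) 1 y := (hasDerivAt_id y).sub_const a
    have h2 := (h1.inv (hne y hy)).neg
    refine h2.congr_deriv ?_
    rw [neg_div, neg_neg, one_div]
  have hcr : ContinuousOn (fun y : ℝ => ((y - a) ^ 2)⁻¹) (Set.uIcc y1 y2) := by
    apply ContinuousOn.inv₀
    · fun_prop
    · intro y hy
      exact pow_ne_zero 2 (hne y hy)
  have hint2 := intervalIntegral.integral_eq_sub_of_hasDerivAt hre hcr.intervalIntegrable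
  have hb2 : ‖∫ y in y1..y2, F y / ((y - a : ℝ) : ℂ) ^ 2‖ ≤ ∫ y in y1..y2, ((y - a) ^ 2)⁻¹ := by
    apply intervalIntegral.norm_integral_le_of_norm_le h12 _ hcr.intervalIntegrable
    refine ae_of_all _ fun y hy => ?_
    rw [norm_div, norm_pow, Complex.norm_real, Real.norm_eq_abs, sq_abs, div_eq_mul_inv]
    have : 0 ≤ ((y - a) ^ 2)⁻¹ := by positivity
    have := hF1 y
    nlinarith
  have hp1 : 0 < y1 - a := by linarith
  have hp2 : 0 < y2 - a := by linarith
  have hq : ∀ y, 0 < y - a → ‖F y / ((y - a : ℝ) : ℂ)‖ ≤ (y - a)⁻¹ := by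
    intro y hy
    rw [norm_div, Complex.norm_real, Real.norm_eq_abs, div_eq_mul_inv, abs_of_pos hy]
    have : 0 ≤ (y - a)⁻¹ := by positivity
    have := hF1 y
    nlinarith
  have hmain : c * ∫ y in y1..y2, (g y : ℂ) * F y =
      F y2 / ((y2 - a : ℝ) : ℂ) - F y1 / ((y1 - a : ℝ) : ℂ) +
        ∫ y in y1..y2, F y / ((y - a : ℝ) : ℂ) ^ 2 := by
    rw [← hint]; ring
  have hnorm : ‖c‖ * ‖∫ y in y1..y2, (g y : ℂ) * F y‖ ≤ 2 / δ := by
    rw [← norm_mul, hmain]
    calc _ ≤ ‖F y2 / ((y2 - a : ℝ) : ℂ) - F y1 / ((y1 - a : ℝ) : ℂ)‖ +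
        ‖∫ y in y1..y2, F y / ((y - a : ℝ) : ℂ) ^ 2‖ := norm_add_le _ _
      _ ≤ (‖F y2 / ((y2 - a : ℝ) : ℂ)‖ + ‖F y1 / ((y1 - a : ℝ) : ℂ)‖) +
          (- (y2 - a)⁻¹ - - (y1 - a)⁻¹) := by
          gcongr
          · exact norm_sub_le _ _
          · exact hb2.trans hint2.le
      _ ≤ ((y2 - a)⁻¹ + (y1 - a)⁻¹) + (- (y2 - a)⁻¹ - - (y1 - a)⁻¹) := by
          gcongr
          · exact hq y2 hp2
          · exact hq y1 hp1
      _ = 2 / (y1 - a) := by ring
      _ ≤ 2 / δ := by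
          gcongr
          linarith only [hsep]
  have hcpos : 0 < ‖c‖ := norm_pos_iff.mpr hc
  rw [le_div_iff₀ (by positivity)]
  calc ‖∫ y in y1..y2, (g y : ℂ) * F y‖ * (‖c‖ * δ) =
      (‖c‖ * ‖∫ y in y1..y2, (g y : ℂ) * F y‖) * δ := by ring
    _ ≤ 2 / δ * δ := by gcongr
    _ = 2 := by field_simp

/-! ### Fresnel integrals -/

/-- damped Fresnel exponential -/
noncomputable def fr (ε : ℝ) (w : ℝ) : ℂ :=
  Complex.exp (-(Real.pi * (ε - Complex.I)) * (w : ℂ) ^ 2)

lemma fr_zero (w : ℝ) : fr 0 w = e (w ^ 2 / 2) := by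
  unfold fr e
  congr 1
  push_cast
  ring

lemma norm_fr {ε : ℝ} (hε : 0 ≤ ε) (w : ℝ) : ‖fr ε w‖ ≤ 1 := by
  unfold fr
  rw [Complex.norm_exp, Real.exp_le_one_iff]
  have : (-(Real.pi * (ε - Complex.I)) * (w : ℂ) ^ 2).re = -(Real.pi * ε * w ^ 2) := by
    have h : (w : ℂ) ^ 2 = ((w ^ 2 : ℝ) : ℂ) := by push_cast; ring
    have h2 : (-(Real.pi * (ε - Complex.I)) * (w : ℂ) ^ 2) =
        ((-(Real.pi * ε * w ^ 2) : ℝ) : ℂ) + ((Real.pi * w ^ 2 : ℝ) : ℂ) * Complex.I := by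
      rw [h]; push_cast; ring
    rw [h2]
    simp only [Complex.add_re, Complex.ofReal_re, Complex.re_ofReal_mul, Complex.I_re, mul_zero,
      add_zero]
  rw [this]
  have := Real.pi_pos
  have : 0 ≤ Real.pi * ε * w ^ 2 := by positivity
  linarith

lemma fr_neg (ε w : ℝ) : fr ε (-w) = fr ε w := by
  unfold fr
  congr 2
  push_cast
  ring

lemma continuous_fr (ε : ℝ) : Continuous (fr ε) := by
  unfold fr; fun_prop

lemma hasDerivAt_fr (ε w : ℝ) :
    HasDerivAt (fr ε)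
      (-(2 * Real.pi * (ε - Complex.I)) * (((w - 0 : ℝ)) : ℂ) * ((1 : ℝ) : ℂ) * fr ε w) w := by
  have h0 : HasDerivAt (fun w : ℝ => (w : ℂ)) 1 w := Complex.ofRealCLM.hasDerivAt
  have h1 : HasDerivAt (fun w : ℝ => (w : ℂ) ^ 2) (2 * (w : ℂ)) w := by
    have h3 := h0.fun_pow 2
    refine h3.congr_deriv ?_
    simp
  have h2 := (h1.const_mul (-(Real.pi * (ε - Complex.I)) : ℂ)).cexp
  refine h2.congr_deriv ?_
  unfold fr
  push_cast
  ring

lemma norm_coef (ε : ℝ) : 2 * Real.pi ≤ ‖(-(2 * Real.pi * (ε - Complex.I)) : ℂ)‖ := by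
  rw [norm_neg, norm_mul]
  have h1 : ‖(2 * Real.pi : ℂ)‖ = 2 * Real.pi := by
    rw [norm_mul]; simp [abs_of_pos Real.pi_pos]
  rw [h1]
  have h2 : 1 ≤ ‖(ε - Complex.I : ℂ)‖ := by
    have h3 := Complex.abs_im_le_norm (ε - Complex.I : ℂ)
    simpa using h3
  have := Real.pi_pos
  nlinarith only [h2, this]

lemma fr_tail {ε : ℝ} (hε : 0 ≤ ε) {w1 w2 : ℝ} (h1 : 0 < w1) (h12 : w1 ≤ w2) :
    ‖∫ w in w1..w2, fr ε w‖ ≤ 1 / (2 * w1) := by
  have h1' := by_parts_right (F := fr ε) (g := fun _ => 1) (a := 0)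
    (c := -(2 * Real.pi * (ε - Complex.I))) (y1 := w1) (y2 := w2) (δ := w1)
    (by
      have := norm_coef ε
      intro h0
      rw [h0, norm_zero] at this
      have := Real.pi_pos
      linarith) h1 h12 continuous_const (fun y => hasDerivAt_fr ε y) (norm_fr hε)
    (by simp)
  simp only [Complex.ofReal_one, one_mul] at h1'
  refine h1'.trans ?_
  have h2 := norm_coef ε
  have h3 := Real.pi_gt_three
  rw [div_le_div_iff₀ (by nlinarith only [h1, h2, h3]) (by linarith)]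
  nlinarith only [h1, h2, h3]

lemma fr_half_pos {ε : ℝ} (hε : 0 ≤ ε) {w : ℝ} (hw : 0 ≤ w) : ‖∫ x in (0:ℝ)..w, fr ε x‖ ≤ 2 := by
  have hi : ∀ a b, IntervalIntegrable (fr ε) volume a b := fun a b =>
    (continuous_fr ε).intervalIntegrable a b
  have small : ∀ v : ℝ, |v| ≤ 1 → ‖∫ x in (0:ℝ)..v, fr ε x‖ ≤ 1 := by
    intro v hv
    have h := intervalIntegral.norm_integral_le_of_norm_le_const (a := 0) (b := v) (C := 1)
      (f := fr ε) (fun w _ => norm_fr hε w)
    rw [one_mul, sub_zero] at h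
    exact h.trans hv
  rcases le_or_gt w 1 with h | h
  · exact (small w (by rwa [abs_of_nonneg hw])).trans (by norm_num)
  · rw [← intervalIntegral.integral_add_adjacent_intervals (hi 0 1) (hi 1 w)]
    have h1 := small 1 (by simp)
    have h2 := fr_tail hε one_pos h.le
    calc _ ≤ _ := norm_add_le _ _
      _ ≤ 1 + 1 / (2 * 1) := by gcongr
      _ ≤ 2 := by norm_num

lemma fr_half {ε : ℝ} (hε : 0 ≤ ε) (w : ℝ) : ‖∫ x in (0:ℝ)..w, fr ε x‖ ≤ 2 := by
  rcases le_or_gt 0 w with h | h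
  · exact fr_half_pos hε h
  · have h1 := fr_half_pos hε (w := -w) (by linarith)
    have h2 : ∫ x in (0:ℝ)..(-w), fr ε x = - ∫ x in (0:ℝ)..w, fr ε x := by
      have h3 : ∫ x in (0:ℝ)..(-w), fr ε (-x) = ∫ x in w..0, fr ε x := by
        rw [intervalIntegral.integral_comp_neg (fun x => fr ε x)]
        simp
      simp only [fr_neg] at h3
      rw [h3, intervalIntegral.integral_symm]
    rw [h2, norm_neg] at h1
    exact h1

lemma fr_bound {ε : ℝ} (hε : 0 ≤ ε) (w1 w2 : ℝ) :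
    ‖∫ w in w1..w2, fr ε w‖ ≤ 4 := by
  have hi : ∀ a b, IntervalIntegrable (fr ε) volume a b := fun a b =>
    (continuous_fr ε).intervalIntegrable a b
  rw [← intervalIntegral.integral_add_adjacent_intervals (hi w1 0) (hi 0 w2)]
  have h1 := fr_half hε w1
  rw [intervalIntegral.integral_symm, norm_neg] at h1
  calc _ ≤ _ := norm_add_le _ _
    _ ≤ 2 + 2 := by gcongr; exact fr_half hε w2
    _ = 4 := by norm_num

/-- The value of the damped Fresnel integral. -/
lemma fr_total {ε : ℝ} (hε : 0 < ε) :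
    ∫ x : ℝ, fr ε x = (1 / (ε - Complex.I)) ^ (1 / 2 : ℂ) := by
  have hb : 0 < (Real.pi * (ε - Complex.I) : ℂ).re := by
    have : (Real.pi * (ε - Complex.I) : ℂ).re = Real.pi * ε := by simp
    rw [this]
    positivity
  have h := integral_gaussian_complex hb
  unfold fr
  rw [h]
  congr 1
  have hpi : (Real.pi : ℂ) ≠ 0 := by exact_mod_cast Real.pi_ne_zero
  rw [div_mul_eq_div_div, div_self hpi]

lemma fr_integrable {ε : ℝ} (hε : 0 < ε) : Integrable (fr ε) := by
  have hb : 0 < (Real.pi * (ε - Complex.I) : ℂ).re := by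
    have : (Real.pi * (ε - Complex.I) : ℂ).re = Real.pi * ε := by simp
    rw [this]
    positivity
  exact integrable_cexp_neg_mul_sq hb

lemma fr_window {ε : ℝ} (hε : 0 < ε) {R : ℝ} (hR : 0 < R) :
    ‖(∫ x in (-R)..R, fr ε x) - ∫ x : ℝ, fr ε x‖ ≤ 1 / R := by
  have hi : ∀ a b, IntervalIntegrable (fr ε) volume a b := fun a b =>
    (continuous_fr ε).intervalIntegrable a b
  have hlim : Filter.Tendsto (fun S : ℝ => (∫ x in (-R)..R, fr ε x) - ∫ x in (-S)..S, fr ε x)
      Filter.atTop (nhds ((∫ x in (-R)..R, fr ε x) - ∫ x : ℝ, fr ε x)) := by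
    apply Filter.Tendsto.const_sub
    exact intervalIntegral_tendsto_integral (fr_integrable hε) Filter.tendsto_neg_atTop_atBot
      Filter.tendsto_id
  refine le_of_tendsto hlim.norm ?_
  filter_upwards [Filter.eventually_ge_atTop R] with S hS
  have h1 : ∫ x in (-S)..S, fr ε x =
      (∫ x in (-S)..(-R), fr ε x) + (∫ x in (-R)..R, fr ε x) + ∫ x in R..S, fr ε x := by
    rw [intervalIntegral.integral_add_adjacent_intervals (hi _ _) (hi _ _),
      intervalIntegral.integral_add_adjacent_intervals (hi _ _) (hi _ _)]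
  have h2 : ∫ x in (-S)..(-R), fr ε x = ∫ x in R..S, fr ε x := by
    have h3 : ∫ x in (-S)..(-R), fr ε (-x) = ∫ x in R..S, fr ε x := by
      rw [intervalIntegral.integral_comp_neg (fun x => fr ε x)]
      simp
    simp only [fr_neg] at h3
    exact h3
  rw [h1, h2]
  have h4 := fr_tail hε.le hR hS
  calc _ = ‖-((∫ x in R..S, fr ε x) + ∫ x in R..S, fr ε x)‖ := by congr 1; ring
    _ = ‖(∫ x in R..S, fr ε x) + ∫ x in R..S, fr ε x‖ := norm_neg _
    _ ≤ _ := norm_add_le _ _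
    _ ≤ 1 / (2 * R) + 1 / (2 * R) := by gcongr
    _ = 1 / R := by field_simp; norm_num

/-! ### The slot -/

end Vale.Agent.P110.AT
end

section

/-! # P130R, module CHIRP: a linear chirp has a flat spectrum -/

set_option autoImplicit false

namespace Vale.Agent.P130R

open Finset MeasureTheory Filter Topology
open Vale.Agent.P110 (e)
open Vale.Agent.P110.AT (norm_e e_add e_neg e_zero e_int continuous_e fr fr_zero norm_fr fr_neg
  continuous_fr fr_tail fr_bound fr_total fr_window)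

/-! ### Fresnel integral with its value -/

theorem chirp_cpow : Complex.I ^ (1 / 2 : ℂ) = e (1 / 8) := by
  rw [Complex.cpow_def_of_ne_zero Complex.I_ne_zero, Complex.log_I]
  unfold e
  congr 1
  push_cast
  ring

theorem chirp_fresnel {R : ℝ} (hR : 0 < R) :
    ‖(∫ x in (-R)..R, e (x ^ 2 / 2)) - e (1 / 8)‖ ≤ 1 / R := by
  have hI : (1 / (((0 : ℝ) : ℂ) - Complex.I) : ℂ) = Complex.I := by
    rw [Complex.ofReal_zero, zero_sub, div_neg, one_div, Complex.inv_I, neg_neg]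
  have hcont : Filter.Tendsto (fun ε : ℝ => (1 / ((ε : ℂ) - Complex.I)) ^ (1 / 2 : ℂ))
      (nhdsWithin 0 (Set.Ioi 0)) (nhds (e (1 / 8))) := by
    have h1 : ContinuousAt (fun ε : ℝ => (1 / ((ε : ℂ) - Complex.I)) ^ (1 / 2 : ℂ)) 0 := by
      apply ContinuousAt.cpow
      · apply ContinuousAt.div continuousAt_const
        · fun_prop
        · simp
      · exact continuousAt_const
      · rw [hI]
        simp [Complex.slitPlane]
    have h2 := h1.tendsto
    rw [hI, chirp_cpow] at h2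
    exact h2.mono_left nhdsWithin_le_nhds
  have hc : Continuous fun ε : ℝ => ∫ x in (-R)..R, fr ε x := by
    apply intervalIntegral.continuous_parametric_intervalIntegral_of_continuous'
    unfold fr
    fun_prop
  have h3 := (hc.tendsto 0).mono_left
    (nhdsWithin_le_nhds : nhdsWithin 0 (Set.Ioi 0) ≤ nhds (0 : ℝ))
  simp only [fr_zero] at h3
  refine le_of_tendsto (h3.sub hcont).norm ?_
  filter_upwards [self_mem_nhdsWithin] with ε hε
  rw [← fr_total hε]
  exact fr_window hε hR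

theorem chirp_sym (u v : ℝ) :
    ∫ x in (-v)..(-u), e (x ^ 2 / 2) = ∫ x in u..v, e (x ^ 2 / 2) := by
  have h3 : ∫ x in u..v, e ((-x) ^ 2 / 2) = ∫ x in (-v)..(-u), e (x ^ 2 / 2) :=
    intervalIntegral.integral_comp_neg (fun x => e (x ^ 2 / 2))
  simp only [neg_sq] at h3
  exact h3.symm

theorem chirp_int (u v : ℝ) : IntervalIntegrable (fun x : ℝ => e (x ^ 2 / 2)) volume u v := by
  apply Continuous.intervalIntegrable
  have := continuous_e
  fun_prop

theorem chirp_tail {w1 w2 : ℝ} (h1 : 0 < w1) (h12 : w1 ≤ w2) :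
    ‖∫ w in w1..w2, e (w ^ 2 / 2)‖ ≤ 1 / (2 * w1) := by
  have h := fr_tail le_rfl h1 h12
  simp only [fr_zero] at h
  exact h

theorem chirp_bound (w1 w2 : ℝ) : ‖∫ w in w1..w2, e (w ^ 2 / 2)‖ ≤ 4 := by
  have h := fr_bound le_rfl w1 w2
  simp only [fr_zero] at h
  exact h

/-- asymmetric window -/
theorem chirp_window {R1 R2 : ℝ} (h1 : 0 < R1) (h2 : 0 < R2) :
    ‖(∫ x in (-R1)..R2, e (x ^ 2 / 2)) - e (1 / 8)‖ ≤ 3 / 2 * (1 / R1 + 1 / R2) := by
  have hp1 : 0 < 1 / R1 := by positivity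
  have hp2 : 0 < 1 / R2 := by positivity
  rcases le_total R1 R2 with h | h
  · rw [← intervalIntegral.integral_add_adjacent_intervals (chirp_int (-R1) R1) (chirp_int R1 R2)]
    have h3 := chirp_fresnel h1
    have h4 := chirp_tail h1 h
    have h5 : 1 / (2 * R1) = 1 / 2 * (1 / R1) := by field_simp
    rw [h5] at h4
    calc _ = ‖((∫ x in (-R1)..R1, e (x ^ 2 / 2)) - e (1 / 8)) + ∫ x in R1..R2, e (x ^ 2 / 2)‖ := by
          congr 1; ring
      _ ≤ _ := norm_add_le _ _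
      _ ≤ 1 / R1 + 1 / 2 * (1 / R1) := by gcongr
      _ ≤ _ := by linarith only [hp2]
  · rw [← intervalIntegral.integral_add_adjacent_intervals (chirp_int (-R1) (-R2))
      (chirp_int (-R2) R2), chirp_sym]
    have h3 := chirp_fresnel h2
    have h4 := chirp_tail h2 h
    have h5 : 1 / (2 * R2) = 1 / 2 * (1 / R2) := by field_simp
    rw [h5] at h4
    calc _ = ‖((∫ x in (-R2)..R2, e (x ^ 2 / 2)) - e (1 / 8)) + ∫ x in R2..R1, e (x ^ 2 / 2)‖ := by
          congr 1; ring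
      _ ≤ _ := norm_add_le _ _
      _ ≤ 1 / R2 + 1 / 2 * (1 / R2) := by gcongr
      _ ≤ _ := by linarith only [hp1]

/-! ### The inner product -/

/-- `J k = ∫_{-k s}^{(B-k) s} e(y²/2) dy`, `s = sqrt(l/B)` -/
noncomputable def chJ (l : ℝ) (B k : ℕ) : ℂ :=
  ∫ y in (-(k * Real.sqrt (l / B)))..((B - k : ℝ) * Real.sqrt (l / B)), e (y ^ 2 / 2)

theorem chJ_eq {l : ℝ} (hl : 0 < l) {B : ℕ} (hB : 1 ≤ B) (k : ℕ) :
    ∫ x in (0 : ℝ)..l, e (B * x ^ 2 / (2 * l)) * starRingEnd ℂ (e (k * x - l * k ^ 2 / (2 * B))) =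
      (Real.sqrt (l / B) : ℂ) * chJ l B k := by
  have hB0 : (0 : ℝ) < B := by exact_mod_cast hB
  set s := Real.sqrt (l / B) with hs
  have hs0 : 0 < s := Real.sqrt_pos.2 (by positivity)
  have hs2 : s ^ 2 = l / B := Real.sq_sqrt (by positivity)
  have h1 : ∀ x : ℝ, e (B * x ^ 2 / (2 * l)) *
      starRingEnd ℂ (e (k * x - l * k ^ 2 / (2 * B))) = e ((s⁻¹ * x - k * s) ^ 2 / 2) := by
    intro x
    rw [← e_neg, ← e_add]
    congr 1
    have h2 : (s⁻¹ * x - k * s) ^ 2 = x ^ 2 / s ^ 2 - 2 * k * x + k ^ 2 * s ^ 2 := by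
      field_simp
      ring
    rw [h2, hs2]
    field_simp
    ring
  simp_rw [h1]
  have h3 := intervalIntegral.integral_comp_mul_sub (fun y => e (y ^ 2 / 2)) (inv_ne_zero hs0.ne')
    (k * s) (a := 0) (b := l)
  rw [h3, inv_inv, mul_zero, zero_sub, Complex.real_smul]
  unfold chJ
  rw [← hs]
  congr 2
  have : s⁻¹ * l = B * s := by
    field_simp
    rw [hs2]
    field_simp
  rw [this]
  ring

theorem chJ_zero_le (l : ℝ) (B : ℕ) : ‖chJ l B 0 - e (1 / 8)‖ ≤ 5 := by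
  unfold chJ
  calc _ ≤ _ := norm_sub_le _ _
    _ ≤ 4 + 1 := by
      gcongr
      · exact chirp_bound _ _
      · rw [norm_e]
    _ = 5 := by norm_num

theorem chJ_le {l : ℝ} (hl : 0 < l) {B k : ℕ} (hk : 1 ≤ k) (hkB : k < B) :
    ‖chJ l B k - e (1 / 8)‖ ≤
      3 / 2 * (Real.sqrt (l / B))⁻¹ * (((k : ℕ) : ℝ)⁻¹ + (((B - k : ℕ)) : ℝ)⁻¹) := by
  have hB0 : (0 : ℝ) < B := by exact_mod_cast (by omega : 0 < B)
  set s := Real.sqrt (l / B) with hs
  have hs0 : 0 < s := Real.sqrt_pos.2 (by positivity)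
  have hk0 : (0 : ℝ) < k := by exact_mod_cast hk
  have hBk : (0 : ℝ) < B - k := by
    have : (k : ℝ) < B := by exact_mod_cast hkB
    linarith
  have h := chirp_window (R1 := k * s) (R2 := (B - k) * s) (by positivity) (by positivity)
  unfold chJ
  rw [← hs]
  refine h.trans (le_of_eq ?_)
  rw [Nat.cast_sub hkB.le]
  field_simp

theorem chJ_sum {l : ℝ} (hl : 0 < l) {B : ℕ} (hB : 1 ≤ B) :
    ‖∑ k ∈ range B, (chJ l B k - e (1 / 8))‖ ≤
      5 + 3 * (Real.sqrt (l / B))⁻¹ * (1 + Real.log B) := by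
  obtain ⟨n, rfl⟩ : ∃ n, B = n + 1 := ⟨B - 1, by omega⟩
  rw [Finset.sum_range_succ']
  set s := Real.sqrt (l / ((n + 1 : ℕ) : ℝ)) with hs
  have hs0 : 0 < s := Real.sqrt_pos.2 (by positivity)
  have h1 : ‖∑ k ∈ range n, (chJ l (n + 1) (k + 1) - e (1 / 8))‖ ≤
      ∑ k ∈ range n, 3 / 2 * s⁻¹ * (((k + 1 : ℕ) : ℝ)⁻¹ + (((n + 1 - (k + 1) : ℕ)) : ℝ)⁻¹) := by
    refine (norm_sum_le _ _).trans (Finset.sum_le_sum fun k hk => ?_)
    exact chJ_le hl (by omega) (by have := mem_range.1 hk; omega)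
  have h2 : ∑ k ∈ range n, (((n + 1 - (k + 1) : ℕ)) : ℝ)⁻¹ = ∑ k ∈ range n, ((k + 1 : ℕ) : ℝ)⁻¹ := by
    rw [← Finset.sum_range_reflect]
    apply Finset.sum_congr rfl
    intro k hk
    have := mem_range.1 hk
    congr 2
    omega
  have h3 : ∑ k ∈ range n, ((k + 1 : ℕ) : ℝ)⁻¹ ≤ 1 + Real.log ((n + 1 : ℕ) : ℝ) := by
    have h4 := harmonic_le_one_add_log n
    have h5 : ((harmonic n : ℚ) : ℝ) = ∑ k ∈ range n, ((k + 1 : ℕ) : ℝ)⁻¹ := by
      simp [harmonic]
    rw [← h5]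
    refine h4.trans ?_
    rcases Nat.eq_zero_or_pos n with h0 | h0
    · subst h0; simp
    · have : Real.log n ≤ Real.log ((n + 1 : ℕ) : ℝ) := by
        apply Real.log_le_log (by exact_mod_cast h0)
        push_cast; linarith only []
      linarith only [this]
  rw [← Finset.mul_sum, Finset.sum_add_distrib, h2] at h1
  calc _ ≤ _ := norm_add_le _ _
    _ ≤ 3 / 2 * s⁻¹ * ((1 + Real.log ((n + 1 : ℕ) : ℝ)) + (1 + Real.log ((n + 1 : ℕ) : ℝ))) + 5 := by
      gcongr
      · refine h1.trans ?_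
        gcongr
      · exact chJ_zero_le l _
    _ = _ := by ring

/-! ### Parseval -/

theorem chirp_orth (m : ℤ) : ∫ x in (0 : ℝ)..1, e (m * x) = if m = 0 then 1 else 0 := by
  split_ifs with h
  · subst h
    simp [e_zero]
  · have hm : ((2 * Real.pi * m : ℝ) : ℂ) * Complex.I ≠ 0 := by
      have h1 : (2 * Real.pi * m : ℝ) ≠ 0 := by
        have : (m : ℝ) ≠ 0 := by exact_mod_cast h
        have := Real.pi_ne_zero
        positivity
      simp only [ne_eq, mul_eq_zero, Complex.I_ne_zero, or_false]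
      exact_mod_cast h1
    have h2 : ∀ x : ℝ, e (m * x) = Complex.exp ((((2 * Real.pi * m : ℝ) : ℂ) * Complex.I) * x) := by
      intro x
      unfold e
      congr 1
      push_cast
      ring
    simp_rw [h2]
    rw [integral_exp_mul_complex hm]
    have h3 : Complex.exp ((((2 * Real.pi * m : ℝ) : ℂ) * Complex.I) * ((1 : ℝ) : ℂ)) = 1 := by
      have := h2 1
      rw [← this]
      have h4 := e_int m
      rw [mul_one]
      exact h4
    rw [h3]
    simp

theorem chirp_parseval (B : ℕ) (w : ℕ → ℝ) :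
    ∫ x in (0 : ℝ)..1, ‖∑ k ∈ range B, e (k * x - w k)‖ ^ 2 = B := by
  have hc := continuous_e
  have h1 : ∀ x : ℝ, ((‖∑ k ∈ range B, e (k * x - w k)‖ ^ 2 : ℝ) : ℂ) =
      ∑ k ∈ range B, ∑ j ∈ range B, e (w j - w k) * e (((k : ℤ) - (j : ℤ) : ℤ) * x) := by
    intro x
    have h2 := Complex.mul_conj (∑ k ∈ range B, e (k * x - w k))
    rw [Complex.normSq_eq_norm_sq] at h2
    rw [← h2, map_sum, Finset.sum_mul_sum]
    refine Finset.sum_congr rfl fun k _ => Finset.sum_congr rfl fun j _ => ?_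
    rw [← e_neg, ← e_add, ← e_add]
    congr 1
    push_cast
    ring
  have h3 : ((∫ x in (0 : ℝ)..1, ‖∑ k ∈ range B, e (k * x - w k)‖ ^ 2 : ℝ) : ℂ) = B := by
    rw [← intervalIntegral.integral_ofReal]
    simp_rw [h1]
    rw [intervalIntegral.integral_finsetSum]
    · have h4 : ∀ k ∈ range B, ∫ x in (0 : ℝ)..1,
          ∑ j ∈ range B, e (w j - w k) * e (((k : ℤ) - (j : ℤ) : ℤ) * x) = 1 := by
        intro k hk
        rw [intervalIntegral.integral_finsetSum]
        · rw [Finset.sum_eq_single k]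
          · rw [intervalIntegral.integral_const_mul, chirp_orth]
            simp [e_zero]
          · intro j _ hj
            rw [intervalIntegral.integral_const_mul, chirp_orth, if_neg, mul_zero]
            intro h
            apply hj
            have := sub_eq_zero.1 h
            exact_mod_cast this.symm
          · intro h; exact absurd hk h
        · intro j _
          apply Continuous.intervalIntegrable
          fun_prop
      rw [Finset.sum_congr rfl h4]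
      simp
    · intro k _
      apply Continuous.intervalIntegrable
      fun_prop
  exact_mod_cast h3

/-! ### The energy -/

theorem chirp_energy {l : ℝ} (hl : 0 < l) (hl1 : l ≤ 1) {B : ℕ} (hB : 1 ≤ B) :
    ∫ x in (0 : ℝ)..1, ‖(if x < l then e (B * x ^ 2 / (2 * l)) else 0) -
      ((Real.sqrt (l / B) : ℝ) : ℂ) * e (1 / 8) *
        ∑ k ∈ range B, e (k * x - l * k ^ 2 / (2 * B))‖ ^ 2 =
      -2 * (l / B) * (starRingEnd ℂ (e (1 / 8)) * ∑ k ∈ range B, (chJ l B k - e (1 / 8))).re := by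
  have hc := continuous_e
  have hB0 : (0 : ℝ) < B := by exact_mod_cast hB
  set s := Real.sqrt (l / B) with hs
  have hs0 : 0 < s := Real.sqrt_pos.2 (by positivity)
  have hs2 : s ^ 2 = l / B := Real.sq_sqrt (by positivity)
  set b : ℝ → ℂ := fun x => (s : ℂ) * e (1 / 8) * ∑ k ∈ range B, e (k * x - l * k ^ 2 / (2 * B))
    with hb
  have hbc : Continuous b := by
    rw [hb]; fun_prop
  set A : ℝ → ℂ := fun x => e (B * x ^ 2 / (2 * l)) with hA
  have hAc : Continuous A := by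
    rw [hA]; fun_prop
  set F : ℝ → ℝ := fun x => ‖(if x < l then A x else 0) - b x‖ ^ 2 with hF
  have hae : ∀ᵐ x : ℝ ∂volume, x ≠ l := by
    rw [ae_iff]
    simp
  have e1 : ∀ᵐ x : ℝ ∂volume, x ∈ Set.uIoc 0 l →
      F x = 1 + ‖b x‖ ^ 2 - 2 * (A x * starRingEnd ℂ (b x)).re := by
    filter_upwards [hae] with x hx hx2
    rw [Set.uIoc_of_le hl.le] at hx2
    have hxl : x < l := lt_of_le_of_ne hx2.2 hx
    simp only [hF, if_pos hxl]
    rw [← Complex.normSq_eq_norm_sq, Complex.normSq_sub, Complex.normSq_eq_norm_sq,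
      Complex.normSq_eq_norm_sq]
    rw [hA, norm_e]
    norm_num
  have e2 : ∀ᵐ x : ℝ ∂volume, x ∈ Set.uIoc l 1 → F x = ‖b x‖ ^ 2 := by
    refine ae_of_all _ fun x hx => ?_
    rw [Set.uIoc_of_le hl1] at hx
    simp only [hF, if_neg (not_lt.2 hx.1.le)]
    rw [zero_sub, norm_neg]
  have i1 : IntervalIntegrable (fun x => 1 + ‖b x‖ ^ 2 - 2 * (A x * starRingEnd ℂ (b x)).re)
      volume 0 l := by
    apply Continuous.intervalIntegrable
    fun_prop
  have i2 : IntervalIntegrable (fun x => ‖b x‖ ^ 2) volume l 1 := by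
    apply Continuous.intervalIntegrable
    fun_prop
  have i1' : IntervalIntegrable F volume 0 l := by
    refine i1.congr_ae ?_
    rw [Filter.EventuallyEq, ae_restrict_iff' measurableSet_uIoc]
    filter_upwards [e1] with x hx hx2
    exact (hx hx2).symm
  have i2' : IntervalIntegrable F volume l 1 := by
    refine i2.congr_ae ?_
    rw [Filter.EventuallyEq, ae_restrict_iff' measurableSet_uIoc]
    filter_upwards [e2] with x hx hx2
    exact (hx hx2).symm
  have hFi : ∫ x in (0 : ℝ)..1, F x =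
      l + (∫ x in (0 : ℝ)..1, ‖b x‖ ^ 2) -
        2 * (∫ x in (0 : ℝ)..l, A x * starRingEnd ℂ (b x)).re := by
    rw [← intervalIntegral.integral_add_adjacent_intervals i1' i2',
      intervalIntegral.integral_congr_ae e1, intervalIntegral.integral_congr_ae e2]
    have j1 : IntervalIntegrable (fun x => ‖b x‖ ^ 2) volume 0 l := by
      apply Continuous.intervalIntegrable
      fun_prop
    have j2 : IntervalIntegrable (fun x => A x * starRingEnd ℂ (b x)) volume 0 l := by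
      apply Continuous.intervalIntegrable
      fun_prop
    have j3 : IntervalIntegrable (fun x => 2 * (A x * starRingEnd ℂ (b x)).re) volume 0 l := by
      apply Continuous.intervalIntegrable
      fun_prop
    have j4 : IntervalIntegrable (fun _ : ℝ => (1 : ℝ)) volume 0 l :=
      continuous_const.intervalIntegrable _ _
    rw [intervalIntegral.integral_sub (j4.add j1) j3, intervalIntegral.integral_add j4 j1,
      intervalIntegral.integral_const_mul]
    have hre : ∫ x in (0 : ℝ)..l, (A x * starRingEnd ℂ (b x)).re =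
        (∫ x in (0 : ℝ)..l, A x * starRingEnd ℂ (b x)).re :=
      intervalIntegral.intervalIntegral_re j2
    rw [hre, ← intervalIntegral.integral_add_adjacent_intervals j1 i2]
    simp
    ring
  have hb2 : ∫ x in (0 : ℝ)..1, ‖b x‖ ^ 2 = l := by
    have h1 : ∀ x : ℝ, ‖b x‖ ^ 2 =
        s ^ 2 * ‖∑ k ∈ range B, e (k * x - l * k ^ 2 / (2 * B))‖ ^ 2 := by
      intro x
      simp only [hb]
      rw [norm_mul, norm_mul, norm_e, Complex.norm_real, Real.norm_eq_abs, abs_of_pos hs0]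
      ring
    simp_rw [h1]
    rw [intervalIntegral.integral_const_mul,
      chirp_parseval B (fun k => l * k ^ 2 / (2 * B)), hs2]
    field_simp
  have hAb : ∫ x in (0 : ℝ)..l, A x * starRingEnd ℂ (b x) =
      ((l / B : ℝ) : ℂ) * (starRingEnd ℂ (e (1 / 8)) * ∑ k ∈ range B, chJ l B k) := by
    have h1 : ∀ x : ℝ, A x * starRingEnd ℂ (b x) = ∑ k ∈ range B,
        ((s : ℂ) * starRingEnd ℂ (e (1 / 8))) *
          (e (B * x ^ 2 / (2 * l)) * starRingEnd ℂ (e (k * x - l * k ^ 2 / (2 * B)))) := by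
      intro x
      simp only [hb, hA]
      rw [map_mul, map_mul, Complex.conj_ofReal, map_sum, Finset.mul_sum, Finset.mul_sum]
      refine Finset.sum_congr rfl fun k _ => ?_
      ring
    simp_rw [h1]
    rw [intervalIntegral.integral_finsetSum]
    · simp_rw [intervalIntegral.integral_const_mul, chJ_eq hl hB]
      rw [← Finset.mul_sum, ← Finset.mul_sum, ← hs]
      have h2 : ((l / B : ℝ) : ℂ) = (s : ℂ) * (s : ℂ) := by
        rw [← hs2]; push_cast; ring
      rw [h2]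
      ring
    · intro k _
      apply Continuous.intervalIntegrable
      fun_prop
  have hsum : ∑ k ∈ range B, (chJ l B k - e (1 / 8)) =
      ∑ k ∈ range B, chJ l B k - B * e (1 / 8) := by
    rw [Finset.sum_sub_distrib]
    simp
  have hee : starRingEnd ℂ (e (1 / 8)) * e (1 / 8) = 1 := by
    rw [← e_neg, ← e_add]
    simp [e_zero]
  have hFF : ∫ x in (0 : ℝ)..1, ‖(if x < l then e (B * x ^ 2 / (2 * l)) else 0) -
      (s : ℂ) * e (1 / 8) * ∑ k ∈ range B, e (k * x - l * k ^ 2 / (2 * B))‖ ^ 2 =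
      ∫ x in (0 : ℝ)..1, F x := rfl
  rw [hFF, hFi, hb2, hAb, hsum, mul_sub, Complex.re_ofReal_mul]
  have h5 : starRingEnd ℂ (e (1 / 8)) * ((B : ℂ) * e (1 / 8)) = B := by
    linear_combination (B : ℂ) * hee
  rw [h5, Complex.sub_re, Complex.natCast_re]
  field_simp
  ring

theorem chirp : ChirpStatement := by
  intro l hl hl1
  have hlim : Tendsto (fun B : ℕ => 2 * (l / B) *
      (5 + 3 * (Real.sqrt (l / B))⁻¹ * (1 + Real.log B))) atTop (𝓝 0) := by
    have h1 : Tendsto (fun B : ℕ => (B : ℝ)⁻¹) atTop (𝓝 0) := tendsto_inv_atTop_nhds_zero_nat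
    have h2 : Tendsto (fun B : ℕ => (1 + Real.log B) / Real.sqrt B) atTop (𝓝 0) := by
      have h3 : Tendsto (fun x : ℝ => Real.log x / x ^ (1 / 2 : ℝ)) atTop (𝓝 0) :=
        (isLittleO_log_rpow_atTop (by norm_num)).tendsto_div_nhds_zero
      have h4 : Tendsto (fun x : ℝ => (x ^ (1 / 2 : ℝ))⁻¹) atTop (𝓝 0) :=
        (tendsto_rpow_atTop (by norm_num)).inv_tendsto_atTop
      have h5 := (h4.add h3).comp (tendsto_natCast_atTop_atTop (R := ℝ))
      rw [add_zero] at h5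
      refine h5.congr fun B => ?_
      simp only [Function.comp]
      rw [Real.sqrt_eq_rpow]
      ring
    have h6 : Tendsto (fun B : ℕ => 10 * l * (B : ℝ)⁻¹ +
        6 * Real.sqrt l * ((1 + Real.log B) / Real.sqrt B)) atTop (𝓝 0) := by
      have := (h1.const_mul (10 * l)).add (h2.const_mul (6 * Real.sqrt l))
      simpa using this
    refine h6.congr' ?_
    filter_upwards [eventually_ge_atTop 1] with B hB
    have hB0 : (0 : ℝ) < B := by exact_mod_cast hB
    rw [Real.sqrt_div hl.le]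
    have hsl : 0 < Real.sqrt l := Real.sqrt_pos.2 hl
    have hsB : 0 < Real.sqrt B := Real.sqrt_pos.2 hB0
    have h7 : Real.sqrt l ^ 2 = l := Real.sq_sqrt hl.le
    have h8 : Real.sqrt B ^ 2 = B := Real.sq_sqrt hB0.le
    have h9 : (l : ℝ) / B = Real.sqrt l ^ 2 / Real.sqrt B ^ 2 := by rw [h7, h8]
    rw [h9]
    have h10 : 10 * l * (B : ℝ)⁻¹ = 10 * (Real.sqrt l ^ 2 / Real.sqrt B ^ 2) := by
      rw [h7, h8]; ring
    rw [h10]
    field_simp
    ring
  refine squeeze_zero' ?_ ?_ hlim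
  · refine Eventually.of_forall fun B => ?_
    apply intervalIntegral.integral_nonneg zero_le_one
    intro x _
    positivity
  · filter_upwards [eventually_ge_atTop 1] with B hB
    have hB0 : (0 : ℝ) < B := by exact_mod_cast hB
    rw [chirp_energy hl hl1 hB]
    have h1 := chJ_sum hl hB
    set z := starRingEnd ℂ (e (1 / 8)) * ∑ k ∈ range B, (chJ l B k - e (1 / 8)) with hz
    have h2 : ‖z‖ ≤ 5 + 3 * (Real.sqrt (l / B))⁻¹ * (1 + Real.log B) := by
      rw [hz, norm_mul, RCLike.norm_conj, norm_e, one_mul]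
      exact h1
    have h3 := Complex.abs_re_le_norm z
    have h4 := neg_abs_le z.re
    have h5 : 0 < l / (B : ℝ) := by positivity
    nlinarith only [h2, h3, h4, h5]

end Vale.Agent.P130R
end

section

/-!
# P110: final assembly

From the rounding theorem, the analytic theorem and the existence of slot systems we get
ultraflat Littlewood polynomials of every large length.
-/

namespace Vale.Agent.P110

open Finset

/-- Parseval's identity for a trigonometric polynomial with real coefficients -/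
theorem fin_parseval (n : ℕ) (x : ℕ → ℝ) :
    ∫ θ in (0 : ℝ)..1, ‖∑ k ∈ range n, (x k : ℂ) * e (k * θ)‖ ^ 2 =
      ∑ k ∈ range n, x k ^ 2 := by
  have hint : ∀ m : ℤ, ∫ θ in (0 : ℝ)..1, e (m * θ) = if m = 0 then 1 else 0 := by
    intro m
    by_cases hm : m = 0
    · subst hm
      simp [AT.e_zero]
    · rw [if_neg hm]
      have hc : (2 * Real.pi * m * Complex.I : ℂ) ≠ 0 := by
        have h1 : (m : ℂ) ≠ 0 := by exact_mod_cast hm
        have h2 : (Real.pi : ℂ) ≠ 0 := by exact_mod_cast Real.pi_ne_zero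
        exact mul_ne_zero (mul_ne_zero (mul_ne_zero two_ne_zero h2) h1) Complex.I_ne_zero
      have hfun : ∀ θ : ℝ, e (m * θ) = Complex.exp ((2 * Real.pi * m * Complex.I) * (θ : ℂ)) := by
        intro θ
        unfold e
        congr 1
        push_cast
        ring
      simp_rw [hfun]
      rw [integral_exp_mul_complex hc]
      have h1 : Complex.exp (2 * Real.pi * m * Complex.I * ((1 : ℝ) : ℂ)) = 1 := by
        rw [Complex.exp_eq_one_iff]
        exact ⟨m, by push_cast; ring⟩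
      rw [h1]
      simp
  have hsq : ∀ θ : ℝ, ((‖∑ k ∈ range n, (x k : ℂ) * e (k * θ)‖ ^ 2 : ℝ) : ℂ) =
      ∑ j ∈ range n, ∑ k ∈ range n, ((x j : ℂ) * (x k : ℂ)) * e (((j : ℤ) - (k : ℤ) : ℤ) * θ) := by
    intro θ
    have h0 : ((‖∑ k ∈ range n, (x k : ℂ) * e (k * θ)‖ ^ 2 : ℝ) : ℂ) =
        (∑ k ∈ range n, (x k : ℂ) * e (k * θ)) *
          starRingEnd ℂ (∑ k ∈ range n, (x k : ℂ) * e (k * θ)) := by
      rw [Complex.mul_conj']
      push_cast
      rfl
    rw [h0, map_sum, Finset.sum_mul_sum]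
    refine Finset.sum_congr rfl fun j _ => Finset.sum_congr rfl fun k _ => ?_
    rw [map_mul, Complex.conj_ofReal, ← AT.e_neg]
    have h1 : (((j : ℤ) - (k : ℤ) : ℤ) : ℝ) * θ = (j : ℝ) * θ + -((k : ℝ) * θ) := by
      push_cast
      ring
    rw [h1, AT.e_add]
    ring
  have hcomplex : ((∫ θ in (0 : ℝ)..1, ‖∑ k ∈ range n, (x k : ℂ) * e (k * θ)‖ ^ 2 : ℝ) : ℂ) =
      ((∑ k ∈ range n, x k ^ 2 : ℝ) : ℂ) := by
    rw [← intervalIntegral.integral_ofReal]
    simp_rw [hsq]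
    rw [intervalIntegral.integral_finsetSum]
    · have h1 : ∀ j ∈ range n, ∫ θ in (0 : ℝ)..1,
          ∑ k ∈ range n, ((x j : ℂ) * (x k : ℂ)) * e (((j : ℤ) - (k : ℤ) : ℤ) * θ) =
          ((x j ^ 2 : ℝ) : ℂ) := by
        intro j hj
        rw [intervalIntegral.integral_finsetSum]
        · have h2 : ∀ k ∈ range n, ∫ θ in (0 : ℝ)..1,
              ((x j : ℂ) * (x k : ℂ)) * e (((j : ℤ) - (k : ℤ) : ℤ) * θ) =
              if j = k then ((x j : ℂ) * (x k : ℂ)) else 0 := by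
            intro k _
            rw [intervalIntegral.integral_const_mul, hint]
            by_cases hjk : j = k
            · rw [if_pos hjk, if_pos (by rw [hjk]; simp)]
              ring
            · have : ((j : ℤ) - (k : ℤ) : ℤ) ≠ 0 := by
                intro h
                apply hjk
                omega
              rw [if_neg hjk, if_neg this]
              ring
          rw [Finset.sum_congr rfl h2, Finset.sum_ite_eq, if_pos hj]
          push_cast
          ring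
        · intro k _
          apply Continuous.intervalIntegrable
          exact continuous_const.mul (AT.continuous_e.comp (continuous_const.mul continuous_id))
      rw [Finset.sum_congr rfl h1]
      push_cast
      rfl
    · intro j _
      apply Continuous.intervalIntegrable
      refine continuous_finsetSum _ fun k _ => ?_
      exact continuous_const.mul (AT.continuous_e.comp (continuous_const.mul continuous_id))
  exact_mod_cast hcomplex

end Vale.Agent.P110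
end

section

/-! # TF, part b: gluing a finite family of pieces -/

set_option autoImplicit false

namespace Vale.Agent.P130R.TF

open Finset MeasureTheory Filter Topology

open Classical in
theorem glue_family {J κ : Type} [Fintype J] (T : J → Set ℝ) (hT : ∀ j, MeasurableSet (T j))
    (hd : ∀ j j' y, y ∈ T j → y ∈ T j' → j = j') (hT01 : ∀ j, T j ⊆ Set.Ico 0 1)
    (G : J → ℝ → ℂ)
    (hG : ∀ j, Measurable (G j)) (hG1 : ∀ j y, ‖G j y‖ = 1) (md : J → κ) :
    ∃ (u : ℝ → ℂ) (M : ℝ → Option κ), Measurable u ∧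
      (∀ χ, MeasurableSet {x | M x = some χ}) ∧ (∀ x, ‖u x‖ = 1) ∧
      (∀ x, u (x + 1) = u x) ∧ (∀ x, M (x + 1) = M x) ∧
      (∀ x χ, M x = some χ → ∃ j, md j = χ) ∧
      (∀ χ x, (if M x = some χ then u x else 0) =
        ∑ j ∈ univ.filter (fun j => md j = χ),
          if Int.fract x ∈ T j then G j (Int.fract x) else 0) ∧
      (∀ χ, (volume {x : ℝ | 0 ≤ x ∧ x < 1 ∧ M x = some χ}).toReal =
        ∑ j ∈ univ.filter (fun j => md j = χ), (volume (T j)).toReal) := by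
  let u : ℝ → ℂ := fun x => (∑ j, if Int.fract x ∈ T j then G j (Int.fract x) else 0) +
    (if ∀ j, Int.fract x ∉ T j then 1 else 0)
  let M : ℝ → Option κ := fun x =>
    if h : ∃ j, Int.fract x ∈ T j then some (md h.choose) else none
  have hMs : ∀ x χ, M x = some χ ↔ ∃ j, md j = χ ∧ Int.fract x ∈ T j := by
    intro x χ
    by_cases h : ∃ j, Int.fract x ∈ T j
    · have h1 : M x = some (md h.choose) := dif_pos h
      rw [h1]
      constructor
      · intro h2
        exact ⟨h.choose, Option.some.inj h2, h.choose_spec⟩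
      · rintro ⟨j, hj, hj2⟩
        rw [← hj, hd _ _ _ h.choose_spec hj2]
    · have h1 : M x = none := dif_neg h
      rw [h1]
      constructor
      · intro h2; cases h2
      · rintro ⟨j, _, hj2⟩
        exact absurd ⟨j, hj2⟩ h
  have hu : ∀ x j, Int.fract x ∈ T j → u x = G j (Int.fract x) := by
    intro x j hj
    have h1 : ∑ j', (if Int.fract x ∈ T j' then G j' (Int.fract x) else 0)
        = G j (Int.fract x) := by
      rw [Finset.sum_eq_single j]
      · rw [if_pos hj]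
      · intro j' _ hne
        rw [if_neg]
        intro h
        exact hne (hd _ _ _ h hj)
      · intro h; exact absurd (Finset.mem_univ j) h
    have h2 : ¬ ∀ j, Int.fract x ∉ T j := fun h => h j hj
    simp only [u]
    rw [h1, if_neg h2, add_zero]
  have hu0 : ∀ x, (∀ j, Int.fract x ∉ T j) → u x = 1 := by
    intro x hx
    simp only [u]
    rw [if_pos hx, Finset.sum_eq_zero, zero_add]
    intro j _
    rw [if_neg (hx j)]
  have hmf : Measurable (Int.fract : ℝ → ℝ) := measurable_fract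
  refine ⟨u, M, ?_, ?_, ?_, ?_, ?_, ?_, ?_, ?_⟩
  · refine Measurable.add ?_ ?_
    · refine Finset.measurable_sum _ fun j _ => ?_
      exact Measurable.ite (hmf (hT j)) ((hG j).comp hmf) measurable_const
    · refine Measurable.ite ?_ measurable_const measurable_const
      have h1 : {x : ℝ | ∀ j, Int.fract x ∉ T j} = ⋂ j, (Int.fract ⁻¹' (T j))ᶜ := by
        ext x; simp
      rw [h1]
      exact MeasurableSet.iInter fun j => (hmf (hT j)).compl
  · intro χ
    have h1 : {x | M x = some χ} = ⋃ j ∈ {j | md j = χ}, (Int.fract ⁻¹' (T j)) := by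
      ext x
      simp only [Set.mem_setOf_eq, Set.mem_iUnion, Set.mem_preimage, exists_prop]
      exact hMs x χ
    rw [h1]
    exact MeasurableSet.biUnion (Set.to_countable _) fun j _ => hmf (hT j)
  · intro x
    by_cases h : ∃ j, Int.fract x ∈ T j
    · obtain ⟨j, hj⟩ := h
      rw [hu x j hj, hG1]
    · push Not at h
      rw [hu0 x h, norm_one]
  · intro x
    simp only [u, Int.fract_add_one]
  · intro x
    simp only [M, Int.fract_add_one]
  · intro x χ h
    obtain ⟨j, hj, _⟩ := (hMs x χ).1 h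
    exact ⟨j, hj⟩
  · intro χ x
    by_cases h : ∃ j, md j = χ ∧ Int.fract x ∈ T j
    · obtain ⟨j, hj, hj2⟩ := h
      rw [if_pos ((hMs x χ).2 ⟨j, hj, hj2⟩), hu x j hj2, Finset.sum_eq_single j]
      · rw [if_pos hj2]
      · intro j' _ hne
        rw [if_neg]
        intro h
        exact hne (hd _ _ _ h hj2)
      · intro h
        exact absurd (Finset.mem_filter.2 ⟨Finset.mem_univ j, hj⟩) h
    · rw [if_neg (fun h' => h ((hMs x χ).1 h')), Finset.sum_eq_zero]
      intro j hj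
      rw [if_neg]
      intro h'
      exact h ⟨j, (Finset.mem_filter.1 hj).2, h'⟩
  · intro χ
    have h1 : {x : ℝ | 0 ≤ x ∧ x < 1 ∧ M x = some χ}
        = ⋃ j ∈ univ.filter (fun j => md j = χ), T j := by
      ext x
      simp only [Set.mem_setOf_eq, Set.mem_iUnion, exists_prop, Finset.mem_filter,
        Finset.mem_univ, true_and]
      constructor
      · rintro ⟨h0, h1, h2⟩
        obtain ⟨j, hj, hj2⟩ := (hMs x χ).1 h2
        rw [Int.fract_eq_self.2 ⟨h0, h1⟩] at hj2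
        exact ⟨j, hj, hj2⟩
      · rintro ⟨j, hj, hj2⟩
        have h3 := hT01 j hj2
        refine ⟨h3.1, h3.2, (hMs x χ).2 ⟨j, hj, ?_⟩⟩
        rw [Int.fract_eq_self.2 ⟨h3.1, h3.2⟩]
        exact hj2
    rw [h1, measure_biUnion_finset]
    · rw [ENNReal.toReal_sum]
      intro j _
      have h2 : volume (T j) ≤ volume (Set.Ico (0 : ℝ) 1) := measure_mono (hT01 j)
      rw [Real.volume_Ico] at h2
      exact ne_top_of_le_ne_top ENNReal.ofReal_ne_top h2
    · intro j _ j' _ hne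
      rw [Function.onFun, Set.disjoint_left]
      intro y hy hy'
      exact hne (hd _ _ _ hy hy')
    · intro j _; exact hT j

end Vale.Agent.P130R.TF
end

section

/-!
# P110, module C5, part 1: geometry of the slots of a comb system
-/

set_option autoImplicit false

namespace Vale.Agent.P110.CellProof

open Finset

variable {d : ℕ} {X : Finset (Fin d → ℤ)} {V : Fin d → ℤ}

/-- `M = ∏ q_χ` -/
def MM (S : CombSystem d X V) : ℕ := ∏ χ ∈ X, S.q χ

/-- `m_χ = M / q_χ` -/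
def mm (S : CombSystem d X V) (χ : Fin d → ℤ) : ℕ := ∏ χ' ∈ X.erase χ, S.q χ'

lemma q_pos (S : CombSystem d X V) {χ : Fin d → ℤ} (h : χ ∈ X) : 0 < S.q χ :=
  (S.q_odd χ h).pos

lemma q_mul_mm (S : CombSystem d X V) {χ : Fin d → ℤ} (h : χ ∈ X) :
    S.q χ * mm S χ = MM S := Finset.mul_prod_erase X S.q h

lemma mm_pos (S : CombSystem d X V) (χ : Fin d → ℤ) : 0 < mm S χ :=
  Finset.prod_pos fun _ h => q_pos S (Finset.mem_of_mem_erase h)

lemma MM_pos (S : CombSystem d X V) : 0 < MM S :=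
  Finset.prod_pos fun _ h => q_pos S h

lemma mm_odd (S : CombSystem d X V) (χ : Fin d → ℤ) : Odd (mm S χ) := by
  unfold mm
  apply Finset.prod_induction _ Odd (fun a b ha hb => ha.mul hb) odd_one
  intro x hx
  exact S.q_odd x (Finset.mem_of_mem_erase hx)

/-- number of cells of the half circle -/
def KK (S : CombSystem d X V) : ℕ := MM S * S.g / 2

lemma two_KK (S : CombSystem d X V) : 2 * KK S = MM S * S.g := by
  unfold KK
  have : 2 ∣ MM S * S.g := (S.g_even.two_dvd).mul_left _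
  omega

lemma KK_pos (S : CombSystem d X V) : 0 < KK S := by
  have h := two_KK S
  have h2 : 0 < MM S * S.g := Nat.mul_pos (MM_pos S) S.g_pos
  omega

/-- left end of slot `(p, χ, s)` on the circle `ZMod (2K)` -/
def AA (S : CombSystem d X V) (p : ℕ) (χ : Fin d → ℤ) (s : ℕ) : ℤ :=
  (dot χ (S.R p) + s * (S.q χ * S.g)) % (2 * KK S : ℕ)

lemma AA_nonneg (S : CombSystem d X V) (p : ℕ) (χ : Fin d → ℤ) (s : ℕ) : 0 ≤ AA S p χ s :=
  Int.emod_nonneg _ (by have := KK_pos S; omega)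

lemma AA_lt (S : CombSystem d X V) (p : ℕ) (χ : Fin d → ℤ) (s : ℕ) :
    AA S p χ s < 2 * KK S := by
  have := Int.emod_lt_of_pos (dot χ (S.R p) + s * (S.q χ * S.g))
    (show (0 : ℤ) < (2 * KK S : ℕ) by have := KK_pos S; omega)
  unfold AA
  push_cast at this ⊢
  exact this

lemma qg_dvd (S : CombSystem d X V) {χ : Fin d → ℤ} (h : χ ∈ X) :
    ((S.q χ : ℤ) * S.g) ∣ (2 * KK S : ℕ) := by
  rw [two_KK, ← q_mul_mm S h]
  push_cast
  exact ⟨mm S χ, by ring⟩

lemma AA_dvd (S : CombSystem d X V) (p : ℕ) {χ : Fin d → ℤ} (h : χ ∈ X) (s : ℕ) :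
    ((S.q χ : ℤ) * S.g) ∣ AA S p χ s - dot χ (S.R p) := by
  unfold AA
  have h1 := Int.emod_add_mul_ediv (dot χ (S.R p) + s * (S.q χ * S.g)) ((2 * KK S : ℕ) : ℤ)
  set z := (dot χ (S.R p) + s * (S.q χ * S.g)) / ((2 * KK S : ℕ) : ℤ)
  obtain ⟨w, hw⟩ := qg_dvd S h
  refine ⟨s - w * z, ?_⟩
  have : (dot χ (S.R p) + s * (S.q χ * S.g)) % ((2 * KK S : ℕ) : ℤ) =
    dot χ (S.R p) + s * (S.q χ * S.g) - ((2 * KK S : ℕ) : ℤ) * z := by linarith only [h1]
  rw [this, hw]
  ring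

/-- the cell `x` of the circle is hit by mode `χ` of comb `p` -/
def Hit (S : CombSystem d X V) (p : ℕ) (χ : Fin d → ℤ) (x : ℤ) : Prop :=
  ∃ i, 0 ≤ i ∧ i < dot χ V ∧ ((S.q χ : ℤ) * S.g) ∣ (x - dot χ (S.R p) - i)

lemma hit_unique (S : CombSystem d X V) {p p' : ℕ} {χ χ' : Fin d → ℤ} {x : ℤ}
    (hp : p < S.P) (hp' : p' < S.P) (hχ : χ ∈ X) (hχ' : χ' ∈ X)
    (h : Hit S p χ x) (h' : Hit S p' χ' x) : p = p' ∧ χ = χ' := by
  obtain ⟨i, hi0, hi1, hi⟩ := h
  obtain ⟨i', hi0', hi1', hi'⟩ := h'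
  exact S.disj p hp p' hp' χ hχ χ' hχ' x i i' hi0 hi1 hi0' hi1' hi hi'

lemma hit_neg (S : CombSystem d X V) {p p' : ℕ} {χ χ' : Fin d → ℤ} {x : ℤ}
    (hp : p < S.P) (hp' : p' < S.P) (hχ : χ ∈ X) (hχ' : χ' ∈ X)
    (h : Hit S p χ x) (h' : Hit S p' χ' (-1 - x)) : False := by
  obtain ⟨i, hi0, hi1, hi⟩ := h
  obtain ⟨i', hi0', hi1', hi'⟩ := h'
  exact S.disj' p hp p' hp' χ hχ χ' hχ' x i i' hi0 hi1 hi0' hi1' hi hi'

lemma hit_of_mem (S : CombSystem d X V) {p : ℕ} {χ : Fin d → ℤ} (hχ : χ ∈ X) (s : ℕ) (x : ℤ)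
    (h1 : AA S p χ s ≤ x) (h2 : x < AA S p χ s + dot χ V) : Hit S p χ x := by
  refine ⟨x - AA S p χ s, by linarith, by linarith, ?_⟩
  have := AA_dvd S p hχ s
  rw [show x - dot χ (S.R p) - (x - AA S p χ s) = AA S p χ s - dot χ (S.R p) by ring]
  exact this

lemma hit_shift (S : CombSystem d X V) {p : ℕ} {χ : Fin d → ℤ} (hχ : χ ∈ X) (x y : ℤ)
    (h : Hit S p χ x) (hxy : ((2 * KK S : ℕ) : ℤ) ∣ x - y) : Hit S p χ y := by
  obtain ⟨i, hi0, hi1, hi⟩ := h
  refine ⟨i, hi0, hi1, ?_⟩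
  have h2 := (qg_dvd S hχ).trans hxy
  have : y - dot χ (S.R p) - i = (x - dot χ (S.R p) - i) - (x - y) := by ring
  rw [this]
  exact dvd_sub hi h2

/-- a slot never straddles `0` or `K` -/
lemma no_straddle (S : CombSystem d X V) {p : ℕ} (hp : p < S.P) {χ : Fin d → ℤ} (hχ : χ ∈ X)
    (s : ℕ) :
    AA S p χ s + dot χ V ≤ KK S ∨
      ((KK S : ℤ) ≤ AA S p χ s ∧ AA S p χ s + dot χ V ≤ 2 * KK S) := by
  by_contra hcon
  push Not at hcon
  obtain ⟨h1, h2⟩ := hcon
  rcases lt_or_ge (AA S p χ s) (KK S : ℤ) with hlt | hge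
  · have hx := hit_of_mem S (p := p) hχ s ((KK S : ℤ) - 1) (by omega) (by omega)
    have hy := hit_of_mem S (p := p) hχ s (KK S : ℤ) (by omega) (by omega)
    have hy' := hit_shift S hχ _ (-1 - ((KK S : ℤ) - 1)) hy ⟨1, by push_cast; ring⟩
    exact hit_neg S hp hp hχ hχ hx hy'
  · have h3 := h2 hge
    have hlt := AA_lt S p χ s
    have hx := hit_of_mem S (p := p) hχ s (2 * (KK S : ℤ) - 1) (by omega) (by omega)
    have hy := hit_of_mem S (p := p) hχ s (2 * (KK S : ℤ)) (by omega) (by omega)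
    have hy' := hit_shift S hχ _ (-1 - (2 * (KK S : ℤ) - 1)) hy ⟨2, by push_cast; ring⟩
    exact hit_neg S hp hp hχ hχ hx hy'

/-- index type of the comb slots -/
abbrev Slot (S : CombSystem d X V) : Type := Fin S.P × (Σ χ : {x // x ∈ X}, Fin (mm S χ.1))

variable (hG : GoodSet d X V)
include hG

omit hG in
lemma AA_inj (S : CombSystem d X V) (p : ℕ) {χ : Fin d → ℤ} (hχ : χ ∈ X)
    (hL : dot χ V ≤ (S.q χ : ℤ) * S.g) {s s' : ℕ} (hs : s < mm S χ) (hs' : s' < mm S χ) {x : ℤ}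
    (h1 : AA S p χ s ≤ x) (h2 : x < AA S p χ s + dot χ V)
    (h1' : AA S p χ s' ≤ x) (h2' : x < AA S p χ s' + dot χ V) : s = s' := by
  have hd := AA_dvd S p hχ s
  have hd' := AA_dvd S p hχ s'
  have hsub : ((S.q χ : ℤ) * S.g) ∣ AA S p χ s - AA S p χ s' := by
    have := dvd_sub hd hd'
    rwa [show AA S p χ s - dot χ (S.R p) - (AA S p χ s' - dot χ (S.R p)) =
      AA S p χ s - AA S p χ s' by ring] at this
  have hq : (0 : ℤ) < (S.q χ : ℤ) * S.g := by
    have := q_pos S hχ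
    have := S.g_pos
    positivity
  have heq : AA S p χ s = AA S p χ s' := by
    have h0 : AA S p χ s - AA S p χ s' = 0 := by
      apply Int.eq_zero_of_abs_lt_dvd hsub
      rw [abs_lt]; constructor <;> linarith
    linarith
  unfold AA at heq
  have h3 : ((2 * KK S : ℕ) : ℤ) ∣ (dot χ (S.R p) + s * (S.q χ * S.g)) -
      (dot χ (S.R p) + s' * (S.q χ * S.g)) := by
    exact Int.ModEq.dvd (show (dot χ (S.R p) + s' * (S.q χ * S.g)) ≡
      (dot χ (S.R p) + s * (S.q χ * S.g)) [ZMOD ((2 * KK S : ℕ) : ℤ)] from heq.symm)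
  rw [two_KK, ← q_mul_mm S hχ] at h3
  push_cast at h3
  have h4 : ((S.q χ : ℤ) * S.g) * (mm S χ : ℤ) ∣ ((S.q χ : ℤ) * S.g) * ((s : ℤ) - s') := by
    convert h3 using 1 <;> ring
  have h5 := (mul_dvd_mul_iff_left hq.ne').1 h4
  have h6 : (s : ℤ) - s' = 0 := by
    apply Int.eq_zero_of_abs_lt_dvd h5
    rw [abs_lt]; constructor <;> omega
  omega

end Vale.Agent.P110.CellProof
end

section

/-!
# P110, module C5, part 2: the trigonometric identity for a comb
-/

set_option autoImplicit false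

namespace Vale.Agent.P110.CellProof

open Finset

variable {d : ℕ} {X : Finset (Fin d → ℤ)} {V : Fin d → ℤ}

theorem ee_add (x y : ℝ) : e (x + y) = e x * e y := by
  unfold e
  rw [← Complex.exp_add]
  congr 1
  push_cast
  ring

theorem re_e (x : ℝ) : (e x).re = Real.cos (2 * Real.pi * x) := by
  unfold e
  rw [Complex.exp_ofReal_mul_I_re]

lemma cos_add_int (x : ℝ) (z : ℤ) :
    Real.cos (2 * Real.pi * (x + z)) = Real.cos (2 * Real.pi * x) := by
  rw [show 2 * Real.pi * (x + z) = 2 * Real.pi * x + z * (2 * Real.pi) by ring,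
    Real.cos_add_int_mul_two_pi]

/-- the integer `A_χ = χ·c / q_χ` -/
def Ac (S : CombSystem d X V) (χ : Fin d → ℤ) : ℤ := dot χ S.c / S.q χ

lemma Ac_mul (S : CombSystem d X V) {χ : Fin d → ℤ} (h : χ ∈ X) :
    (S.q χ : ℤ) * Ac S χ = dot χ S.c := Int.mul_ediv_cancel' (S.c_dvd χ h)

lemma Ac_coprime (S : CombSystem d X V) {χ : Fin d → ℤ} (h : χ ∈ X) :
    IsCoprime (Ac S χ) (mm S χ : ℤ) := by
  unfold mm
  push_cast
  apply IsCoprime.prod_right
  intro χ' hχ'
  have h1 := S.c_coprime χ' (Finset.mem_of_mem_erase hχ') χ h (Finset.ne_of_mem_erase hχ')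
  rw [← Ac_mul S h] at h1
  exact h1.of_mul_left_right

/-- sum of the cosines of a comb (one mode) -/
lemma comb_sum (S : CombSystem d X V) {χ : Fin d → ℤ} (hχ : χ ∈ X) (p : ℕ) (w : ℕ → ℝ)
    (hw : ∀ k : ℤ, ∑ s ∈ range (mm S χ), e (w s - k * s / (mm S χ)) =
      (Real.sqrt (mm S χ) : ℂ) * e (-((Ac S χ) * k ^ 2 / (mm S χ)))) (h : ℝ) (k : ℤ) (ζ : ℝ) :
    ∑ s : Fin (mm S χ), Real.cos (2 * Real.pi * (w s + h - k * (AA S p χ s / (2 * KK S))
        - (dot χ V : ℝ) / (2 * KK S) * ζ)) =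
      Real.sqrt (mm S χ) * Real.cos (2 * Real.pi * (∑ i, (χ i : ℝ) *
        ((S.c i : ℝ) * k ^ 2 / MM S + k * (S.R p i : ℝ) / (2 * KK S) + ζ * V i / (2 * KK S)) - h)) := by
  have hKpos : (0 : ℝ) < 2 * KK S := by have := KK_pos S; positivity
  have hmpos : (0 : ℝ) < mm S χ := by exact_mod_cast mm_pos S χ
  have hqpos : (0 : ℝ) < S.q χ := by exact_mod_cast q_pos S hχ
  have hgpos : (0 : ℝ) < S.g := by exact_mod_cast S.g_pos
  have h2K : (2 * KK S : ℝ) = S.q χ * mm S χ * S.g := by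
    have := two_KK S
    rw [← q_mul_mm S hχ] at this
    exact_mod_cast this
  have hMM : (MM S : ℝ) = S.q χ * mm S χ := by
    rw [← q_mul_mm S hχ]; push_cast; ring
  set φ : ℝ := h - k * (dot χ (S.R p) : ℝ) / (2 * KK S) - (dot χ V : ℝ) / (2 * KK S) * ζ with hφ
  -- every term
  have hterm : ∀ s : Fin (mm S χ), Real.cos (2 * Real.pi * (w s + h - k * (AA S p χ s / (2 * KK S))
        - (dot χ V : ℝ) / (2 * KK S) * ζ)) = (e φ * e (w s - k * s / (mm S χ))).re := by
    intro s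
    rw [← ee_add, re_e]
    have hA : ∃ z : ℤ, (AA S p χ s : ℝ) = dot χ (S.R p) + s * (S.q χ * S.g) - z * (2 * KK S) := by
      unfold AA
      refine ⟨(dot χ (S.R p) + s * (S.q χ * S.g)) / ((2 * KK S : ℕ) : ℤ), ?_⟩
      have h1 := Int.emod_add_mul_ediv (dot χ (S.R p) + s * (S.q χ * S.g)) ((2 * KK S : ℕ) : ℤ)
      have h2 : (dot χ (S.R p) + s * (S.q χ * S.g)) % ((2 * KK S : ℕ) : ℤ) =
        dot χ (S.R p) + s * (S.q χ * S.g) - ((dot χ (S.R p) + s * (S.q χ * S.g)) /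
          ((2 * KK S : ℕ) : ℤ)) * ((2 * KK S : ℕ) : ℤ) := by linarith only [h1]
      have h3 := congrArg (Int.cast : ℤ → ℝ) h2
      rw [h3]
      push_cast
      ring
    obtain ⟨z, hz⟩ := hA
    rw [hz, ← cos_add_int (φ + (w s - k * s / (mm S χ))) (k * z)]
    congr 2
    rw [hφ, h2K]
    push_cast
    field_simp
    ring
  rw [Finset.sum_congr rfl fun s _ => hterm s, ← Complex.re_sum, ← Finset.mul_sum]
  have hsum : ∑ s : Fin (mm S χ), e (w s - k * s / (mm S χ)) =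
      ∑ s ∈ range (mm S χ), e (w s - k * s / (mm S χ)) :=
    Fin.sum_univ_eq_sum_range (fun s => e (w s - k * s / (mm S χ))) (mm S χ)
  rw [hsum, hw k, mul_left_comm, ← ee_add, Complex.re_ofReal_mul, re_e]
  congr 1
  rw [← Real.cos_neg]
  congr 1
  have hAc : ((Ac S χ : ℤ) : ℝ) = (dot χ S.c : ℝ) / S.q χ := by
    rw [← Ac_mul S hχ]; push_cast; field_simp
  have hexp : ∑ i, (χ i : ℝ) *
      ((S.c i : ℝ) * k ^ 2 / MM S + k * (S.R p i : ℝ) / (2 * KK S) + ζ * V i / (2 * KK S)) =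
      (dot χ S.c : ℝ) * k ^ 2 / MM S + k * (dot χ (S.R p) : ℝ) / (2 * KK S) +
        ζ * (dot χ V : ℝ) / (2 * KK S) := by
    unfold dot
    push_cast
    simp only [mul_add, Finset.sum_add_distrib, Finset.sum_div, Finset.mul_sum, Finset.sum_mul]
    congr 1
    · congr 1
      · exact Finset.sum_congr rfl fun i _ => by ring
      · exact Finset.sum_congr rfl fun i _ => by ring
    · exact Finset.sum_congr rfl fun i _ => by ring
  rw [hexp, hφ, hAc, hMM, h2K]
  field_simp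
  ring

end Vale.Agent.P110.CellProof
end

section

/-! # TF, part c: the slots of a comb system as subsets of the circle -/

set_option autoImplicit false

namespace Vale.Agent.P130R.TF

open Finset MeasureTheory Filter Topology
open Vale.Agent.P110 (e dot GoodSet CombSystem)
open Vale.Agent.P110.CellProof

variable {d : ℕ} {X : Finset (Fin d → ℤ)} {V : Fin d → ℤ}

/-- left end of the slot `i` -/
noncomputable def tS (S : CombSystem d X V) (i : Slot S) : ℝ :=
  (AA S i.1 i.2.1.1 i.2.2 : ℝ) / (2 * KK S)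

/-- length of the slots of mode `χ` -/
noncomputable def lS (S : CombSystem d X V) (χ : Fin d → ℤ) : ℝ := (dot χ V : ℝ) / (2 * KK S)

/-- pieces: slot (`true`) and its mirror image (`false`) -/
def TS (S : CombSystem d X V) (j : Slot S × Bool) : Set ℝ :=
  if j.2 then Set.Ico (tS S j.1) (tS S j.1 + lS S j.1.2.1.1)
  else Set.Ico (1 - tS S j.1 - lS S j.1.2.1.1) (1 - tS S j.1)

theorem two_KK_pos (S : CombSystem d X V) : (0 : ℝ) < 2 * KK S := by
  have := KK_pos S
  positivity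

theorem measurable_TS (S : CombSystem d X V) (j : Slot S × Bool) : MeasurableSet (TS S j) := by
  unfold TS
  split_ifs
  · exact measurableSet_Ico
  · exact measurableSet_Ico

theorem tS_nonneg (S : CombSystem d X V) (i : Slot S) : 0 ≤ tS S i := by
  unfold tS
  have h := AA_nonneg S i.1 i.2.1.1 i.2.2
  have h1 : (0 : ℝ) ≤ AA S i.1 i.2.1.1 i.2.2 := by exact_mod_cast h
  exact div_nonneg h1 (two_KK_pos S).le

theorem tS_add_lS (S : CombSystem d X V) (i : Slot S) :
    tS S i + lS S i.2.1.1 ≤ 1 := by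
  unfold tS lS
  rw [← add_div, div_le_one (two_KK_pos S)]
  have h := no_straddle S i.1.2 i.2.1.2 i.2.2
  have h2 := KK_pos S
  have h3 : AA S i.1 i.2.1.1 i.2.2 + dot i.2.1.1 V ≤ 2 * KK S := by
    rcases h with h | ⟨_, h⟩
    · omega
    · exact h
  exact_mod_cast h3

theorem lS_pos (S : CombSystem d X V) (hG : GoodSet d X V) {χ : Fin d → ℤ} (hχ : χ ∈ X) :
    0 < lS S χ := by
  unfold lS
  have h := hG.V_pos χ hχ
  have h1 : (0 : ℝ) < dot χ V := by exact_mod_cast h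
  exact div_pos h1 (two_KK_pos S)

/-- membership in a slot in terms of cells -/
theorem mem_up (S : CombSystem d X V) (i : Slot S) (y : ℝ) :
    y ∈ TS S (i, true) ↔ AA S i.1 i.2.1.1 i.2.2 ≤ ⌊2 * KK S * y⌋ ∧
      ⌊2 * KK S * y⌋ < AA S i.1 i.2.1.1 i.2.2 + dot i.2.1.1 V := by
  unfold TS tS lS
  have hK := two_KK_pos S
  simp only [if_true, Set.mem_Ico]
  rw [Int.le_floor, Int.floor_lt, ← add_div, div_le_iff₀ hK, lt_div_iff₀ hK]
  push_cast
  rw [mul_comm y]

theorem mem_dn (S : CombSystem d X V) (i : Slot S) (y : ℝ) :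
    y ∈ TS S (i, false) ↔ AA S i.1 i.2.1.1 i.2.2 ≤ 2 * KK S - 1 - ⌊2 * KK S * y⌋ ∧
      2 * KK S - 1 - ⌊2 * KK S * y⌋ < AA S i.1 i.2.1.1 i.2.2 + dot i.2.1.1 V := by
  have hK := two_KK_pos S
  have h1 : y ∈ TS S (i, false) ↔
      (2 * KK S - AA S i.1 i.2.1.1 i.2.2 - dot i.2.1.1 V : ℤ) ≤ ⌊2 * KK S * y⌋ ∧
      ⌊2 * KK S * y⌋ < (2 * KK S - AA S i.1 i.2.1.1 i.2.2 : ℤ) := by
    unfold TS tS lS
    simp only [Bool.false_eq_true, if_false, Set.mem_Ico]
    rw [Int.le_floor, Int.floor_lt]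
    have e1 : (1 : ℝ) - (AA S i.1 i.2.1.1 i.2.2 : ℝ) / (2 * KK S) - (dot i.2.1.1 V : ℝ) / (2 * KK S)
        = (2 * KK S - AA S i.1 i.2.1.1 i.2.2 - dot i.2.1.1 V) / (2 * KK S) := by
      rw [sub_div, sub_div, div_self hK.ne']
    have e2 : (1 : ℝ) - (AA S i.1 i.2.1.1 i.2.2 : ℝ) / (2 * KK S)
        = (2 * KK S - AA S i.1 i.2.1.1 i.2.2) / (2 * KK S) := by
      rw [sub_div, div_self hK.ne']
    rw [e1, e2, div_le_iff₀ hK, lt_div_iff₀ hK]
    push_cast
    rw [mul_comm y]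
  rw [h1]
  omega

theorem TS_sub (S : CombSystem d X V) (hG : GoodSet d X V) (j : Slot S × Bool) :
    TS S j ⊆ Set.Ico 0 1 := by
  intro y hy
  have h1 := tS_nonneg S j.1
  have h2 := tS_add_lS S j.1
  have h3 := lS_pos S hG j.1.2.1.2
  unfold TS at hy
  split_ifs at hy
  · exact ⟨by linarith [hy.1], by linarith [hy.2]⟩
  · exact ⟨by linarith [hy.1], by linarith [hy.2]⟩

theorem slot_ext (S : CombSystem d X V) (hL : ∀ χ ∈ X, dot χ V ≤ (S.q χ : ℤ) * S.g)
    (i i' : Slot S) (x : ℤ) (h1 : AA S i.1 i.2.1.1 i.2.2 ≤ x)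
    (h2 : x < AA S i.1 i.2.1.1 i.2.2 + dot i.2.1.1 V)
    (h1' : AA S i'.1 i'.2.1.1 i'.2.2 ≤ x)
    (h2' : x < AA S i'.1 i'.2.1.1 i'.2.2 + dot i'.2.1.1 V) : i = i' := by
  obtain ⟨p, ⟨χ, hχ⟩, s⟩ := i
  obtain ⟨p', ⟨χ', hχ'⟩, s'⟩ := i'
  simp only at h1 h2 h1' h2'
  have a1 := hit_of_mem S (p := p) hχ s x h1 h2
  have a2 := hit_of_mem S (p := p') hχ' s' x h1' h2'
  obtain ⟨hp, hc⟩ := hit_unique S p.2 p'.2 hχ hχ' a1 a2
  subst hc
  have hp2 : p = p' := Fin.ext hp
  subst hp2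
  have hs := AA_inj S p hχ (hL χ hχ) s.2 s'.2 (x := x) h1 h2 h1' h2'
  have : s = s' := Fin.ext hs
  subst this
  rfl

theorem TS_disj (S : CombSystem d X V) (hL : ∀ χ ∈ X, dot χ V ≤ (S.q χ : ℤ) * S.g)
    (j j' : Slot S × Bool) (y : ℝ) (hy : y ∈ TS S j) (hy' : y ∈ TS S j') : j = j' := by
  have key : ∀ i i' : Slot S, y ∈ TS S (i, true) → y ∈ TS S (i', false) → False := by
    intro i i' h h'
    rw [mem_up] at h
    rw [mem_dn] at h'
    have a1 := hit_of_mem S (p := i.1) i.2.1.2 i.2.2 _ h.1 h.2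
    have a2 := hit_of_mem S (p := i'.1) i'.2.1.2 i'.2.2 _ h'.1 h'.2
    exact hit_neg S i.1.2 i'.1.2 i.2.1.2 i'.2.1.2 a1
      (hit_shift S i'.2.1.2 _ _ a2 ⟨1, by push_cast; ring⟩)
  obtain ⟨i, b⟩ := j
  obtain ⟨i', b'⟩ := j'
  cases b <;> cases b'
  · rw [mem_dn] at hy hy'
    rw [slot_ext S hL i i' _ hy.1 hy.2 hy'.1 hy'.2]
  · exact absurd (key i' i hy' hy) id
  · exact absurd (key i i' hy hy') id
  · rw [mem_up] at hy hy'
    rw [slot_ext S hL i i' _ hy.1 hy.2 hy'.1 hy'.2]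

theorem volume_TS (S : CombSystem d X V) (hG : GoodSet d X V) (j : Slot S × Bool) :
    (volume (TS S j)).toReal = lS S j.1.2.1.1 := by
  have h := lS_pos S hG j.1.2.1.2
  unfold TS
  split_ifs
  · rw [Real.volume_Ico, ENNReal.toReal_ofReal (by linarith)]
    ring
  · rw [Real.volume_Ico, ENNReal.toReal_ofReal (by linarith)]
    ring

end Vale.Agent.P130R.TF
end

section

/-!
# P130R, ROUND, part A: exponential sums in the square mean
-/

set_option autoImplicit false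

namespace Vale.Agent.P130R.Round

open Finset MeasureTheory Filter Topology
open Vale.Agent.P110 (e dot GoodSet)

theorem norm_e (t : ℝ) : ‖e t‖ = 1 := by
  unfold e
  exact Complex.norm_exp_ofReal_mul_I _

theorem e_zero : e 0 = 1 := by
  unfold e
  simp

theorem e_add (s t : ℝ) : e (s + t) = e s * e t := by
  unfold e
  rw [← Complex.exp_add]
  congr 1
  push_cast
  ring

theorem e_neg (t : ℝ) : e (-t) = starRingEnd ℂ (e t) := by
  unfold e
  rw [← Complex.exp_conj]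
  congr 1
  rw [map_mul, Complex.conj_ofReal, Complex.conj_I]
  push_cast
  ring

theorem e_sub (s t : ℝ) : e (s - t) = e s * starRingEnd ℂ (e t) := by
  rw [sub_eq_add_neg, e_add, e_neg]

theorem continuous_e : Continuous e := by
  unfold e
  fun_prop

theorem e_nat_mul (k : ℕ) (x : ℝ) : e (k * x) = e x ^ k := by
  unfold e
  rw [← Complex.exp_nat_mul]
  congr 1
  push_cast
  ring

/-- orthogonality -/
theorem integral_e_int (m : ℤ) :
    ∫ x in (0 : ℝ)..1, e ((m : ℝ) * x) = if m = 0 then 1 else 0 := by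
  split_ifs with h
  · subst h
    simp [e_zero]
  · have hc : (2 * Real.pi * m * Complex.I : ℂ) ≠ 0 := by
      simp [Real.pi_ne_zero, h, Complex.I_ne_zero]
    have h1 : ∀ x : ℝ, e ((m : ℝ) * x) = Complex.exp ((2 * Real.pi * m * Complex.I : ℂ) * x) := by
      intro x
      unfold e
      congr 1
      push_cast
      ring
    simp_rw [h1]
    rw [integral_exp_mul_complex hc]
    have h2 : Complex.exp ((2 * Real.pi * m * Complex.I : ℂ) * (1 : ℝ)) = 1 := by
      rw [Complex.exp_eq_one_iff]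
      exact ⟨m, by push_cast; ring⟩
    rw [h2]
    simp

theorem integral_e_mul_conj (k l : ℕ) :
    ∫ x in (0 : ℝ)..1, e ((k : ℝ) * x) * starRingEnd ℂ (e ((l : ℝ) * x)) =
      if k = l then 1 else 0 := by
  have h1 : ∀ x : ℝ, e ((k : ℝ) * x) * starRingEnd ℂ (e ((l : ℝ) * x)) =
      e ((((k : ℤ) - (l : ℤ) : ℤ) : ℝ) * x) := by
    intro x
    rw [← e_sub]
    congr 1
    push_cast
    ring
  simp_rw [h1]
  rw [integral_e_int]
  by_cases h : k = l
  · simp [h]
  · have : ¬ ((k : ℤ) - (l : ℤ) = 0) := by omega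
    simp [h, this]

/-- normalised exponential sum -/
noncomputable def TS (q : ℕ) (c : ℕ → ℂ) (x : ℝ) : ℂ :=
  ((Real.sqrt q : ℝ) : ℂ)⁻¹ * ∑ k ∈ range q, c k * e (k * x)

theorem continuous_TS (q : ℕ) (c : ℕ → ℂ) : Continuous (TS q c) := by
  unfold TS
  have := continuous_e
  fun_prop

theorem norm_TS_le (q : ℕ) (c : ℕ → ℂ) (x : ℝ) :
    ‖TS q c x‖ ≤ (Real.sqrt q)⁻¹ * ∑ k ∈ range q, ‖c k‖ := by
  unfold TS
  rw [norm_mul, norm_inv, Complex.norm_real, Real.norm_of_nonneg (Real.sqrt_nonneg _)]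
  apply mul_le_mul_of_nonneg_left _ (inv_nonneg.mpr (Real.sqrt_nonneg _))
  refine (norm_sum_le _ _).trans (Finset.sum_le_sum fun k _ => ?_)
  rw [norm_mul, norm_e, mul_one]

theorem TS_add (q : ℕ) (c d : ℕ → ℂ) (x : ℝ) :
    TS q (fun k => c k + d k) x = TS q c x + TS q d x := by
  unfold TS
  rw [← mul_add, ← Finset.sum_add_distrib]
  simp_rw [add_mul]

theorem TS_smul (q : ℕ) (r : ℂ) (c : ℕ → ℂ) (x : ℝ) :
    TS q (fun k => r * c k) x = r * TS q c x := by
  unfold TS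
  rw [mul_left_comm, Finset.mul_sum (range q) _ r]
  simp_rw [mul_assoc]

theorem TS_sum {ι : Type*} (s : Finset ι) (q : ℕ) (c : ι → ℕ → ℂ) (x : ℝ) :
    TS q (fun k => ∑ i ∈ s, c i k) x = ∑ i ∈ s, TS q (c i) x := by
  unfold TS
  rw [← Finset.mul_sum, Finset.sum_comm]
  simp_rw [Finset.sum_mul]

/-- Parseval, sesquilinear form -/
theorem parseval_inner (q : ℕ) (c d : ℕ → ℂ) :
    ∫ x in (0 : ℝ)..1, TS q c x * starRingEnd ℂ (TS q d x) =
      (q : ℂ)⁻¹ * ∑ k ∈ range q, c k * starRingEnd ℂ (d k) := by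
  have h1 : ∀ x : ℝ, TS q c x * starRingEnd ℂ (TS q d x) =
      (q : ℂ)⁻¹ * ∑ k ∈ range q, ∑ l ∈ range q, (c k * starRingEnd ℂ (d l)) *
        (e ((k : ℝ) * x) * starRingEnd ℂ (e ((l : ℝ) * x))) := by
    intro x
    unfold TS
    rw [map_mul, map_inv₀, Complex.conj_ofReal, map_sum]
    have h2 : ((Real.sqrt q : ℝ) : ℂ)⁻¹ * ((Real.sqrt q : ℝ) : ℂ)⁻¹ = (q : ℂ)⁻¹ := by
      rw [← mul_inv, ← Complex.ofReal_mul, Real.mul_self_sqrt (Nat.cast_nonneg q)]
      simp
    rw [← h2]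
    have h3 : (∑ k ∈ range q, c k * e (k * x)) *
        (∑ l ∈ range q, starRingEnd ℂ (d l * e (l * x))) =
        ∑ k ∈ range q, ∑ l ∈ range q, (c k * starRingEnd ℂ (d l)) *
        (e ((k : ℝ) * x) * starRingEnd ℂ (e ((l : ℝ) * x))) := by
      rw [Finset.sum_mul_sum]
      refine Finset.sum_congr rfl fun k _ => Finset.sum_congr rfl fun l _ => ?_
      rw [map_mul]
      ring
    rw [← h3]
    ring
  simp_rw [h1]
  rw [intervalIntegral.integral_const_mul]
  congr 1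
  rw [intervalIntegral.integral_finsetSum]
  · refine Finset.sum_congr rfl fun k hk => ?_
    rw [intervalIntegral.integral_finsetSum]
    · simp_rw [intervalIntegral.integral_const_mul, integral_e_mul_conj]
      simp only [mul_ite, mul_one, mul_zero]
      rw [Finset.sum_ite_eq (range q) k]
      simp [hk]
    · intro l _
      apply Continuous.intervalIntegrable
      have := continuous_e
      have h4 : Continuous (fun x : ℝ => starRingEnd ℂ (e ((l : ℝ) * x))) :=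
        Complex.continuous_conj.comp (this.comp (by fun_prop))
      have h5 : Continuous (fun x : ℝ => e ((k : ℝ) * x)) := this.comp (by fun_prop)
      exact continuous_const.mul (h5.mul h4)
  · intro k _
    apply Continuous.intervalIntegrable
    apply continuous_finsetSum
    intro l _
    have := continuous_e
    have h4 : Continuous (fun x : ℝ => starRingEnd ℂ (e ((l : ℝ) * x))) :=
      Complex.continuous_conj.comp (this.comp (by fun_prop))
    have h5 : Continuous (fun x : ℝ => e ((k : ℝ) * x)) := this.comp (by fun_prop)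
    exact continuous_const.mul (h5.mul h4)

/-- Parseval -/
theorem parseval (q : ℕ) (c : ℕ → ℂ) :
    ∫ x in (0 : ℝ)..1, ‖TS q c x‖ ^ 2 = (q : ℝ)⁻¹ * ∑ k ∈ range q, ‖c k‖ ^ 2 := by
  have h := parseval_inner q c c
  have h1 : ∀ z : ℂ, z * starRingEnd ℂ z = ((‖z‖ ^ 2 : ℝ) : ℂ) := by
    intro z
    rw [Complex.mul_conj, Complex.normSq_eq_norm_sq]
  simp_rw [h1] at h
  rw [intervalIntegral.integral_ofReal] at h
  have h2 : (q : ℂ)⁻¹ * ∑ k ∈ range q, ((‖c k‖ ^ 2 : ℝ) : ℂ) =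
      (((q : ℝ)⁻¹ * ∑ k ∈ range q, ‖c k‖ ^ 2 : ℝ) : ℂ) := by
    push_cast
    rfl
  rw [h2] at h
  exact_mod_cast h

/-- measurable bounded functions are interval integrable -/
theorem ii {E : Type*} [NormedAddCommGroup E] [MeasurableSpace E] [BorelSpace E]
    [SecondCountableTopology E] {f : ℝ → E} (hf : Measurable f)
    {C : ℝ} (hb : ∀ x, ‖f x‖ ≤ C) (a b : ℝ) : IntervalIntegrable f volume a b := by
  rw [intervalIntegrable_iff]
  apply Measure.integrableOn_of_bounded (M := C)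
  · simp
  · exact hf.aestronglyMeasurable
  · exact Eventually.of_forall hb

end Vale.Agent.P130R.Round
end

section

/-!
# P130R, ROUND, part C: the model spectrum
-/

set_option autoImplicit false

namespace Vale.Agent.P130R.Round

open Finset MeasureTheory Filter Topology
open Vale.Agent.P110 (e dot GoodSet)

theorem vol_eq (P : ℝ → Prop) [DecidablePred P] (hP : MeasurableSet {x | P x}) :
    (volume {x : ℝ | 0 ≤ x ∧ x < 1 ∧ P x}).toReal = ∫ x in (0 : ℝ)..1, (if P x then (1 : ℝ) else 0) := by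
  rw [intervalIntegral.integral_of_le zero_le_one, integral_Ioc_eq_integral_Ioo,
    ← integral_Ico_eq_integral_Ioo]
  have h1 : (fun x => if P x then (1 : ℝ) else 0) = {x | P x}.indicator 1 := by
    ext x
    by_cases h : P x <;> simp [h]
  rw [h1, integral_indicator_one hP, Measure.real, Measure.restrict_apply hP]
  congr 2
  ext x
  simp only [Set.mem_ofPred_eq, Set.mem_inter_iff, Set.mem_Ico]
  tauto

section
variable {ι : Type*} [DecidableEq ι]

/-- the model spectrum with weights `w` -/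
noncomputable def QQ (X : Finset ι) (M : ℝ → Option ι) (u : ℝ → ℂ) (w : ι → ℝ) (x : ℝ) : ℂ :=
  ∑ χ ∈ X, (w χ : ℂ) * (if M x = some χ then u x else 0)

theorem measurable_piece {M : ℝ → Option ι} {u : ℝ → ℂ} (hu : Measurable u)
    (hM : ∀ χ, MeasurableSet {x | M x = some χ}) (χ : ι) :
    Measurable (fun x => if M x = some χ then u x else 0) :=
  Measurable.ite (hM χ) hu measurable_const

theorem measurable_QQ (X : Finset ι) {M : ℝ → Option ι} {u : ℝ → ℂ} (hu : Measurable u)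
    (hM : ∀ χ, MeasurableSet {x | M x = some χ}) (w : ι → ℝ) : Measurable (QQ X M u w) := by
  unfold QQ
  apply Finset.measurable_fun_sum
  intro χ _
  exact measurable_const.mul (measurable_piece hu hM χ)

theorem QQ_some (X : Finset ι) {M : ℝ → Option ι} {u : ℝ → ℂ} (w : ι → ℝ) {x : ℝ} {χ : ι}
    (h : M x = some χ) (hχ : χ ∈ X) : QQ X M u w x = w χ * u x := by
  unfold QQ
  rw [h, Finset.sum_eq_single χ]
  · simp
  · intro b _ hb
    have : ¬ (some χ = some b) := fun h => hb (Option.some.inj h).symm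
    simp [this]
  · intro h
    exact absurd hχ h

theorem QQ_none (X : Finset ι) {M : ℝ → Option ι} {u : ℝ → ℂ} (w : ι → ℝ) {x : ℝ}
    (h : M x = none) : QQ X M u w x = 0 := by
  unfold QQ
  rw [h]
  simp

theorem sum_some (X : Finset ι) {M : ℝ → Option ι} (w : ι → ℝ) {x : ℝ} {χ : ι}
    (h : M x = some χ) (hχ : χ ∈ X) :
    ∑ χ' ∈ X, w χ' * (if M x = some χ' then (1 : ℝ) else 0) = w χ := by
  rw [h, Finset.sum_eq_single χ]
  · simp
  · intro b _ hb
    have : ¬ (some χ = some b) := fun h => hb (Option.some.inj h).symm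
    simp [this]
  · intro h
    exact absurd hχ h

theorem norm_QQ_sq (X : Finset ι) {M : ℝ → Option ι} {u : ℝ → ℂ} (hn : ∀ x, ‖u x‖ = 1)
    (hX : ∀ x χ, M x = some χ → χ ∈ X) (w : ι → ℝ) (x : ℝ) :
    ‖QQ X M u w x‖ ^ 2 = ∑ χ ∈ X, w χ ^ 2 * (if M x = some χ then (1 : ℝ) else 0) := by
  rcases h : M x with _ | χ
  · rw [QQ_none X w h]
    simp
  · rw [QQ_some X w h (hX x χ h), ← h, sum_some X (fun χ => w χ ^ 2) h (hX x χ h), norm_mul,
      Complex.norm_real, hn, mul_one, Real.norm_eq_abs, sq_abs]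

theorem norm_QQ_le (X : Finset ι) {M : ℝ → Option ι} {u : ℝ → ℂ} (hn : ∀ x, ‖u x‖ = 1)
    (hX : ∀ x χ, M x = some χ → χ ∈ X) (w : ι → ℝ) (hw : ∀ χ ∈ X, |w χ| ≤ 1) (x : ℝ) :
    ‖QQ X M u w x‖ ≤ 1 := by
  rcases h : M x with _ | χ
  · rw [QQ_none X w h]
    simp
  · rw [QQ_some X w h (hX x χ h), norm_mul, Complex.norm_real, hn, mul_one, Real.norm_eq_abs]
    exact hw χ (hX x χ h)

theorem ii_ite {M : ℝ → Option ι} (hM : ∀ χ, MeasurableSet {x | M x = some χ}) (χ : ι) :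
    IntervalIntegrable (fun x => if M x = some χ then (1 : ℝ) else 0) volume 0 1 := by
  refine ii (C := 1) ?_ ?_ _ _
  · exact Measurable.ite (hM χ) measurable_const measurable_const
  · intro x
    split_ifs <;> simp

theorem integral_sum_ite (X : Finset ι) {M : ℝ → Option ι}
    (hM : ∀ χ, MeasurableSet {x | M x = some χ}) (w : ι → ℝ) :
    ∫ x in (0 : ℝ)..1, ∑ χ ∈ X, w χ * (if M x = some χ then (1 : ℝ) else 0) =
      ∑ χ ∈ X, w χ * ∫ x in (0 : ℝ)..1, (if M x = some χ then (1 : ℝ) else 0) := by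
  rw [intervalIntegral.integral_finsetSum]
  · simp_rw [intervalIntegral.integral_const_mul]
  · intro χ _
    exact (ii_ite hM χ).const_mul _

theorem integral_QQ_sq (X : Finset ι) {M : ℝ → Option ι} {u : ℝ → ℂ} (hn : ∀ x, ‖u x‖ = 1)
    (hM : ∀ χ, MeasurableSet {x | M x = some χ})
    (hX : ∀ x χ, M x = some χ → χ ∈ X) (w : ι → ℝ) :
    ∫ x in (0 : ℝ)..1, ‖QQ X M u w x‖ ^ 2 =
      ∑ χ ∈ X, w χ ^ 2 * ∫ x in (0 : ℝ)..1, (if M x = some χ then (1 : ℝ) else 0) := by
  simp_rw [norm_QQ_sq X hn hX w]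
  exact integral_sum_ite X hM _

/-- weighted sums of modes -/
theorem gw (X : Finset ι) {M : ℝ → Option ι} {u : ℝ → ℂ} (hu : Measurable u)
    (hM : ∀ χ, MeasurableSet {x | M x = some χ}) (hn : ∀ x, ‖u x‖ = 1)
    (q : ℕ) (φ : ι → ℕ → ℝ) (c : ℝ) {ε : ℝ}
    (h : ∀ χ ∈ X, ∫ x in (0 : ℝ)..1, ‖TS q (fun k => (φ χ k : ℂ)) x -
      (c : ℂ) * (if M x = some χ then u x else 0)‖ ^ 2 ≤ ε) (w : ι → ℝ)
    (hw : ∀ χ ∈ X, |w χ| ≤ 1) :
    ∫ x in (0 : ℝ)..1, ‖TS q (fun k => ((∑ χ ∈ X, w χ * φ χ k : ℝ) : ℂ)) x -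
      (c : ℂ) * QQ X M u w x‖ ^ 2 ≤ (X.card : ℝ) ^ 2 * ε := by
  have h1 : ∀ x, TS q (fun k => ((∑ χ ∈ X, w χ * φ χ k : ℝ) : ℂ)) x - (c : ℂ) * QQ X M u w x =
      ∑ χ ∈ X, (w χ : ℂ) * (TS q (fun k => (φ χ k : ℂ)) x -
        (c : ℂ) * (if M x = some χ then u x else 0)) := by
    intro x
    have h2 : (fun k => ((∑ χ ∈ X, w χ * φ χ k : ℝ) : ℂ)) =
        fun k => ∑ χ ∈ X, (w χ : ℂ) * (φ χ k : ℂ) := by
      ext k
      push_cast
      rfl
    rw [h2, TS_sum]
    unfold QQ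
    rw [Finset.mul_sum, ← Finset.sum_sub_distrib]
    refine Finset.sum_congr rfl fun χ _ => ?_
    rw [TS_smul]
    ring
  have hv : ∀ χ ∈ X, IntervalIntegrable (fun x => ‖TS q (fun k => (φ χ k : ℂ)) x -
      (c : ℂ) * (if M x = some χ then u x else 0)‖ ^ 2) volume 0 1 := by
    intro χ _
    have hm1 : Measurable (TS q (fun k => (φ χ k : ℂ))) := (continuous_TS _ _).measurable
    refine ii (C := ((Real.sqrt q)⁻¹ * ∑ k ∈ range q, ‖(φ χ k : ℂ)‖ + ‖(c : ℂ)‖) ^ 2) ?_ ?_ _ _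
    · exact ((hm1.sub (measurable_const.mul (measurable_piece hu hM χ))).norm).pow_const 2
    · intro x
      rw [Real.norm_of_nonneg (by positivity)]
      refine pow_le_pow_left₀ (norm_nonneg _) ?_ 2
      refine (norm_sub_le _ _).trans (add_le_add (norm_TS_le q _ x) ?_)
      rw [norm_mul]
      have : ‖(if M x = some χ then u x else 0)‖ ≤ 1 := by
        split_ifs
        · rw [hn]
        · simp
      exact mul_le_of_le_one_right (norm_nonneg _) this
  have h3 : ∫ x in (0 : ℝ)..1, ‖TS q (fun k => ((∑ χ ∈ X, w χ * φ χ k : ℝ) : ℂ)) x -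
      (c : ℂ) * QQ X M u w x‖ ^ 2 ≤ ∫ x in (0 : ℝ)..1, (X.card : ℝ) * ∑ χ ∈ X,
        ‖TS q (fun k => (φ χ k : ℂ)) x - (c : ℂ) * (if M x = some χ then u x else 0)‖ ^ 2 := by
    apply intervalIntegral.integral_mono_on zero_le_one
    · have hm1 : Measurable (TS q (fun k => ((∑ χ ∈ X, w χ * φ χ k : ℝ) : ℂ))) :=
        (continuous_TS _ _).measurable
      refine ii (C := ((Real.sqrt q)⁻¹ * ∑ k ∈ range q, ‖((∑ χ ∈ X, w χ * φ χ k : ℝ) : ℂ)‖ +
        ‖(c : ℂ)‖ * ∑ χ ∈ X, ‖(w χ : ℂ)‖) ^ 2) ?_ ?_ _ _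
      · exact ((hm1.sub (measurable_const.mul (measurable_QQ X hu hM w))).norm).pow_const 2
      · intro x
        rw [Real.norm_of_nonneg (by positivity)]
        refine pow_le_pow_left₀ (norm_nonneg _) ?_ 2
        refine (norm_sub_le _ _).trans (add_le_add (norm_TS_le q _ x) ?_)
        rw [norm_mul]
        refine mul_le_mul_of_nonneg_left ?_ (norm_nonneg _)
        unfold QQ
        refine (norm_sum_le _ _).trans (Finset.sum_le_sum fun χ _ => ?_)
        rw [norm_mul]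
        have : ‖(if M x = some χ then u x else 0)‖ ≤ 1 := by
          split_ifs
          · rw [hn]
          · simp
        exact mul_le_of_le_one_right (norm_nonneg _) this
    · refine ((IntervalIntegrable.sum X hv).const_mul (X.card : ℝ)).congr ?_
      intro x _
      simp only [Finset.sum_apply]
    · intro x _
      rw [h1]
      calc ‖∑ χ ∈ X, (w χ : ℂ) * (TS q (fun k => (φ χ k : ℂ)) x -
              (c : ℂ) * (if M x = some χ then u x else 0))‖ ^ 2
          ≤ (∑ χ ∈ X, ‖TS q (fun k => (φ χ k : ℂ)) x -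
              (c : ℂ) * (if M x = some χ then u x else 0)‖) ^ 2 := by
            refine pow_le_pow_left₀ (norm_nonneg _) ?_ 2
            refine (norm_sum_le _ _).trans (Finset.sum_le_sum fun χ hχ => ?_)
            rw [norm_mul, Complex.norm_real, Real.norm_eq_abs]
            exact mul_le_of_le_one_left (norm_nonneg _) (hw χ hχ)
        _ ≤ _ := sq_sum_le_card_mul_sum_sq
  refine h3.trans ?_
  rw [intervalIntegral.integral_const_mul, intervalIntegral.integral_finsetSum hv, sq, mul_assoc]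
  refine mul_le_mul_of_nonneg_left ?_ (Nat.cast_nonneg _)
  calc ∑ χ ∈ X, ∫ x in (0 : ℝ)..1, ‖TS q (fun k => (φ χ k : ℂ)) x -
      (c : ℂ) * (if M x = some χ then u x else 0)‖ ^ 2 ≤ ∑ χ ∈ X, ε := Finset.sum_le_sum h
    _ = X.card * ε := by rw [Finset.sum_const, nsmul_eq_mul]

end

end Vale.Agent.P130R.Round
end

section

/-!
# P130R: decoupling
-/

set_option autoImplicit false

namespace Vale.Agent.P130R.Dec

open Finset MeasureTheory
open Vale.Agent.P110 (e)
open Vale.Agent.P110.AT (norm_e e_add e_neg e_zero e_int e_add_int continuous_e)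

theorem e_nat (m : ℕ) : e m = 1 := by
  have := e_int (m : ℤ)
  simpa using this

theorem e_add_nat (x : ℝ) (m : ℕ) : e (x + m) = e x := by
  rw [e_add, e_nat, mul_one]

theorem e_pow (t : ℝ) (k : ℕ) : e (k * t) = e t ^ k := by
  induction k with
  | zero => simp [e_zero]
  | succ k ih =>
    rw [pow_succ, ← ih, ← e_add]
    congr 1
    push_cast
    ring

theorem e_ne_one (H : ℕ) (m : ℤ) (hm : |m| < H) (h0 : m ≠ 0) : e (m / H) ≠ 1 := by
  intro h
  unfold Vale.Agent.P110.e at h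
  rw [Complex.exp_eq_one_iff] at h
  obtain ⟨n, hn⟩ := h
  have hH : (0 : ℝ) < H := by
    have : (0 : ℤ) < H := lt_of_le_of_lt (abs_nonneg m) hm
    exact_mod_cast this
  have h2 : ((2 * Real.pi * (m / H) : ℝ) : ℂ) = ((n * (2 * Real.pi) : ℝ) : ℂ) := by
    have h3 : ((2 * Real.pi * (m / H) : ℝ) : ℂ) * Complex.I =
        ((n * (2 * Real.pi) : ℝ) : ℂ) * Complex.I := by
      rw [hn]
      push_cast
      ring
    exact mul_right_cancel₀ Complex.I_ne_zero h3
  have h4 : 2 * Real.pi * (m / H : ℝ) = n * (2 * Real.pi) := by exact_mod_cast h2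
  have h5 : (m : ℝ) / H = n := by
    have hpi := Real.pi_pos
    have : 2 * Real.pi * ((m : ℝ) / H) = 2 * Real.pi * n := by rw [h4]; ring
    exact mul_left_cancel₀ (by positivity) this
  have h6 : (m : ℝ) = n * H := by
    rw [div_eq_iff hH.ne'] at h5
    exact h5
  have h7 : m = n * H := by exact_mod_cast h6
  have h8 : n ≠ 0 := by
    rintro rfl
    simp at h7
    exact h0 h7
  have h9 : (1 : ℤ) ≤ |n| := Int.one_le_abs h8
  rw [h7, abs_mul] at hm
  have h10 : |(H : ℤ)| = H := abs_of_nonneg (by positivity)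
  rw [h10] at hm
  have h11 : (0 : ℤ) ≤ H := by positivity
  nlinarith only [hm, h9]

theorem geom_e (H : ℕ) (m : ℤ) (hm : |m| < H) (h0 : m ≠ 0) :
    ∑ a ∈ range H, e (a * (m / H)) = 0 := by
  have h1 : (∑ a ∈ range H, e (m / H) ^ a) * (e (m / H) - 1) = e (m / H) ^ H - 1 :=
    geom_sum_mul _ _
  have hH : (H : ℝ) ≠ 0 := by
    have : (0 : ℤ) < H := lt_of_le_of_lt (abs_nonneg m) hm
    have : (0 : ℝ) < H := by exact_mod_cast this
    exact this.ne'
  have h2 : e (m / H) ^ H = 1 := by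
    rw [← e_pow]
    have : (H : ℝ) * (m / H) = ((m : ℤ) : ℝ) := by field_simp
    rw [this, e_int]
  rw [h2, sub_self] at h1
  have h3 := e_ne_one H m hm h0
  rcases mul_eq_zero.mp h1 with h4 | h4
  · rw [← h4]
    exact Finset.sum_congr rfl fun a _ => e_pow _ _
  · exact absurd (sub_eq_zero.mp h4) h3

theorem intervalIntegrable_of_bdd (g : ℝ → ℂ) (hgm : Measurable g) (C : ℝ)
    (hgb : ∀ x, ‖g x‖ ≤ C) (a b : ℝ) : IntervalIntegrable g volume a b := by
  rw [intervalIntegrable_iff]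
  refine Measure.integrableOn_of_bounded (M := C) ?_ hgm.aestronglyMeasurable ?_
  · rw [Set.uIoc]
    exact measure_Ioc_lt_top.ne
  · exact Filter.Eventually.of_forall hgb

theorem integral_decouple (H : ℕ) (hH : 1 ≤ H) (m : ℤ) (hm : |m| < H) (g : ℝ → ℂ)
    (hgm : Measurable g) (C : ℝ) (hgb : ∀ x, ‖g x‖ ≤ C) (hgp : ∀ x, g (x + 1) = g x) :
    ∫ x in (0 : ℝ)..1, e (m * x) * g (H * x) =
      (if m = 0 then 1 else 0) * ∫ x in (0 : ℝ)..1, g x := by
  have hH0 : (H : ℝ) ≠ 0 := by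
    have : (0 : ℝ) < H := by exact_mod_cast hH
    exact this.ne'
  have hper : ∀ (x : ℝ) (a : ℕ), g (x + a) = g x := by
    intro x a
    induction a with
    | zero => simp
    | succ a ih =>
      rw [← ih, ← hgp (x + a)]
      congr 1
      push_cast
      ring
  set f : ℝ → ℂ := fun y => e (m * y / H) * g y with hf
  have hfm : Measurable f := by
    apply Measurable.mul
    · exact (continuous_e.comp (by fun_prop)).measurable
    · exact hgm
  have hfb : ∀ x, ‖f x‖ ≤ C := by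
    intro x
    simp only [hf]
    rw [norm_mul, norm_e, one_mul]
    exact hgb x
  have hint : ∀ a b, IntervalIntegrable f volume a b := intervalIntegrable_of_bdd f hfm C hfb
  have h1 : ∫ x in (0 : ℝ)..1, e (m * x) * g (H * x) = ∫ x in (0 : ℝ)..1, f (H * x) := by
    congr 1
    ext x
    simp only [hf]
    congr 2
    field_simp
  rw [h1, intervalIntegral.integral_comp_mul_left f hH0]
  have h2 : ∫ x in (H : ℝ) * 0..(H : ℝ) * 1, f x =
      ∑ a ∈ range H, ∫ x in ((a : ℕ) : ℝ)..((a + 1 : ℕ) : ℝ), f x := by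
    rw [intervalIntegral.sum_integral_adjacent_intervals (a := fun k : ℕ => (k : ℝ))
      (fun k _ => hint _ _)]
    simp
  rw [h2]
  have h3 : ∀ a : ℕ, ∫ x in ((a : ℕ) : ℝ)..((a + 1 : ℕ) : ℝ), f x =
      e (a * (m / H)) * ∫ x in (0 : ℝ)..1, e (m * x / H) * g x := by
    intro a
    have h4 := intervalIntegral.integral_comp_add_right (a := 0) (b := 1) f (a : ℝ)
    have h5 : (0 : ℝ) + a = a := by ring
    have h6 : (1 : ℝ) + a = ((a + 1 : ℕ) : ℝ) := by push_cast; ring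
    rw [h5, h6] at h4
    rw [← h4, ← intervalIntegral.integral_const_mul]
    congr 1
    ext x
    simp only [hf]
    rw [hper, ← mul_assoc, ← e_add]
    congr 2
    ring
  rw [Finset.sum_congr rfl fun a _ => h3 a, ← Finset.sum_mul]
  split_ifs with h0
  · subst h0
    simp only [Int.cast_zero, zero_div, mul_zero, zero_mul, e_zero, Finset.sum_const,
      Finset.card_range, nsmul_eq_mul, mul_one, one_mul]
    rw [Complex.real_smul]
    push_cast
    have : (H : ℂ) ≠ 0 := by exact_mod_cast hH0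
    field_simp
  · rw [geom_e H m hm h0]
    simp

section General

variable {ι : Type} (I : Finset ι) (n : ι → ℕ) (G : ι → ℝ → ℂ)

theorem normSq_sum (z : ι → ℂ) :
    ((‖∑ i ∈ I, z i‖ ^ 2 : ℝ) : ℂ) = ∑ i ∈ I, ∑ j ∈ I, z i * starRingEnd ℂ (z j) := by
  rw [← Finset.sum_mul_sum, ← map_sum]
  rw [Complex.mul_conj, Complex.normSq_eq_norm_sq]

theorem integral_general_left (H : ℕ) (hH : 1 ≤ H) (hn : ∀ i ∈ I, n i < H)
    (hm : ∀ i, Measurable (G i)) (C : ℝ) (hb : ∀ i x, ‖G i x‖ ≤ C)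
    (hp : ∀ i x, G i (x + 1) = G i x) :
    ((∫ x in (0 : ℝ)..1, ‖∑ i ∈ I, e (n i * x) * G i (H * x)‖ ^ 2 : ℝ) : ℂ) =
      ∑ i ∈ I, ∑ j ∈ I, (if n i = n j then 1 else 0) *
        ∫ x in (0 : ℝ)..1, G i x * starRingEnd ℂ (G j x) := by
  rw [← intervalIntegral.integral_ofReal]
  have h1 : ∀ x : ℝ, ((‖∑ i ∈ I, e (n i * x) * G i (H * x)‖ ^ 2 : ℝ) : ℂ) =
      ∑ i ∈ I, ∑ j ∈ I, e (((n i : ℤ) - (n j : ℤ) : ℤ) * x) *
        (G i (H * x) * starRingEnd ℂ (G j (H * x))) := by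
    intro x
    rw [normSq_sum]
    refine Finset.sum_congr rfl fun i _ => Finset.sum_congr rfl fun j _ => ?_
    rw [map_mul, ← e_neg]
    have : e (((n i : ℤ) - (n j : ℤ) : ℤ) * x) = e (n i * x) * e (-(n j * x)) := by
      rw [← e_add]
      congr 1
      push_cast
      ring
    rw [this]
    ring
  simp_rw [h1]
  have hCnn : 0 ≤ C ∨ I = ∅ := by
    rcases I.eq_empty_or_nonempty with h | ⟨i, _⟩
    · right; exact h
    · left
      exact le_trans (norm_nonneg _) (hb i 0)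
  have hgb : ∀ i j x, ‖G i x * starRingEnd ℂ (G j x)‖ ≤ C * C := by
    intro i j x
    rw [norm_mul, RCLike.norm_conj]
    exact mul_le_mul (hb i x) (hb j x) (norm_nonneg _) (le_trans (norm_nonneg _) (hb i x))
  have hgm : ∀ i j, Measurable fun x => G i x * starRingEnd ℂ (G j x) := by
    intro i j
    exact (hm i).mul (Complex.continuous_conj.measurable.comp (hm j))
  have hint : ∀ i j, IntervalIntegrable (fun x : ℝ => e (((n i : ℤ) - (n j : ℤ) : ℤ) * x) *
        (G i (H * x) * starRingEnd ℂ (G j (H * x)))) volume 0 1 := by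
    intro i j
    refine intervalIntegrable_of_bdd _ ?_ (C * C) ?_ _ _
    · apply Measurable.mul
      · exact (continuous_e.comp (by fun_prop)).measurable
      · exact (hgm i j).comp (measurable_const_mul (H : ℝ))
    · intro x
      rw [norm_mul, norm_e, one_mul]
      exact hgb i j _
  rw [intervalIntegral.integral_finsetSum
    (fun i _ => by
      have := IntervalIntegrable.sum I (f := fun j => fun x : ℝ =>
        e (((n i : ℤ) - (n j : ℤ) : ℤ) * x) *
        (G i (H * x) * starRingEnd ℂ (G j (H * x)))) (fun j _ => hint i j)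
      simpa [Finset.sum_fn] using this)]
  refine Finset.sum_congr rfl fun i hi => ?_
  rw [intervalIntegral.integral_finsetSum (fun j _ => hint i j)]
  refine Finset.sum_congr rfl fun j hj => ?_
  have hmm : |(n i : ℤ) - (n j : ℤ)| < H := by
    rw [abs_lt]
    have := hn i hi
    have := hn j hj
    constructor <;> omega
  rw [integral_decouple H hH _ hmm (fun x => G i x * starRingEnd ℂ (G j x)) (hgm i j) (C * C)
    (hgb i j) (fun x => by rw [hp, hp])]
  congr 1
  by_cases h : n i = n j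
  · rw [if_pos h, if_pos (by rw [h, sub_self])]
  · rw [if_neg h, if_neg (by intro h2; apply h; omega)]

theorem integral_general_right (hm : ∀ i, Measurable (G i)) (C : ℝ) (hb : ∀ i x, ‖G i x‖ ≤ C)
    (θ : ℝ) :
    ((∫ x in (0 : ℝ)..1, ‖∑ i ∈ I, e (n i * θ) * G i x‖ ^ 2 : ℝ) : ℂ) =
      ∑ i ∈ I, ∑ j ∈ I, e (((n i : ℤ) - (n j : ℤ) : ℤ) * θ) *
        ∫ x in (0 : ℝ)..1, G i x * starRingEnd ℂ (G j x) := by
  rw [← intervalIntegral.integral_ofReal]
  have h1 : ∀ x : ℝ, ((‖∑ i ∈ I, e (n i * θ) * G i x‖ ^ 2 : ℝ) : ℂ) =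
      ∑ i ∈ I, ∑ j ∈ I, e (((n i : ℤ) - (n j : ℤ) : ℤ) * θ) *
        (G i x * starRingEnd ℂ (G j x)) := by
    intro x
    rw [normSq_sum]
    refine Finset.sum_congr rfl fun i _ => Finset.sum_congr rfl fun j _ => ?_
    rw [map_mul, ← e_neg]
    have : e (((n i : ℤ) - (n j : ℤ) : ℤ) * θ) = e (n i * θ) * e (-(n j * θ)) := by
      rw [← e_add]
      congr 1
      push_cast
      ring
    rw [this]
    ring
  simp_rw [h1]
  have hgb : ∀ i j x, ‖G i x * starRingEnd ℂ (G j x)‖ ≤ C * C := by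
    intro i j x
    rw [norm_mul, RCLike.norm_conj]
    exact mul_le_mul (hb i x) (hb j x) (norm_nonneg _) (le_trans (norm_nonneg _) (hb i x))
  have hgm : ∀ i j, Measurable fun x => G i x * starRingEnd ℂ (G j x) := by
    intro i j
    exact (hm i).mul (Complex.continuous_conj.measurable.comp (hm j))
  have hint : ∀ i j, IntervalIntegrable (fun x : ℝ => e (((n i : ℤ) - (n j : ℤ) : ℤ) * θ) *
        (G i x * starRingEnd ℂ (G j x))) volume 0 1 := by
    intro i j
    refine intervalIntegrable_of_bdd _ ?_ (C * C) ?_ _ _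
    · exact (hgm i j).const_mul _
    · intro x
      rw [norm_mul, norm_e, one_mul]
      exact hgb i j _
  rw [intervalIntegral.integral_finsetSum
    (fun i _ => by
      have := IntervalIntegrable.sum I (f := fun j => fun x : ℝ =>
        e (((n i : ℤ) - (n j : ℤ) : ℤ) * θ) *
        (G i x * starRingEnd ℂ (G j x))) (fun j _ => hint i j)
      simpa [Finset.sum_fn] using this)]
  refine Finset.sum_congr rfl fun i hi => ?_
  rw [intervalIntegral.integral_finsetSum (fun j _ => hint i j)]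
  refine Finset.sum_congr rfl fun j hj => ?_
  rw [intervalIntegral.integral_const_mul]

theorem integral_e_int (m : ℤ) : ∫ s in (0 : ℝ)..1, e (m * s) = if m = 0 then 1 else 0 := by
  have h := integral_decouple (m.natAbs + 1) (by omega) m (by
    push_cast
    rw [Int.abs_eq_natAbs]
    omega) (fun _ => 1) measurable_const 1 (by simp) (by simp)
  simpa using h

theorem continuous_right (hm : ∀ i, Measurable (G i)) (C : ℝ) (hb : ∀ i x, ‖G i x‖ ≤ C) :
    Continuous fun θ : ℝ => ∫ x in (0 : ℝ)..1, ‖∑ i ∈ I, e (n i * θ) * G i x‖ ^ 2 := by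
  have h1 : (fun θ : ℝ => ∫ x in (0 : ℝ)..1, ‖∑ i ∈ I, e (n i * θ) * G i x‖ ^ 2) = fun θ =>
      (∑ i ∈ I, ∑ j ∈ I, e (((n i : ℤ) - (n j : ℤ) : ℤ) * θ) *
        ∫ x in (0 : ℝ)..1, G i x * starRingEnd ℂ (G j x)).re := by
    ext θ
    rw [← integral_general_right I n G hm C hb θ, Complex.ofReal_re]
  rw [h1]
  refine Complex.continuous_re.comp ?_
  refine continuous_finsetSum _ fun i _ => continuous_finsetSum _ fun j _ => ?_
  exact (continuous_e.comp (by fun_prop)).mul continuous_const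

/-- decoupling of the two variables -/
theorem decoupling (H : ℕ) (hH : 1 ≤ H) (hn : ∀ i ∈ I, n i < H)
    (hm : ∀ i, Measurable (G i)) (C : ℝ) (hb : ∀ i x, ‖G i x‖ ≤ C)
    (hp : ∀ i x, G i (x + 1) = G i x) :
    ∫ x in (0 : ℝ)..1, ‖∑ i ∈ I, e (n i * x) * G i (H * x)‖ ^ 2 =
      ∫ θ in (0 : ℝ)..1, ∫ x in (0 : ℝ)..1, ‖∑ i ∈ I, e (n i * θ) * G i x‖ ^ 2 := by
  have h0 : ((∫ x in (0 : ℝ)..1, ‖∑ i ∈ I, e (n i * x) * G i (H * x)‖ ^ 2 : ℝ) : ℂ) =
      ((∫ θ in (0 : ℝ)..1, ∫ x in (0 : ℝ)..1, ‖∑ i ∈ I, e (n i * θ) * G i x‖ ^ 2 : ℝ) : ℂ) := by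
    rw [integral_general_left I n G H hH hn hm C hb hp]
    rw [← intervalIntegral.integral_ofReal]
    simp_rw [integral_general_right I n G hm C hb]
    have hint : ∀ i j, IntervalIntegrable (fun θ : ℝ => e (((n i : ℤ) - (n j : ℤ) : ℤ) * θ) *
        ∫ x in (0 : ℝ)..1, G i x * starRingEnd ℂ (G j x)) volume 0 1 := by
      intro i j
      have : Continuous (fun θ : ℝ => e (((n i : ℤ) - (n j : ℤ) : ℤ) * θ) *
        ∫ x in (0 : ℝ)..1, G i x * starRingEnd ℂ (G j x)) :=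
        (continuous_e.comp (by fun_prop)).mul continuous_const
      exact this.intervalIntegrable _ _
    rw [intervalIntegral.integral_finsetSum
      (fun i _ => by
        have := IntervalIntegrable.sum I (f := fun j => fun θ : ℝ =>
          e (((n i : ℤ) - (n j : ℤ) : ℤ) * θ) *
            ∫ x in (0 : ℝ)..1, G i x * starRingEnd ℂ (G j x)) (fun j _ => hint i j)
        simpa [Finset.sum_fn] using this)]
    refine Finset.sum_congr rfl fun i hi => ?_
    rw [intervalIntegral.integral_finsetSum (fun j _ => hint i j)]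
    refine Finset.sum_congr rfl fun j hj => ?_
    rw [intervalIntegral.integral_mul_const, integral_e_int]
    congr 1
    by_cases h : n i = n j
    · rw [if_pos h, if_pos (by rw [h, sub_self])]
    · rw [if_neg h, if_neg (by intro h2; apply h; omega)]
  exact_mod_cast h0

end General

/-- Parseval -/
theorem parseval (D : ℕ) (c : ℕ → ℂ) :
    ∫ x in (0 : ℝ)..1, ‖∑ j ∈ range D, c j * e (j * x)‖ ^ 2 = ∑ j ∈ range D, ‖c j‖ ^ 2 := by
  obtain ⟨C, hC⟩ : ∃ C : ℝ, ∀ j ∈ range D, ‖c j‖ ≤ C :=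
    ⟨∑ j ∈ range D, ‖c j‖, fun j hj =>
      Finset.single_le_sum (f := fun j => ‖c j‖) (fun i _ => norm_nonneg _) hj⟩
  have h := integral_general_left (range D) (fun j => j)
    (fun j _ => if j ∈ range D then c j else 0) (D + 1) (by omega)
    (fun i hi => by have := Finset.mem_range.mp hi; omega)
    (fun _ => measurable_const) (max C 0) (fun i x => by
      split_ifs with hi
      · exact le_trans (hC i hi) (le_max_left _ _)
      · simp) (fun _ _ => rfl)
  have h1 : ∀ x : ℝ, ∑ i ∈ range D, e (i * x) * (if i ∈ range D then c i else 0) =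
      ∑ j ∈ range D, c j * e (j * x) := by
    intro x
    refine Finset.sum_congr rfl fun i hi => ?_
    rw [if_pos hi, mul_comm]
  simp_rw [h1] at h
  have h2 : (∑ i ∈ range D, ∑ j ∈ range D, (if i = j then (1 : ℂ) else 0) *
      ∫ x in (0 : ℝ)..1, (if i ∈ range D then c i else 0) *
        starRingEnd ℂ (if j ∈ range D then c j else 0)) =
      ((∑ j ∈ range D, ‖c j‖ ^ 2 : ℝ) : ℂ) := by
    rw [Complex.ofReal_sum]
    refine Finset.sum_congr rfl fun i hi => ?_
    simp only [ite_mul, one_mul, zero_mul, Finset.sum_ite_eq, hi, if_true]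
    rw [intervalIntegral.integral_const, Complex.mul_conj, Complex.normSq_eq_norm_sq]
    simp
  rw [h2] at h
  exact_mod_cast h

/-- the components of the difference -/
noncomputable def Gs (q : ℕ) (S : ℕ → ℕ) (u : ℝ → ℂ) (L : ℝ → ℕ) (s : ℕ) (x : ℝ) : ℂ :=
  ((Real.sqrt q : ℝ) : ℂ)⁻¹ * ∑ k ∈ range q, (if S k = s then e (k * x) else 0) -
    (if L x = s then u x else 0)

theorem sum_Gs (q K : ℕ) (S : ℕ → ℕ) (u : ℝ → ℂ) (L : ℝ → ℕ) (hS : ∀ k, S k ≤ K)
    (hL : ∀ x, L x ≤ K) (θ x : ℝ) :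
    ∑ s ∈ range (K + 1), e (s * θ) * Gs q S u L s x =
      ((Real.sqrt q : ℝ) : ℂ)⁻¹ * ∑ k ∈ range q, e (k * x + S k * θ) - u x * e (L x * θ) := by
  unfold Gs
  simp_rw [mul_sub]
  rw [Finset.sum_sub_distrib]
  congr 1
  · simp_rw [Finset.mul_sum]
    rw [Finset.sum_comm]
    refine Finset.sum_congr rfl fun k _ => ?_
    simp_rw [mul_ite, mul_zero]
    rw [Finset.sum_ite_eq, if_pos (Finset.mem_range.mpr (Nat.lt_succ_of_le (hS k))), e_add]
    ring
  · simp_rw [mul_ite, mul_zero]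
    rw [Finset.sum_ite_eq, if_pos (Finset.mem_range.mpr (Nat.lt_succ_of_le (hL x))), mul_comm]

theorem measurable_Gs (q : ℕ) (S : ℕ → ℕ) (u : ℝ → ℂ) (L : ℝ → ℕ) (hu : Measurable u)
    (hL : Measurable L) (s : ℕ) : Measurable (Gs q S u L s) := by
  unfold Gs
  refine Measurable.sub ?_ ?_
  · refine Measurable.const_mul ?_ _
    refine Finset.measurable_sum _ fun k _ => ?_
    split_ifs
    · exact (continuous_e.comp (by fun_prop)).measurable
    · exact measurable_const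
  · exact Measurable.ite (hL (measurableSet_singleton s)) hu measurable_const

theorem norm_Gs_le (q : ℕ) (S : ℕ → ℕ) (u : ℝ → ℂ) (L : ℝ → ℕ) (hu : ∀ x, ‖u x‖ = 1) (s : ℕ)
    (x : ℝ) : ‖Gs q S u L s x‖ ≤ ‖((Real.sqrt q : ℝ) : ℂ)⁻¹‖ * q + 1 := by
  unfold Gs
  refine le_trans (norm_sub_le _ _) (add_le_add ?_ ?_)
  · rw [norm_mul]
    refine mul_le_mul_of_nonneg_left ?_ (norm_nonneg _)
    refine le_trans (norm_sum_le _ _) ?_
    calc ∑ k ∈ range q, ‖(if S k = s then e (k * x) else 0 : ℂ)‖ ≤ ∑ k ∈ range q, (1 : ℝ) := by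
          refine Finset.sum_le_sum fun k _ => ?_
          split_ifs
          · rw [norm_e]
          · simp
      _ = q := by simp
  · split_ifs
    · rw [hu]
    · simp

theorem Gs_add_one (q : ℕ) (S : ℕ → ℕ) (u : ℝ → ℂ) (L : ℝ → ℕ) (hu : ∀ x, u (x + 1) = u x)
    (hL : ∀ x, L (x + 1) = L x) (s : ℕ) (x : ℝ) : Gs q S u L s (x + 1) = Gs q S u L s x := by
  unfold Gs
  rw [hu, hL]
  have : ∀ k : ℕ, e (k * (x + 1)) = e (k * x) := by
    intro k
    rw [mul_add, mul_one, e_add_nat]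
  simp_rw [this]

/-- difference of the coefficients -/
theorem sum_diff (D : ℕ) (c : ℕ → ℂ) (θ : ℝ) :
    ∑ j ∈ range D, ∑ b ∈ range 2, e ((j + b : ℕ) * θ) * ((-1) ^ b * c j) =
      (1 - e θ) * ∑ j ∈ range D, c j * e (j * θ) := by
  rw [Finset.mul_sum]
  refine Finset.sum_congr rfl fun j _ => ?_
  rw [Finset.sum_range_succ, Finset.sum_range_one]
  have h1 : e (((j + 1 : ℕ) : ℝ) * θ) = e (j * θ) * e θ := by
    rw [← e_add]
    congr 1
    push_cast
    ring
  rw [h1]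
  simp only [add_zero, pow_zero, one_mul, pow_one]
  ring

end Vale.Agent.P130R.Dec

namespace Vale.Agent.P130R

open Finset MeasureTheory Dec
open Vale.Agent.P110 (e)
open Vale.Agent.P110.AT (norm_e e_add e_neg e_zero e_int e_add_int continuous_e)

theorem decouple : DecoupleStatement := by
  intro C p K q S hF H hH
  obtain ⟨hS0, hS, u, L, hum, hLm, hu1, hup, hLp, hLK, hflat⟩ := hF
  have hper : ∀ (x : ℝ) (a : ℕ), u (x + a) = u x ∧ L (x + a) = L x := by
    intro x a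
    induction a with
    | zero => simp
    | succ a ih =>
      rw [← ih.1, ← ih.2, ← hup (x + a), ← hLp (x + a)]
      constructor <;>
      · congr 1
        push_cast
        ring
  have hHm : Measurable fun x : ℝ => (H : ℝ) * x := measurable_const_mul _
  refine ⟨fun x => u (H * x) * e (L (H * x) * x), ?_, ?_, ?_, ?_⟩
  · refine (hum.comp hHm).mul (continuous_e.measurable.comp ?_)
    refine Measurable.mul ?_ measurable_id
    exact (measurable_from_top (f := fun n : ℕ => (n : ℝ))).comp (hLm.comp hHm)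
  · intro x
    rw [norm_mul, hu1, norm_e, one_mul]
  · intro x
    have h1 : (H : ℝ) * (x + 1) = H * x + H := by ring
    beta_reduce
    rw [h1, (hper _ _).1, (hper _ _).2, mul_add, mul_one, e_add_nat]
  · intro D hD c
    obtain ⟨B, hB0, hB⟩ : ∃ B : ℝ, 0 ≤ B ∧ ∀ j ∈ range D, ‖c j‖ ≤ B :=
      ⟨∑ j ∈ range D, ‖c j‖, Finset.sum_nonneg fun j _ => norm_nonneg _, fun j hj =>
        Finset.single_le_sum (f := fun j => ‖c j‖) (fun i _ => norm_nonneg _) hj⟩
    set I : Finset (ℕ × ℕ × ℕ) := range D ×ˢ range 2 ×ˢ range (K + 1) with hI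
    set n : ℕ × ℕ × ℕ → ℕ := fun i => i.1 + i.2.1 + i.2.2 with hn
    set G : ℕ × ℕ × ℕ → ℝ → ℂ := fun i x =>
      ((-1) ^ i.2.1 * (if i.1 < D then c i.1 else 0)) * Gs q S u L i.2.2 x with hG
    have hsum : ∀ θ x : ℝ, ∑ i ∈ I, e (n i * θ) * G i x =
        ((1 - e θ) * ∑ j ∈ range D, c j * e (j * θ)) *
        (((Real.sqrt q : ℝ) : ℂ)⁻¹ * ∑ k ∈ range q, e (k * x + S k * θ) -
          u x * e (L x * θ)) := by
      intro θ x
      rw [← sum_Gs q K S u L hS hLK θ x, ← sum_diff, Finset.sum_mul, hI, Finset.sum_product]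
      refine Finset.sum_congr rfl fun j hj => ?_
      rw [Finset.sum_product, Finset.sum_mul]
      refine Finset.sum_congr rfl fun b _ => ?_
      rw [Finset.mul_sum]
      refine Finset.sum_congr rfl fun s _ => ?_
      simp only [hn, hG, if_pos (Finset.mem_range.mp hj)]
      have : e (((j + b + s : ℕ) : ℝ) * θ) = e ((j + b : ℕ) * θ) * e (s * θ) := by
        rw [← e_add]
        congr 1
        push_cast
        ring
      rw [this]
      ring
    have hGm : ∀ i, Measurable (G i) := fun i =>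
      (measurable_Gs q S u L hum hLm i.2.2).const_mul _
    have hGb : ∀ i x, ‖G i x‖ ≤ B * (‖((Real.sqrt q : ℝ) : ℂ)⁻¹‖ * q + 1) := by
      intro i x
      simp only [hG]
      rw [norm_mul, norm_mul, norm_pow, norm_neg, norm_one, one_pow, one_mul]
      refine mul_le_mul ?_ (norm_Gs_le q S u L hu1 _ _) (norm_nonneg _) hB0
      split_ifs with h
      · exact hB _ (Finset.mem_range.mpr h)
      · simpa using hB0
    have hGp : ∀ i x, G i (x + 1) = G i x := by
      intro i x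
      simp only [hG]
      rw [Gs_add_one q S u L hup hLp]
    have hnH : ∀ i ∈ I, n i < H := by
      intro i hi
      simp only [hI, Finset.mem_product, Finset.mem_range] at hi
      simp only [hn]
      omega
    have hdec := decoupling I n G H hH hnH hGm _ hGb hGp
    have hleft : ∫ x in (0 : ℝ)..1, ‖1 - e x‖ ^ 2 * ‖∑ j ∈ range D, c j * e (j * x)‖ ^ 2 *
          ‖PP q H S x - u (H * x) * e (L (H * x) * x)‖ ^ 2 =
        ∫ x in (0 : ℝ)..1, ‖∑ i ∈ I, e (n i * x) * G i (H * x)‖ ^ 2 := by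
      congr 1
      ext x
      rw [hsum x (H * x), norm_mul, norm_mul, mul_pow, mul_pow]
      congr 3
      unfold PP
      congr 2
      refine Finset.sum_congr rfl fun k _ => ?_
      congr 1
      push_cast
      ring
    rw [hleft, hdec]
    have hmono : ∫ θ in (0 : ℝ)..1, ∫ x in (0 : ℝ)..1, ‖∑ i ∈ I, e (n i * θ) * G i x‖ ^ 2 ≤
        ∫ θ in (0 : ℝ)..1, C * p ^ 2 * ‖∑ j ∈ range D, c j * e (j * θ)‖ ^ 2 := by
      refine intervalIntegral.integral_mono_on zero_le_one ?_ ?_ ?_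
      · exact (continuous_right I n G hGm _ hGb).intervalIntegrable _ _
      · refine Continuous.intervalIntegrable ?_ _ _
        refine continuous_const.mul ((Continuous.norm ?_).pow 2)
        refine continuous_finsetSum _ fun j _ => continuous_const.mul ?_
        exact continuous_e.comp (by fun_prop)
      · intro θ _
        simp_rw [hsum θ, norm_mul, mul_pow]
        rw [intervalIntegral.integral_const_mul]
        have h1 := hflat θ
        have h2 : 0 ≤ ‖∑ j ∈ range D, c j * e (j * θ)‖ ^ 2 := by positivity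
        calc ‖1 - e θ‖ ^ 2 * ‖∑ j ∈ range D, c j * e (j * θ)‖ ^ 2 *
              ∫ x in (0 : ℝ)..1, ‖((Real.sqrt q : ℝ) : ℂ)⁻¹ *
                ∑ k ∈ range q, e (k * x + S k * θ) - u x * e (L x * θ)‖ ^ 2
            = (‖1 - e θ‖ ^ 2 * ∫ x in (0 : ℝ)..1, ‖((Real.sqrt q : ℝ) : ℂ)⁻¹ *
                ∑ k ∈ range q, e (k * x + S k * θ) - u x * e (L x * θ)‖ ^ 2) *
              ‖∑ j ∈ range D, c j * e (j * θ)‖ ^ 2 := by ring
          _ ≤ C * p ^ 2 * ‖∑ j ∈ range D, c j * e (j * θ)‖ ^ 2 :=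
              mul_le_mul_of_nonneg_right h1 h2
    refine le_trans hmono (le_of_eq ?_)
    rw [intervalIntegral.integral_const_mul, parseval]

end Vale.Agent.P130R
end

section

set_option autoImplicit false

namespace Vale.Agent.P130R

open Finset MeasureTheory Filter Topology
open Vale.Agent.P110 (e dot GoodSet)

theorem cuts (h1 : FlatStatement) (h2 : DecoupleStatement) : CutsStatement := by
  obtain ⟨C, hC⟩ := h1
  have hp0 : ∀ n : ℕ, (0:ℝ) < (1/2)^(n+2) := fun n => by positivity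
  have hp1 : ∀ n : ℕ, ((1:ℝ)/2)^(n+2) < 1/2 := fun n => by
    have h3 : ((1:ℝ)/2)^n ≤ 1 := pow_le_one₀ (by norm_num) (by norm_num)
    rw [pow_add]
    linarith only [h3]
  choose K q₀ hS using fun n => hC ((1/2)^(n+2)) (hp0 n) (hp1 n)
  let ex : ℕ → ℕ := fun n => q₀ n + 2^(n+2) * (K (n+1) + 2)
  have hex : ∀ n, ex n ≤ 2 ^ ex n := fun n => Nat.lt_two_pow_self.le
  choose S hS2 using fun n => hS n (2 ^ ex n) ((Nat.le_add_right _ _).trans (hex n))
  let h : ℕ → ℕ := fun n => Nat.rec (2 * (K 0 + 2)) (fun n x => 2 ^ ex n * (x + K n + 2)) n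
  have h_zero : h 0 = 2 * (K 0 + 2) := rfl
  have h_succ : ∀ n, h (n+1) = 2 ^ ex n * (h n + K n + 2) := fun n => rfl
  let D : Cuts :=
    { ex := ex
      K := K
      h := h
      S := S
      ex_pos := fun n => by
        show 1 ≤ q₀ n + 2^(n+2) * (K (n+1) + 2)
        have : 1 ≤ 2^(n+2) * (K (n+1) + 2) := Nat.one_le_iff_ne_zero.2 (by positivity)
        omega
      S_zero := fun n => (hS2 n).1
      S_le := fun n => (hS2 n).2.1
      h_succ := h_succ
      h_big := fun n => by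
        cases n with
        | zero => rw [h_zero]; norm_num
        | succ n =>
          rw [h_succ]
          calc 2 ^ (n+1+1) * (K (n+1) + 2) ≤ ex n := Nat.le_add_left _ _
            _ ≤ 2 ^ ex n := hex n
            _ ≤ 2 ^ ex n * (h n + K n + 2) := Nat.le_mul_of_pos_right _ (by omega) }
  choose U hU1 hU2 hU3 hU4 using fun n => h2 C ((1/2)^(n+2)) (K n) (2 ^ ex n) (S n) (hS2 n)
    (h n + K n + 2) (by omega)
  refine ⟨D, max C 0, U, hU1, hU2, hU3, fun n c => ?_⟩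
  refine (hU4 n (h n) (by omega) c).trans ?_
  have hs : 0 ≤ ∑ j ∈ range (h n), ‖c j‖ ^ 2 := Finset.sum_nonneg fun j _ => by positivity
  refine mul_le_mul_of_nonneg_right ?_ hs
  have e1 : (((1:ℝ)/2)^(n+2))^2 = (1/4)^n * (1/16) := by
    rw [← pow_mul, mul_comm (n+2) 2, pow_mul, pow_add]
    norm_num
  rw [e1]
  have e2 : (0:ℝ) ≤ (1/4)^n := by positivity
  calc C * ((1/4)^n * (1/16)) ≤ max C 0 * ((1/4)^n * (1/16)) :=
        mul_le_mul_of_nonneg_right (le_max_left _ _) (by positivity)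
    _ ≤ max C 0 * (1/4)^n := by
        refine mul_le_mul_of_nonneg_left ?_ (le_max_right _ _)
        linarith only [e2]

end Vale.Agent.P130R
end

section

/-!
# P130R-8: the binary odometer (helper952)
-/

set_option autoImplicit false

namespace Vale.Agent.P130R

open MeasureTheory Set

namespace Odo

/-- residue modulo `2 ^ n` -/
noncomputable def res (n : ℕ) (y : ℤ_[2]) : ℕ := (PadicInt.toZModPow n y).val

theorem res_lt (n : ℕ) (y : ℤ_[2]) : res n y < 2 ^ n := by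
  have : NeZero (2 ^ n) := ⟨by positivity⟩
  exact ZMod.val_lt _

theorem res_eq_iff (n : ℕ) (x y : ℤ_[2]) : res n x = res n y ↔ dist x y ≤ (2 : ℝ) ^ (-(n : ℤ)) := by
  have : NeZero (2 ^ n) := ⟨by positivity⟩
  unfold res
  rw [(ZMod.val_injective (2 ^ n)).eq_iff, ← sub_eq_zero, ← map_sub, ← RingHom.mem_ker,
    PadicInt.ker_toZModPow, ← PadicInt.norm_le_pow_iff_mem_span_pow, dist_eq_norm]
  norm_num

theorem res_add_one (n : ℕ) (y : ℤ_[2]) : res n (y + 1) = (res n y + 1) % 2 ^ n := by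
  have : NeZero (2 ^ n) := ⟨by positivity⟩
  unfold res
  rw [map_add, map_one, ZMod.val_add]
  rcases Nat.eq_zero_or_pos n with h | h
  · subst h
    simp [Nat.mod_one]
  · have h1 : (1 : ZMod (2 ^ n)).val = 1 := by
      have : Fact (1 < 2 ^ n) := ⟨Nat.one_lt_two_pow (by omega)⟩
      exact ZMod.val_one _
    rw [h1]

theorem res_add_natCast (n j : ℕ) (y : ℤ_[2]) : res n (y + j) = (res n y + j) % 2 ^ n := by
  induction j with
  | zero => simp [Nat.mod_eq_of_lt (res_lt n y)]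
  | succ j ih =>
    rw [Nat.cast_succ, ← add_assoc, res_add_one, ih, Nat.mod_add_mod, add_assoc]

theorem res_succ_mod (n : ℕ) (y : ℤ_[2]) : res (n + 1) y % 2 ^ n = res n y := by
  have h := PadicInt.cast_toZModPow (p := 2) n (n + 1) (Nat.le_succ n) y
  unfold res
  rw [← h, ZMod.cast_eq_val, ZMod.val_natCast]

theorem isClosed_res (n j : ℕ) : IsClosed {y : ℤ_[2] | res n y = j} := by
  rw [← isOpen_compl_iff, Metric.isOpen_iff]
  intro y hy
  refine ⟨(2 : ℝ) ^ (-(n : ℤ)), by positivity, fun x hx => ?_⟩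
  rw [Metric.mem_ball] at hx
  have h := (res_eq_iff n x y).mpr hx.le
  simp only [mem_compl_iff, mem_ofPred_eq] at hy ⊢
  rw [h]
  exact hy

noncomputable abbrev mZ : MeasurableSpace ℤ_[2] := borel _

attribute [local instance] mZ

theorem bZ : BorelSpace ℤ_[2] := ⟨rfl⟩

attribute [local instance] bZ

theorem measurable_res (n : ℕ) : Measurable (res n) :=
  measurable_to_countable' fun j => (isClosed_res n j).measurableSet

/-- the Haar measure -/
noncomputable def nu : Measure ℤ_[2] := Measure.addHaarMeasure ⊤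

instance instIsProb : IsProbabilityMeasure nu := ⟨by
  have := Measure.addHaarMeasure_self (K₀ := (⊤ : TopologicalSpace.PositiveCompacts ℤ_[2]))
  simpa [nu] using this⟩

instance : nu.IsAddHaarMeasure := by
  unfold nu
  infer_instance

theorem nu_fiber_eq (n j : ℕ) (hj : j < 2 ^ n) :
    nu {y | res n y = j} = nu {y | res n y = 0} := by
  have h1 : (fun y : ℤ_[2] => y + (j : ℤ_[2])) ⁻¹' {y | res n y = j} = {y | res n y = 0} := by
    ext y
    simp only [mem_preimage, mem_ofPred_eq, res_add_natCast]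
    have h2 := res_lt n y
    constructor
    · intro h
      rcases lt_or_ge (res n y + j) (2 ^ n) with h3 | h3
      · rw [Nat.mod_eq_of_lt h3] at h
        omega
      · rw [Nat.mod_eq_sub_mod h3, Nat.mod_eq_of_lt (by omega)] at h
        omega
    · intro h
      rw [h, zero_add, Nat.mod_eq_of_lt hj]
  rw [← h1, measure_preimage_add_right]

theorem nu_fiber (n j : ℕ) (hj : j < 2 ^ n) :
    nu {y | res n y = j} = (2 ^ n : ENNReal)⁻¹ := by
  rw [nu_fiber_eq n j hj]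
  have h1 : ∑ i ∈ Finset.range (2 ^ n), nu {y | res n y = i} = 1 := by
    rw [← measure_biUnion_finset]
    · have : (⋃ i ∈ Finset.range (2 ^ n), {y : ℤ_[2] | res n y = i}) = univ := by
        ext y
        simp only [Finset.mem_range, mem_iUnion, mem_ofPred_eq, exists_prop, mem_univ, iff_true]
        exact ⟨res n y, res_lt n y, rfl⟩
      rw [this]
      exact measure_univ
    · intro i _ i' _ hii
      rw [Function.onFun, Set.disjoint_left]
      intro y hy hy'
      exact hii (hy.symm.trans hy')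
    · intro i _
      exact (isClosed_res n i).measurableSet
  rw [Finset.sum_congr rfl (fun i hi => nu_fiber_eq n i (Finset.mem_range.mp hi))] at h1
  rw [Finset.sum_const, Finset.card_range, nsmul_eq_mul] at h1
  push_cast at h1
  exact ENNReal.eq_inv_of_mul_eq_one_left (by rw [mul_comm]; exact h1)

theorem nu_singleton (y : ℤ_[2]) : nu {y} = 0 := by
  have h1 : ∀ n : ℕ, nu {y} ≤ ((2 : ENNReal)⁻¹) ^ n := by
    intro n
    calc nu {y} ≤ nu {x | res n x = res n y} := by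
          apply measure_mono
          intro x hx
          rw [mem_singleton_iff] at hx
          rw [hx]
          rfl
      _ = (2 ^ n : ENNReal)⁻¹ := nu_fiber n _ (res_lt n y)
      _ = ((2 : ENNReal)⁻¹) ^ n := by rw [ENNReal.inv_pow]
  have h2 : Filter.Tendsto (fun n : ℕ => ((2 : ENNReal)⁻¹) ^ n) Filter.atTop (nhds 0) :=
    ENNReal.tendsto_pow_atTop_nhds_zero_of_lt_one (by norm_num)
  exact le_antisymm (ge_of_tendsto' h2 h1) zero_le

/-- the odometer -/
noncomputable def add1 : ℤ_[2] ≃ᵐ ℤ_[2] := MeasurableEquiv.addRight (1 : ℤ_[2])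

theorem measurePreserving_add1 : MeasurePreserving add1 nu nu :=
  measurePreserving_add_right nu (1 : ℤ_[2])

theorem approx (A : Set ℤ_[2]) (hA : MeasurableSet A) (ε : ENNReal) (hε : 0 < ε) :
    ∃ (n : ℕ) (F : Finset ℕ), nu (symmDiff A {y | res n y ∈ F}) ≤ ε := by
  classical
  have hε2 : ε / 2 ≠ 0 := by simpa using hε.ne'
  obtain ⟨K, hKA, hK, hK2⟩ := hA.exists_isCompact_sdiff_lt (measure_ne_top nu A) hε2
  obtain ⟨U, hAU, hU, -, hU2⟩ := hA.exists_isOpen_sdiff_lt (measure_ne_top nu A) hε2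
  obtain ⟨δ, hδ, hδ2⟩ := hK.exists_thickening_subset_open hU (hKA.trans hAU)
  obtain ⟨n, hn⟩ := exists_pow_lt_of_lt_one hδ (show (1 / 2 : ℝ) < 1 by norm_num)
  refine ⟨n, (Finset.range (2 ^ n)).filter (fun j => ∃ x ∈ K, res n x = j), ?_⟩
  have h1 : symmDiff A {y | res n y ∈ (Finset.range (2 ^ n)).filter
      (fun j => ∃ x ∈ K, res n x = j)} ⊆ (A \ K) ∪ (U \ A) := by
    intro y hy
    rw [Set.mem_symmDiff] at hy
    simp only [Finset.mem_filter, Finset.mem_range, mem_ofPred_eq, res_lt, true_and] at hy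
    rcases hy with ⟨h2, h3⟩ | ⟨⟨x, hx, hxy⟩, h3⟩
    · left
      exact ⟨h2, fun h4 => h3 ⟨y, h4, rfl⟩⟩
    · right
      refine ⟨hδ2 ?_, h3⟩
      rw [Metric.mem_thickening_iff]
      refine ⟨x, hx, ?_⟩
      have h4 := (res_eq_iff n y x).mp hxy.symm
      refine lt_of_le_of_lt h4 ?_
      rw [zpow_neg, zpow_natCast, ← inv_pow]
      simpa using hn
  calc nu _ ≤ nu ((A \ K) ∪ (U \ A)) := measure_mono h1
    _ ≤ nu (A \ K) + nu (U \ A) := measure_union_le _ _
    _ ≤ ε / 2 + ε / 2 := add_le_add hK2.le hU2.le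
    _ = ε := ENNReal.add_halves ε

theorem stdZ : StandardBorelSpace ℤ_[2] := inferInstance

end Odo

theorem odo : OdoStatement :=
  ⟨ℤ_[2], Odo.mZ, Odo.stdZ, Odo.nu, Odo.instIsProb, Odo.add1, Odo.res,
    Odo.measurePreserving_add1, Odo.nu_singleton, Odo.measurable_res, Odo.res_lt,
    Odo.res_add_one, Odo.res_succ_mod, Odo.nu_fiber, Odo.approx⟩

end Vale.Agent.P130R
end

section

/-!
# P130R: suspension (tower) over a measure preserving system with integrable roof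
-/

set_option autoImplicit false

namespace Vale.Agent.P130R

open MeasureTheory Filter Topology

namespace Susp

variable {Y : Type} [MeasurableSpace Y]

/-- the space of the suspension -/
abbrev SX (ρ : Y → ℕ) : Type := {x : Y × ℕ // x.2 < ρ x.1}

theorem measurableSet_SX {ρ : Y → ℕ} (hρ : Measurable ρ) :
    MeasurableSet {x : Y × ℕ | x.2 < ρ x.1} :=
  measurableSet_lt measurable_snd (hρ.comp measurable_fst)

/-- the point over `y` at height `i` -/
def io {ρ : Y → ℕ} (h1 : ∀ y, 1 ≤ ρ y) (y : Y) (i : ℕ) : SX ρ :=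
  if h : i < ρ y then ⟨(y, i), h⟩ else ⟨(y, 0), h1 y⟩

theorem io_of_lt {ρ : Y → ℕ} (h1 : ∀ y, 1 ≤ ρ y) {y : Y} {i : ℕ} (h : i < ρ y) :
    io h1 y i = ⟨(y, i), h⟩ := dif_pos h

theorem io_self {ρ : Y → ℕ} (h1 : ∀ y, 1 ≤ ρ y) (x : SX ρ) : io h1 x.1.1 x.1.2 = x :=
  io_of_lt h1 x.2

theorem measurable_io {ρ : Y → ℕ} (hρ : Measurable ρ) (h1 : ∀ y, 1 ≤ ρ y) (i : ℕ) :
    Measurable (fun y => io h1 y i) := by
  have h2 : Measurable (fun y => ((io h1 y i : SX ρ) : Y × ℕ)) := by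
    have h3 : (fun y => ((io h1 y i : SX ρ) : Y × ℕ)) =
        fun y => (y, if i < ρ y then i else 0) := by
      funext y
      by_cases h : i < ρ y
      · rw [io_of_lt h1 h, if_pos h]
      · rw [io, dif_neg h, if_neg h]
    rw [h3]
    refine measurable_id.prodMk ?_
    exact Measurable.ite (measurableSet_lt measurable_const hρ) measurable_const measurable_const
  exact Measurable.subtype_mk h2

/-- the forward map on pairs -/
def fw (ρ : Y → ℕ) (O : Y ≃ᵐ Y) (h1 : ∀ y, 1 ≤ ρ y) (x : SX ρ) : SX ρ :=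
  if h : x.1.2 + 1 < ρ x.1.1 then ⟨(x.1.1, x.1.2 + 1), h⟩ else ⟨(O x.1.1, 0), h1 _⟩

/-- the backward map on pairs -/
def bw (ρ : Y → ℕ) (O : Y ≃ᵐ Y) (h1 : ∀ y, 1 ≤ ρ y) (x : SX ρ) : SX ρ :=
  if x.1.2 = 0 then ⟨(O.symm x.1.1, ρ (O.symm x.1.1) - 1), by have := h1 (O.symm x.1.1); simp only; omega⟩
  else ⟨(x.1.1, x.1.2 - 1), by have := x.2; simp only; omega⟩

theorem bw_fw (ρ : Y → ℕ) (O : Y ≃ᵐ Y) (h1 : ∀ y, 1 ≤ ρ y) (x : SX ρ) :
    bw ρ O h1 (fw ρ O h1 x) = x := by
  obtain ⟨⟨y, i⟩, hx⟩ := x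
  simp only at hx
  by_cases h : i + 1 < ρ y
  · simp only [fw, h, dif_pos, bw, Nat.add_eq_zero_iff, one_ne_zero, and_false, if_false,
      Nat.add_sub_cancel]
  · have h3 : i = ρ y - 1 := by omega
    simp only [fw, h, dif_neg, not_false_eq_true, bw, if_true, MeasurableEquiv.symm_apply_apply]
    subst h3
    rfl

theorem fw_bw (ρ : Y → ℕ) (O : Y ≃ᵐ Y) (h1 : ∀ y, 1 ≤ ρ y) (x : SX ρ) :
    fw ρ O h1 (bw ρ O h1 x) = x := by
  obtain ⟨⟨y, i⟩, hx⟩ := x
  simp only at hx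
  by_cases h : i = 0
  · subst h
    have h2 := h1 (O.symm y)
    have h3 : ¬ (ρ (O.symm y) - 1 + 1 < ρ (O.symm y)) := by omega
    simp only [bw, if_true, fw, h3, dif_neg, not_false_eq_true, MeasurableEquiv.apply_symm_apply]
  · have h3 : i - 1 + 1 = i := by omega
    simp only [bw, h, if_false, fw, h3]
    rw [dif_pos hx]

theorem measurable_fw {ρ : Y → ℕ} (hρ : Measurable ρ) (O : Y ≃ᵐ Y) (h1 : ∀ y, 1 ≤ ρ y) :
    Measurable (fw ρ O h1) := by
  have h2 : Measurable (fun x : SX ρ => ((fw ρ O h1 x : SX ρ) : Y × ℕ)) := by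
    have h3 : (fun x : SX ρ => ((fw ρ O h1 x : SX ρ) : Y × ℕ)) =
        fun x : SX ρ => if x.1.2 + 1 < ρ x.1.1 then (x.1.1, x.1.2 + 1) else (O x.1.1, 0) := by
      funext x
      by_cases h : x.1.2 + 1 < ρ x.1.1
      · rw [fw, dif_pos h, if_pos h]
      · rw [fw, dif_neg h, if_neg h]
    rw [h3]
    have m1 : Measurable (fun x : SX ρ => x.1.1) := measurable_fst.comp measurable_subtype_coe
    have m2 : Measurable (fun x : SX ρ => x.1.2) := measurable_snd.comp measurable_subtype_coe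
    refine Measurable.ite (measurableSet_lt (m2.add_const 1) (hρ.comp m1)) ?_ ?_
    · exact m1.prodMk (m2.add_const 1)
    · exact (O.measurable.comp m1).prodMk measurable_const
  exact Measurable.subtype_mk h2

theorem measurable_bw {ρ : Y → ℕ} (hρ : Measurable ρ) (O : Y ≃ᵐ Y) (h1 : ∀ y, 1 ≤ ρ y) :
    Measurable (bw ρ O h1) := by
  have h2 : Measurable (fun x : SX ρ => ((bw ρ O h1 x : SX ρ) : Y × ℕ)) := by
    have h3 : (fun x : SX ρ => ((bw ρ O h1 x : SX ρ) : Y × ℕ)) =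
        fun x : SX ρ => if x.1.2 = 0 then (O.symm x.1.1, ρ (O.symm x.1.1) - 1)
          else (x.1.1, x.1.2 - 1) := by
      funext x
      by_cases h : x.1.2 = 0
      · rw [bw, if_pos h, if_pos h]
      · rw [bw, if_neg h, if_neg h]
    rw [h3]
    have m1 : Measurable (fun x : SX ρ => x.1.1) := measurable_fst.comp measurable_subtype_coe
    have m2 : Measurable (fun x : SX ρ => x.1.2) := measurable_snd.comp measurable_subtype_coe
    refine Measurable.ite (measurableSet_eq_fun m2 measurable_const) ?_ ?_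
    · have m3 : Measurable (fun x : SX ρ => O.symm x.1.1) := O.symm.measurable.comp m1
      exact m3.prodMk ((measurable_of_countable (fun k : ℕ => k - 1)).comp (hρ.comp m3))
    · exact m1.prodMk ((measurable_of_countable (fun k : ℕ => k - 1)).comp m2)
  exact Measurable.subtype_mk h2

/-- the transformation -/
def ST {ρ : Y → ℕ} (hρ : Measurable ρ) (O : Y ≃ᵐ Y) (h1 : ∀ y, 1 ≤ ρ y) : SX ρ ≃ᵐ SX ρ where
  toFun := fw ρ O h1
  invFun := bw ρ O h1
  left_inv := bw_fw ρ O h1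
  right_inv := fw_bw ρ O h1
  measurable_toFun := measurable_fw hρ O h1
  measurable_invFun := measurable_bw hρ O h1

/-- unnormalised measure -/
noncomputable def sm {ρ : Y → ℕ} (h1 : ∀ y, 1 ≤ ρ y) (ν : Measure Y) : Measure (SX ρ) :=
  Measure.sum fun i : ℕ => (ν.restrict {y | i < ρ y}).map (fun y => io h1 y i)

theorem sm_apply {ρ : Y → ℕ} (hρ : Measurable ρ) (h1 : ∀ y, 1 ≤ ρ y) (ν : Measure Y)
    {s : Set (SX ρ)} (hs : MeasurableSet s) :
    sm h1 ν s = ∑' i : ℕ, ν {y | io h1 y i ∈ s ∧ i < ρ y} := by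
  rw [sm, Measure.sum_apply _ hs]
  refine tsum_congr fun i => ?_
  rw [Measure.map_apply (measurable_io hρ h1 i) hs,
    Measure.restrict_apply (measurable_io hρ h1 i hs)]
  rfl

theorem sm_univ {ρ : Y → ℕ} (hρ : Measurable ρ) (h1 : ∀ y, 1 ≤ ρ y) (ν : Measure Y) :
    sm h1 ν Set.univ = ∫⁻ y, (ρ y : ENNReal) ∂ν := by
  rw [sm_apply hρ h1 ν MeasurableSet.univ]
  have h2 : ∀ y, (ρ y : ENNReal) = ∑' i : ℕ, Set.indicator {y | i < ρ y} (fun _ => 1) y := by
    intro y
    have h3 : ∀ i : ℕ, Set.indicator {y | i < ρ y} (fun _ => (1 : ENNReal)) y =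
        if i ∈ Finset.range (ρ y) then 1 else 0 := by
      intro i
      simp [Set.indicator_apply]
    simp_rw [h3]
    rw [tsum_eq_sum (s := Finset.range (ρ y)) (fun i hi => if_neg hi)]
    rw [Finset.sum_congr rfl (fun i hi => if_pos hi)]
    simp
  simp_rw [h2]
  rw [lintegral_tsum]
  · refine tsum_congr fun i => ?_
    have hm : MeasurableSet {y | i < ρ y} := measurableSet_lt measurable_const hρ
    rw [lintegral_indicator_const hm, one_mul]
    simp
  · intro i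
    have hm : MeasurableSet {y | i < ρ y} := measurableSet_lt measurable_const hρ
    exact (measurable_const.indicator hm).aemeasurable

theorem fw_io_lt {ρ : Y → ℕ} (O : Y ≃ᵐ Y) (h1 : ∀ y, 1 ≤ ρ y) {y : Y} {i : ℕ}
    (h : i + 1 < ρ y) : fw ρ O h1 (io h1 y i) = io h1 y (i + 1) := by
  rw [io_of_lt h1 (Nat.lt_of_succ_lt h), io_of_lt h1 h, fw, dif_pos h]

theorem fw_io_eq {ρ : Y → ℕ} (O : Y ≃ᵐ Y) (h1 : ∀ y, 1 ≤ ρ y) {y : Y} {i : ℕ}
    (h : i + 1 = ρ y) : fw ρ O h1 (io h1 y i) = io h1 (O y) 0 := by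
  have h2 : i < ρ y := by omega
  have h3 : ¬ (i + 1 < ρ y) := by omega
  rw [io_of_lt h1 h2, io_of_lt h1 (h1 (O y)), fw, dif_neg h3]

theorem sm_preserving {ρ : Y → ℕ} (hρ : Measurable ρ) (O : Y ≃ᵐ Y) (h1 : ∀ y, 1 ≤ ρ y)
    (ν : Measure Y) (hO : MeasurePreserving O ν ν) {s : Set (SX ρ)} (hs : MeasurableSet s) :
    sm h1 ν (fw ρ O h1 ⁻¹' s) = sm h1 ν s := by
  rw [sm_apply hρ h1 ν (measurable_fw hρ O h1 hs), sm_apply hρ h1 ν hs]
  have hm : ∀ i, MeasurableSet {y | io h1 y i ∈ s} := fun i => measurable_io hρ h1 i hs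
  have hsplit : ∀ i : ℕ, ν {y | io h1 y i ∈ fw ρ O h1 ⁻¹' s ∧ i < ρ y} =
      ν {y | io h1 y (i + 1) ∈ s ∧ i + 1 < ρ y} + ν {y | io h1 (O y) 0 ∈ s ∧ i + 1 = ρ y} := by
    intro i
    have hu : {y | io h1 y i ∈ fw ρ O h1 ⁻¹' s ∧ i < ρ y} =
        {y | io h1 y (i + 1) ∈ s ∧ i + 1 < ρ y} ∪ {y | io h1 (O y) 0 ∈ s ∧ i + 1 = ρ y} := by
      ext y
      simp only [Set.mem_ofPred_eq, Set.mem_preimage, Set.mem_union]
      rcases Nat.lt_trichotomy (i + 1) (ρ y) with h | h | h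
      · rw [fw_io_lt O h1 h]
        constructor
        · rintro ⟨h2, -⟩; exact Or.inl ⟨h2, h⟩
        · rintro (⟨h2, -⟩ | ⟨-, h2⟩)
          · exact ⟨h2, by omega⟩
          · omega
      · rw [fw_io_eq O h1 h]
        constructor
        · rintro ⟨h2, -⟩; exact Or.inr ⟨h2, h⟩
        · rintro (⟨-, h2⟩ | ⟨h2, -⟩)
          · omega
          · exact ⟨h2, by omega⟩
      · constructor
        · rintro ⟨-, h2⟩; omega
        · rintro (⟨-, h2⟩ | ⟨-, h2⟩) <;> omega
    rw [hu, measure_union]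
    · rw [Set.disjoint_left]
      rintro y ⟨-, h2⟩ ⟨-, h3⟩
      omega
    · have m1 : MeasurableSet {y | io h1 (O y) 0 ∈ s} := O.measurable (hm 0)
      exact m1.inter (measurableSet_eq_fun measurable_const hρ)
  simp_rw [hsplit]
  rw [ENNReal.tsum_add]
  have h0 : ∑' i : ℕ, ν {y | io h1 (O y) 0 ∈ s ∧ i + 1 = ρ y} = ν {y | io h1 y 0 ∈ s ∧ 0 < ρ y} := by
    rw [← measure_iUnion]
    · have h2 : (⋃ i : ℕ, {y | io h1 (O y) 0 ∈ s ∧ i + 1 = ρ y}) =
          O ⁻¹' {y | io h1 y 0 ∈ s ∧ 0 < ρ y} := by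
        ext y
        simp only [Set.mem_iUnion, Set.mem_ofPred_eq, Set.mem_preimage]
        constructor
        · rintro ⟨i, h3, -⟩
          exact ⟨h3, h1 _⟩
        · rintro ⟨h3, -⟩
          exact ⟨ρ y - 1, h3, by have := h1 y; omega⟩
      rw [h2, hO.measure_preimage]
      exact ((hm 0).inter (measurableSet_lt measurable_const hρ)).nullMeasurableSet
    · intro i j hij
      simp only [Function.onFun]
      rw [Set.disjoint_left]
      rintro y ⟨-, h2⟩ ⟨-, h3⟩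
      apply hij
      omega
    · intro i
      have m1 : MeasurableSet {y | io h1 (O y) 0 ∈ s} := O.measurable (hm 0)
      exact m1.inter (measurableSet_eq_fun measurable_const hρ)
  rw [h0, add_comm]
  exact (tsum_eq_zero_add' (f := fun i : ℕ => ν {y | io h1 y i ∈ s ∧ i < ρ y})
    ENNReal.summable).symm

end Susp

open Susp in
theorem susp : SuspStatement := by
  intro Y _ _ ν _ O ρ hO hν hρ h1 hfin
  set I : ENNReal := ∫⁻ y, (ρ y : ENNReal) ∂ν with hI
  have hI1 : 1 ≤ I := by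
    have h2 : ∫⁻ _ : Y, (1 : ENNReal) ∂ν ≤ I := lintegral_mono fun y => Nat.one_le_cast.2 (h1 y)
    rwa [lintegral_const, measure_univ, mul_one] at h2
  have hI0 : I ≠ 0 := (lt_of_lt_of_le one_pos hI1).ne'
  set μ : Measure (SX ρ) := I⁻¹ • sm h1 ν with hμ
  have hμa : ∀ s, μ s = I⁻¹ * sm h1 ν s := fun s => rfl
  have hprob : IsProbabilityMeasure μ := by
    refine ⟨?_⟩
    rw [hμa, sm_univ hρ h1 ν]
    exact ENNReal.inv_mul_cancel hI0 hfin.ne
  have hstd : StandardBorelSpace (SX ρ) := (measurableSet_SX hρ).standardBorel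
  refine ⟨SX ρ, inferInstance, hstd, μ, hprob, ST hρ O h1, io h1, ?_, ?_, ?_, ?_, ?_, ?_, ?_, ?_⟩
  · refine ⟨(ST hρ O h1).measurable, ?_⟩
    ext s hs
    rw [Measure.map_apply (ST hρ O h1).measurable hs, hμa, hμa]
    congr 1
    exact sm_preserving hρ O h1 ν hO hs
  · intro x
    rw [hμa, sm_apply hρ h1 ν (measurableSet_singleton x)]
    have h2 : ∀ i : ℕ, ν {y | io h1 y i ∈ ({x} : Set (SX ρ)) ∧ i < ρ y} = 0 := by
      intro i
      refine measure_mono_null ?_ (hν x.1.1)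
      rintro y ⟨h3, h4⟩
      rw [Set.mem_singleton_iff, io_of_lt h1 h4] at h3
      rw [Set.mem_singleton_iff, ← h3]
    rw [tsum_congr h2, tsum_zero, mul_zero]
  · intro x
    exact ⟨x.1.1, x.1.2, x.2, io_self h1 x⟩
  · intro y i y' i' h h' heq
    rw [io_of_lt h1 h, io_of_lt h1 h'] at heq
    have := congrArg Subtype.val heq
    simpa using this
  · intro y i h
    exact fw_io_lt O h1 h
  · intro y
    refine fw_io_eq O h1 ?_
    have := h1 y
    omega
  · intro i s hs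
    exact (measurableSet_lt measurable_const hρ).inter (measurable_io hρ h1 i hs)
  · intro i A hA
    have hset : {x : SX ρ | ∃ y ∈ A, i < ρ y ∧ io h1 y i = x} =
        {x : SX ρ | x.1.1 ∈ A ∧ x.1.2 = i} := by
      ext x
      simp only [Set.mem_ofPred_eq]
      constructor
      · rintro ⟨y, hy, h2, rfl⟩
        rw [io_of_lt h1 h2]
        exact ⟨hy, rfl⟩
      · rintro ⟨h2, h3⟩
        refine ⟨x.1.1, h2, ?_, ?_⟩
        · rw [← h3]; exact x.2
        · rw [← h3]; exact io_self h1 x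
    have hmeas : MeasurableSet {x : SX ρ | x.1.1 ∈ A ∧ x.1.2 = i} := by
      have m1 : Measurable (fun x : SX ρ => x.1.1) := measurable_fst.comp measurable_subtype_coe
      have m2 : Measurable (fun x : SX ρ => x.1.2) := measurable_snd.comp measurable_subtype_coe
      exact (m1 hA).inter (measurableSet_eq_fun m2 measurable_const)
    rw [hset]
    refine ⟨hmeas, ?_⟩
    rw [hμa, sm_apply hρ h1 ν hmeas, ENNReal.div_eq_inv_mul]
    congr 1
    rw [tsum_eq_single i]
    · congr 1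
      ext y
      simp only [Set.mem_ofPred_eq, Set.mem_inter_iff]
      constructor
      · rintro ⟨h2, h3⟩
        rw [io_of_lt h1 h3] at h2
        exact ⟨h2.1, h3⟩
      · rintro ⟨h2, h3⟩
        rw [io_of_lt h1 h3]
        exact ⟨⟨h2, rfl⟩, h3⟩
    · intro j hj
      refine measure_mono_null (t := ∅) ?_ measure_empty
      rintro y ⟨h2, h3⟩
      rw [io_of_lt h1 h3] at h2
      exact hj h2.2

end Vale.Agent.P130R
end

section

set_option autoImplicit false

/-! Combinatorics of the positions of the copies of tower `0` in tower `n`. -/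

namespace Vale.Agent.P130R

open Finset MeasureTheory Filter Topology

namespace Cuts

variable (D : Cuts)

theorem q_def (n : ℕ) : D.q n = 2 ^ D.ex n := rfl

theorem a_def (n k : ℕ) : D.a n k = k * (D.h n + D.K n + 2) + D.S n k := rfl

theorem h_succ' (n : ℕ) : D.h (n + 1) = D.q n * (D.h n + D.K n + 2) := D.h_succ n

theorem q_pos (n : ℕ) : 0 < D.q n := by rw [q_def]; positivity

theorem a_zero (n : ℕ) : D.a n 0 = 0 := by rw [a_def, D.S_zero]; simp

theorem a_succ (n k : ℕ) : D.a n k + D.h n + 2 ≤ D.a n (k + 1) := by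
  rw [a_def, a_def, add_mul, one_mul]
  have := D.S_le n k
  omega

theorem a_le (n k : ℕ) (hk : k < D.q n) : D.a n k + D.h n + 2 ≤ D.h (n + 1) := by
  rw [a_def, h_succ']
  have h1 := D.S_le n k
  have h2 : (k + 1) * (D.h n + D.K n + 2) ≤ D.q n * (D.h n + D.K n + 2) :=
    Nat.mul_le_mul_right _ hk
  rw [add_mul, one_mul] at h2
  omega

theorem h_zero_pos : 1 ≤ D.h 0 := by
  have := D.h_big 0
  norm_num at this
  omega

/-- exponent of the number of copies of tower `0` in tower `n` -/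
def Eo (n : ℕ) : ℕ := Nat.rec 0 (fun k x => x + D.ex k) n

theorem Eo_succ (n : ℕ) : D.Eo (n + 1) = D.Eo n + D.ex n := rfl

theorem le_Eo (n : ℕ) : n ≤ D.Eo n := by
  induction n with
  | zero => exact Nat.zero_le _
  | succ n ih =>
    rw [Eo_succ]
    have := D.ex_pos n
    omega

theorem Eo_mono {m n : ℕ} (h : m ≤ n) : D.Eo m ≤ D.Eo n := by
  induction n, h using Nat.le_induction with
  | base => exact le_rfl
  | succ n _ ih => rw [Eo_succ]; omega

/-- number of copies of tower `0` in tower `n` -/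
def Q (n : ℕ) : ℕ := 2 ^ D.Eo n

theorem Q_def (n : ℕ) : D.Q n = 2 ^ D.Eo n := rfl

theorem Q_zero : D.Q 0 = 1 := rfl

theorem Q_succ (n : ℕ) : D.Q (n + 1) = D.Q n * D.q n := by
  rw [Q_def, Q_def, q_def, Eo_succ, pow_add]

theorem Q_pos (n : ℕ) : 0 < D.Q n := by rw [Q_def]; positivity

/-- position of the `j`-th copy of tower `0` in tower `n` -/
def pos (n : ℕ) : ℕ → ℕ :=
  Nat.rec (fun _ => 0) (fun k f j => f (j % D.Q k) + D.a k (j / D.Q k)) n

theorem pos_zero_left (j : ℕ) : D.pos 0 j = 0 := rfl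

theorem pos_succ_left (n j : ℕ) :
    D.pos (n + 1) j = D.pos n (j % D.Q n) + D.a n (j / D.Q n) := rfl

theorem pos_zero_right (n : ℕ) : D.pos n 0 = 0 := by
  induction n with
  | zero => rfl
  | succ n ih => rw [pos_succ_left, Nat.zero_mod, Nat.zero_div, ih, a_zero]

theorem pos_mul_add (n b c : ℕ) (hc : c < D.Q n) :
    D.pos (n + 1) (b * D.Q n + c) = D.pos n c + D.a n b := by
  have h1 : (b * D.Q n + c) % D.Q n = c := by
    rw [mul_comm, Nat.mul_add_mod, Nat.mod_eq_of_lt hc]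
  have h2 : (b * D.Q n + c) / D.Q n = b := by
    rw [mul_comm, Nat.mul_add_div (D.Q_pos n), Nat.div_eq_of_lt hc, add_zero]
  rw [pos_succ_left, h1, h2]

theorem pos_facts (n : ℕ) : (∀ j, j + 1 < D.Q n → D.pos n j + D.h 0 ≤ D.pos n (j + 1)) ∧
    (∀ j, j < D.Q n → D.pos n j + D.h 0 ≤ D.h n) := by
  induction n with
  | zero =>
    rw [Q_zero]
    refine ⟨fun j hj => by omega, fun j hj => ?_⟩
    rw [pos_zero_left, zero_add]
  | succ n ih =>
    obtain ⟨ih1, ih2⟩ := ih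
    have hQ := D.Q_pos n
    refine ⟨fun j hj => ?_, fun j hj => ?_⟩
    · have hc := Nat.mod_lt j hQ
      have hj' : j = j / D.Q n * D.Q n + j % D.Q n := (Nat.div_add_mod' j (D.Q n)).symm
      set b := j / D.Q n
      set c := j % D.Q n
      rcases Nat.lt_or_ge (c + 1) (D.Q n) with h1 | h1
      · have e2 : j + 1 = b * D.Q n + (c + 1) := by omega
        rw [e2, pos_mul_add D n b (c + 1) h1, hj', pos_mul_add D n b c hc]
        have := ih1 c h1
        omega
      · have h2 : c + 1 = D.Q n := by omega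
        have e2 : j + 1 = (b + 1) * D.Q n + 0 := by rw [add_mul, one_mul]; omega
        rw [e2, pos_mul_add D n (b + 1) 0 hQ, hj', pos_mul_add D n b c hc, pos_zero_right]
        have h3 := ih2 c hc
        have h4 := D.a_succ n b
        omega
    · have hc := Nat.mod_lt j hQ
      rw [pos_succ_left]
      have h3 := ih2 _ hc
      have h4 : j / D.Q n < D.q n := by
        rw [Nat.div_lt_iff_lt_mul hQ, mul_comm, ← Q_succ]
        exact hj
      have h5 := D.a_le n _ h4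
      omega

theorem pos_lt (n j : ℕ) (hj : j + 1 < D.Q n) : D.pos n j + D.h 0 ≤ D.pos n (j + 1) :=
  (D.pos_facts n).1 j hj

theorem pos_le (n j : ℕ) (hj : j < D.Q n) : D.pos n j + D.h 0 ≤ D.h n :=
  (D.pos_facts n).2 j hj

/-- distance from the last copy to the top -/
theorem last_step (n : ℕ) : D.h n + D.pos (n + 1) (D.Q (n + 1) - 1) ≤
    D.h (n + 1) + D.pos n (D.Q n - 1) := by
  have hQ := D.Q_pos n
  have hq := D.q_pos n
  have e1 : D.Q (n + 1) - 1 = (D.q n - 1) * D.Q n + (D.Q n - 1) := by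
    rw [Q_succ]
    obtain ⟨q', hq'⟩ := Nat.exists_eq_add_of_lt hq
    rw [hq', zero_add, Nat.add_sub_cancel, mul_add, mul_one, mul_comm]
    omega
  rw [e1, pos_mul_add D n _ _ (by omega)]
  have := D.a_le n (D.q n - 1) (by omega)
  omega

theorem last_mono {m n : ℕ} (h : m ≤ n) : D.h m + D.pos n (D.Q n - 1) ≤
    D.h n + D.pos m (D.Q m - 1) := by
  induction n, h using Nat.le_induction with
  | base => exact le_rfl
  | succ n _ ih =>
    have := D.last_step n
    omega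

/-- for every height there is a copy below it -/
theorem exists_index (n f : ℕ) (hf : f < D.h n) : ∃ j < D.Q n, D.pos n j ≤ f ∧
    (j + 1 < D.Q n → f < D.pos n (j + 1)) := by
  have h1 : ∀ m, m < D.Q n → (D.pos n m ≤ f) ∨ ∃ j < m, D.pos n j ≤ f ∧ f < D.pos n (j + 1) := by
    intro m
    induction m with
    | zero => intro _; left; rw [pos_zero_right]; exact Nat.zero_le _
    | succ m ih =>
      intro hm
      rcases ih (by omega) with h | ⟨j, hj, h2, h3⟩
      · rcases Nat.lt_or_ge f (D.pos n (m + 1)) with h4 | h4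
        · right; exact ⟨m, Nat.lt_succ_self m, h, h4⟩
        · left; exact h4
      · right; exact ⟨j, by omega, h2, h3⟩
  have hQ := D.Q_pos n
  rcases h1 (D.Q n - 1) (by omega) with h | ⟨j, hj, h2, h3⟩
  · exact ⟨D.Q n - 1, by omega, h, fun h4 => by omega⟩
  · exact ⟨j, by omega, h2, fun _ => h3⟩

/-- the mean height stays bounded -/
theorem h_le_exp (n : ℕ) : (D.h n : ℝ) ≤ D.h 0 * Real.exp (1 - (1/2)^n) * D.Q n := by
  induction n with
  | zero =>
    rw [Q_zero]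
    norm_num
  | succ n ih =>
    have h1 : ((D.h (n + 1) : ℕ) : ℝ) = D.q n * ((D.h n : ℝ) + (D.K n + 2)) := by
      rw [h_succ']; push_cast; ring
    have h2 : ((2 : ℝ) ^ (n + 1) * (D.K n + 2)) ≤ D.h n := by
      have := D.h_big n
      exact_mod_cast this
    have h3 : ((D.K n : ℝ) + 2) ≤ (1/2)^(n+1) * D.h n := by
      have h4 : ((1:ℝ)/2)^(n+1) * 2^(n+1) = 1 := by rw [← mul_pow]; norm_num
      calc ((D.K n : ℝ) + 2) = (1/2)^(n+1) * ((2 : ℝ) ^ (n + 1) * (D.K n + 2)) := by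
            rw [← mul_assoc, h4, one_mul]
        _ ≤ _ := by gcongr
    have h5 : ((D.h n : ℝ) + (D.K n + 2)) ≤ D.h n * Real.exp ((1/2)^(n+1)) := by
      have h6 := Real.add_one_le_exp (((1:ℝ)/2)^(n+1))
      have h7 : (0:ℝ) ≤ D.h n := Nat.cast_nonneg _
      nlinarith only [h3, h6]
    rw [h1, Q_succ]
    have hq0 : (0:ℝ) ≤ D.q n := Nat.cast_nonneg _
    have hexp : Real.exp (1 - (1/2)^n) * Real.exp ((1/2)^(n+1)) =
        Real.exp (1 - (1/2)^(n+1)) := by
      rw [← Real.exp_add]; congr 1; rw [pow_succ]; ring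
    calc (D.q n : ℝ) * ((D.h n : ℝ) + (D.K n + 2))
        ≤ D.q n * (D.h n * Real.exp ((1/2)^(n+1))) := by gcongr
      _ ≤ D.q n * ((D.h 0 * Real.exp (1 - (1/2)^n) * D.Q n) * Real.exp ((1/2)^(n+1))) := by
          gcongr
      _ = D.h 0 * (Real.exp (1 - (1/2)^n) * Real.exp ((1/2)^(n+1))) * ((D.Q n * D.q n : ℕ)) := by
          push_cast; ring
      _ = _ := by rw [hexp]

theorem h_le_mul (n : ℕ) : D.h n ≤ D.h 0 * 3 * D.Q n := by
  have h1 := D.h_le_exp n
  have h2 : Real.exp (1 - (1/2)^n) ≤ 3 := by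
    refine (Real.exp_le_exp.2 (?_ : (1:ℝ) - (1/2)^n ≤ 1)).trans ?_
    · have : (0:ℝ) ≤ (1/2)^n := by positivity
      linarith
    · exact Real.exp_one_lt_d9.le.trans (by norm_num)
  have h3 : (D.h n : ℝ) ≤ D.h 0 * 3 * D.Q n := h1.trans (by gcongr)
  exact_mod_cast h3

end Cuts

end Vale.Agent.P130R
end

section

set_option autoImplicit false

/-! The roof function over the odometer. -/

namespace Vale.Agent.P130R

open Finset MeasureTheory Filter Topology

section
variable {Y : Type} {O : Y → Y} {r : ℕ → Y → ℕ}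

theorem r_mod (hr2 : ∀ n y, r (n + 1) y % 2 ^ n = r n y) (hr0 : ∀ n y, r n y < 2 ^ n)
    {m n : ℕ} (h : m ≤ n) (y : Y) : r n y % 2 ^ m = r m y := by
  induction n, h using Nat.le_induction with
  | base => exact Nat.mod_eq_of_lt (hr0 m y)
  | succ n hn ih =>
    rw [← ih, ← hr2 n y, Nat.mod_mod_of_dvd _ (pow_dvd_pow 2 hn)]

theorem r_iter (hr1 : ∀ n y, r n (O y) = (r n y + 1) % 2 ^ n) (hr0 : ∀ n y, r n y < 2 ^ n)
    (n k : ℕ) (y : Y) : r n (O^[k] y) = (r n y + k) % 2 ^ n := by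
  induction k with
  | zero => rw [Function.iterate_zero_apply, add_zero, Nat.mod_eq_of_lt (hr0 n y)]
  | succ k ih => rw [Function.iterate_succ_apply', hr1, ih, Nat.mod_add_mod, add_assoc]

theorem r_iter_lt (hr1 : ∀ n y, r n (O y) = (r n y + 1) % 2 ^ n) (hr0 : ∀ n y, r n y < 2 ^ n)
    (n k : ℕ) (y : Y) (h : r n y + k < 2 ^ n) : r n (O^[k] y) = r n y + k := by
  rw [r_iter hr1 hr0, Nat.mod_eq_of_lt h]

theorem r_iter_back (hr1 : ∀ n y, r n (O y) = (r n y + 1) % 2 ^ n) (hr0 : ∀ n y, r n y < 2 ^ n)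
    (n k : ℕ) (y z : Y) (hz : O^[k] z = y) (h : k ≤ r n y) : r n z = r n y - k := by
  have h1 := r_iter hr1 hr0 n k z
  rw [hz] at h1
  have h2 := hr0 n z
  have h3 := hr0 n y
  have h4 : (r n y - k + k) % 2 ^ n = (r n z + k) % 2 ^ n := by
    rw [Nat.sub_add_cancel h, Nat.mod_eq_of_lt h3]; exact h1
  have h5 : r n y - k ≡ r n z [MOD 2 ^ n] := Nat.ModEq.add_right_cancel' k h4
  have h6 := Nat.ModEq.eq_of_lt_of_lt h5 (by omega) h2
  exact h6.symm

variable (D : Cuts)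

/-- not all digits are one -/
def NA (D : Cuts) (r : ℕ → Y → ℕ) (y : Y) : Prop := ∃ n, r (D.Eo n) y + 1 < D.Q n

/-- difference of consecutive positions -/
def gap (D : Cuts) (r : ℕ → Y → ℕ) (n : ℕ) (y : Y) : ℕ :=
  D.pos n (r (D.Eo n) y + 1) - D.pos n (r (D.Eo n) y)

open Classical in
/-- the roof function -/
noncomputable def roof (D : Cuts) (r : ℕ → Y → ℕ) (y : Y) : ℕ :=
  if h : ∃ n, r (D.Eo n) y + 1 < D.Q n then gap D r (Nat.find h) y else D.h 0

theorem gap_succ (hr2 : ∀ n y, r (n + 1) y % 2 ^ n = r n y) (hr0 : ∀ n y, r n y < 2 ^ n)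
    (n : ℕ) (y : Y) (h : r (D.Eo n) y + 1 < D.Q n) :
    r (D.Eo (n + 1)) y + 1 < D.Q (n + 1) ∧ gap D r (n + 1) y = gap D r n y := by
  have h1 : r (D.Eo (n + 1)) y % D.Q n = r (D.Eo n) y :=
    r_mod hr2 hr0 (D.Eo_mono (Nat.le_succ n)) y
  have h0 : r (D.Eo (n + 1)) y < D.Q (n + 1) := hr0 _ y
  have hQ := D.Q_pos n
  have hj := (Nat.div_add_mod' (r (D.Eo (n + 1)) y) (D.Q n)).symm
  rw [h1] at hj
  set b := r (D.Eo (n + 1)) y / D.Q n
  have hb : b < D.q n := by
    rw [Nat.div_lt_iff_lt_mul hQ, mul_comm, ← D.Q_succ]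
    exact h0
  have h2 : r (D.Eo (n + 1)) y + 1 = b * D.Q n + (r (D.Eo n) y + 1) := by omega
  constructor
  · rw [h2, D.Q_succ]
    calc b * D.Q n + (r (D.Eo n) y + 1) < b * D.Q n + D.Q n := by omega
      _ = (b + 1) * D.Q n := by ring
      _ ≤ D.q n * D.Q n := Nat.mul_le_mul_right _ hb
      _ = _ := mul_comm _ _
  · unfold gap
    rw [h2, D.pos_mul_add n b _ h, hj, D.pos_mul_add n b _ (by omega)]
    omega

theorem gap_mono (hr2 : ∀ n y, r (n + 1) y % 2 ^ n = r n y) (hr0 : ∀ n y, r n y < 2 ^ n)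
    {m n : ℕ} (hmn : m ≤ n) (y : Y) (h : r (D.Eo m) y + 1 < D.Q m) :
    r (D.Eo n) y + 1 < D.Q n ∧ gap D r n y = gap D r m y := by
  induction n, hmn using Nat.le_induction with
  | base => exact ⟨h, rfl⟩
  | succ n _ ih =>
    obtain ⟨h1, h2⟩ := gap_succ D hr2 hr0 n y ih.1
    exact ⟨h1, h2.trans ih.2⟩

theorem roof_eq (hr2 : ∀ n y, r (n + 1) y % 2 ^ n = r n y) (hr0 : ∀ n y, r n y < 2 ^ n)
    (n : ℕ) (y : Y) (h : r (D.Eo n) y + 1 < D.Q n) : roof D r y = gap D r n y := by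
  classical
  have hex : ∃ n, r (D.Eo n) y + 1 < D.Q n := ⟨n, h⟩
  unfold roof
  rw [dif_pos hex]
  exact (gap_mono D hr2 hr0 (Nat.find_min' hex h) y (Nat.find_spec hex)).2.symm

theorem pos_add_roof (hr2 : ∀ n y, r (n + 1) y % 2 ^ n = r n y) (hr0 : ∀ n y, r n y < 2 ^ n)
    (n : ℕ) (y : Y) (h : r (D.Eo n) y + 1 < D.Q n) :
    D.pos n (r (D.Eo n) y) + roof D r y = D.pos n (r (D.Eo n) y + 1) := by
  rw [roof_eq D hr2 hr0 n y h]
  unfold gap
  have := D.pos_lt n _ h
  omega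

theorem roof_of_not {y : Y} (h : ¬ NA D r y) : roof D r y = D.h 0 := by
  unfold roof
  exact dif_neg h

theorem one_le_roof (hr2 : ∀ n y, r (n + 1) y % 2 ^ n = r n y) (hr0 : ∀ n y, r n y < 2 ^ n)
    (y : Y) : 1 ≤ roof D r y := by
  by_cases h : ∃ n, r (D.Eo n) y + 1 < D.Q n
  · obtain ⟨n, hn⟩ := h
    have h1 := pos_add_roof D hr2 hr0 n y hn
    have h2 := D.pos_lt n _ hn
    have h3 := D.h_zero_pos
    omega
  · unfold roof
    rw [dif_neg h]
    exact D.h_zero_pos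

theorem last_roof (hr2 : ∀ n y, r (n + 1) y % 2 ^ n = r n y) (hr0 : ∀ n y, r n y < 2 ^ n)
    (n : ℕ) (y : Y) (hy : NA D r y) (h : r (D.Eo n) y + 1 = D.Q n) :
    D.h n ≤ D.pos n (D.Q n - 1) + roof D r y := by
  classical
  obtain ⟨m0, hm0⟩ := hy
  -- least `m`
  have hex : ∃ n, r (D.Eo n) y + 1 < D.Q n := ⟨m0, hm0⟩
  set m := Nat.find hex with hm
  have hm1 : r (D.Eo m) y + 1 < D.Q m := Nat.find_spec hex
  have hnm : n < m := by
    by_contra hcon
    push Not at hcon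
    have := (gap_mono D hr2 hr0 hcon y hm1).1
    omega
  obtain ⟨k, hk⟩ : ∃ k, m = k + 1 := ⟨m - 1, by omega⟩
  have hk0 : ¬ (r (D.Eo k) y + 1 < D.Q k) := Nat.find_min hex (by omega)
  have hk1 : r (D.Eo k) y < D.Q k := hr0 _ y
  have hk2 : r (D.Eo k) y = D.Q k - 1 := by omega
  rw [hk] at hm1
  have h1 : r (D.Eo (k + 1)) y % D.Q k = r (D.Eo k) y :=
    r_mod hr2 hr0 (D.Eo_mono (Nat.le_succ k)) y
  have hQ := D.Q_pos k
  have hj := (Nat.div_add_mod' (r (D.Eo (k + 1)) y) (D.Q k)).symm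
  rw [h1, hk2] at hj
  set b := r (D.Eo (k + 1)) y / D.Q k
  have h2 := pos_add_roof D hr2 hr0 (k + 1) y hm1
  have h3 : r (D.Eo (k + 1)) y + 1 = (b + 1) * D.Q k + 0 := by
    rw [add_mul, one_mul]; omega
  rw [h3, D.pos_mul_add k (b + 1) 0 hQ, hj, D.pos_mul_add k b _ (by omega),
    D.pos_zero_right] at h2
  have h4 := D.a_succ k b
  have h5 := D.last_mono (show n ≤ k by omega)
  omega

end

section meas
variable {Y : Type} [MeasurableSpace Y] {ν : Measure Y} {O : Y ≃ᵐ Y}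
  {r : ℕ → Y → ℕ} (D : Cuts)

theorem measurable_gap (hrm : ∀ n, Measurable (r n)) (n : ℕ) : Measurable (gap D r n) := by
  have : gap D r n = (fun j => D.pos n (j + 1) - D.pos n j) ∘ (r (D.Eo n)) := rfl
  rw [this]
  exact (measurable_from_nat).comp (hrm _)

theorem measurableSet_lt (hrm : ∀ n, Measurable (r n)) (n : ℕ) :
    MeasurableSet {y | r (D.Eo n) y + 1 < D.Q n} :=
  (hrm (D.Eo n)) (MeasurableSet.of_discrete (s := {j | j + 1 < D.Q n}))

theorem measurableSet_NA (hrm : ∀ n, Measurable (r n)) : MeasurableSet {y | NA D r y} := by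
  have : {y | NA D r y} = ⋃ n, {y | r (D.Eo n) y + 1 < D.Q n} := by
    ext y; simp [NA]
  rw [this]
  exact MeasurableSet.iUnion fun n => measurableSet_lt D hrm n

theorem measurable_roof (hr2 : ∀ n y, r (n + 1) y % 2 ^ n = r n y)
    (hr0 : ∀ n y, r n y < 2 ^ n) (hrm : ∀ n, Measurable (r n)) : Measurable (roof D r) := by
  refine measurable_to_nat fun y0 => ?_
  set c := roof D r y0
  have : roof D r ⁻¹' {c} = (⋃ n, {y | r (D.Eo n) y + 1 < D.Q n} ∩ gap D r n ⁻¹' {c}) ∪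
      ({y | NA D r y}ᶜ ∩ {_y | D.h 0 = c}) := by
    ext y
    simp only [Set.mem_preimage, Set.mem_singleton_iff, Set.mem_union, Set.mem_iUnion,
      Set.mem_inter_iff, Set.mem_ofPred_eq, Set.mem_compl_iff]
    constructor
    · intro h
      by_cases hy : NA D r y
      · obtain ⟨n, hn⟩ := hy
        exact Or.inl ⟨n, hn, by rw [← roof_eq D hr2 hr0 n y hn]; exact h⟩
      · right
        exact ⟨hy, by rw [← h, roof_of_not D hy]⟩
    · rintro (⟨n, hn, h⟩ | ⟨hy, h⟩)
      · rw [roof_eq D hr2 hr0 n y hn]; exact h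
      · rw [roof_of_not D hy]
        exact h
  rw [this]
  refine (MeasurableSet.iUnion fun n => (measurableSet_lt D hrm n).inter
    (measurable_gap D hrm n (measurableSet_singleton c))).union
    ((measurableSet_NA D hrm).compl.inter (MeasurableSet.const _))

theorem measure_last (hr0 : ∀ n y, r n y < 2 ^ n)
    (hrν : ∀ n, ∀ j < 2 ^ n, ν {y | r n y = j} = (2 ^ n : ENNReal)⁻¹) (n : ℕ) :
    ν {y | ¬ (r (D.Eo n) y + 1 < D.Q n)} = (2 ^ (D.Eo n) : ENNReal)⁻¹ := by
  have hQ := D.Q_pos n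
  rw [← hrν (D.Eo n) (D.Q n - 1) (by rw [← D.Q_def]; omega)]
  congr 1
  ext y
  simp only [Set.mem_ofPred_eq]
  have := hr0 (D.Eo n) y
  rw [← D.Q_def] at this
  omega

theorem tendsto_last : Tendsto (fun n => (2 ^ (D.Eo n) : ENNReal)⁻¹) atTop (𝓝 0) := by
  have h1 : Tendsto (fun n : ℕ => ((2 : ENNReal)⁻¹) ^ n) atTop (𝓝 0) :=
    ENNReal.tendsto_pow_atTop_nhds_zero_of_lt_one (by
      rw [ENNReal.inv_lt_one]; norm_num)
  have h2 : Tendsto D.Eo atTop atTop :=
    tendsto_atTop_mono D.le_Eo tendsto_id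
  refine (h1.comp h2).congr fun n => ?_
  rw [Function.comp_apply, ENNReal.inv_pow]

theorem null_notNA (hr0 : ∀ n y, r n y < 2 ^ n)
    (hrν : ∀ n, ∀ j < 2 ^ n, ν {y | r n y = j} = (2 ^ n : ENNReal)⁻¹) :
    ν {y | ¬ NA D r y} = 0 := by
  refine le_antisymm ?_ (zero_le)
  refine ge_of_tendsto' (tendsto_last D) fun n => ?_
  rw [← measure_last D hr0 hrν n]
  refine measure_mono fun y hy => ?_
  intro h
  exact hy ⟨n, h⟩

/-- the good set -/
def Good (D : Cuts) (r : ℕ → Y → ℕ) (O : Y ≃ᵐ Y) : Set Y :=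
  {y | ∀ k : ℕ, NA D r (O^[k] y) ∧ NA D r (O.symm^[k] y)}

theorem good_O {y : Y} (hy : y ∈ Good D r O) : O y ∈ Good D r O := by
  intro k
  refine ⟨?_, ?_⟩
  · have := (hy (k + 1)).1
    rwa [Function.iterate_succ_apply] at this
  · cases k with
    | zero =>
      have := (hy 1).1
      rwa [Function.iterate_one] at this
    | succ k =>
      rw [Function.iterate_succ_apply, MeasurableEquiv.symm_apply_apply]
      exact (hy k).2

theorem good_symm {y : Y} (hy : y ∈ Good D r O) : O.symm y ∈ Good D r O := by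
  intro k
  refine ⟨?_, ?_⟩
  · cases k with
    | zero =>
      have := (hy 1).2
      rwa [Function.iterate_one] at this
    | succ k =>
      rw [Function.iterate_succ_apply, MeasurableEquiv.apply_symm_apply]
      exact (hy k).1
  · have := (hy (k + 1)).2
    rwa [Function.iterate_succ_apply] at this

theorem good_iter {y : Y} (hy : y ∈ Good D r O) (k : ℕ) : O^[k] y ∈ Good D r O := by
  induction k with
  | zero => exact hy
  | succ k ih => rw [Function.iterate_succ_apply']; exact good_O D ih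

theorem good_iter_symm {y : Y} (hy : y ∈ Good D r O) (k : ℕ) : O.symm^[k] y ∈ Good D r O := by
  induction k with
  | zero => exact hy
  | succ k ih => rw [Function.iterate_succ_apply']; exact good_symm D ih

theorem good_NA {y : Y} (hy : y ∈ Good D r O) : NA D r y := (hy 0).1

theorem measurableSet_good (hrm : ∀ n, Measurable (r n)) : MeasurableSet (Good D r O) := by
  have : Good D r O = ⋂ k : ℕ, ((O^[k]) ⁻¹' {y | NA D r y} ∩ (O.symm^[k]) ⁻¹' {y | NA D r y}) := by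
    ext y; simp [Good]
  rw [this]
  exact MeasurableSet.iInter fun k =>
    ((O.measurable.iterate k) (measurableSet_NA D hrm)).inter
      ((O.symm.measurable.iterate k) (measurableSet_NA D hrm))

theorem null_good (hr0 : ∀ n y, r n y < 2 ^ n) (hrm : ∀ n, Measurable (r n))
    (hO : MeasurePreserving O ν ν)
    (hrν : ∀ n, ∀ j < 2 ^ n, ν {y | r n y = j} = (2 ^ n : ENNReal)⁻¹) :
    ν (Good D r O)ᶜ = 0 := by
  have h1 := null_notNA D hr0 hrν
  have hms : MeasurableSet {y | ¬ NA D r y} := (measurableSet_NA D hrm).compl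
  have hOs : MeasurePreserving O.symm ν ν := hO.symm
  have : (Good D r O)ᶜ ⊆ ⋃ k : ℕ, ((O^[k]) ⁻¹' {y | ¬ NA D r y} ∪
      (O.symm^[k]) ⁻¹' {y | ¬ NA D r y}) := by
    intro y hy
    simp only [Good, Set.mem_compl_iff, Set.mem_ofPred_eq, not_forall] at hy
    obtain ⟨k, hk⟩ := hy
    rw [Set.mem_iUnion]
    refine ⟨k, ?_⟩
    by_cases h : NA D r (O^[k] y)
    · right
      intro h2
      exact hk ⟨h, h2⟩
    · left; exact h
  refine measure_mono_null this (measure_iUnion_null fun k => measure_union_null ?_ ?_)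
  · rw [(hO.iterate k).measure_preimage hms.nullMeasurableSet, h1]
  · rw [(hOs.iterate k).measure_preimage hms.nullMeasurableSet, h1]

/-- integrability of the roof -/
theorem lintegral_roof (hr2 : ∀ n y, r (n + 1) y % 2 ^ n = r n y)
    (hr0 : ∀ n y, r n y < 2 ^ n) (hrm : ∀ n, Measurable (r n))
    (hrν : ∀ n, ∀ j < 2 ^ n, ν {y | r n y = j} = (2 ^ n : ENNReal)⁻¹) :
    (∫⁻ y, (roof D r y : ENNReal) ∂ν) < ⊤ := by
  classical
  have hm := measurable_roof D hr2 hr0 hrm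
  -- truncated roofs
  let g : ℕ → Y → ENNReal := fun n y => if r (D.Eo n) y + 1 < D.Q n then (roof D r y : ENNReal) else 0
  have hg_eq : ∀ n y, g n y = ∑ j ∈ range (D.Q n - 1),
      ({y | r (D.Eo n) y = j}).indicator (fun _ => ((D.pos n (j + 1) - D.pos n j : ℕ) : ENNReal)) y := by
    intro n y
    by_cases h : r (D.Eo n) y + 1 < D.Q n
    · have h1 : g n y = (roof D r y : ENNReal) := if_pos h
      rw [h1, roof_eq D hr2 hr0 n y h]
      rw [Finset.sum_eq_single (r (D.Eo n) y)]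
      · rw [Set.indicator_of_mem (by rfl)]; rfl
      · intro j _ hj
        rw [Set.indicator_of_notMem]
        intro h2
        exact hj h2.symm
      · intro h2
        exact absurd (Finset.mem_range.2 (by omega)) h2
    · have h1 : g n y = 0 := if_neg h
      rw [h1]
      refine (Finset.sum_eq_zero fun j hj => ?_).symm
      rw [Set.indicator_of_notMem]
      intro h2
      rw [Finset.mem_range] at hj
      have h3 : r (D.Eo n) y = j := h2
      omega
  have hgint : ∀ n, ∫⁻ y, g n y ∂ν ≤ (D.h 0 * 3 : ℕ) := by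
    intro n
    have hms : ∀ j, MeasurableSet {y | r (D.Eo n) y = j} := fun j =>
      (hrm (D.Eo n)) (measurableSet_singleton j)
    calc ∫⁻ y, g n y ∂ν = ∫⁻ y, ∑ j ∈ range (D.Q n - 1),
        ({y | r (D.Eo n) y = j}).indicator
          (fun _ => ((D.pos n (j + 1) - D.pos n j : ℕ) : ENNReal)) y ∂ν := by
          exact lintegral_congr fun y => hg_eq n y
      _ = ∑ j ∈ range (D.Q n - 1), ((D.pos n (j + 1) - D.pos n j : ℕ) : ENNReal) *
          (2 ^ (D.Eo n) : ENNReal)⁻¹ := by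
          rw [lintegral_finsetSum _ fun j _ => measurable_const.indicator (hms j)]
          refine Finset.sum_congr rfl fun j hj => ?_
          rw [lintegral_indicator_const (hms j), hrν _ j]
          rw [Finset.mem_range] at hj
          rw [← D.Q_def]
          omega
      _ = ((∑ j ∈ range (D.Q n - 1), (D.pos n (j + 1) - D.pos n j) : ℕ) : ENNReal) *
          (2 ^ (D.Eo n) : ENNReal)⁻¹ := by
          rw [← Finset.sum_mul]; push_cast; rfl
      _ ≤ ((D.h 0 * 3 * D.Q n : ℕ) : ENNReal) * (2 ^ (D.Eo n) : ENNReal)⁻¹ := by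
          gcongr
          have h1 : ∀ m, m < D.Q n → ∑ j ∈ range m, (D.pos n (j + 1) - D.pos n j) = D.pos n m := by
            intro m
            induction m with
            | zero => intro _; rw [Finset.sum_range_zero, D.pos_zero_right]
            | succ m ih =>
              intro hm
              rw [Finset.sum_range_succ, ih (by omega)]
              have := D.pos_lt n m hm
              omega
          have hQ := D.Q_pos n
          rw [h1 _ (by omega)]
          have h2 := D.pos_le n (D.Q n - 1) (by omega)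
          have h3 := D.h_le_mul n
          omega
      _ = (D.h 0 * 3 : ℕ) := by
          have h4 : ((D.Q n : ℕ) : ENNReal) = 2 ^ (D.Eo n) := by
            rw [D.Q_def]; push_cast; rfl
          rw [Nat.cast_mul (D.h 0 * 3) (D.Q n), h4, mul_assoc, ENNReal.mul_inv_cancel, mul_one]
          · positivity
          · exact ENNReal.pow_ne_top (by norm_num)
  have hgm : ∀ n, Measurable (g n) := fun n =>
    Measurable.ite (measurableSet_lt D hrm n) ((measurable_from_nat (f := fun n : ℕ => (n : ENNReal))).comp hm)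
      measurable_const
  have hmono : Monotone g := by
    refine monotone_nat_of_le_succ fun n y => ?_
    show (if r (D.Eo n) y + 1 < D.Q n then (roof D r y : ENNReal) else 0) ≤
      (if r (D.Eo (n+1)) y + 1 < D.Q (n+1) then (roof D r y : ENNReal) else 0)
    by_cases h : r (D.Eo n) y + 1 < D.Q n
    · rw [if_pos h, if_pos (gap_succ D hr2 hr0 n y h).1]
    · rw [if_neg h]; exact zero_le
  have hsup : ∀ᵐ y ∂ν, (roof D r y : ENNReal) ≤ ⨆ n, g n y := by
    have h1 : ∀ᵐ y ∂ν, NA D r y := null_notNA D hr0 hrν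
    filter_upwards [h1] with y hy
    obtain ⟨n, hn⟩ := hy
    refine le_trans ?_ (le_iSup _ n)
    show _ ≤ (if r (D.Eo n) y + 1 < D.Q n then (roof D r y : ENNReal) else 0)
    rw [if_pos hn]
  calc ∫⁻ y, (roof D r y : ENNReal) ∂ν ≤ ∫⁻ y, ⨆ n, g n y ∂ν := lintegral_mono_ae hsup
    _ = ⨆ n, ∫⁻ y, g n y ∂ν := lintegral_iSup hgm hmono
    _ ≤ (D.h 0 * 3 : ℕ) := iSup_le hgint
    _ < ⊤ := ENNReal.natCast_lt_top _

end meas

end Vale.Agent.P130R
end

section

set_option autoImplicit false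

/-! The rank one system as a tower over the odometer. -/

namespace Vale.Agent.P130R

open Finset MeasureTheory Filter Topology

/-- the part of the tower at height `i` over `A` -/
def cyl {X Y : Type} (ρ : Y → ℕ) (ι : Y → ℕ → X) (i : ℕ) (A : Set Y) : Set X :=
  {x | ∃ y ∈ A, i < ρ y ∧ ι y i = x}

section dyn
variable {X Y : Type} [MeasurableSpace X] [MeasurableSpace Y] {T : X ≃ᵐ X} {O : Y ≃ᵐ Y}
  {ι : Y → ℕ → X} {r : ℕ → Y → ℕ} (D : Cuts)

theorem T_iter (hTi : ∀ y i, i + 1 < roof D r y → T (ι y i) = ι y (i + 1)) (y : Y) (i : ℕ)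
    (hi : i < roof D r y) : T^[i] (ι y 0) = ι y i := by
  induction i with
  | zero => rfl
  | succ i ih => rw [Function.iterate_succ_apply', ih (by omega), hTi y i hi]

theorem T_roof (hTi : ∀ y i, i + 1 < roof D r y → T (ι y i) = ι y (i + 1))
    (hTl : ∀ y, T (ι y (roof D r y - 1)) = ι (O y) 0) (y : Y) (h1 : 1 ≤ roof D r y) :
    T^[roof D r y] (ι y 0) = ι (O y) 0 := by
  obtain ⟨k, hk⟩ : ∃ k, roof D r y = k + 1 := ⟨roof D r y - 1, by omega⟩
  rw [hk, Function.iterate_succ_apply', T_iter D hTi y k (by omega), ← hTl y, hk,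
    Nat.add_sub_cancel]

theorem T_pos (hr0 : ∀ n y, r n y < 2 ^ n) (hr1 : ∀ n y, r n (O y) = (r n y + 1) % 2 ^ n)
    (hr2 : ∀ n y, r (n + 1) y % 2 ^ n = r n y)
    (hTi : ∀ y i, i + 1 < roof D r y → T (ι y i) = ι y (i + 1))
    (hTl : ∀ y, T (ι y (roof D r y - 1)) = ι (O y) 0) (n : ℕ) (y : Y) (hy : r (D.Eo n) y = 0)
    (j : ℕ) (hj : j < D.Q n) : T^[D.pos n j] (ι y 0) = ι (O^[j] y) 0 := by
  induction j with
  | zero => rw [D.pos_zero_right]; rfl
  | succ j ih =>
    have h1 : r (D.Eo n) (O^[j] y) = j := by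
      rw [r_iter_lt hr1 hr0 _ _ _ (by rw [hy, zero_add, ← D.Q_def]; omega), hy, zero_add]
    have h2 := pos_add_roof D hr2 hr0 n (O^[j] y) (by rw [h1]; exact hj)
    rw [h1] at h2
    rw [← h2, add_comm, Function.iterate_add_apply, ih (by omega),
      T_roof D hTi hTl _ (one_le_roof D hr2 hr0 _), Function.iterate_succ_apply']

theorem T_level (hr0 : ∀ n y, r n y < 2 ^ n) (hr1 : ∀ n y, r n (O y) = (r n y + 1) % 2 ^ n)
    (hr2 : ∀ n y, r (n + 1) y % 2 ^ n = r n y)
    (hTi : ∀ y i, i + 1 < roof D r y → T (ι y i) = ι y (i + 1))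
    (hTl : ∀ y, T (ι y (roof D r y - 1)) = ι (O y) 0) (n f : ℕ) (hf : f < D.h n) :
    ∃ j i, j < D.Q n ∧ f = D.pos n j + i ∧ ∀ y ∈ Good D r O, r (D.Eo n) y = 0 →
      i < roof D r (O^[j] y) ∧ T^[f] (ι y 0) = ι (O^[j] y) i ∧ r (D.Eo n) (O^[j] y) = j := by
  obtain ⟨j, hj, h1, h2⟩ := D.exists_index n f hf
  refine ⟨j, f - D.pos n j, hj, by omega, fun y hy hy0 => ?_⟩
  have hrj : r (D.Eo n) (O^[j] y) = j := by
    rw [r_iter_lt hr1 hr0 _ _ _ (by rw [hy0, zero_add, ← D.Q_def]; omega), hy0, zero_add]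
  have h3 : f - D.pos n j < roof D r (O^[j] y) := by
    rcases Nat.lt_or_ge (j + 1) (D.Q n) with h4 | h4
    · have h5 := pos_add_roof D hr2 hr0 n (O^[j] y) (by rw [hrj]; exact h4)
      rw [hrj] at h5
      have := h2 h4
      omega
    · have h5 := last_roof D hr2 hr0 n (O^[j] y) (good_NA D (good_iter D hy j)) (by
        rw [hrj]; omega)
      have h6 : j = D.Q n - 1 := by omega
      rw [← h6] at h5
      omega
  refine ⟨h3, ?_, hrj⟩
  have h4 : f = (f - D.pos n j) + D.pos n j := by omega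
  conv_lhs => rw [h4]
  rw [Function.iterate_add_apply, T_pos D hr0 hr1 hr2 hTi hTl n y hy0 j hj,
    T_iter D hTi _ _ h3]

/-- base of tower `n` -/
def base (D : Cuts) (r : ℕ → Y → ℕ) (O : Y ≃ᵐ Y) (ι : Y → ℕ → X) (n : ℕ) : Set X :=
  cyl (roof D r) ι 0 ({y | r (D.Eo n) y = 0} ∩ Good D r O)

theorem mem_level (hr0 : ∀ n y, r n y < 2 ^ n) (hr2 : ∀ n y, r (n + 1) y % 2 ^ n = r n y)
    (n f : ℕ) (x : X) : x ∈ level T (base D r O ι) n f ↔
      ∃ y ∈ Good D r O, r (D.Eo n) y = 0 ∧ T^[f] (ι y 0) = x := by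
  have hl : Function.LeftInverse T T.symm := T.apply_symm_apply
  have hr : Function.LeftInverse T.symm T := T.symm_apply_apply
  constructor
  · rintro ⟨y, ⟨hy0, hy⟩, -, hyx⟩
    refine ⟨y, hy, hy0, ?_⟩
    rw [hyx]
    exact hl.iterate f x
  · rintro ⟨y, hy, hy0, rfl⟩
    refine ⟨y, ⟨hy0, hy⟩, ?_, ?_⟩
    · exact one_le_roof D hr2 hr0 y
    · exact (hr.iterate f (ι y 0)).symm

theorem level_disjoint (hr0 : ∀ n y, r n y < 2 ^ n)
    (hr1 : ∀ n y, r n (O y) = (r n y + 1) % 2 ^ n)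
    (hr2 : ∀ n y, r (n + 1) y % 2 ^ n = r n y)
    (hTi : ∀ y i, i + 1 < roof D r y → T (ι y i) = ι y (i + 1))
    (hTl : ∀ y, T (ι y (roof D r y - 1)) = ι (O y) 0)
    (hinj : ∀ y i y' i', i < roof D r y → i' < roof D r y' → ι y i = ι y' i' → y = y' ∧ i = i')
    (n f g : ℕ) (hf : f < D.h n) (hg : g < D.h n) (hfg : f ≠ g) :
    Disjoint (level T (base D r O ι) n f) (level T (base D r O ι) n g) := by
  rw [Set.disjoint_left]
  intro x hx hx'
  rw [mem_level D hr0 hr2] at hx hx'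
  obtain ⟨y, hy, hy0, hyx⟩ := hx
  obtain ⟨z, hz, hz0, hzx⟩ := hx'
  obtain ⟨j, i, hj, hfi, h1⟩ := T_level D hr0 hr1 hr2 hTi hTl n f hf
  obtain ⟨j', i', hj', hgi, h1'⟩ := T_level D hr0 hr1 hr2 hTi hTl n g hg
  obtain ⟨h2, h3, h4⟩ := h1 y hy hy0
  obtain ⟨h2', h3', h4'⟩ := h1' z hz hz0
  rw [h3] at hyx
  rw [h3'] at hzx
  obtain ⟨h5, h6⟩ := hinj _ _ _ _ h2 h2' (hyx.trans hzx.symm)
  apply hfg
  rw [hfi, hgi, h6]
  rw [h5, h4'] at h4
  rw [h4]

theorem base_eq (hr0 : ∀ n y, r n y < 2 ^ n)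
    (hr1 : ∀ n y, r n (O y) = (r n y + 1) % 2 ^ n)
    (hr2 : ∀ n y, r (n + 1) y % 2 ^ n = r n y)
    (hTi : ∀ y i, i + 1 < roof D r y → T (ι y i) = ι y (i + 1))
    (hTl : ∀ y, T (ι y (roof D r y - 1)) = ι (O y) 0) (n : ℕ) :
    base D r O ι n = ⋃ k ∈ range (D.q n), level T (base D r O ι) (n + 1) (D.a n k) := by
  have hQ := D.Q_pos n
  have hpos : ∀ k, D.pos (n + 1) (k * D.Q n) = D.a n k := by
    intro k
    have := D.pos_mul_add n k 0 hQ
    rw [add_zero, D.pos_zero_right, zero_add] at this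
    exact this
  have hlt : ∀ k < D.q n, k * D.Q n < D.Q (n + 1) := by
    intro k hk
    rw [D.Q_succ, mul_comm]
    exact Nat.mul_lt_mul_of_pos_left hk hQ
  ext x
  simp only [Set.mem_iUnion, Finset.mem_range]
  constructor
  · rintro ⟨y, ⟨hy0, hy⟩, -, rfl⟩
    have hy0' : r (D.Eo n) y = 0 := hy0
    have h1 : r (D.Eo (n + 1)) y % D.Q n = 0 := by
      rw [D.Q_def, r_mod hr2 hr0 (D.Eo_mono (Nat.le_succ n)) y, hy0']
    have h2 : r (D.Eo (n + 1)) y < D.Q (n + 1) := hr0 _ y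
    have h3 := (Nat.div_add_mod' (r (D.Eo (n + 1)) y) (D.Q n)).symm
    rw [h1, add_zero] at h3
    have h4 : r (D.Eo (n + 1)) y / D.Q n < D.q n := by
      rw [Nat.div_lt_iff_lt_mul hQ, mul_comm, ← D.Q_succ]
      exact h2
    refine ⟨_, h4, ?_⟩
    rw [mem_level D hr0 hr2]
    have hl : Function.LeftInverse O O.symm := O.apply_symm_apply
    have h5 : O^[r (D.Eo (n + 1)) y] (O.symm^[r (D.Eo (n + 1)) y] y) = y := hl.iterate _ y
    refine ⟨O.symm^[r (D.Eo (n + 1)) y] y, good_iter_symm D hy _, ?_, ?_⟩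
    · rw [r_iter_back hr1 hr0 _ _ y _ h5 le_rfl, Nat.sub_self]
    · rw [← hpos, ← h3, T_pos D hr0 hr1 hr2 hTi hTl (n + 1) _
        (by rw [r_iter_back hr1 hr0 _ _ y _ h5 le_rfl, Nat.sub_self]) _ h2, h5]
  · rintro ⟨k, hk, hx⟩
    rw [mem_level D hr0 hr2] at hx
    obtain ⟨y, hy, hy0, rfl⟩ := hx
    rw [← hpos k, T_pos D hr0 hr1 hr2 hTi hTl (n + 1) y hy0 _ (hlt k hk)]
    refine ⟨_, ⟨?_, good_iter D hy _⟩, one_le_roof D hr2 hr0 _, rfl⟩
    show r (D.Eo n) (O^[k * D.Q n] y) = 0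
    rw [r_iter hr1 hr0, ← r_mod hr2 hr0 (D.Eo_mono (Nat.le_succ n)) y, hy0, Nat.zero_mod,
      zero_add, D.Q_def, Nat.mul_mod_left]

end dyn

theorem sys (h1 : OdoStatement) (h2 : SuspStatement) : SystemStatement := by
  intro D
  obtain ⟨Y, iY, iYs, ν, iν, O, r, hO, hYna, hrm, hr0, hr1, hr2, hrν, hrd⟩ := h1
  have hρm := measurable_roof D hr2 hr0 hrm
  have hρ1 := one_le_roof D hr2 hr0
  have hρi := lintegral_roof D hr2 hr0 hrm hrν
  obtain ⟨X, iX, iXs, μ, iμ, T, ι, hT, hXna, hsurj, hinj, hTi, hTl, hms, hcyl⟩ :=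
    h2 Y iY iYs ν iν O (roof D r) hO hYna hρm hρ1 hρi
  set M : ENNReal := ∫⁻ y, (roof D r y : ENNReal) ∂ν with hM
  have hM1 : 1 ≤ M := by
    rw [hM]
    calc (1 : ENNReal) = ∫⁻ _y, (1 : ENNReal) ∂ν := by
          rw [lintegral_const, measure_univ, mul_one]
      _ ≤ _ := lintegral_mono fun y => by
          have h3 : (1 : ENNReal) ≤ (roof D r y : ENNReal) := by
            have := hρ1 y
            exact_mod_cast this
          exact h3
  have hcylm : ∀ i A, MeasurableSet A → MeasurableSet (cyl (roof D r) ι i A) :=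
    fun i A hA => (hcyl i A hA).1
  have hcylμ : ∀ i A, MeasurableSet A → μ (cyl (roof D r) ι i A) =
      ν (A ∩ {y | i < roof D r y}) / M := fun i A hA => (hcyl i A hA).2
  have hcylle : ∀ i A, MeasurableSet A → μ (cyl (roof D r) ι i A) ≤ ν A := by
    intro i A hA
    rw [hcylμ i A hA]
    calc ν (A ∩ {y | i < roof D r y}) / M ≤ ν A / 1 := by
          gcongr
          exact Set.inter_subset_left
      _ = ν A := div_one _
  have hrset : ∀ n (S : Set ℕ), MeasurableSet {y | r n y ∈ S} := fun n S =>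
    (hrm n) (MeasurableSet.of_discrete (s := S))
  have hgood := measurableSet_good (O := O) D hrm
  have hgood0 := null_good (O := O) (ν := ν) D hr0 hrm hO hrν
  have hbm : ∀ n, MeasurableSet (base D r O ι n) := fun n =>
    hcylm 0 _ ((hrset _ {0}).inter hgood)
  have hTs : MeasurePreserving T.symm μ μ := hT.symm
  have hlm : ∀ n f, MeasurableSet (level T (base D r O ι) n f) := fun n f =>
    (T.symm.measurable.iterate f) (hbm n)
  refine ⟨X, iX, iXs, μ, iμ, T, base D r O ι, hXna, hT, hbm, ?_, ?_, ?_, ?_⟩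
  · -- positive measure
    intro n
    have hms0 : MeasurableSet {y | r (D.Eo n) y = 0} := hrset _ {0}
    show 0 < μ (cyl (roof D r) ι 0 ({y | r (D.Eo n) y = 0} ∩ Good D r O))
    rw [hcylμ 0 _ (hms0.inter hgood)]
    refine ENNReal.div_pos ?_ hρi.ne
    have e1 : ({y | r (D.Eo n) y = 0} ∩ Good D r O) ∩ {y | 0 < roof D r y} =
        {y | r (D.Eo n) y = 0} ∩ Good D r O := by
      refine Set.inter_eq_left.2 fun y _ => hρ1 y
    rw [e1, measure_inter_conull hgood0, hrν _ 0 (by positivity)]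
    exact ENNReal.inv_ne_zero.2 (ENNReal.pow_ne_top (by norm_num))
  · intro n f hf g hg hfg
    exact level_disjoint D hr0 hr1 hr2 hTi hTl hinj n f g hf hg hfg
  · intro n
    exact base_eq D hr0 hr1 hr2 hTi hTl n
  · -- density
    intro A hA ε hε
    classical
    -- split `ε`
    obtain ⟨δ, hδ, hδε⟩ : ∃ δ : ENNReal, 0 < δ ∧ δ + (δ + δ) ≤ ε := by
      by_cases hεt : ε = ⊤
      · exact ⟨1, by norm_num, by rw [hεt]; exact le_top⟩
      · refine ⟨ε / 3, ENNReal.div_pos hε.ne' (by norm_num), ?_⟩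
        have : ε / 3 + (ε / 3 + ε / 3) = ε := by
          have h3 : (3 : ENNReal) ≠ 0 := by norm_num
          have h3' : (3 : ENNReal) ≠ ⊤ := by norm_num
          calc ε / 3 + (ε / 3 + ε / 3) = ε / 3 * 3 := by ring
            _ = ε := ENNReal.div_mul_cancel h3 h3'
        exact this.le
    -- high part
    let Hi : ℕ → Set X := fun I => ⋃ i ∈ {i | I ≤ i}, cyl (roof D r) ι i Set.univ
    have hHim : ∀ I, MeasurableSet (Hi I) := fun I =>
      MeasurableSet.biUnion (Set.to_countable _) fun i _ => hcylm i _ MeasurableSet.univ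
    have hHianti : Antitone Hi := by
      intro I J hIJ
      refine Set.biUnion_subset_biUnion_left fun i hi => ?_
      exact le_trans hIJ hi
    have hHiempty : ⋂ I, Hi I = ∅ := by
      rw [Set.eq_empty_iff_forall_notMem]
      intro x hx
      rw [Set.mem_iInter] at hx
      obtain ⟨y, i, hi, rfl⟩ := hsurj x
      have h3 := hx (i + 1)
      simp only [Hi, Set.mem_iUnion] at h3
      obtain ⟨i', hi', y', -, hy', h4⟩ := h3
      have := (hinj _ _ _ _ hy' hi h4).2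
      have hi'' : i + 1 ≤ i' := hi'
      omega
    have hHi : Tendsto (fun I => μ (Hi I)) atTop (𝓝 0) := by
      have h3 := tendsto_measure_iInter_atTop (μ := μ) (s := Hi)
        (fun I => (hHim I).nullMeasurableSet) hHianti ⟨0, measure_ne_top _ _⟩
      rwa [hHiempty, measure_empty] at h3
    obtain ⟨I, hI⟩ : ∃ I, μ (Hi I) ≤ δ :=
      ((hHi.eventually (Iic_mem_nhds hδ)).exists)
    -- approximations
    let Ai : ℕ → Set Y := fun i => {y | i < roof D r y ∧ ι y i ∈ A}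
    have hAim : ∀ i, MeasurableSet (Ai i) := fun i => hms i A hA
    have hδI : 0 < δ / (I + 1 : ℕ) := ENNReal.div_pos hδ.ne' (ENNReal.natCast_ne_top _)
    choose m F hF using fun i => hrd (Ai i) (hAim i) (δ / (I + 1 : ℕ)) hδI
    -- large `n`
    obtain ⟨m0, hm0⟩ : ∃ m0, ∀ i < I, m i ≤ m0 := by
      refine ⟨(range I).sup m, fun i hi => Finset.le_sup (Finset.mem_range.2 hi)⟩
    have hlast : Tendsto (fun n => (I : ENNReal) * (2 ^ (D.Eo n) : ENNReal)⁻¹) atTop (𝓝 0) := by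
      have := ENNReal.Tendsto.const_mul (a := (I : ENNReal)) (tendsto_last D)
        (Or.inr (ENNReal.natCast_ne_top I))
      rwa [mul_zero] at this
    obtain ⟨n, hn1, hn2⟩ : ∃ n, m0 ≤ n ∧ (I : ENNReal) * (2 ^ (D.Eo n) : ENNReal)⁻¹ ≤ δ :=
      ((eventually_ge_atTop m0).and (hlast.eventually (Iic_mem_nhds hδ))).exists
    have hmE : ∀ i < I, m i ≤ D.Eo n := fun i hi =>
      (hm0 i hi).trans (hn1.trans (D.le_Eo n))
    let Qi : ℕ → Set Y := fun i => {y | r (m i) y ∈ F i}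
    have hQim : ∀ i, MeasurableSet (Qi i) := fun i => hrset (m i) (F i : Set ℕ)
    let Fl : Finset ℕ := (range (D.h n)).filter
      (fun f => level T (base D r O ι) n f ⊆ ⋃ i ∈ range I, cyl (roof D r) ι i (Qi i))
    refine ⟨n, Fl, fun f hf => Finset.mem_range.1 (Finset.mem_filter.1 hf).1, ?_⟩
    let Last : Set Y := {y | ¬ (r (D.Eo n) y + 1 < D.Q n)}
    have hLastm : MeasurableSet Last := (measurableSet_lt D hrm n).compl
    have hLastν : ν Last = (2 ^ (D.Eo n) : ENNReal)⁻¹ := measure_last D hr0 hrν n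
    -- inclusion
    have hsub : symmDiff A (⋃ f ∈ Fl, level T (base D r O ι) n f) ⊆
        Hi I ∪ ((⋃ i ∈ range I, cyl (roof D r) ι i (symmDiff (Ai i) (Qi i))) ∪
          ⋃ i ∈ range I, cyl (roof D r) ι i (Last ∪ (Good D r O)ᶜ)) := by
      intro x hx
      obtain ⟨y, i, hi, rfl⟩ := hsurj x
      by_cases hiI : I ≤ i
      · left
        simp only [Hi, Set.mem_iUnion]
        exact ⟨i, hiI, y, Set.mem_univ y, hi, rfl⟩
      push Not at hiI
      right
      by_cases hyL : y ∈ Last ∪ (Good D r O)ᶜ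
      · right
        simp only [Set.mem_iUnion]
        exact ⟨i, Finset.mem_range.2 hiI, y, hyL, hi, rfl⟩
      left
      simp only [Set.mem_iUnion]
      refine ⟨i, Finset.mem_range.2 hiI, y, ?_, hi, rfl⟩
      rw [Set.mem_union, not_or] at hyL
      obtain ⟨hyL1, hyL2⟩ := hyL
      have hyl : r (D.Eo n) y + 1 < D.Q n := not_not.1 hyL1
      have hyg : y ∈ Good D r O := not_not.1 hyL2
      -- `ι y i` belongs to a level
      set j := r (D.Eo n) y with hj
      have hl : Function.LeftInverse O O.symm := O.apply_symm_apply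
      have hy0 : O^[j] (O.symm^[j] y) = y := hl.iterate _ y
      have hr00 : r (D.Eo n) (O.symm^[j] y) = 0 := by
        rw [r_iter_back hr1 hr0 _ _ y _ hy0 le_rfl, ← hj, Nat.sub_self]
      have hroof := pos_add_roof D hr2 hr0 n y hyl
      have hposh : D.pos n j + i < D.h n := by
        have h5 := D.pos_le n (j + 1) hyl
        rw [← hj] at hroof
        omega
      have hiter : ∀ z, r (D.Eo n) z = 0 → i < roof D r (O^[j] z) →
          T^[D.pos n j + i] (ι z 0) = ι (O^[j] z) i := by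
        intro z hz hiz
        rw [add_comm, Function.iterate_add_apply, T_pos D hr0 hr1 hr2 hTi hTl n z hz j (by omega),
          T_iter D hTi _ _ hiz]
      have hxl : ι y i ∈ level T (base D r O ι) n (D.pos n j + i) := by
        rw [mem_level D hr0 hr2]
        refine ⟨O.symm^[j] y, good_iter_symm D hyg j, hr00, ?_⟩
        rw [hiter _ hr00 (by rw [hy0]; exact hi), hy0]
      -- membership in `U` iff `y ∈ Qi i`
      have hiff : ι y i ∈ (⋃ f ∈ Fl, level T (base D r O ι) n f) ↔ y ∈ Qi i := by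
        constructor
        · intro hU
          simp only [Set.mem_iUnion] at hU
          obtain ⟨f, hf, hxf⟩ := hU
          have h5 := (Finset.mem_filter.1 hf).2 hxf
          simp only [Set.mem_iUnion] at h5
          obtain ⟨i', hi', y', hy', hi'', h6⟩ := h5
          obtain ⟨h7, h8⟩ := hinj _ _ _ _ hi'' hi h6
          rw [← h7, ← h8]
          exact hy'
        · intro hyQ
          simp only [Set.mem_iUnion]
          refine ⟨D.pos n j + i, ?_, hxl⟩
          refine Finset.mem_filter.2 ⟨Finset.mem_range.2 hposh, ?_⟩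
          intro x' hx'
          rw [mem_level D hr0 hr2] at hx'
          obtain ⟨z, hz, hz0, rfl⟩ := hx'
          have hzj : r (D.Eo n) (O^[j] z) = j := by
            rw [r_iter_lt hr1 hr0 _ _ _ (by rw [hz0, zero_add, ← D.Q_def]; omega), hz0, zero_add]
          have hroofz := pos_add_roof D hr2 hr0 n (O^[j] z) (by rw [hzj]; exact hyl)
          rw [hzj] at hroofz
          have hiz : i < roof D r (O^[j] z) := by
            rw [← hj] at hroof
            omega
          rw [hiter z hz0 hiz]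
          simp only [Set.mem_iUnion]
          refine ⟨i, Finset.mem_range.2 hiI, O^[j] z, ?_, hiz, rfl⟩
          show r (m i) (O^[j] z) ∈ F i
          have h9 : r (m i) y ∈ F i := hyQ
          rw [← r_mod hr2 hr0 (hmE i hiI) y, ← hj] at h9
          rw [← r_mod hr2 hr0 (hmE i hiI) (O^[j] z), hzj]
          exact h9
      have hA2 : ι y i ∈ A ↔ y ∈ Ai i := ⟨fun h => ⟨hi, h⟩, fun h => h.2⟩
      rw [Set.mem_symmDiff] at hx ⊢
      rw [hiff, hA2] at hx
      exact hx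
    -- estimate
    have hest1 : μ (⋃ i ∈ range I, cyl (roof D r) ι i (symmDiff (Ai i) (Qi i))) ≤ δ := by
      calc μ (⋃ i ∈ range I, cyl (roof D r) ι i (symmDiff (Ai i) (Qi i)))
          ≤ ∑ i ∈ range I, μ (cyl (roof D r) ι i (symmDiff (Ai i) (Qi i))) :=
            measure_biUnion_finset_le _ _
        _ ≤ ∑ _i ∈ range I, δ / (I + 1 : ℕ) := Finset.sum_le_sum fun i _ =>
            (hcylle i _ ((hAim i).symmDiff (hQim i))).trans (hF i)
        _ = I * (δ / (I + 1 : ℕ)) := by rw [Finset.sum_const, Finset.card_range, nsmul_eq_mul]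
        _ ≤ ((I + 1 : ℕ) : ENNReal) * (δ / (I + 1 : ℕ)) := by
            gcongr
            omega
        _ ≤ δ := ENNReal.mul_div_le
    have hest2 : μ (⋃ i ∈ range I, cyl (roof D r) ι i (Last ∪ (Good D r O)ᶜ)) ≤ δ := by
      calc μ (⋃ i ∈ range I, cyl (roof D r) ι i (Last ∪ (Good D r O)ᶜ))
          ≤ ∑ i ∈ range I, μ (cyl (roof D r) ι i (Last ∪ (Good D r O)ᶜ)) :=
            measure_biUnion_finset_le _ _
        _ ≤ ∑ _i ∈ range I, (2 ^ (D.Eo n) : ENNReal)⁻¹ := Finset.sum_le_sum fun i _ => by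
            refine (hcylle i _ (hLastm.union hgood.compl)).trans ?_
            refine (measure_union_le _ _).trans ?_
            rw [hgood0, add_zero, hLastν]
        _ = I * (2 ^ (D.Eo n) : ENNReal)⁻¹ := by
            rw [Finset.sum_const, Finset.card_range, nsmul_eq_mul]
        _ ≤ δ := hn2
    calc μ (symmDiff A (⋃ f ∈ Fl, level T (base D r O ι) n f))
        ≤ μ (Hi I ∪ ((⋃ i ∈ range I, cyl (roof D r) ι i (symmDiff (Ai i) (Qi i))) ∪
          ⋃ i ∈ range I, cyl (roof D r) ι i (Last ∪ (Good D r O)ᶜ))) := measure_mono hsub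
      _ ≤ μ (Hi I) + (μ (⋃ i ∈ range I, cyl (roof D r) ι i (symmDiff (Ai i) (Qi i))) +
          μ (⋃ i ∈ range I, cyl (roof D r) ι i (Last ∪ (Good D r O)ᶜ))) :=
          (measure_union_le _ _).trans (by gcongr; exact measure_union_le _ _)
      _ ≤ δ + (δ + δ) := by gcongr
      _ ≤ ε := hδε

end Vale.Agent.P130R
end

section

/-!
# P130R: an integrable function on the circle with zero Fourier coefficients is zero
-/

set_option autoImplicit false

namespace Vale.Agent.P130R.AbsM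

open Finset MeasureTheory Filter Topology
open Vale.Agent.P110 (e dot GoodSet)

theorem ac_e_add (x y : ℝ) : e (x + y) = e x * e y := by
  simp only [e]
  rw [← Complex.exp_add]
  congr 1
  push_cast
  ring

theorem ac_e_zero : e 0 = 1 := by simp [e]

theorem ac_norm_e (x : ℝ) : ‖e x‖ = 1 := by
  rw [e, Complex.norm_exp_ofReal_mul_I]

theorem ac_e_conj (x : ℝ) : (starRingEnd ℂ) (e x) = e (-x) := by
  simp only [e]
  rw [← Complex.exp_conj, map_mul, Complex.conj_ofReal, Complex.conj_I]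
  congr 1
  push_cast
  ring

theorem ac_continuous_e : Continuous e := by
  unfold e
  fun_prop

theorem ac_e_fourier (k : ℤ) (x : ℝ) :
    (fourier k (x : AddCircle (1 : ℝ)) : ℂ) = e (k * x) := by
  rw [fourier_coe_apply]
  simp only [e]
  congr 1
  push_cast
  ring

/-- pairing with a continuous function on the circle -/
theorem ac_pair_zero {h : ℝ → ℂ} (hi : IntervalIntegrable h volume 0 1)
    (h0 : ∀ k : ℤ, ∫ x in (0 : ℝ)..1, e (k * x) * h x = 0) (Φ : C(AddCircle (1 : ℝ), ℂ)) :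
    ∫ x in (0 : ℝ)..1, Φ (x : AddCircle (1 : ℝ)) * h x = 0 := by
  have hint : ∀ Ψ : C(AddCircle (1 : ℝ), ℂ), IntervalIntegrable
      (fun x : ℝ => Ψ (x : AddCircle (1 : ℝ)) * h x) volume 0 1 := by
    intro Ψ
    apply IntervalIntegrable.continuousOn_mul hi
    exact (Ψ.continuous.comp (AddCircle.continuous_mk' 1)).continuousOn
  have hspan : ∀ P ∈ Submodule.span ℂ (Set.range (@fourier (1 : ℝ))),
      ∫ x in (0 : ℝ)..1, P (x : AddCircle (1 : ℝ)) * h x = 0 := by
    intro P hP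
    induction hP using Submodule.span_induction with
    | mem x hx =>
      obtain ⟨k, rfl⟩ := hx
      simp only [ac_e_fourier]
      exact h0 k
    | zero => simp
    | add x y _ _ hx hy =>
      simp only [ContinuousMap.add_apply, add_mul]
      rw [intervalIntegral.integral_add (hint x) (hint y), hx, hy, add_zero]
    | smul a x _ hx =>
      simp only [ContinuousMap.smul_apply, smul_eq_mul, mul_assoc]
      rw [intervalIntegral.integral_const_mul, hx, mul_zero]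
  by_contra hne
  have hpos : 0 < ‖∫ x in (0 : ℝ)..1, Φ (x : AddCircle (1 : ℝ)) * h x‖ := norm_pos_iff.mpr hne
  set N := ∫ x in (0 : ℝ)..1, ‖h x‖ with hN
  have hN0 : 0 ≤ N := intervalIntegral.integral_nonneg zero_le_one (fun x _ => norm_nonneg _)
  have hmem : Φ ∈ (Submodule.span ℂ (Set.range (@fourier (1 : ℝ)))).topologicalClosure := by
    rw [span_fourier_closure_eq_top]; trivial
  rw [← SetLike.mem_coe, Submodule.topologicalClosure_coe, Metric.mem_closure_iff] at hmem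
  obtain ⟨P, hP, hd⟩ := hmem (‖∫ x in (0 : ℝ)..1, Φ (x : AddCircle (1 : ℝ)) * h x‖ / (N + 1))
    (by positivity)
  have h1 := hspan P hP
  have h2 : ‖∫ x in (0 : ℝ)..1, Φ (x : AddCircle (1 : ℝ)) * h x‖ ≤ dist Φ P * N := by
    have e1 : ∫ x in (0 : ℝ)..1, Φ (x : AddCircle (1 : ℝ)) * h x =
        ∫ x in (0 : ℝ)..1, (Φ - P) (x : AddCircle (1 : ℝ)) * h x := by
      simp only [ContinuousMap.sub_apply, sub_mul]
      rw [intervalIntegral.integral_sub (hint Φ) (hint P), h1, sub_zero]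
    rw [e1, hN, ← intervalIntegral.integral_const_mul]
    refine intervalIntegral.norm_integral_le_of_norm_le zero_le_one ?_ (hi.norm.const_mul _)
    refine Eventually.of_forall (fun x _ => ?_)
    rw [norm_mul, dist_eq_norm]
    gcongr
    exact ContinuousMap.norm_coe_le_norm _ _
  have h3 : dist Φ P * N < ‖∫ x in (0 : ℝ)..1, Φ (x : AddCircle (1 : ℝ)) * h x‖ := by
    have := lt_of_le_of_lt (mul_le_mul_of_nonneg_left (by linarith : N ≤ N + 1)
      (dist_nonneg (x := Φ) (y := P))) (mul_lt_mul_of_pos_right hd (by linarith : 0 < N + 1))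
    rwa [div_mul_cancel₀ _ (by positivity)] at this
  linarith

/-- uniqueness of Fourier coefficients in `L¹` -/
theorem ac_unique {h : ℝ → ℂ} (hi : IntervalIntegrable h volume 0 1)
    (h0 : ∀ k : ℤ, ∫ x in (0 : ℝ)..1, e (k * x) * h x = 0) :
    ∀ᵐ x ∂(volume.restrict (Set.Ioc (0 : ℝ) 1)), h x = 0 := by
  have hU : IsOpen (Set.Ioo (0 : ℝ) 1) := isOpen_Ioo
  have hi' : IntegrableOn h (Set.Ioc 0 1) volume := by
    rwa [intervalIntegrable_iff_integrableOn_Ioc_of_le zero_le_one] at hi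
  have hloc : LocallyIntegrableOn h (Set.Ioo (0 : ℝ) 1) volume :=
    (hi'.mono_set Set.Ioo_subset_Ioc_self).locallyIntegrableOn
  have key := hU.ae_eq_zero_of_integral_contDiff_smul_eq_zero hloc (by
    intro g hg _ hgs
    -- periodic extension of `g`
    have hg0 : ∀ x, x ∉ Set.Ioo (0 : ℝ) 1 → g x = 0 := by
      intro x hx
      by_contra hne
      exact hx (hgs (subset_tsupport g hne))
    let Φ0 : AddCircle (1 : ℝ) → ℂ := AddCircle.liftIco 1 0 (fun x => (g x : ℂ))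
    have hΦ0 : Continuous Φ0 := by
      refine AddCircle.liftIco_zero_continuous ?_ ?_
      · rw [hg0 0 (by simp), hg0 1 (by simp)]
      · exact (Complex.continuous_ofReal.comp hg.continuous).continuousOn
    have := ac_pair_zero hi h0 ⟨Φ0, hΦ0⟩
    rw [intervalIntegral.integral_of_le zero_le_one] at this
    have e1 : ∫ x, g x • h x ∂volume = ∫ x in Set.Ioc (0 : ℝ) 1, g x • h x ∂volume := by
      symm
      apply setIntegral_eq_integral_of_forall_compl_eq_zero
      intro x hx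
      rw [hg0 x (fun hx' => hx (Set.Ioo_subset_Ioc_self hx')), zero_smul]
    rw [e1, ← this]
    rw [integral_Ioc_eq_integral_Ioo, integral_Ioc_eq_integral_Ioo]
    apply setIntegral_congr_fun measurableSet_Ioo
    intro x hx
    simp only [ContinuousMap.coe_mk, Φ0]
    rw [AddCircle.liftIco_zero_coe_apply ⟨hx.1.le, hx.2⟩, Complex.real_smul])
  have h2 : ∀ᵐ x ∂(volume.restrict (Set.Ioo (0 : ℝ) 1)), h x = 0 := by
    rw [ae_restrict_iff' measurableSet_Ioo]
    exact key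
  rwa [restrict_Ioo_eq_restrict_Ioc] at h2

end Vale.Agent.P130R.AbsM
end

section

/-!
# P130R: algebra of the towers
-/

set_option autoImplicit false

namespace Vale.Agent.P130R.AbsM

open Finset MeasureTheory Filter Topology
open Vale.Agent.P110 (e dot GoodSet)

section cuts
variable (D : Cuts)

theorem ah_q_pos (n : ℕ) : 0 < D.q n := by
  unfold Cuts.q; positivity

theorem ah_h_ge (n : ℕ) : 4 ≤ D.h n := by
  have h1 := D.h_big n
  have h2 : 2 ≤ 2 ^ (n + 1) := by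
    calc 2 = 2 ^ 1 := rfl
      _ ≤ 2 ^ (n + 1) := Nat.pow_le_pow_right (by norm_num) (by omega)
  calc 4 = 2 * 2 := rfl
    _ ≤ 2 ^ (n + 1) * (D.K n + 2) := Nat.mul_le_mul h2 (by omega)
    _ ≤ D.h n := h1

theorem ah_a_lt (n k j : ℕ) (hk : k < D.q n) (hj : j < D.h n) :
    j + D.a n k + 1 < D.h (n + 1) := by
  have h1 : D.h (n + 1) = D.q n * D.H n := D.h_succ n
  have h2 : (k + 1) * D.H n ≤ D.q n * D.H n := Nat.mul_le_mul_right _ hk
  have h3 : D.S n k ≤ D.K n := D.S_le n k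
  have h4 : D.H n = D.h n + D.K n + 2 := rfl
  rw [h1]
  unfold Cuts.a
  have h5 : (k + 1) * D.H n = k * D.H n + D.H n := by ring
  omega

end cuts

theorem ah_mul_apply {𝓗 : Type} [NormedAddCommGroup 𝓗] [InnerProductSpace ℂ 𝓗]
    (A B : 𝓗 ≃ₗᵢ[ℂ] 𝓗) (x : 𝓗) : (A * B) x = A (B x) := rfl

section hilb
variable {D : Cuts} {𝓗 : Type} [NormedAddCommGroup 𝓗] [InnerProductSpace ℂ 𝓗]
  (Y : HilbertTower D 𝓗)

/-- level `j` of tower `n` -/
noncomputable def lv (n j : ℕ) : 𝓗 := (Y.V ^ j) (Y.E n)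

theorem lv_zero (n : ℕ) : lv Y n 0 = Y.E n := by simp [lv]

theorem V_lv (n j : ℕ) : Y.V (lv Y n j) = lv Y n (j + 1) := by
  unfold lv
  rw [pow_succ', ah_mul_apply]

theorem pow_w (i : ℕ) : (Y.V ^ i) Y.w = Y.w := by
  induction i with
  | zero => simp
  | succ i ih => rw [pow_succ, ah_mul_apply, Y.V_w, ih]

theorem inner_w_lv (n j : ℕ) : inner ℂ Y.w (lv Y n j) = (Y.β n : ℂ) := by
  unfold lv
  nth_rewrite 1 [← pow_w Y j]
  rw [LinearIsometryEquiv.inner_map_map, Y.inner_w_E]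

theorem lv_rel (n j : ℕ) : lv Y n j = ∑ k ∈ range (D.q n), lv Y (n + 1) (j + D.a n k) := by
  have h := congrArg (fun x => (Y.V ^ j) x) (Y.rel n)
  simp only [map_sum] at h
  unfold lv
  rw [h]
  refine Finset.sum_congr rfl (fun k _ => ?_)
  rw [pow_add, ah_mul_apply]

theorem inner_lv (n i j : ℕ) (hi : i < D.h n) (hj : j < D.h n) :
    inner ℂ (lv Y n i) (lv Y n j) = if i = j then (Y.β n : ℂ) else 0 :=
  Y.orth n i hi j hj

theorem beta_rel (n : ℕ) : Y.β n = D.q n * Y.β (n + 1) := by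
  have h1 := inner_w_lv Y n 0
  rw [lv_rel Y n 0, inner_sum] at h1
  simp only [inner_w_lv, sum_const, card_range, nsmul_eq_mul] at h1
  exact_mod_cast h1.symm

/-- span of the levels of tower `n` -/
noncomputable def DD (n : ℕ) : Submodule ℂ 𝓗 :=
  Submodule.span ℂ {x | ∃ j, j < D.h n ∧ x = lv Y n j}

theorem lv_mem (n j : ℕ) (hj : j < D.h n) : lv Y n j ∈ DD Y n :=
  Submodule.subset_span ⟨j, hj, rfl⟩

theorem lv_mem_succ (n j : ℕ) (hj : j < D.h n) : lv Y n j ∈ DD Y (n + 1) := by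
  rw [lv_rel]
  refine Submodule.sum_mem _ (fun k hk => lv_mem Y _ _ ?_)
  have := ah_a_lt D n k j (Finset.mem_range.mp hk) hj
  omega

theorem V_lv_mem_succ (n j : ℕ) (hj : j < D.h n) : Y.V (lv Y n j) ∈ DD Y (n + 1) := by
  rw [lv_rel, map_sum]
  refine Submodule.sum_mem _ (fun k hk => ?_)
  rw [V_lv]
  exact lv_mem Y _ _ (ah_a_lt D n k j (Finset.mem_range.mp hk) hj)

theorem DD_le_succ (n : ℕ) : DD Y n ≤ DD Y (n + 1) := by
  unfold DD
  rw [Submodule.span_le]
  rintro x ⟨j, hj, rfl⟩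
  exact lv_mem_succ Y n j hj

theorem DD_mono : Monotone (DD Y) := monotone_nat_of_le_succ (DD_le_succ Y)

/-- every element of the span of all levels is in some `DD n` -/
theorem exists_DD {x : 𝓗} (hx : x ∈ Submodule.span ℂ {x | ∃ n i, i < D.h n ∧ x = (Y.V ^ i) (Y.E n)}) :
    ∃ n, x ∈ DD Y n := by
  induction hx using Submodule.span_induction with
  | mem x hx =>
    obtain ⟨n, i, hi, rfl⟩ := hx
    exact ⟨n, lv_mem Y n i hi⟩
  | zero => exact ⟨0, Submodule.zero_mem _⟩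
  | add x y _ _ hx hy =>
    obtain ⟨n, hn⟩ := hx
    obtain ⟨m, hm⟩ := hy
    exact ⟨max n m, Submodule.add_mem _ (DD_mono Y (le_max_left n m) hn)
      (DD_mono Y (le_max_right n m) hm)⟩
  | smul a x _ hx =>
    obtain ⟨n, hn⟩ := hx
    exact ⟨n, Submodule.smul_mem _ a hn⟩

/-- approximation by elements of the `DD n` -/
theorem exists_near (x : 𝓗) {ε : ℝ} (hε : 0 < ε) : ∃ n, ∃ y ∈ DD Y n, ‖x - y‖ < ε := by
  obtain ⟨y, hy, hd⟩ := Metric.mem_closure_iff.mp (Y.dense x) ε hε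
  obtain ⟨n, hn⟩ := exists_DD Y hy
  exact ⟨n, y, hn, by rwa [← dist_eq_norm]⟩

/-- an element orthogonal to all levels vanishes -/
theorem eq_zero_of_orth {x : 𝓗} (h : ∀ n j, j < D.h n → inner ℂ (lv Y n j) x = 0) : x = 0 := by
  have h1 : ∀ y ∈ ((Submodule.span ℂ {x | ∃ n i, i < D.h n ∧ x = (Y.V ^ i) (Y.E n)} :
      Submodule ℂ 𝓗) : Set 𝓗), inner ℂ y x = 0 := by
    intro y hy
    have hy' : y ∈ Submodule.span ℂ {x | ∃ n i, i < D.h n ∧ x = (Y.V ^ i) (Y.E n)} := hy
    induction hy' using Submodule.span_induction with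
    | mem z hz =>
      obtain ⟨n, i, hi, rfl⟩ := hz
      exact h n i hi
    | zero => simp
    | add a b ha hb h1 h2 => rw [inner_add_left, h1 ha, h2 hb, add_zero]
    | smul a z hz h1 => rw [inner_smul_left, h1 hz, mul_zero]
  exact Y.dense.eq_zero_of_inner_right ℂ h1

/-- ergodicity -/
theorem eq_smul_w {u : 𝓗} (hu : Y.V u = u) : ∃ c : ℂ, u = c • Y.w := by
  have hpow : ∀ i : ℕ, (Y.V ^ i) u = u := by
    intro i
    induction i with
    | zero => simp
    | succ i ih => rw [pow_succ, ah_mul_apply, hu, ih]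
  have hl : ∀ n j, inner ℂ (lv Y n j) u = inner ℂ (Y.E n) u := by
    intro n j
    unfold lv
    nth_rewrite 1 [← hpow j]
    rw [LinearIsometryEquiv.inner_map_map]
  have hr : ∀ n, inner ℂ (Y.E n) u = (D.q n : ℂ) * inner ℂ (Y.E (n + 1)) u := by
    intro n
    rw [← lv_zero Y n, lv_rel Y n 0, sum_inner]
    simp only [hl, sum_const, card_range, nsmul_eq_mul]
  set c : ℂ := inner ℂ (Y.E 0) u / (Y.β 0 : ℂ) with hc
  have hE : ∀ n, inner ℂ (Y.E n) u = c * (Y.β n : ℂ) := by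
    intro n
    induction n with
    | zero =>
      have h0 : (Y.β 0 : ℂ) ≠ 0 := by exact_mod_cast (Y.β_pos 0).ne'
      rw [hc, div_mul_cancel₀ _ h0]
    | succ n ih =>
      rw [hr n, beta_rel Y n] at ih
      have hq : (D.q n : ℂ) ≠ 0 := by exact_mod_cast (ah_q_pos D n).ne'
      push_cast at ih
      apply mul_left_cancel₀ hq
      rw [ih]; ring
  refine ⟨c, ?_⟩
  rw [← sub_eq_zero]
  refine eq_zero_of_orth Y (fun n j _ => ?_)
  rw [inner_sub_right, hl, hE, inner_smul_right, ← inner_conj_symm, inner_w_lv,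
    Complex.conj_ofReal, sub_self]

end hilb

end Vale.Agent.P130R.AbsM
end

section

/-!
# P130R: the polynomials attached to the vectors
-/

set_option autoImplicit false

namespace Vale.Agent.P130R.AbsM

open Finset MeasureTheory Filter Topology
open Vale.Agent.P110 (e dot GoodSet)

variable {D : Cuts} {𝓗 : Type} [NormedAddCommGroup 𝓗] [InnerProductSpace ℂ 𝓗]
  (Y : HilbertTower D 𝓗)

/-- square root of the measure of the base of tower `n` -/
noncomputable def sb (n : ℕ) : ℝ := Real.sqrt (Y.β n)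

theorem sb_pos (n : ℕ) : 0 < sb Y n := Real.sqrt_pos.mpr (Y.β_pos n)

theorem sb_sq (n : ℕ) : sb Y n * sb Y n = Y.β n := Real.mul_self_sqrt (Y.β_pos n).le

theorem sb_rel (n : ℕ) : sb Y n = Real.sqrt (D.q n) * sb Y (n + 1) := by
  unfold sb
  rw [beta_rel Y n, Real.sqrt_mul (Nat.cast_nonneg _)]

/-- coefficients -/
noncomputable def cf (n j : ℕ) (x : 𝓗) : ℂ := ((sb Y n : ℝ) : ℂ)⁻¹ * inner ℂ (lv Y n j) x

theorem cf_add (n j : ℕ) (x y : 𝓗) : cf Y n j (x + y) = cf Y n j x + cf Y n j y := by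
  unfold cf; rw [inner_add_right]; ring

theorem cf_sub (n j : ℕ) (x y : 𝓗) : cf Y n j (x - y) = cf Y n j x - cf Y n j y := by
  unfold cf; rw [inner_sub_right]; ring

theorem cf_smul (n j : ℕ) (a : ℂ) (x : 𝓗) : cf Y n j (a • x) = a * cf Y n j x := by
  unfold cf; rw [inner_smul_right]; ring

theorem cf_zero (n j : ℕ) : cf Y n j 0 = 0 := by
  unfold cf; rw [inner_zero_right, mul_zero]

theorem cf_sum {ι : Type} (n j : ℕ) (s : Finset ι) (x : ι → 𝓗) :
    cf Y n j (∑ i ∈ s, x i) = ∑ i ∈ s, cf Y n j (x i) := by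
  unfold cf; rw [inner_sum, Finset.mul_sum]

theorem cf_lv (n i j : ℕ) (hi : i < D.h n) (hj : j < D.h n) :
    cf Y n i (lv Y n j) = if i = j then ((sb Y n : ℝ) : ℂ) else 0 := by
  unfold cf
  rw [inner_lv Y n i j hi hj]
  by_cases h : i = j
  · rw [if_pos h, if_pos h, ← sb_sq Y n]
    have : ((sb Y n : ℝ) : ℂ) ≠ 0 := by exact_mod_cast (sb_pos Y n).ne'
    push_cast
    field_simp
  · rw [if_neg h, if_neg h, mul_zero]

/-- the polynomial of a vector -/
noncomputable def Jf (n : ℕ) (x : 𝓗) (t : ℝ) : ℂ := ∑ j ∈ range (D.h n), cf Y n j x * e (j * t)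

theorem Jf_add (n : ℕ) (x y : 𝓗) (t : ℝ) : Jf Y n (x + y) t = Jf Y n x t + Jf Y n y t := by
  unfold Jf
  rw [← sum_add_distrib]
  exact sum_congr rfl (fun j _ => by rw [cf_add, add_mul])

theorem Jf_sub (n : ℕ) (x y : 𝓗) (t : ℝ) : Jf Y n (x - y) t = Jf Y n x t - Jf Y n y t := by
  unfold Jf
  rw [← sum_sub_distrib]
  exact sum_congr rfl (fun j _ => by rw [cf_sub, sub_mul])

theorem Jf_smul (n : ℕ) (a : ℂ) (x : 𝓗) (t : ℝ) : Jf Y n (a • x) t = a * Jf Y n x t := by
  unfold Jf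
  rw [mul_sum]
  exact sum_congr rfl (fun j _ => by rw [cf_smul, mul_assoc])

theorem Jf_zero (n : ℕ) (t : ℝ) : Jf Y n 0 t = 0 := by
  unfold Jf
  exact sum_eq_zero (fun j _ => by rw [cf_zero, zero_mul])

theorem Jf_sum {ι : Type} (n : ℕ) (s : Finset ι) (x : ι → 𝓗) (t : ℝ) :
    Jf Y n (∑ i ∈ s, x i) t = ∑ i ∈ s, Jf Y n (x i) t := by
  unfold Jf
  rw [sum_comm]
  exact sum_congr rfl (fun j _ => by rw [cf_sum, sum_mul])

theorem Jf_lv (n j : ℕ) (hj : j < D.h n) (t : ℝ) :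
    Jf Y n (lv Y n j) t = ((sb Y n : ℝ) : ℂ) * e (j * t) := by
  unfold Jf
  rw [sum_eq_single j]
  · rw [cf_lv Y n j j hj hj, if_pos rfl]
  · intro i hi hij
    rw [cf_lv Y n i j (mem_range.mp hi) hj, if_neg hij, zero_mul]
  · intro h; exact absurd (mem_range.mpr hj) h

/-- passing to the next tower is multiplication by the polynomial -/
theorem Jf_succ (n : ℕ) {x : 𝓗} (hx : x ∈ DD Y n) (t : ℝ) :
    Jf Y (n + 1) x t = PP (D.q n) (D.H n) (D.S n) t * Jf Y n x t := by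
  unfold DD at hx
  induction hx using Submodule.span_induction with
  | mem z hz =>
    obtain ⟨j, hj, rfl⟩ := hz
    rw [Jf_lv Y n j hj, lv_rel Y n j, Jf_sum]
    have h1 : ∀ k ∈ range (D.q n), Jf Y (n + 1) (lv Y (n + 1) (j + D.a n k)) t =
        ((sb Y (n + 1) : ℝ) : ℂ) * (e (j * t) * e ((k * D.H n + D.S n k : ℕ) * t)) := by
      intro k hk
      have := ah_a_lt D n k j (mem_range.mp hk) hj
      rw [Jf_lv Y _ _ (by omega), ← ac_e_add]
      congr 2
      unfold Cuts.a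
      push_cast
      ring
    rw [sum_congr rfl h1, ← mul_sum, ← mul_sum, sb_rel Y n]
    unfold PP
    have hq : ((Real.sqrt (D.q n) : ℝ) : ℂ) ≠ 0 := by
      have : 0 < Real.sqrt (D.q n) := Real.sqrt_pos.mpr (by exact_mod_cast ah_q_pos D n)
      exact_mod_cast this.ne'
    rw [Complex.ofReal_mul]
    generalize ∑ k ∈ range (D.q n), e ((k * D.H n + D.S n k : ℕ) * t) = s
    field_simp
  | zero => rw [Jf_zero, Jf_zero, mul_zero]
  | add a b _ _ h1 h2 => rw [Jf_add, Jf_add, h1, h2, mul_add]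
  | smul a z _ h1 => rw [Jf_smul, Jf_smul, h1]; ring

/-- shift property at tower `n` -/
def Good (n : ℕ) (y : 𝓗) : Prop :=
  y ∈ DD Y n ∧ Y.V y ∈ DD Y n ∧ ∀ t, Jf Y n (Y.V y) t = e t * Jf Y n y t

theorem Good.succ {n : ℕ} {y : 𝓗} (h : Good Y n y) : Good Y (n + 1) y := by
  refine ⟨DD_le_succ Y n h.1, DD_le_succ Y n h.2.1, fun t => ?_⟩
  rw [Jf_succ Y n h.1, Jf_succ Y n h.2.1, h.2.2]
  ring

theorem Good.mono {n m : ℕ} (hnm : n ≤ m) {y : 𝓗} (h : Good Y n y) : Good Y m y := by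
  induction m, hnm using Nat.le_induction with
  | base => exact h
  | succ m _ ih => exact ih.succ

theorem good_lv (n j : ℕ) (hj : j + 1 < D.h n) : Good Y n (lv Y n j) := by
  refine ⟨lv_mem Y n j (by omega), by rw [V_lv]; exact lv_mem Y n _ hj, fun t => ?_⟩
  rw [V_lv, Jf_lv Y n _ hj, Jf_lv Y n j (by omega)]
  have : e (((j + 1 : ℕ) : ℝ) * t) = e t * e (j * t) := by
    rw [← ac_e_add]; congr 1; push_cast; ring
  rw [this]; ring

theorem good_of_DD (n : ℕ) {y : 𝓗} (hy : y ∈ DD Y n) : Good Y (n + 1) y := by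
  unfold DD at hy
  induction hy using Submodule.span_induction with
  | mem z hz =>
    obtain ⟨j, hj, rfl⟩ := hz
    refine ⟨lv_mem_succ Y n j hj, V_lv_mem_succ Y n j hj, fun t => ?_⟩
    rw [lv_rel Y n j, map_sum, Jf_sum, Jf_sum, mul_sum]
    refine sum_congr rfl (fun k hk => ?_)
    exact (good_lv Y (n + 1) _ (ah_a_lt D n k j (mem_range.mp hk) hj)).2.2 t
  | zero => exact ⟨zero_mem _, by rw [map_zero]; exact zero_mem _, fun t => by
      rw [map_zero, Jf_zero, mul_zero]⟩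
  | add a b _ _ h1 h2 =>
    refine ⟨add_mem h1.1 h2.1, by rw [map_add]; exact add_mem h1.2.1 h2.2.1, fun t => ?_⟩
    rw [map_add, Jf_add, Jf_add, h1.2.2, h2.2.2]; ring
  | smul a z _ h1 =>
    refine ⟨Submodule.smul_mem _ a h1.1, by rw [map_smul]; exact Submodule.smul_mem _ a h1.2.1,
      fun t => ?_⟩
    rw [map_smul, Jf_smul, Jf_smul, h1.2.2]; ring

/-! ### Bessel -/

/-- normalised levels -/
noncomputable def vv (n : ℕ) (j : Fin (D.h n)) : 𝓗 := ((sb Y n : ℝ) : ℂ)⁻¹ • lv Y n j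

theorem orthonormal_vv (n : ℕ) : Orthonormal ℂ (vv Y n) := by
  rw [orthonormal_iff_ite]
  intro i j
  unfold vv
  have h0 : ((sb Y n : ℝ) : ℂ) ≠ 0 := by exact_mod_cast (sb_pos Y n).ne'
  rw [inner_smul_left, inner_smul_right, inner_lv Y n i j i.2 j.2, map_inv₀,
    Complex.conj_ofReal, ← sb_sq Y n]
  by_cases h : i = j
  · rw [if_pos h, if_pos (by rw [h])]
    push_cast
    field_simp
  · rw [if_neg h, if_neg (fun h' => h (Fin.ext h')), mul_zero, mul_zero]

theorem inner_vv (n : ℕ) (j : Fin (D.h n)) (x : 𝓗) : inner ℂ (vv Y n j) x = cf Y n j x := by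
  unfold vv cf
  rw [inner_smul_left, map_inv₀, Complex.conj_ofReal]

theorem bessel (n : ℕ) (x : 𝓗) : ∑ j ∈ range (D.h n), ‖cf Y n j x‖ ^ 2 ≤ ‖x‖ ^ 2 := by
  have h := (orthonormal_vv Y n).sum_inner_products_le (s := Finset.univ) x
  simp only [inner_vv] at h
  rwa [Fin.sum_univ_eq_sum_range (fun j => ‖cf Y n j x‖ ^ 2)] at h

theorem parseval (n : ℕ) {x : 𝓗} (hx : x ∈ DD Y n) :
    ∑ j ∈ range (D.h n), ‖cf Y n j x‖ ^ 2 = ‖x‖ ^ 2 := by
  have hrep : x = ∑ j : Fin (D.h n), cf Y n j x • vv Y n j := by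
    unfold DD at hx
    induction hx using Submodule.span_induction with
    | mem z hz =>
      obtain ⟨j, hj, rfl⟩ := hz
      rw [Finset.sum_eq_single (⟨j, hj⟩ : Fin (D.h n))]
      · rw [cf_lv Y n _ _ hj hj, if_pos rfl]
        unfold vv
        rw [smul_smul, mul_inv_cancel₀ (by exact_mod_cast (sb_pos Y n).ne'), one_smul]
      · intro i _ hij
        rw [cf_lv Y n _ _ i.2 hj, if_neg (fun h => hij (Fin.ext h)), zero_smul]
      · intro h; exact absurd (Finset.mem_univ _) h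
    | zero => simp [cf_zero]
    | add a b _ _ h1 h2 =>
      nth_rewrite 1 [h1, h2]
      rw [← sum_add_distrib]
      exact sum_congr rfl (fun j _ => by rw [cf_add, add_smul])
    | smul a z _ h1 =>
      nth_rewrite 1 [h1]
      rw [Finset.smul_sum]
      exact sum_congr rfl (fun j _ => by rw [cf_smul, smul_smul])
  have h2 : ‖x‖ ^ 2 = ∑ j : Fin (D.h n), ‖cf Y n j x‖ ^ 2 := by
    nth_rewrite 1 [hrep]
    rw [← @inner_self_eq_norm_sq ℂ, (orthonormal_vv Y n).inner_sum]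
    rw [map_sum]
    refine sum_congr rfl (fun j _ => ?_)
    rw [← Complex.normSq_eq_conj_mul_self, Complex.normSq_eq_norm_sq]
    exact Complex.ofReal_re _
  rw [h2, Fin.sum_univ_eq_sum_range (fun j => ‖cf Y n j x‖ ^ 2)]

end Vale.Agent.P130R.AbsM
end

section

/-!
# P130R: the space `L²(0,1)`
-/

set_option autoImplicit false

namespace Vale.Agent.P130R.AbsM

open Finset MeasureTheory Filter Topology
open Vale.Agent.P110 (e dot GoodSet)

/-- Lebesgue measure on the unit interval -/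
noncomputable abbrev cm : Measure ℝ := volume.restrict (Set.Ioc (0 : ℝ) 1)

/-- the Hilbert space `L²(0,1)` -/
noncomputable abbrev LL : Type := Lp ℂ 2 cm

theorem LL_inner (F G : LL) {f g : ℝ → ℂ} (hf : F =ᵐ[cm] f) (hg : G =ᵐ[cm] g) :
    inner ℂ F G = ∫ x in (0 : ℝ)..1, (starRingEnd ℂ) (f x) * g x := by
  rw [L2.inner_def, intervalIntegral.integral_of_le zero_le_one]
  refine integral_congr_ae ?_
  filter_upwards [hf, hg] with x h1 h2
  rw [h1, h2, RCLike.inner_apply, mul_comm]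

theorem LL_norm_sq (G : LL) {g : ℝ → ℂ} (h : G =ᵐ[cm] g) :
    ‖G‖ ^ 2 = ∫ x in (0 : ℝ)..1, ‖g x‖ ^ 2 := by
  have h1 : ((‖G‖ ^ 2 : ℝ) : ℂ) = ((∫ x in (0 : ℝ)..1, ‖g x‖ ^ 2 : ℝ) : ℂ) := by
    rw [← intervalIntegral.integral_ofReal]
    have := inner_self_eq_norm_sq_to_K (𝕜 := ℂ) G
    rw [LL_inner G G h h] at this
    have this' : ((‖G‖ ^ 2 : ℝ) : ℂ) = ∫ x in (0 : ℝ)..1, (starRingEnd ℂ) (g x) * g x := by
      rw [this, Complex.ofReal_pow]
      rfl
    rw [this']
    refine intervalIntegral.integral_congr (fun x _ => ?_)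
    rw [← Complex.normSq_eq_conj_mul_self, Complex.normSq_eq_norm_sq]
  exact_mod_cast h1

theorem LL_integrable (F G : LL) {f g : ℝ → ℂ} (hf : F =ᵐ[cm] f) (hg : G =ᵐ[cm] g) :
    IntervalIntegrable (fun x => (starRingEnd ℂ) (f x) * g x) volume 0 1 := by
  rw [intervalIntegrable_iff_integrableOn_Ioc_of_le zero_le_one]
  refine (L2.integrable_inner (𝕜 := ℂ) F G).congr ?_
  filter_upwards [hf, hg] with x h1 h2
  rw [h1, h2, RCLike.inner_apply, mul_comm]

theorem memLp_bdd {g : ℝ → ℂ} (hg : Measurable g) {M : ℝ} (hb : ∀ x, ‖g x‖ ≤ M) :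
    MemLp g 2 cm :=
  MemLp.of_bound hg.aestronglyMeasurable M (ae_of_all _ hb)

theorem memLp_mul {φ g : ℝ → ℂ} (hφ : Measurable φ) (h1 : ∀ x, ‖φ x‖ = 1)
    (hg : MemLp g 2 cm) : MemLp (fun x => φ x * g x) 2 cm :=
  MemLp.of_le hg (hφ.aestronglyMeasurable.mul hg.1)
    (ae_of_all _ (fun x => by rw [norm_mul, h1, one_mul]))

/-- multiplication by a unimodular function -/
noncomputable def mulL (φ : ℝ → ℂ) (hφ : Measurable φ) (h1 : ∀ x, ‖φ x‖ = 1) : LL →ₗᵢ[ℂ] LL where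
  toFun g := (memLp_mul hφ h1 (Lp.memLp g)).toLp _
  map_add' f g := by
    apply Lp.ext
    have e1 := (memLp_mul hφ h1 (Lp.memLp (f + g))).coeFn_toLp
    have e2 := (memLp_mul hφ h1 (Lp.memLp f)).coeFn_toLp
    have e3 := (memLp_mul hφ h1 (Lp.memLp g)).coeFn_toLp
    filter_upwards [e1, e2, e3, Lp.coeFn_add f g, Lp.coeFn_add
      ((memLp_mul hφ h1 (Lp.memLp f)).toLp _) ((memLp_mul hφ h1 (Lp.memLp g)).toLp _)]
      with x h1 h2 h3 h4 h5
    rw [h1, h5, Pi.add_apply, h2, h3, h4, Pi.add_apply, mul_add]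
  map_smul' c g := by
    apply Lp.ext
    have e1 := (memLp_mul hφ h1 (Lp.memLp (c • g))).coeFn_toLp
    have e2 := (memLp_mul hφ h1 (Lp.memLp g)).coeFn_toLp
    filter_upwards [e1, e2, Lp.coeFn_smul c g, Lp.coeFn_smul c
      ((memLp_mul hφ h1 (Lp.memLp g)).toLp _)] with x h1 h2 h3 h4
    rw [h1, RingHom.id_apply, h4, Pi.smul_apply, h2, h3, Pi.smul_apply, smul_eq_mul, smul_eq_mul]
    ring
  norm_map' g := by
    have e1 := (memLp_mul hφ h1 (Lp.memLp g)).coeFn_toLp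
    simp only [LinearMap.coe_mk, AddHom.coe_mk]
    have h2 := LL_norm_sq _ e1
    have h3 := LL_norm_sq g (EventuallyEq.refl _ _)
    simp only [norm_mul, h1, one_mul] at h2
    rw [← h3] at h2
    exact (sq_eq_sq₀ (norm_nonneg _) (norm_nonneg _)).mp h2

theorem mulL_coe (φ : ℝ → ℂ) (hφ : Measurable φ) (h1 : ∀ x, ‖φ x‖ = 1) (g : LL) :
    mulL φ hφ h1 g =ᵐ[cm] fun x => φ x * g x :=
  (memLp_mul hφ h1 (Lp.memLp g)).coeFn_toLp

theorem meas_ek (k : ℤ) : Measurable (fun x : ℝ => e (k * x)) :=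
  (ac_continuous_e.comp (by fun_prop)).measurable

theorem memLp_ek (k : ℤ) : MemLp (fun x : ℝ => e (k * x)) 2 cm :=
  memLp_bdd (meas_ek k) (M := 1) (fun _ => (ac_norm_e _).le)

/-- the exponentials -/
noncomputable def eL (k : ℤ) : LL := (memLp_ek k).toLp _

theorem eL_coe (k : ℤ) : eL k =ᵐ[cm] fun x : ℝ => e (k * x) := (memLp_ek k).coeFn_toLp

theorem integral_ek (k : ℤ) : ∫ x in (0 : ℝ)..1, e (k * x) = if k = 0 then 1 else 0 := by
  by_cases h : k = 0
  · rw [if_pos h, h]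
    simp [ac_e_zero]
  · rw [if_neg h]
    have hk : (2 * (Real.pi : ℂ) * k * Complex.I) ≠ 0 := by
      have : (k : ℂ) ≠ 0 := by exact_mod_cast h
      have h2 : (Real.pi : ℂ) ≠ 0 := by exact_mod_cast Real.pi_ne_zero
      simp [this, h2]
    have h1 := integral_exp_mul_complex (a := 0) (b := 1) hk
    have h2 : ∀ x : ℝ, e (k * x) = Complex.exp (2 * (Real.pi : ℂ) * k * Complex.I * x) := by
      intro x
      unfold e
      congr 1
      push_cast
      ring
    simp only [h2]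
    rw [h1]
    have h3 : Complex.exp (2 * (Real.pi : ℂ) * k * Complex.I * ((1 : ℝ) : ℂ)) = 1 := by
      rw [Complex.exp_eq_one_iff]
      exact ⟨k, by push_cast; ring⟩
    rw [h3]
    simp

theorem orthonormal_eL : Orthonormal ℂ eL := by
  rw [orthonormal_iff_ite]
  intro i j
  rw [LL_inner _ _ (eL_coe i) (eL_coe j)]
  have h : ∀ x : ℝ, (starRingEnd ℂ) (e (i * x)) * e (j * x) = e (((j - i : ℤ) : ℝ) * x) := by
    intro x
    rw [ac_e_conj, ← ac_e_add]
    congr 1
    push_cast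
    ring
  simp only [h]
  rw [integral_ek]
  by_cases h' : i = j
  · rw [if_pos h', if_pos (by omega)]
  · rw [if_neg h', if_neg (by omega)]

/-- an element of `L²` with zero Fourier coefficients vanishes -/
theorem eL_total {g : LL} (h : ∀ k : ℤ, inner ℂ (eL k) g = 0) : g = 0 := by
  have h1 : ∀ᵐ x ∂cm, g x = 0 := by
    have hi : IntervalIntegrable (fun x => g x) volume 0 1 := by
      have := LL_integrable (eL 0) g (eL_coe 0) (EventuallyEq.refl _ _)
      simpa [ac_e_zero] using this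
    refine ac_unique hi (fun k => ?_)
    have h2 := h (-k)
    rw [LL_inner _ _ (eL_coe (-k)) (EventuallyEq.refl _ _)] at h2
    rw [← h2]
    refine intervalIntegral.integral_congr (fun x _ => ?_)
    rw [ac_e_conj]
    congr 2
    push_cast
    ring
  apply Lp.ext
  filter_upwards [h1, Lp.coeFn_zero ℂ 2 cm] with x h2 h3
  rw [h2, h3]
  rfl

end Vale.Agent.P130R.AbsM
end

section

/-!
# P130R: the approximate spectral maps
-/

set_option autoImplicit false

namespace Vale.Agent.P130R.AbsM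

open Finset MeasureTheory Filter Topology
open Vale.Agent.P110 (e dot GoodSet)

/-- product of the conjugates -/
noncomputable def tau (U : ℕ → ℝ → ℂ) (n : ℕ) (x : ℝ) : ℂ :=
  ∏ k ∈ range n, (starRingEnd ℂ) (U k x)

theorem tau_succ (U : ℕ → ℝ → ℂ) (n : ℕ) (x : ℝ) :
    tau U (n + 1) x = tau U n x * (starRingEnd ℂ) (U n x) := by
  unfold tau; rw [prod_range_succ]

theorem tau_meas {U : ℕ → ℝ → ℂ} (hU : ∀ n, Measurable (U n)) (n : ℕ) : Measurable (tau U n) := by
  unfold tau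
  exact Finset.measurable_fun_prod _ (fun k _ => Complex.continuous_conj.measurable.comp (hU k))

theorem tau_norm {U : ℕ → ℝ → ℂ} (h1 : ∀ n x, ‖U n x‖ = 1) (n : ℕ) (x : ℝ) :
    ‖tau U n x‖ = 1 := by
  unfold tau
  rw [norm_prod]
  exact prod_eq_one (fun k _ => by rw [RCLike.norm_conj, h1])

section
variable {D : Cuts} {𝓗 : Type} [NormedAddCommGroup 𝓗] [InnerProductSpace ℂ 𝓗]
  (Y : HilbertTower D 𝓗) {U : ℕ → ℝ → ℂ} (hU : ∀ n, Measurable (U n)) (h1 : ∀ n x, ‖U n x‖ = 1)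

/-- rotated exponentials -/
noncomputable def bL (n : ℕ) (j : ℤ) : LL := mulL (tau U n) (tau_meas hU n) (tau_norm h1 n) (eL j)

theorem bL_coe (n : ℕ) (j : ℤ) : bL hU h1 n j =ᵐ[cm] fun x => tau U n x * e (j * x) := by
  unfold bL
  filter_upwards [mulL_coe (tau U n) (tau_meas hU n) (tau_norm h1 n) (eL j), eL_coe j]
    with x h2 h3
  rw [h2, h3]

theorem orthonormal_bL (n : ℕ) : Orthonormal ℂ (bL hU h1 n) :=
  orthonormal_eL.comp_linearIsometry _

/-- the approximate spectral map -/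
noncomputable def Jt (n : ℕ) : 𝓗 →ₗ[ℂ] LL where
  toFun x := ∑ j ∈ range (D.h n), cf Y n j x • bL hU h1 n j
  map_add' x y := by
    rw [← sum_add_distrib]
    exact sum_congr rfl (fun j _ => by rw [cf_add, add_smul])
  map_smul' a x := by
    rw [RingHom.id_apply, Finset.smul_sum]
    exact sum_congr rfl (fun j _ => by rw [cf_smul, smul_smul])

theorem Jt_apply (n : ℕ) (x : 𝓗) :
    Jt Y hU h1 n x = ∑ j ∈ range (D.h n), cf Y n j x • bL hU h1 n j := rfl

theorem Jt_coe (n : ℕ) (x : 𝓗) :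
    Jt Y hU h1 n x =ᵐ[cm] fun t => tau U n t * Jf Y n x t := by
  have h2 : ∀ s : Finset ℕ, (∑ j ∈ s, cf Y n j x • bL hU h1 n j : LL) =ᵐ[cm]
      fun t => tau U n t * ∑ j ∈ s, cf Y n j x * e (j * t) := by
    intro s
    classical
    induction s using Finset.induction_on with
    | empty =>
      simp only [sum_empty, mul_zero]
      exact Lp.coeFn_zero ℂ 2 cm
    | insert a s ha ih =>
      rw [sum_insert ha]
      simp only [sum_insert ha]
      filter_upwards [ih, bL_coe hU h1 n a, Lp.coeFn_smul (cf Y n a x) (bL hU h1 n a),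
        Lp.coeFn_add (cf Y n a x • bL hU h1 n a) (∑ j ∈ s, cf Y n j x • bL hU h1 n j)]
        with t h3 h4 h5 h6
      rw [h6, Pi.add_apply, h5, Pi.smul_apply, h4, h3, smul_eq_mul]
      push_cast
      ring
  exact h2 _

theorem Jt_norm_sq (n : ℕ) (x : 𝓗) :
    ‖Jt Y hU h1 n x‖ ^ 2 = ∑ j ∈ range (D.h n), ‖cf Y n j x‖ ^ 2 := by
  have h2 : Jt Y hU h1 n x = ∑ j ∈ (range (D.h n)).map ⟨fun j : ℕ => (j : ℤ), Nat.cast_injective⟩,
      cf Y n j.toNat x • bL hU h1 n j := by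
    rw [Jt_apply, sum_map]
    rfl
  rw [← @inner_self_eq_norm_sq ℂ, h2, (orthonormal_bL hU h1 n).inner_sum, sum_map, map_sum]
  refine sum_congr rfl (fun j _ => ?_)
  simp only [Function.Embedding.coeFn_mk, Int.toNat_natCast]
  rw [← Complex.normSq_eq_conj_mul_self, Complex.normSq_eq_norm_sq]
  exact Complex.ofReal_re _

theorem Jt_norm_le (n : ℕ) (x : 𝓗) : ‖Jt Y hU h1 n x‖ ≤ ‖x‖ := by
  have h2 := bessel Y n x
  rw [← Jt_norm_sq Y hU h1 n x] at h2
  exact (sq_le_sq₀ (norm_nonneg _) (norm_nonneg _)).mp h2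

theorem Jt_norm_eq (n : ℕ) {x : 𝓗} (hx : x ∈ DD Y n) : ‖Jt Y hU h1 n x‖ = ‖x‖ := by
  have h2 := parseval Y n hx
  rw [← Jt_norm_sq Y hU h1 n x] at h2
  exact (sq_eq_sq₀ (norm_nonneg _) (norm_nonneg _)).mp h2

/-- norms converge -/
theorem Jt_norm_tendsto (x : 𝓗) : Tendsto (fun n => ‖Jt Y hU h1 n x‖) atTop (𝓝 ‖x‖) := by
  rw [Metric.tendsto_atTop]
  intro ε hε
  obtain ⟨n, y, hy, hd⟩ := exists_near Y x (half_pos hε)
  refine ⟨n, fun m hm => ?_⟩
  have h2 : ‖Jt Y hU h1 m y‖ = ‖y‖ := Jt_norm_eq Y hU h1 m (DD_mono Y hm hy)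
  have h3 : ‖Jt Y hU h1 m x - Jt Y hU h1 m y‖ ≤ ‖x - y‖ := by
    rw [← map_sub]; exact Jt_norm_le Y hU h1 m _
  have h4 := abs_norm_sub_norm_le (Jt Y hU h1 m x) (Jt Y hU h1 m y)
  have h5 := abs_norm_sub_norm_le x y
  rw [Real.dist_eq]
  rw [abs_le] at h4 h5
  rw [abs_lt]
  constructor <;> linarith only [h4.1, h4.2, h5.1, h5.2, hU, h1, hd, h2, h3]

/-- the shift property -/
theorem Jt_shift (n : ℕ) {y : 𝓗} (hy : Good Y n y) :
    Jt Y hU h1 n (Y.V y) =ᵐ[cm] fun t => e t * Jt Y hU h1 n y t := by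
  filter_upwards [Jt_coe Y hU h1 n (Y.V y), Jt_coe Y hU h1 n y] with t h2 h3
  rw [h2, h3, hy.2.2]
  ring

/-- the main estimate -/
theorem Jt_step {C : ℝ} (hF : FlatCuts D C U) (n : ℕ) {y : 𝓗} (hy : Good Y n y) :
    ‖Jt Y hU h1 (n + 1) (y - Y.V y) - Jt Y hU h1 n (y - Y.V y)‖ ≤
      Real.sqrt |C| * (1 / 2) ^ n * ‖y‖ := by
  have hsub : y - Y.V y ∈ DD Y n := sub_mem hy.1 hy.2.1
  have h2 : (Jt Y hU h1 (n + 1) (y - Y.V y) - Jt Y hU h1 n (y - Y.V y) : LL) =ᵐ[cm]
      fun t => tau U (n + 1) t * Jf Y (n + 1) (y - Y.V y) t - tau U n t * Jf Y n (y - Y.V y) t := by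
    filter_upwards [Lp.coeFn_sub (Jt Y hU h1 (n + 1) (y - Y.V y)) (Jt Y hU h1 n (y - Y.V y)),
      Jt_coe Y hU h1 (n + 1) (y - Y.V y), Jt_coe Y hU h1 n (y - Y.V y)] with t h3 h4 h5
    rw [h3, Pi.sub_apply, h4, h5]
  have h3 := LL_norm_sq _ h2
  have h4 : ∀ t : ℝ, ‖tau U (n + 1) t * Jf Y (n + 1) (y - Y.V y) t -
      tau U n t * Jf Y n (y - Y.V y) t‖ ^ 2 = ‖1 - e t‖ ^ 2 *
      ‖∑ j ∈ range (D.h n), cf Y n j y * e (j * t)‖ ^ 2 *
        ‖PP (D.q n) (D.H n) (D.S n) t - U n t‖ ^ 2 := by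
    intro t
    have e1 : Jf Y n (y - Y.V y) t = (1 - e t) * Jf Y n y t := by
      rw [Jf_sub, hy.2.2]; ring
    have hUU : U n t * (starRingEnd ℂ) (U n t) = 1 := by
      rw [Complex.mul_conj, Complex.normSq_eq_norm_sq, h1]; norm_num
    rw [Jf_succ Y n hsub, tau_succ, e1]
    have e2 : tau U n t * (starRingEnd ℂ) (U n t) * (PP (D.q n) (D.H n) (D.S n) t *
        ((1 - e t) * Jf Y n y t)) - tau U n t * ((1 - e t) * Jf Y n y t) =
        (1 - e t) * Jf Y n y t * (tau U n t * ((starRingEnd ℂ) (U n t) *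
          (PP (D.q n) (D.H n) (D.S n) t - U n t))) := by
      have : (starRingEnd ℂ) (U n t) * (PP (D.q n) (D.H n) (D.S n) t - U n t) =
          (starRingEnd ℂ) (U n t) * PP (D.q n) (D.H n) (D.S n) t - 1 := by
        rw [mul_sub, mul_comm _ (U n t), hUU]
      rw [this]
      ring
    rw [e2, norm_mul, norm_mul, norm_mul, norm_mul, tau_norm h1, RCLike.norm_conj, h1]
    unfold Jf
    ring
  simp only [h4] at h3
  have h5 := hF.2.2.2 n (fun j => cf Y n j y)
  have h6 : ‖Jt Y hU h1 (n + 1) (y - Y.V y) - Jt Y hU h1 n (y - Y.V y)‖ ^ 2 ≤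
      (Real.sqrt |C| * (1 / 2) ^ n * ‖y‖) ^ 2 := by
    rw [h3]
    refine h5.trans ?_
    have h7 := bessel Y n y
    have e3 : (Real.sqrt |C| * (1 / 2) ^ n * ‖y‖) ^ 2 = |C| * (1 / 4) ^ n * ‖y‖ ^ 2 := by
      rw [mul_pow, mul_pow, Real.sq_sqrt (abs_nonneg C), ← pow_mul, mul_comm n 2, pow_mul]
      norm_num
    rw [e3]
    have h8 : 0 ≤ ∑ j ∈ range (D.h n), ‖cf Y n j y‖ ^ 2 := sum_nonneg (fun _ _ => sq_nonneg _)
    calc C * (1 / 4) ^ n * ∑ j ∈ range (D.h n), ‖cf Y n j y‖ ^ 2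
        ≤ |C| * (1 / 4) ^ n * ∑ j ∈ range (D.h n), ‖cf Y n j y‖ ^ 2 := by
          gcongr; exact le_abs_self C
      _ ≤ |C| * (1 / 4) ^ n * ‖y‖ ^ 2 := by gcongr
  exact (sq_le_sq₀ (norm_nonneg _) (by positivity)).mp h6

end

end Vale.Agent.P130R.AbsM
end

section

/-!
# P130R: the abstract spectral theorem
-/

set_option autoImplicit false

namespace Vale.Agent.P130R.AbsM

open Finset MeasureTheory Filter Topology
open Vale.Agent.P110 (e dot GoodSet)

section
variable {D : Cuts} {𝓗 : Type} [NormedAddCommGroup 𝓗] [InnerProductSpace ℂ 𝓗]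
  (Y : HilbertTower D 𝓗) {U : ℕ → ℝ → ℂ} (hU : ∀ n, Measurable (U n)) (h1 : ∀ n x, ‖U n x‖ = 1)

/-- convergence for good vectors, with a rate -/
theorem good_tendsto {C : ℝ} (hF : FlatCuts D C U) (n : ℕ) {y : 𝓗} (hy : Good Y n y) :
    ∃ z : LL, Tendsto (fun m => Jt Y hU h1 m (y - Y.V y)) atTop (𝓝 z) ∧
      ‖Jt Y hU h1 n (y - Y.V y) - z‖ ≤ 2 * (Real.sqrt |C| * (1 / 2) ^ n * ‖y‖) := by
  have hd : ∀ m, dist (Jt Y hU h1 (m + n) (y - Y.V y)) (Jt Y hU h1 (m + 1 + n) (y - Y.V y)) ≤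
      (Real.sqrt |C| * (1 / 2) ^ n * ‖y‖) * (1 / 2) ^ m := by
    intro m
    rw [dist_comm, dist_eq_norm]
    have h2 := Jt_step Y hU h1 hF (m + n) (hy.mono Y (Nat.le_add_left n m))
    rw [show m + 1 + n = m + n + 1 by ring]
    refine h2.trans (le_of_eq ?_)
    rw [pow_add]; ring
  have hc : CauchySeq (fun m => Jt Y hU h1 (m + n) (y - Y.V y)) :=
    cauchySeq_of_le_geometric (1 / 2) _ (by norm_num) hd
  obtain ⟨z, hz⟩ := cauchySeq_tendsto_of_complete hc
  refine ⟨z, (tendsto_add_atTop_iff_nat n).mp hz, ?_⟩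
  have h3 := dist_le_of_le_geometric_of_tendsto₀ (1 / 2) _ (by norm_num) hd hz
  rw [zero_add, dist_eq_norm] at h3
  refine h3.trans (le_of_eq ?_)
  ring

/-- vectors for which the maps converge -/
noncomputable def SS : Submodule ℂ 𝓗 where
  carrier := {x | ∃ z : LL, Tendsto (fun m => Jt Y hU h1 m x) atTop (𝓝 z)}
  add_mem' := by
    rintro x y ⟨z, hz⟩ ⟨z', hz'⟩
    exact ⟨z + z', by simpa only [map_add] using hz.add hz'⟩
  zero_mem' := ⟨0, by simp only [map_zero]; exact tendsto_const_nhds⟩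
  smul_mem' := by
    rintro a x ⟨z, hz⟩
    exact ⟨a • z, by simpa only [map_smul] using hz.const_smul a⟩

theorem SS_closed : IsClosed (SS Y hU h1 : Set 𝓗) := by
  apply isClosed_of_closure_subset
  intro x hx
  apply cauchySeq_tendsto_of_complete
  rw [Metric.cauchySeq_iff']
  intro ε hε
  obtain ⟨y, ⟨z, hz⟩, hd⟩ := Metric.mem_closure_iff.mp hx (ε / 3) (by positivity)
  obtain ⟨N, hN⟩ := (Metric.cauchySeq_iff'.mp hz.cauchySeq) (ε / 3) (by positivity)
  refine ⟨N, fun n hn => ?_⟩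
  have h2 := hN n hn
  have h3 : ∀ m, dist (Jt Y hU h1 m x) (Jt Y hU h1 m y) < ε / 3 := by
    intro m
    rw [dist_eq_norm, ← map_sub]
    refine lt_of_le_of_lt (Jt_norm_le Y hU h1 m _) ?_
    rwa [← dist_eq_norm]
  calc dist (Jt Y hU h1 n x) (Jt Y hU h1 N x)
      ≤ dist (Jt Y hU h1 n x) (Jt Y hU h1 n y) + dist (Jt Y hU h1 n y) (Jt Y hU h1 N y) +
        dist (Jt Y hU h1 N y) (Jt Y hU h1 N x) := dist_triangle4 _ _ _ _
    _ < ε / 3 + ε / 3 + ε / 3 := by
        gcongr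
        · exact h3 n
        · rw [dist_comm]; exact h3 N
    _ = ε := by ring

theorem mem_SS [CompleteSpace 𝓗] {C : ℝ} (hF : FlatCuts D C U) {x : 𝓗}
    (hx : inner ℂ Y.w x = 0) : x ∈ SS Y hU h1 := by
  have h2 : x ∈ (SS Y hU h1)ᗮᗮ := by
    rw [Submodule.mem_orthogonal]
    intro u hu
    rw [Submodule.mem_orthogonal] at hu
    -- `u` is invariant
    have hinv : u - Y.V.symm u = 0 := by
      refine eq_zero_of_orth Y (fun n j hj => ?_)
      rw [inner_sub_right, ← LinearIsometryEquiv.inner_map_eq_flip, ← inner_sub_left]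
      obtain ⟨z, hz, _⟩ := good_tendsto Y hU h1 hF (n + 1) (good_of_DD Y n (lv_mem Y n j hj))
      exact hu _ ⟨z, hz⟩
    have hinv' : Y.V u = u := by
      have h3 : u = Y.V.symm u := sub_eq_zero.mp hinv
      nth_rewrite 1 [h3]
      exact Y.V.apply_symm_apply u
    obtain ⟨c, rfl⟩ := eq_smul_w Y hinv'
    rw [inner_smul_left, hx, mul_zero]
  rw [Submodule.orthogonal_orthogonal_eq_closure] at h2
  have h3 : (SS Y hU h1).topologicalClosure = SS Y hU h1 :=
    (SS_closed Y hU h1).submodule_topologicalClosure_eq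
  rwa [h3] at h2

/-- the spectral map -/
noncomputable def Psi0 (x : 𝓗) : LL := limUnder atTop (fun m => Jt Y hU h1 m x)

theorem Psi0_tendsto [CompleteSpace 𝓗] {C : ℝ} (hF : FlatCuts D C U) {x : 𝓗}
    (hx : inner ℂ Y.w x = 0) :
    Tendsto (fun m => Jt Y hU h1 m x) atTop (𝓝 (Psi0 Y hU h1 x)) :=
  tendsto_nhds_limUnder (mem_SS Y hU h1 hF hx)

/-- the spectral map as a linear isometry -/
noncomputable def Psi [CompleteSpace 𝓗] {C : ℝ} (hF : FlatCuts D C U) :
    (Submodule.span ℂ {Y.w})ᗮ →ₗᵢ[ℂ] LL where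
  toFun x := Psi0 Y hU h1 x
  map_add' x y := by
    have hx := Psi0_tendsto Y hU h1 hF (Submodule.mem_orthogonal_singleton_iff_inner_right.mp x.2)
    have hy := Psi0_tendsto Y hU h1 hF (Submodule.mem_orthogonal_singleton_iff_inner_right.mp y.2)
    have hxy := Psi0_tendsto Y hU h1 hF
      (Submodule.mem_orthogonal_singleton_iff_inner_right.mp (x + y).2)
    refine tendsto_nhds_unique hxy ?_
    simpa only [Submodule.coe_add, map_add] using hx.add hy
  map_smul' a x := by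
    have hx := Psi0_tendsto Y hU h1 hF (Submodule.mem_orthogonal_singleton_iff_inner_right.mp x.2)
    have hax := Psi0_tendsto Y hU h1 hF
      (Submodule.mem_orthogonal_singleton_iff_inner_right.mp (a • x).2)
    refine tendsto_nhds_unique hax ?_
    simpa only [Submodule.coe_smul, map_smul, RingHom.id_apply] using hx.const_smul a
  norm_map' x := by
    have hx := Psi0_tendsto Y hU h1 hF (Submodule.mem_orthogonal_singleton_iff_inner_right.mp x.2)
    exact tendsto_nhds_unique hx.norm (Jt_norm_tendsto Y hU h1 (x : 𝓗))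

theorem meas_e : Measurable (fun x : ℝ => e x) := ac_continuous_e.measurable

theorem shift_tendsto (x : 𝓗) : Tendsto (fun m => Jt Y hU h1 m (Y.V x) -
    mulL (fun x : ℝ => e x) meas_e ac_norm_e (Jt Y hU h1 m x)) atTop (𝓝 0) := by
  rw [Metric.tendsto_atTop]
  intro ε hε
  obtain ⟨n, y, hy, hd⟩ := exists_near Y x (half_pos hε)
  refine ⟨n + 1, fun m hm => ?_⟩
  rw [dist_zero_right]
  have hg : Good Y m y := (good_of_DD Y n hy).mono Y hm
  have h2 : Jt Y hU h1 m (Y.V y) = mulL (fun x : ℝ => e x) meas_e ac_norm_e (Jt Y hU h1 m y) := by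
    apply Lp.ext
    filter_upwards [Jt_shift Y hU h1 m hg,
      mulL_coe (fun x : ℝ => e x) meas_e ac_norm_e (Jt Y hU h1 m y)] with t h3 h4
    rw [h3, h4]
  have h5 : Jt Y hU h1 m (Y.V x) - mulL (fun x : ℝ => e x) meas_e ac_norm_e (Jt Y hU h1 m x) =
      Jt Y hU h1 m (Y.V (x - y)) -
        mulL (fun x : ℝ => e x) meas_e ac_norm_e (Jt Y hU h1 m (x - y)) := by
    simp only [map_sub, h2]
    abel
  rw [h5]
  have h6 : ‖Jt Y hU h1 m (Y.V (x - y))‖ ≤ ‖x - y‖ := by
    refine (Jt_norm_le Y hU h1 m _).trans ?_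
    rw [LinearIsometryEquiv.norm_map]
  have h7 : ‖mulL (fun x : ℝ => e x) meas_e ac_norm_e (Jt Y hU h1 m (x - y))‖ ≤ ‖x - y‖ := by
    rw [LinearIsometry.norm_map]
    exact Jt_norm_le Y hU h1 m _
  have h8 := norm_sub_le (Jt Y hU h1 m (Y.V (x - y)))
    (mulL (fun x : ℝ => e x) meas_e ac_norm_e (Jt Y hU h1 m (x - y)))
  linarith only [hU, h1, hd, h6, h7, h8]

theorem V_orth {x : 𝓗} (hx : inner ℂ Y.w x = 0) : inner ℂ Y.w (Y.V x) = 0 := by
  nth_rewrite 1 [← Y.V_w]
  rw [LinearIsometryEquiv.inner_map_map, hx]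

theorem Psi0_shift [CompleteSpace 𝓗] {C : ℝ} (hF : FlatCuts D C U) {x : 𝓗}
    (hx : inner ℂ Y.w x = 0) :
    Psi0 Y hU h1 (Y.V x) =ᵐ[cm] fun t => e t * Psi0 Y hU h1 x t := by
  have h2 := Psi0_tendsto Y hU h1 hF hx
  have h3 := Psi0_tendsto Y hU h1 hF (V_orth Y hx)
  have h4 : Tendsto (fun m => mulL (fun x : ℝ => e x) meas_e ac_norm_e (Jt Y hU h1 m x)) atTop
      (𝓝 (mulL (fun x : ℝ => e x) meas_e ac_norm_e (Psi0 Y hU h1 x))) :=
    ((mulL (fun x : ℝ => e x) meas_e ac_norm_e).continuous.tendsto _).comp h2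
  have h5 := h3.sub h4
  have h6 := tendsto_nhds_unique h5 (shift_tendsto Y hU h1 x)
  rw [sub_eq_zero] at h6
  rw [h6]
  exact mulL_coe _ _ _ _

theorem zpow_w (k : ℤ) : (Y.V ^ k) Y.w = Y.w := by
  have hs : Y.V⁻¹ Y.w = Y.w := by
    have := Y.V.symm_apply_apply Y.w
    rwa [Y.V_w] at this
  induction k using Int.induction_on with
  | zero => simp
  | succ i ih => rw [zpow_add_one, ah_mul_apply, Y.V_w, ih]
  | pred i ih => rw [zpow_sub_one, ah_mul_apply, hs, ih]

theorem zpow_orth {x : 𝓗} (hx : inner ℂ Y.w x = 0) (k : ℤ) :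
    inner ℂ Y.w ((Y.V ^ k) x) = 0 := by
  nth_rewrite 1 [← zpow_w Y k]
  rw [LinearIsometryEquiv.inner_map_map, hx]

theorem Psi0_zpow [CompleteSpace 𝓗] {C : ℝ} (hF : FlatCuts D C U) {x : 𝓗}
    (hx : inner ℂ Y.w x = 0) (k : ℤ) :
    Psi0 Y hU h1 ((Y.V ^ k) x) =ᵐ[cm] fun t => e (k * t) * Psi0 Y hU h1 x t := by
  induction k using Int.induction_on with
  | zero =>
    refine Eventually.of_forall (fun t => ?_)
    simp [ac_e_zero]
  | succ i ih =>
    have h2 := Psi0_shift Y hU h1 hF (zpow_orth Y hx i)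
    rw [show ((i : ℤ) + 1) = 1 + i by ring, zpow_one_add, ah_mul_apply]
    filter_upwards [h2, ih] with t h3 h4
    rw [h3, h4, ← mul_assoc, ← ac_e_add]
    congr 2
    push_cast
    ring
  | pred i ih =>
    have h2 := Psi0_shift Y hU h1 hF (zpow_orth Y hx (-(i : ℤ) - 1))
    rw [← ah_mul_apply, ← zpow_one_add, show (1 + (-(i : ℤ) - 1)) = -(i : ℤ) by ring] at h2
    filter_upwards [h2, ih] with t h3 h4
    have h5 : e t * Psi0 Y hU h1 ((Y.V ^ (-(i : ℤ) - 1)) x) t =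
        e ((-(i : ℤ) : ℤ) * t) * Psi0 Y hU h1 x t := by rw [← h3, h4]
    have h6 : e (-t) * e t = 1 := by rw [← ac_e_add, neg_add_cancel, ac_e_zero]
    calc Psi0 Y hU h1 ((Y.V ^ (-(i : ℤ) - 1)) x) t
        = (e (-t) * e t) * Psi0 Y hU h1 ((Y.V ^ (-(i : ℤ) - 1)) x) t := by rw [h6, one_mul]
      _ = e (-t) * (e ((-(i : ℤ) : ℤ) * t) * Psi0 Y hU h1 x t) := by rw [mul_assoc, h5]
      _ = _ := by
        rw [← mul_assoc, ← ac_e_add]
        congr 2
        push_cast
        ring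

/-- Cauchy-Schwarz with absolute values -/
theorem integral_norm_mul_le (F G : LL) :
    ∫ x in (0 : ℝ)..1, ‖F x‖ * ‖G x‖ ≤ ‖F‖ * ‖G‖ := by
  have hF : MemLp (fun x => ((‖F x‖ : ℝ) : ℂ)) 2 cm := (Lp.memLp F).norm.ofReal
  have hG : MemLp (fun x => ((‖G x‖ : ℝ) : ℂ)) 2 cm := (Lp.memLp G).norm.ofReal
  have h2 := LL_inner _ _ hF.coeFn_toLp hG.coeFn_toLp
  have h3 := norm_inner_le_norm (𝕜 := ℂ) (hF.toLp _) (hG.toLp _)
  have h4 : ‖hF.toLp _‖ = ‖F‖ := by
    have h5 := LL_norm_sq _ hF.coeFn_toLp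
    have h6 := LL_norm_sq F (EventuallyEq.refl _ _)
    simp only [Complex.norm_real, norm_norm] at h5
    rw [← h6] at h5
    exact (sq_eq_sq₀ (norm_nonneg _) (norm_nonneg _)).mp h5
  have h4' : ‖hG.toLp _‖ = ‖G‖ := by
    have h5 := LL_norm_sq _ hG.coeFn_toLp
    have h6 := LL_norm_sq G (EventuallyEq.refl _ _)
    simp only [Complex.norm_real, norm_norm] at h5
    rw [← h6] at h5
    exact (sq_eq_sq₀ (norm_nonneg _) (norm_nonneg _)).mp h5
  have h7 : (∫ x in (0 : ℝ)..1, (starRingEnd ℂ) ((‖F x‖ : ℝ) : ℂ) * ((‖G x‖ : ℝ) : ℂ)) =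
      ((∫ x in (0 : ℝ)..1, ‖F x‖ * ‖G x‖ : ℝ) : ℂ) := by
    rw [← intervalIntegral.integral_ofReal]
    refine intervalIntegral.integral_congr (fun x _ => ?_)
    rw [Complex.conj_ofReal, Complex.ofReal_mul]
  rw [h2, h7, h4, h4', Complex.norm_real] at h3
  exact (le_abs_self _).trans h3

theorem ac_e_ne_one : ∀ᵐ t ∂cm, (1 : ℂ) - e t ≠ 0 := by
  have hc : (Set.range (fun n : ℤ => (n : ℝ))).Countable := Set.countable_range _
  have h2 : ∀ᵐ t ∂cm, t ∉ Set.range (fun n : ℤ => (n : ℝ)) := hc.ae_notMem _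
  filter_upwards [h2] with t ht h3
  apply ht
  have h4 : e t = 1 := (sub_eq_zero.mp h3).symm
  unfold e at h4
  rw [Complex.exp_eq_one_iff] at h4
  obtain ⟨n, hn⟩ := h4
  refine ⟨n, ?_⟩
  have h5 : ((2 * Real.pi * t : ℝ) : ℂ) * Complex.I =
      ((2 * Real.pi * n : ℝ) : ℂ) * Complex.I := by
    rw [hn]; push_cast; ring
  have h6 := mul_right_cancel₀ Complex.I_ne_zero h5
  have h7 : 2 * Real.pi * t = 2 * Real.pi * n := by exact_mod_cast h6
  have h8 : (2 * Real.pi) ≠ 0 := by positivity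
  exact (mul_left_cancel₀ h8 h7).symm

/-- the estimate behind surjectivity -/
theorem onto_est [CompleteSpace 𝓗] {C : ℝ} (hF : FlatCuts D C U) {g : LL}
    (hg : ∀ x : 𝓗, inner ℂ Y.w x = 0 → inner ℂ (Psi0 Y hU h1 x) g = 0) (n : ℕ) :
    ∫ t in (0 : ℝ)..1, ‖1 - e t‖ * ‖g t‖ ≤ 2 * Real.sqrt |C| * (1 / 2) ^ n * ‖g‖ := by
  set y := lv Y n 0 with hy
  have hgood : Good Y n y := good_lv Y n 0 (by have := ah_h_ge D n; omega)
  set x := y - Y.V y with hx
  have hxo : inner ℂ Y.w x = 0 := by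
    rw [hx, hy, V_lv, inner_sub_right, inner_w_lv, inner_w_lv, sub_self]
  obtain ⟨z, hz, hzn⟩ := good_tendsto Y hU h1 hF n hgood
  have hzx : z = Psi0 Y hU h1 x := tendsto_nhds_unique hz (Psi0_tendsto Y hU h1 hF hxo)
  rw [hzx] at hzn
  -- the product vanishes
  have h2 : ∀ᵐ t ∂cm, (starRingEnd ℂ) (Psi0 Y hU h1 x t) * g t = 0 := by
    refine ac_unique (LL_integrable _ _ (EventuallyEq.refl _ _) (EventuallyEq.refl _ _))
      (fun k => ?_)
    have h3 := hg _ (zpow_orth Y hxo (-k))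
    rw [LL_inner _ _ (Psi0_zpow Y hU h1 hF hxo (-k)) (EventuallyEq.refl _ _)] at h3
    rw [← h3]
    refine intervalIntegral.integral_congr (fun t _ => ?_)
    rw [map_mul, ac_e_conj, ← mul_assoc]
    congr 3
    push_cast
    ring
  have hynorm : ‖y‖ = sb Y n := by
    have h3 : inner ℂ y y = (Y.β n : ℂ) := by
      rw [hy, inner_lv Y n 0 0 (by have := ah_h_ge D n; omega) (by have := ah_h_ge D n; omega),
        if_pos rfl]
    have h4 : inner ℂ y y = ((‖y‖ ^ 2 : ℝ) : ℂ) := by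
      rw [inner_self_eq_norm_sq_to_K, Complex.ofReal_pow]
      rfl
    have h5 : Y.β n = ‖y‖ ^ 2 := Complex.ofReal_injective (h3.symm.trans h4)
    unfold sb
    rw [h5, Real.sqrt_sq (norm_nonneg _)]
  -- pointwise identity
  have h3 : ∀ᵐ t ∂cm, sb Y n * (‖1 - e t‖ * ‖g t‖) =
      ‖(Jt Y hU h1 n x - Psi0 Y hU h1 x : LL) t‖ * ‖g t‖ := by
    filter_upwards [h2, Jt_coe Y hU h1 n x, Lp.coeFn_sub (Jt Y hU h1 n x) (Psi0 Y hU h1 x)]
      with t h4 h5 h6
    have h7 : Jf Y n x t = (1 - e t) * ((sb Y n : ℝ) : ℂ) := by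
      rw [hx, Jf_sub, hgood.2.2, hy, Jf_lv Y n 0 (by have := ah_h_ge D n; omega)]
      simp [ac_e_zero]
      ring
    have h8 : ‖Jt Y hU h1 n x t‖ = ‖1 - e t‖ * sb Y n := by
      rw [h5, h7, norm_mul, norm_mul, tau_norm h1, one_mul, Complex.norm_real, Real.norm_eq_abs,
        abs_of_pos (sb_pos Y n)]
    rcases mul_eq_zero.mp h4 with h9 | h9
    · have h10 : Psi0 Y hU h1 x t = 0 := by
        have := congrArg (starRingEnd ℂ) h9
        rwa [Complex.conj_conj, map_zero] at this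
      rw [h6, Pi.sub_apply, h10, sub_zero, h8]
      ring
    · rw [h9, norm_zero, mul_zero, mul_zero, mul_zero]
  have h4 : sb Y n * ∫ t in (0 : ℝ)..1, ‖1 - e t‖ * ‖g t‖ =
      ∫ t in (0 : ℝ)..1, ‖(Jt Y hU h1 n x - Psi0 Y hU h1 x : LL) t‖ * ‖g t‖ := by
    rw [← intervalIntegral.integral_const_mul, intervalIntegral.integral_of_le zero_le_one,
      intervalIntegral.integral_of_le zero_le_one]
    exact integral_congr_ae h3
  have h5 := integral_norm_mul_le (Jt Y hU h1 n x - Psi0 Y hU h1 x) g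
  rw [← h4] at h5
  have h6 : sb Y n * ∫ t in (0 : ℝ)..1, ‖1 - e t‖ * ‖g t‖ ≤
      sb Y n * (2 * Real.sqrt |C| * (1 / 2) ^ n * ‖g‖) := by
    refine h5.trans ?_
    have h7 : ‖Jt Y hU h1 n x - Psi0 Y hU h1 x‖ * ‖g‖ ≤
        (2 * (Real.sqrt |C| * (1 / 2) ^ n * ‖y‖)) * ‖g‖ := by gcongr
    refine h7.trans (le_of_eq ?_)
    rw [hynorm]; ring
  exact le_of_mul_le_mul_left h6 (sb_pos Y n)

theorem onto_zero [CompleteSpace 𝓗] {C : ℝ} (hF : FlatCuts D C U) {g : LL}
    (hg : ∀ x : 𝓗, inner ℂ Y.w x = 0 → inner ℂ (Psi0 Y hU h1 x) g = 0) : g = 0 := by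
  have h2 : ∫ t in (0 : ℝ)..1, ‖1 - e t‖ * ‖g t‖ ≤ 0 := by
    have h3 : Tendsto (fun n : ℕ => 2 * Real.sqrt |C| * (1 / 2 : ℝ) ^ n * ‖g‖) atTop
        (𝓝 (2 * Real.sqrt |C| * 0 * ‖g‖)) :=
      ((tendsto_pow_atTop_nhds_zero_of_lt_one (by norm_num) (by norm_num)).const_mul _).mul_const _
    rw [mul_zero, zero_mul] at h3
    exact ge_of_tendsto' h3 (onto_est Y hU h1 hF hg)
  have h3 : ∫ t, ‖1 - e t‖ * ‖g t‖ ∂cm = 0 := by
    rw [intervalIntegral.integral_of_le zero_le_one] at h2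
    exact le_antisymm h2 (integral_nonneg (fun t => by positivity))
  have hint : Integrable (fun t => ‖1 - e t‖ * ‖g t‖) cm := by
    have hgi : Integrable (fun t => g t) cm := (Lp.memLp g).integrable (by norm_num)
    refine (hgi.norm.const_mul 2).mono' ?_ (ae_of_all _ (fun t => ?_))
    · exact ((continuous_const.sub ac_continuous_e).norm.measurable.aestronglyMeasurable).mul
        (Lp.aestronglyMeasurable g).norm
    · rw [Real.norm_eq_abs, abs_of_nonneg (by positivity)]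
      gcongr
      refine (norm_sub_le _ _).trans ?_
      rw [ac_norm_e]; norm_num
  rw [integral_eq_zero_iff_of_nonneg (fun t => by positivity) hint] at h3
  apply Lp.ext
  filter_upwards [h3, ac_e_ne_one, Lp.coeFn_zero ℂ 2 cm] with t h4 h5 h6
  rw [h6, Pi.zero_apply]
  have h7 : ‖1 - e t‖ * ‖g t‖ = 0 := h4
  rcases mul_eq_zero.mp h7 with h8 | h8
  · exact absurd (norm_eq_zero.mp h8) h5
  · exact norm_eq_zero.mp h8

theorem Psi_surj [CompleteSpace 𝓗] {C : ℝ} (hF : FlatCuts D C U) (z : LL) :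
    ∃ f : 𝓗, inner ℂ Y.w f = 0 ∧ Psi0 Y hU h1 f = z := by
  set Ψ := Psi Y hU h1 hF with hΨ
  set R : Submodule ℂ LL := LinearMap.range Ψ.toLinearMap with hR
  have hcl : IsClosed (R : Set LL) := by
    have : (R : Set LL) = Set.range Ψ := by
      ext v
      simp only [hR, SetLike.mem_coe, LinearMap.mem_range, Set.mem_range]
      rfl
    rw [this]
    exact Ψ.isometry.isClosedEmbedding.isClosed_range
  have horth : Rᗮ = ⊥ := by
    rw [Submodule.eq_bot_iff]
    intro g hg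
    rw [Submodule.mem_orthogonal] at hg
    refine onto_zero Y hU h1 hF (fun x hx => ?_)
    exact hg _ ⟨⟨x, Submodule.mem_orthogonal_singleton_iff_inner_right.mpr hx⟩, rfl⟩
  have h2 : R.topologicalClosure = ⊤ := by
    rw [← Submodule.orthogonal_orthogonal_eq_closure, horth, Submodule.bot_orthogonal_eq_top]
  have h3 : R = ⊤ := by
    rw [← h2]; exact hcl.submodule_topologicalClosure_eq.symm
  have h4 : z ∈ R := by rw [h3]; trivial
  obtain ⟨f, hf⟩ := h4
  exact ⟨f, Submodule.mem_orthogonal_singleton_iff_inner_right.mp f.2, hf⟩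

end

end Vale.Agent.P130R.AbsM

namespace Vale.Agent.P130R

open Finset MeasureTheory Filter Topology AbsM
open Vale.Agent.P110 (e dot GoodSet)

/-- ABS: abstract spectral theorem. -/
theorem abs : AbstractStatement := by
  intro D C U hF 𝓗 _ _ _ Y
  have hU : ∀ n, Measurable (U n) := hF.1
  have h1 : ∀ n x, ‖U n x‖ = 1 := hF.2.1
  obtain ⟨f, hf, hΨf⟩ := Psi_surj Y hU h1 hF (eL 0)
  set Ψ := Psi Y hU h1 hF with hΨ
  have hmem : ∀ k : ℤ, (Y.V ^ k) f ∈ (Submodule.span ℂ {Y.w})ᗮ := fun k =>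
    Submodule.mem_orthogonal_singleton_iff_inner_right.mpr (zpow_orth Y hf k)
  have hk : ∀ k : ℤ, Ψ ⟨(Y.V ^ k) f, hmem k⟩ = eL k := by
    intro k
    have h2 : Ψ ⟨(Y.V ^ k) f, hmem k⟩ = Psi0 Y hU h1 ((Y.V ^ k) f) := rfl
    rw [h2]
    apply Lp.ext
    filter_upwards [Psi0_zpow Y hU h1 hF hf k, eL_coe k, eL_coe 0] with t h3 h4 h5
    rw [h3, h4, hΨf, h5]
    simp [ac_e_zero]
  refine ⟨f, hf, ?_, ?_⟩
  · rw [orthonormal_iff_ite]
    intro i j
    have h2 := (orthonormal_iff_ite.mp orthonormal_eL) i j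
    rw [← hk i, ← hk j, LinearIsometry.inner_map_map, Submodule.coe_inner] at h2
    exact h2
  · intro g hg hgk
    have hgm : g ∈ (Submodule.span ℂ {Y.w})ᗮ :=
      Submodule.mem_orthogonal_singleton_iff_inner_right.mpr hg
    have h2 : Ψ ⟨g, hgm⟩ = 0 := by
      refine eL_total (fun k => ?_)
      rw [← hk k, LinearIsometry.inner_map_map, Submodule.coe_inner]
      exact hgk k
    have h3 : ‖Ψ ⟨g, hgm⟩‖ = ‖g‖ := by
      rw [LinearIsometry.norm_map]; rfl
    rw [h2, norm_zero] at h3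
    exact norm_eq_zero.mp h3.symm

end Vale.Agent.P130R
end

section

/-!
# P130R, module KOOP: from the rank one system to the Hilbert space picture and back
-/

set_option autoImplicit false

namespace Vale.Agent.P130R

open Finset MeasureTheory Filter Topology

namespace KoopM

lemma h_pos (D : Cuts) (n : ℕ) : 0 < D.h n := by
  have h := D.h_big n
  have h2 : 0 < 2 ^ (n + 1) * (D.K n + 2) := by positivity
  omega

lemma h_succ' (D : Cuts) (n : ℕ) : D.h (n + 1) = D.q n * D.H n := D.h_succ n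

lemma a_add_le (D : Cuts) (n : ℕ) {k k' : ℕ} (h : k < k') : D.a n k + D.h n ≤ D.a n k' := by
  have h1 := D.S_le n k
  have h2 : (k + 1) * D.H n ≤ k' * D.H n := Nat.mul_le_mul_right _ h
  have h3 : (k + 1) * D.H n = k * D.H n + D.H n := by ring
  have h4 : D.H n = D.h n + D.K n + 2 := rfl
  unfold Cuts.a
  omega

lemma a_lt (D : Cuts) (n : ℕ) {k : ℕ} (h : k < D.q n) : D.a n k + D.h n < D.h (n + 1) := by
  have h1 := D.S_le n k
  have h2 : (k + 1) * D.H n ≤ D.q n * D.H n := Nat.mul_le_mul_right _ h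
  have h3 : (k + 1) * D.H n = k * D.H n + D.H n := by ring
  have h4 : D.H n = D.h n + D.K n + 2 := rfl
  have h5 := h_succ' D n
  unfold Cuts.a
  omega

lemma a_inj (D : Cuts) (n : ℕ) {k k' : ℕ} (h : D.a n k = D.a n k') : k = k' := by
  have hp := h_pos D n
  rcases lt_trichotomy k k' with h1 | h1 | h1
  · have := a_add_le D n h1; omega
  · exact h1
  · have := a_add_le D n h1; omega


section Koopman

variable {X : Type} [MeasurableSpace X] {μ : Measure X}

/-- inverse Koopman operator `f ↦ f ∘ T⁻¹` -/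
noncomputable def koopV (T : X ≃ᵐ X) (hT : MeasurePreserving T μ μ) :
    Lp ℂ 2 μ ≃ₗᵢ[ℂ] Lp ℂ 2 μ where
  toLinearEquiv :=
    { toFun := Lp.compMeasurePreserving T.symm (hT.symm T)
      invFun := Lp.compMeasurePreserving T hT
      map_add' := map_add _
      map_smul' := fun c f => by
        apply Lp.ext
        filter_upwards [Lp.coeFn_compMeasurePreserving (c • f) (hT.symm T),
          Lp.coeFn_compMeasurePreserving f (hT.symm T),
          Lp.coeFn_smul c (Lp.compMeasurePreserving T.symm (hT.symm T) f),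
          (hT.symm T).quasiMeasurePreserving.ae (Lp.coeFn_smul c f)] with x h1 h2 h3 h4
        rw [h1, RingHom.id_apply, h3]
        simp only [Function.comp_apply, Pi.smul_apply] at *
        rw [h4, h2]
      left_inv := fun f => by
        have h := Lp.compMeasurePreserving_comp_apply f (hT.symm T) hT
        rw [← h]
        have h2 : (T.symm ∘ T : X → X) = id := by funext x; simp
        simp only [h2]
        exact Lp.compMeasurePreserving_id_apply f
      right_inv := fun f => by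
        have h := Lp.compMeasurePreserving_comp_apply f hT (hT.symm T)
        rw [← h]
        have h2 : (T ∘ T.symm : X → X) = id := by funext x; simp
        simp only [h2]
        exact Lp.compMeasurePreserving_id_apply f }
  norm_map' := fun f => Lp.norm_compMeasurePreserving f (hT.symm T)

lemma koopV_coe (T : X ≃ᵐ X) (hT : MeasurePreserving T μ μ) (f : Lp ℂ 2 μ) :
    koopV T hT f =ᵐ[μ] f ∘ T.symm := Lp.coeFn_compMeasurePreserving f (hT.symm T)

lemma koopV_symm_coe (T : X ≃ᵐ X) (hT : MeasurePreserving T μ μ) (f : Lp ℂ 2 μ) :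
    (koopV T hT).symm f =ᵐ[μ] f ∘ T := Lp.coeFn_compMeasurePreserving f hT

lemma pow_coe (W : Lp ℂ 2 μ ≃ₗᵢ[ℂ] Lp ℂ 2 μ) (S : X → X) (hS : MeasurePreserving S μ μ)
    (hW : ∀ f : Lp ℂ 2 μ, W f =ᵐ[μ] f ∘ S) (n : ℕ) (f : Lp ℂ 2 μ) :
    (W ^ n) f =ᵐ[μ] f ∘ S^[n] := by
  induction n generalizing f with
  | zero => simp
  | succ n ih =>
    rw [pow_succ]
    have h1 : (W ^ n * W) f = (W ^ n) (W f) := rfl
    rw [h1]
    refine (ih (W f)).trans ?_
    have h2 := (hS.iterate n).quasiMeasurePreserving.ae (hW f)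
    filter_upwards [h2] with x hx
    simp only [Function.comp_apply] at hx ⊢
    rw [hx, Function.iterate_succ_apply']

lemma zpow_coe (T : X ≃ᵐ X) (hT : MeasurePreserving T μ μ) (k : ℤ) (f : Lp ℂ 2 μ) :
    ((koopV T hT) ^ (-k)) f =ᵐ[μ] fun x => f (((T.toEquiv : Equiv.Perm X) ^ k) x) := by
  obtain ⟨n, rfl | rfl⟩ := k.eq_nat_or_neg
  · have h1 : (koopV T hT) ^ (-(n : ℤ)) = ((koopV T hT).symm) ^ n := by
      rw [zpow_neg, zpow_natCast, ← inv_pow]
      rfl
    rw [h1]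
    have h2 := pow_coe (koopV T hT).symm T hT (koopV_symm_coe T hT) n f
    refine h2.trans ?_
    filter_upwards with x
    simp only [Function.comp_apply, zpow_natCast]
    exact congrArg f (congrFun (Equiv.Perm.iterate_eq_pow (T.toEquiv : Equiv.Perm X) n) x)
  · rw [neg_neg, zpow_natCast]
    have h2 := pow_coe (koopV T hT) T.symm (hT.symm T) (koopV_coe T hT) n f
    refine h2.trans ?_
    filter_upwards with x
    simp only [Function.comp_apply, zpow_neg, zpow_natCast]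
    have h3 := congrFun (Equiv.Perm.iterate_eq_pow ((T.toEquiv : Equiv.Perm X)⁻¹) n) x
    rw [inv_pow] at h3
    exact congrArg f h3

variable [IsProbabilityMeasure μ]

/-- indicator function as a vector -/
noncomputable def ind (A : Set X) (hA : MeasurableSet A) : Lp ℂ 2 μ :=
  indicatorConstLp 2 hA (measure_ne_top μ A) 1

lemma inner_ind (A A' : Set X) (hA : MeasurableSet A) (hA' : MeasurableSet A') :
    inner ℂ (ind (μ := μ) A hA) (ind A' hA') = ((μ.real (A ∩ A') : ℝ) : ℂ) := by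
  unfold ind
  exact MeasureTheory.L2.inner_indicatorConstLp_one_indicatorConstLp_one hA hA'

lemma measurable_level (T : X ≃ᵐ X) (B : ℕ → Set X) (hB : ∀ n, MeasurableSet (B n)) (n i : ℕ) :
    MeasurableSet (level T B n i) :=
  (T.symm.measurable.iterate i) (hB n)

lemma pow_ind (T : X ≃ᵐ X) (hT : MeasurePreserving T μ μ) (B : ℕ → Set X)
    (hB : ∀ n, MeasurableSet (B n)) (n i : ℕ) :
    ((koopV T hT) ^ i) (ind (B n) (hB n)) = ind (level T B n i) (measurable_level T B hB n i) := by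
  apply Lp.ext
  have h1 := pow_coe (koopV T hT) T.symm (hT.symm T) (koopV_coe T hT) i (ind (B n) (hB n))
  have h2 := ((hT.symm T).iterate i).quasiMeasurePreserving.ae
    (indicatorConstLp_coeFn (p := 2) (μ := μ) (hs := hB n) (hμs := measure_ne_top μ (B n))
      (c := (1 : ℂ)))
  have h3 := indicatorConstLp_coeFn (p := 2) (μ := μ) (hs := measurable_level T B hB n i)
    (hμs := measure_ne_top μ (level T B n i)) (c := (1 : ℂ))
  filter_upwards [h1, h2, h3] with x h1 h2 h3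
  rw [h1]
  unfold ind
  rw [h3, Function.comp_apply, h2]
  rfl

lemma ind_congr {A A' : Set X} (hA : MeasurableSet A) (hA' : MeasurableSet A') (h : A = A') :
    ind (μ := μ) A hA = ind A' hA' := by
  subst h; rfl

lemma ind_biUnion {ι : Type} (s : Finset ι) (A : ι → Set X) (hA : ∀ i, MeasurableSet (A i))
    (hd : ∀ i ∈ s, ∀ j ∈ s, i ≠ j → Disjoint (A i) (A j)) :
    ind (μ := μ) (⋃ i ∈ s, A i) (Finset.measurableSet_biUnion s fun i _ => hA i) =
      ∑ i ∈ s, ind (A i) (hA i) := by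
  classical
  apply Lp.ext
  have h1 := indicatorConstLp_coeFn (p := 2) (μ := μ)
    (hs := Finset.measurableSet_biUnion s fun i _ => hA i)
    (hμs := measure_ne_top μ (⋃ i ∈ s, A i)) (c := (1 : ℂ))
  have h2 : ∀ᵐ x ∂μ, ∀ i ∈ s, (ind (μ := μ) (A i) (hA i)) x = (A i).indicator (fun _ => (1 : ℂ)) x := by
    refine (Filter.eventually_all_finset s).mpr fun i _ => ?_
    exact indicatorConstLp_coeFn (p := 2) (μ := μ) (hs := hA i)
      (hμs := measure_ne_top μ (A i)) (c := (1 : ℂ))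
  have h3 : (↑(∑ i ∈ s, ind (μ := μ) (A i) (hA i)) : X → ℂ) =ᵐ[μ]
      ∑ i ∈ s, (ind (μ := μ) (A i) (hA i) : X → ℂ) := Lp.coeFn_finsetSum _ _
  filter_upwards [h1, h2, h3] with x h1 h2 h3
  rw [h3, Finset.sum_apply]
  unfold ind at h2 ⊢
  rw [h1, Finset.sum_congr rfl h2]
  by_cases hx : ∃ i ∈ s, x ∈ A i
  · obtain ⟨i, hi, hxi⟩ := hx
    rw [Set.indicator_of_mem (by simp only [Set.mem_iUnion]; exact ⟨i, hi, hxi⟩),
      Finset.sum_eq_single_of_mem i hi, Set.indicator_of_mem hxi]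
    intro j hj hji
    apply Set.indicator_of_notMem
    intro hxj
    exact Set.disjoint_left.mp (hd j hj i hi hji) hxj hxi
  · push Not at hx
    rw [Set.indicator_of_notMem (by simp only [Set.mem_iUnion]; push Not; exact hx)]
    symm
    apply Finset.sum_eq_zero
    intro i hi
    exact Set.indicator_of_notMem (hx i hi) _

/-- the Hilbert space picture -/
noncomputable def tower (D : Cuts) (T : X ≃ᵐ X) (B : ℕ → Set X) (h : IsRankOne D μ T B) :
    HilbertTower D (Lp ℂ 2 μ) where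
  V := koopV T h.1
  E := fun n => ind (B n) (h.2.1 n)
  β := fun n => μ.real (B n)
  w := ind Set.univ MeasurableSet.univ
  β_pos := fun n => ENNReal.toReal_pos (h.2.2.1 n).ne' (measure_ne_top μ _)
  V_w := by
    have h1 := pow_ind T h.1 (fun _ => Set.univ) (fun _ => MeasurableSet.univ) 0 1
    rw [pow_one] at h1
    rw [h1]
    exact ind_congr _ _ (by unfold level; simp)
  norm_w := by
    unfold ind
    rw [norm_indicatorConstLp (by norm_num) (by norm_num)]
    simp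
  inner_w_E := fun n => by
    rw [inner_ind]; simp
  orth := fun n i hi j hj => by
    rw [pow_ind, pow_ind, inner_ind]
    split_ifs with hij
    · subst hij
      rw [Set.inter_self]
      congr 1
      exact ((h.1.symm T).iterate i).measureReal_preimage (h.2.1 n).nullMeasurableSet
    · rw [(h.2.2.2.1 n i hi j hj hij).inter_eq]
      simp
  rel := fun n => by
    have h1 : ∀ k ∈ range (D.q n), ((koopV T h.1) ^ (D.a n k)) (ind (B (n + 1)) (h.2.1 (n + 1))) =
        ind (level T B (n + 1) (D.a n k)) (measurable_level T B h.2.1 (n + 1) _) :=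
      fun k _ => pow_ind T h.1 B h.2.1 (n + 1) (D.a n k)
    rw [Finset.sum_congr rfl h1, ← ind_biUnion (range (D.q n))
      (fun k => level T B (n + 1) (D.a n k)) (fun k => measurable_level T B h.2.1 (n + 1) _)]
    · exact ind_congr _ _ (h.2.2.2.2.1 n)
    · intro k hk k' hk' hkk'
      have h2 := a_lt D n (mem_range.mp hk)
      have h3 := a_lt D n (mem_range.mp hk')
      exact h.2.2.2.1 (n + 1) _ (by omega) _ (by omega) fun h4 => hkk' (a_inj D n h4)
  dense := by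
    set S : Submodule ℂ (Lp ℂ 2 μ) := Submodule.span ℂ
      {x | ∃ n i, i < D.h n ∧ x = ((koopV T h.1) ^ i) (ind (B n) (h.2.1 n))} with hS
    -- finite unions of levels
    have h0 : ∀ (n : ℕ) (F : Finset ℕ), (∀ i ∈ F, i < D.h n) →
        ind (⋃ i ∈ F, level T B n i)
          (Finset.measurableSet_biUnion F fun i _ => measurable_level T B h.2.1 n i) ∈ S := by
      intro n F hF
      rw [ind_biUnion F (fun i => level T B n i) (fun i => measurable_level T B h.2.1 n i)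
        (fun i hi j hj hij => h.2.2.2.1 n i (hF i hi) j (hF j hj) hij)]
      refine Submodule.sum_mem _ fun i hi => Submodule.subset_span ⟨n, i, hF i hi, ?_⟩
      rw [pow_ind]
    -- indicators are in the closure
    have h1 : ∀ (A : Set X) (hA : MeasurableSet A), ind A hA ∈ S.topologicalClosure := by
      intro A hA
      rw [← SetLike.mem_coe, Submodule.topologicalClosure_coe, Metric.mem_closure_iff]
      intro ε hε
      obtain ⟨δ, hδ0, hδ⟩ : ∃ δ : ENNReal, 0 < δ ∧ ∀ A' : Set X, ∀ hA' : MeasurableSet A',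
          μ (symmDiff A A') ≤ δ → dist (ind (μ := μ) A hA) (ind A' hA') < ε := by
        refine ⟨ENNReal.ofReal ((ε / 2) ^ 2), by positivity, ?_⟩
        intro A' hA' hle
        unfold ind
        rw [dist_indicatorConstLp_eq_norm, norm_indicatorConstLp (by norm_num) (by norm_num)]
        have h3 : μ.real (symmDiff A A') ≤ (ε / 2) ^ 2 :=
          ENNReal.toReal_le_of_le_ofReal (by positivity) hle
        have h4 : μ.real (symmDiff A A') ^ (1 / (2 : ENNReal).toReal) ≤ ε / 2 := by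
          have h5 : (1 / (2 : ENNReal).toReal) = 1 / 2 := by norm_num
          rw [h5, ← Real.sqrt_eq_rpow]
          refine (Real.sqrt_le_sqrt h3).trans ?_
          rw [Real.sqrt_sq (by positivity)]
        rw [norm_one, one_mul]
        linarith only [hε, h4]
      obtain ⟨n, F, hF, hle⟩ := h.2.2.2.2.2 A hA δ hδ0
      exact ⟨_, h0 n F hF, hδ _ _ hle⟩
    have h2 : S.topologicalClosure = ⊤ := by
      rw [eq_top_iff]
      rintro f -
      refine Lp.induction (p := 2) (by norm_num) (fun f => f ∈ S.topologicalClosure) ?_ ?_ ?_ f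
      · intro c s hs hμs
        have h3 : (Lp.simpleFunc.indicatorConst 2 hs hμs.ne c : Lp ℂ 2 μ) = c • ind s hs := by
          rw [Lp.simpleFunc.coe_indicatorConst]
          unfold ind
          apply Lp.ext
          filter_upwards [indicatorConstLp_coeFn (p := 2) (μ := μ) (hs := hs)
              (hμs := hμs.ne) (c := c),
            Lp.coeFn_smul c (indicatorConstLp 2 hs (measure_ne_top μ s) (1 : ℂ) : Lp ℂ 2 μ),
            indicatorConstLp_coeFn (p := 2) (μ := μ) (hs := hs)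
              (hμs := measure_ne_top μ s) (c := (1 : ℂ))] with x h1 h2 h3
          rw [h1, h2, Pi.smul_apply, h3]
          by_cases hx : x ∈ s
          · simp [hx]
          · simp [hx]
        rw [h3]
        exact Submodule.smul_mem _ _ (h1 s hs)
      · intro f g hf hg _ h3 h4
        exact Submodule.add_mem _ h3 h4
      · exact S.isClosed_topologicalClosure
    rw [← Submodule.dense_iff_topologicalClosure_eq_top] at h2
    exact h2

end Koopman

end KoopM

open KoopM in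
theorem koop (habs : AbstractStatement) : KoopmanStatement := by
  intro D C U hU X mX μ hμ T B hB
  obtain ⟨f, hf1, hf2, hf3⟩ := habs D C U hU (Lp ℂ 2 μ) (tower D T B hB)
  have hw : ∀ g : Lp ℂ 2 μ, inner ℂ (tower D T B hB).w g = ∫ x, g x ∂μ := by
    intro g
    have h1 : (tower D T B hB).w = indicatorConstLp 2 MeasurableSet.univ (measure_ne_top μ _) 1 :=
      rfl
    rw [h1, MeasureTheory.L2.inner_indicatorConstLp_one]
    simp
  have hV : (tower D T B hB).V = koopV T hB.1 := rfl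
  refine ⟨f, Lp.memLp f, ?_, ?_, ?_⟩
  · rw [← hw f]; exact hf1
  · intro n
    have h1 : inner ℂ f (((koopV T hB.1) ^ (-n)) f) =
        ∫ x, f (((T.toEquiv : Equiv.Perm X) ^ n) x) * starRingEnd ℂ (f x) ∂μ := by
      rw [MeasureTheory.L2.inner_def]
      refine integral_congr_ae ?_
      filter_upwards [zpow_coe T hB.1 n f] with x hx
      rw [hx]
      simp
    rw [← h1]
    have h2 := orthonormal_iff_ite.mp hf2 0 (-n)
    rw [hV] at h2
    simp only [zpow_zero] at h2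
    have h3 : inner ℂ ((1 : Lp ℂ 2 μ ≃ₗᵢ[ℂ] Lp ℂ 2 μ) f) (((koopV T hB.1) ^ (-n)) f) =
      inner ℂ f (((koopV T hB.1) ^ (-n)) f) := rfl
    rw [h3] at h2
    rw [h2]
    by_cases hn : n = 0
    · simp [hn]
    · have : ¬ (0 = -n) := by omega
      simp [hn, this]
  · intro g hg hg0 hgn
    have h1 : hg.toLp g = 0 := by
      apply hf3
      · rw [hw, integral_congr_ae hg.coeFn_toLp]
        exact hg0
      · intro k
        rw [hV]
        have h2 : inner ℂ (((koopV T hB.1) ^ k) f) (hg.toLp g) =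
            starRingEnd ℂ (∫ x, f (((T.toEquiv : Equiv.Perm X) ^ (-k)) x) *
              starRingEnd ℂ (g x) ∂μ) := by
          rw [MeasureTheory.L2.inner_def, ← integral_conj]
          refine integral_congr_ae ?_
          have h3 := zpow_coe T hB.1 (-k) f
          rw [neg_neg] at h3
          filter_upwards [h3, hg.coeFn_toLp] with x hx hx2
          rw [hx, hx2]
          simp [mul_comm]
        rw [h2, hgn (-k), map_zero]
    have h2 := hg.coeFn_toLp
    rw [h1] at h2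
    exact h2.symm.trans (Lp.coeFn_zero _ _ _)

end Vale.Agent.P130R
end
end
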