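import Vale.Agent.P130.MathlibUsed

set_option linter.all false

section

section

open MeasureTheory Filter Topology

namespace Vale.Agent.P130

section LpTools

variable {α : Type*} [MeasurableSpace α] {μ : Measure α}

lemma inner_toLp {f g : α → ℂ} (hf : MemLp f 2 μ) (hg : MemLp g 2 μ) :
    inner ℂ (hf.toLp f) (hg.toLp g) = ∫ x, starRingEnd ℂ (f x) * g x ∂μ := by
  rw [MeasureTheory.L2.inner_def]
  refine integral_congr_ae ?_
  filter_upwards [hf.coeFn_toLp, hg.coeFn_toLp] with x h1 h2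
  rw [h1, h2, RCLike.inner_apply]; ring

lemma inner_eq_integral (f g : Lp ℂ 2 μ) :
    inner ℂ f g = ∫ x, starRingEnd ℂ (f x) * g x ∂μ := by
  rw [MeasureTheory.L2.inner_def]
  refine integral_congr_ae (Eventually.of_forall fun x => ?_)
  simp only [RCLike.inner_apply]; ring

lemma norm_sq_toLp {f : α → ℂ} (hf : MemLp f 2 μ) : ‖hf.toLp f‖ ^ 2 = ∫ x, ‖f x‖ ^ 2 ∂μ := by
  have h1 := inner_self_eq_norm_sq_to_K (𝕜 := ℂ) (hf.toLp f)
  rw [inner_toLp] at h1
  have h2 : ∫ x, starRingEnd ℂ (f x) * f x ∂μ = ((∫ x, ‖f x‖ ^ 2 ∂μ : ℝ) : ℂ) := by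
    rw [← integral_complex_ofReal]
    refine integral_congr_ae (Eventually.of_forall fun x => ?_)
    simp only
    rw [Complex.conj_mul', Complex.ofReal_pow]
  rw [h2] at h1
  have h3 : ((‖hf.toLp f‖ ^ 2 : ℝ) : ℂ) = ((∫ x, ‖f x‖ ^ 2 ∂μ : ℝ) : ℂ) := by
    rw [h1]; simp
  exact Complex.ofReal_injective h3

lemma norm_sq_eq_integral (f : Lp ℂ 2 μ) : ‖f‖ ^ 2 = ∫ x, ‖f x‖ ^ 2 ∂μ := by
  have := norm_sq_toLp (Lp.memLp f)
  rwa [Lp.toLp_coeFn] at this

lemma memLp_mul_unit {u : α → ℂ} (hu : Measurable u) (hu1 : ∀ x, ‖u x‖ = 1) {f : α → ℂ}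
    (hf : MemLp f 2 μ) : MemLp (fun x => u x * f x) 2 μ := by
  refine hf.of_le (hu.aestronglyMeasurable.mul hf.1) (Eventually.of_forall fun x => ?_)
  rw [norm_mul, hu1, one_mul]

/-- multiplication by a unimodular function -/
noncomputable def mulLp (u : α → ℂ) (hu : Measurable u) (hu1 : ∀ x, ‖u x‖ = 1) :
    Lp ℂ 2 μ →ₗ[ℂ] Lp ℂ 2 μ where
  toFun f := (memLp_mul_unit hu hu1 (Lp.memLp f)).toLp _
  map_add' f g := by
    rw [← MemLp.toLp_add, MemLp.toLp_eq_toLp_iff]
    filter_upwards [Lp.coeFn_add f g] with x hx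
    simp only [hx, Pi.add_apply]; ring
  map_smul' c f := by
    rw [RingHom.id_apply, ← MemLp.toLp_const_smul, MemLp.toLp_eq_toLp_iff]
    filter_upwards [Lp.coeFn_smul c f] with x hx
    simp only [hx, Pi.smul_apply, smul_eq_mul]; ring

lemma coe_mulLp (u : α → ℂ) (hu : Measurable u) (hu1 : ∀ x, ‖u x‖ = 1) (f : Lp ℂ 2 μ) :
    mulLp u hu hu1 f =ᵐ[μ] fun x => u x * f x :=
  MemLp.coeFn_toLp (memLp_mul_unit hu hu1 (Lp.memLp f))

lemma norm_mulLp (u : α → ℂ) (hu : Measurable u) (hu1 : ∀ x, ‖u x‖ = 1) (f : Lp ℂ 2 μ) :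
    ‖mulLp u hu hu1 f‖ = ‖f‖ := by
  have h1 : ‖mulLp u hu hu1 f‖ ^ 2 = ‖f‖ ^ 2 := by
    rw [norm_sq_eq_integral, norm_sq_eq_integral]
    refine integral_congr_ae ?_
    filter_upwards [coe_mulLp u hu hu1 f] with x hx
    rw [hx, norm_mul, hu1, one_mul]
  exact (sq_eq_sq₀ (norm_nonneg _) (norm_nonneg _)).1 h1

/-- multiplication by a unimodular function as a unitary -/
noncomputable def mulE (u : α → ℂ) (hu : Measurable u) (hu1 : ∀ x, ‖u x‖ = 1) :
    Lp ℂ 2 μ ≃ₗᵢ[ℂ] Lp ℂ 2 μ where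
  toLinearEquiv := LinearEquiv.ofLinearMap (mulLp u hu hu1)
    (mulLp (fun x => starRingEnd ℂ (u x)) (Complex.continuous_conj.measurable.comp hu)
      (fun x => by rw [RCLike.norm_conj, hu1]))
    (by
      ext1 f
      refine Lp.ext ?_
      rw [LinearMap.comp_apply, LinearMap.id_apply]
      refine (coe_mulLp _ _ _ _).trans ?_
      filter_upwards [coe_mulLp (fun x => starRingEnd ℂ (u x))
        (Complex.continuous_conj.measurable.comp hu) (fun x => by rw [RCLike.norm_conj, hu1]) f] with x hx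
      rw [hx, ← mul_assoc, Complex.mul_conj', hu1]; simp)
    (by
      ext1 f
      refine Lp.ext ?_
      rw [LinearMap.comp_apply, LinearMap.id_apply]
      refine (coe_mulLp _ _ _ _).trans ?_
      filter_upwards [coe_mulLp u hu hu1 f] with x hx
      rw [hx, ← mul_assoc, Complex.conj_mul', hu1]; simp)
  norm_map' f := norm_mulLp u hu hu1 f

lemma coe_mulE (u : α → ℂ) (hu : Measurable u) (hu1 : ∀ x, ‖u x‖ = 1) (f : Lp ℂ 2 μ) :
    mulE u hu hu1 f =ᵐ[μ] fun x => u x * f x := coe_mulLp u hu hu1 f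

lemma coe_mulE_symm (u : α → ℂ) (hu : Measurable u) (hu1 : ∀ x, ‖u x‖ = 1) (f : Lp ℂ 2 μ) :
    (mulE u hu hu1).symm f =ᵐ[μ] fun x => starRingEnd ℂ (u x) * f x :=
  coe_mulLp (fun x => starRingEnd ℂ (u x)) (Complex.continuous_conj.measurable.comp hu)
      (fun x => by rw [RCLike.norm_conj, hu1]) f

/-- Koopman operator -/
noncomputable def koopE (T : α ≃ᵐ α) (hT : MeasurePreserving T μ μ) :
    Lp ℂ 2 μ ≃ₗᵢ[ℂ] Lp ℂ 2 μ where
  toLinearEquiv := LinearEquiv.ofLinearMap
    (Lp.compMeasurePreservingₗᵢ ℂ T.symm (hT.symm T)).toLinearMap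
    (Lp.compMeasurePreservingₗᵢ ℂ T hT).toLinearMap
    (by
      ext1 f
      refine Lp.ext ?_
      rw [LinearMap.comp_apply, LinearMap.id_apply]
      refine (Lp.coeFn_compMeasurePreserving _ _).trans ?_
      have h1 := (hT.symm T).quasiMeasurePreserving.ae_eq_comp (Lp.coeFn_compMeasurePreserving f hT)
      refine h1.trans ?_
      refine Eventually.of_forall fun x => ?_
      simp)
    (by
      ext1 f
      refine Lp.ext ?_
      rw [LinearMap.comp_apply, LinearMap.id_apply]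
      refine (Lp.coeFn_compMeasurePreserving _ _).trans ?_
      have h1 := hT.quasiMeasurePreserving.ae_eq_comp
        (Lp.coeFn_compMeasurePreserving f (hT.symm T))
      refine h1.trans ?_
      refine Eventually.of_forall fun x => ?_
      simp)
  norm_map' f := (Lp.compMeasurePreservingₗᵢ ℂ T.symm (hT.symm T)).norm_map f

lemma coe_koopE (T : α ≃ᵐ α) (hT : MeasurePreserving T μ μ) (f : Lp ℂ 2 μ) :
    koopE T hT f =ᵐ[μ] f ∘ T.symm := Lp.coeFn_compMeasurePreserving f (hT.symm T)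

lemma coe_koopE_symm (T : α ≃ᵐ α) (hT : MeasurePreserving T μ μ) (f : Lp ℂ 2 μ) :
    (koopE T hT).symm f =ᵐ[μ] f ∘ T := Lp.coeFn_compMeasurePreserving f hT

end LpTools

end Vale.Agent.P130
end
end

section

section

open MeasureTheory

namespace Vale.Agent.P130

/-- `ee t = exp (2 π i t)`. -/
noncomputable def ee (t : ℝ) : ℂ := Complex.exp (2 * Real.pi * Complex.I * (t : ℂ))

/-- The normalized polynomial with label `lam`:
`P c lab q lam x = q^{-1/2} ∑_{i<q, lab i = lam} c i e(i x)`. -/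
noncomputable def P (c : ℕ → ℂ) (lab : ℕ → ℤ) (q : ℕ) (lam : ℤ) (x : UnitAddCircle) : ℂ :=
  ((Real.sqrt q : ℝ) : ℂ)⁻¹ *
    ∑ i ∈ (Finset.range q).filter (fun i => lab i = lam), c i * fourier (i : ℤ) x

/-- The step property: all labels `1 ≤ |l| ≤ n` are flat and collapse to a single label. -/
def StepProp (n : ℕ) (ε : ℝ) (q : ℕ) (m : ℕ → ℤ) (γ : ℕ → ℝ) (B : ℕ) : Prop :=
  ∃ (θ : ℤ → UnitAddCircle → ℂ) (lam : UnitAddCircle → ℤ),
    (∀ l, Measurable (θ l)) ∧ (∀ l x, ‖θ l x‖ = 1) ∧ Measurable lam ∧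
    (∀ x, lam x ≠ 0 ∧ |lam x| ≤ (B : ℤ)) ∧
    ∀ l : ℤ, l ≠ 0 → |l| ≤ (n : ℤ) →
      ∫ x, (∑ k ∈ Finset.Icc (-(B : ℤ)) (B : ℤ),
        ‖P (fun i => ee (l * γ i)) (fun i => l * m i) q k x
          - θ l x * (if lam x = k then 1 else 0)‖) ^ 2 ∂(AddCircle.haarAddCircle (T := 1)) ≤ ε ^ 2

/-- The chirp phases `γ_i = (q+1) i^2 / (2 b q)`. -/
noncomputable def chirp (b : ℕ) (q : ℕ) (i : ℕ) : ℝ := ((q : ℝ) + 1) / ((b : ℝ) * q) * (i : ℝ) ^ 2 / 2

/-- The chirp polynomial `q^{-1/2} ∑_{i<q} e(l (q+1) i^2 / (2 b q)) e(i x)`. -/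
noncomputable def Pl (b : ℕ) (l : ℤ) (q : ℕ) (x : UnitAddCircle) : ℂ :=
  ((Real.sqrt q : ℝ) : ℂ)⁻¹ * ∑ i ∈ Finset.range q, ee (l * chirp b q i) * fourier (i : ℤ) x

/-- the resonance map `v_l(x) = -(b/l) x - (|b/l|)/2`. -/
noncomputable def vres (b : ℕ) (l : ℤ) (x : UnitAddCircle) : UnitAddCircle :=
  -((b : ℤ) / l) • x - (((((b : ℤ) / l).natAbs : ℝ) / 2 : ℝ) : UnitAddCircle)

end Vale.Agent.P130
end
end

section

section

open MeasureTheory

namespace Vale.Agent.P130

/-- Haar probability measure on the circle `ℝ/ℤ`. -/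
noncomputable abbrev mT : Measure UnitAddCircle := AddCircle.haarAddCircle (T := 1)

/-- data of one stage: new height, number of blocks, positions, fibre maps, phases, label map,
label bound -/
structure SD where
  h' : ℕ
  m : ℕ
  p : ℕ → UnitAddCircle → ℕ
  φ : ℕ → UnitAddCircle → UnitAddCircle
  θ : ℤ → UnitAddCircle → ℂ
  N : UnitAddCircle → ℤ
  B : ℕ

/-- the transfer operator of one stage applied to `e_l`, at frequency `x` -/
noncomputable def MM (m : ℕ) (p : ℕ → UnitAddCircle → ℕ) (φ : ℕ → UnitAddCircle → UnitAddCircle)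
    (l : ℤ) (x y : UnitAddCircle) : ℂ :=
  ((Real.sqrt m : ℝ) : ℂ)⁻¹ * ∑ i ∈ Finset.range m, fourier (p i y : ℤ) x * fourier l (φ i y)

/-- nonzero labels `1 ≤ |l| ≤ n` -/
noncomputable def labs (n : ℕ) : Finset ℤ := (Finset.Icc (-(n : ℤ)) (n : ℤ)).erase 0

/-- index set of controlled labels: `j < h`, `1 ≤ |l| ≤ n` -/
noncomputable def idx2 (h n : ℕ) : Finset (ℕ × ℤ) := (Finset.range h) ×ˢ (labs n)

/-- the properties of one stage over a tower of height `h` -/
structure GoodStage (h n : ℕ) (ε : ℝ) (D : SD) : Prop where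
  two_le : 2 ≤ D.m
  meas_p : ∀ i, Measurable (D.p i)
  mp_φ : ∀ i, MeasurePreserving (D.φ i) mT mT
  disj : ∀ i i' y, i < i' → i' < D.m → D.p i y + h ≤ D.p i' y
  fit : ∀ i y, i < D.m → D.p i y + h ≤ D.h'
  ratio : (D.h' : ℝ) ≤ (1 + ε) * ((D.m : ℝ) * h)
  ind : ∀ i < D.m, ∀ (r : ℕ) (A : Set UnitAddCircle), MeasurableSet A →
    mT.real ({y | D.p i y = r} ∩ D.φ i ⁻¹' A) = mT.real {y | D.p i y = r} * mT.real A
  rnd : ∑ r ∈ Finset.range D.h', (∑ j ∈ Finset.range h,
    |∑ i ∈ Finset.range D.m, mT.real {y | D.p i y + j = r} - 1 / (h : ℝ)|) ^ 2 ≤ ε * D.h'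
  meas_θ : ∀ l, Measurable (D.θ l)
  norm_θ : ∀ l x, ‖D.θ l x‖ = 1
  meas_N : Measurable D.N
  N_ne : ∀ x, D.N x ≠ 0
  N_le : ∀ x, |D.N x| ≤ (D.B : ℤ)
  main : ∀ l ∈ labs n,
    ∫ x, (∫ y, ‖MM D.m D.p D.φ l x y - D.θ l x * fourier (D.N x) y‖ ^ 2 ∂mT) ∂mT ≤ ε ^ 2

/-- global translation of the fibre coordinate by `ρ` -/
noncomputable def SD.rot (D : SD) (ρ : UnitAddCircle) : SD :=
  { D with φ := fun i y => D.φ i y + ρ, θ := fun l x => fourier l ρ * D.θ l x }

/-- lift of a family of fibre functions (one for each height) to the next level -/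
noncomputable def lift (h : ℕ) (D : SD) (g : ℕ → UnitAddCircle → ℂ) (r : ℕ)
    (y : UnitAddCircle) : ℂ :=
  ∑ i ∈ Finset.range D.m, ∑ j ∈ Finset.range h, if D.p i y + j = r then g j (D.φ i y) else 0

/-- iterated lift from level `k` to level `k + d` -/
noncomputable def liftN (h : ℕ → ℕ) (D : ℕ → SD) (k : ℕ) (g : ℕ → UnitAddCircle → ℂ) :
    ℕ → (ℕ → UnitAddCircle → ℂ)
  | 0 => g
  | d + 1 => lift (h (k + d)) (D (k + d)) (liftN h D k g d)

/-- the family `1[height = j] e_l` -/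
noncomputable def unitFam (j : ℕ) (l : ℤ) (r : ℕ) (y : UnitAddCircle) : ℂ :=
  if r = j then fourier l y else 0

/-- squared `L²` norm of the part of `g` with labels `|ν| > n` -/
noncomputable def tail (n : ℕ) (g : UnitAddCircle → ℂ) : ℝ :=
  ∫ y, ‖g y - ∑ ν ∈ Finset.Icc (-(n : ℤ)) (n : ℤ), fourierCoeff g ν * fourier ν y‖ ^ 2 ∂mT

/-- error coefficient of a stage: label `lam` coefficient of `M(x) e_l - θ_l(x) e_{N x}` -/
noncomputable def acoef (D : SD) (l lam : ℤ) (x : UnitAddCircle) : ℂ :=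
  fourierCoeff (fun y => MM D.m D.p D.φ l x y) lam - D.θ l x * (if D.N x = lam then 1 else 0)

/-- tolerance at level `k` -/
noncomputable def tol (h n : ℕ → ℕ) (k : ℕ) : ℝ := (1/2)^k / ((h k * (2 * n k) : ℕ) : ℝ)^2

/-- transition coefficient `⟨E (k+1) r lam, E k j l⟩` of one stage over height `h` -/
noncomputable def coef (h : ℕ) (D : SD) (j : ℕ) (l : ℤ) (r : ℕ) (lam : ℤ) : ℂ :=
  ((Real.sqrt D.m : ℝ) : ℂ)⁻¹ * fourierCoeff (lift h D (unitFam j l) r) lam

/-- a full sequence of stages -/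
structure Plan where
  D : ℕ → SD
  h : ℕ → ℕ
  n : ℕ → ℕ
  ε : ℕ → ℝ
  h_zero : h 0 = 1
  h_succ : ∀ k, h (k+1) = (D k).h'
  n_ge : ∀ k, k + 1 ≤ n k
  n_B : ∀ k, (D k).B ≤ n (k+1)
  ε_pos : ∀ k, 0 < ε k
  ε_le : ∀ k, 4 * (n k) * ε k ≤ tol h n k
  good : ∀ k, GoodStage (h k) (n k) (ε k) (D k)
  rot : ∀ k, ∑ l ∈ labs (n k),
    ∫ x, ‖∑ lam ∈ labs (n (k+1)), acoef (D k) l lam x * (D (k+1)).θ lam x‖ ^ 2 ∂mT ≤
      ∑ l ∈ labs (n k), ∑ lam ∈ labs (n (k+1)), ∫ x, ‖acoef (D k) l lam x‖ ^ 2 ∂mT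
  tails : ∀ k d j (l : ℤ) r, j < h k → |l| ≤ ((k + d : ℕ) : ℤ) → r < h (k + d) →
    tail (n (k + d)) (liftN h D k (unitFam j l) d r) ≤ (1/2)^(k + d)

namespace Plan

variable (τ : Plan)

/-- relative phases at level `k` -/
noncomputable def phi (k : ℕ) (l : ℤ) (x : UnitAddCircle) : ℂ :=
  (τ.D k).θ l x * starRingEnd ℂ ((τ.D k).θ 1 x)

/-- the transition phase from level `k` to `k+1` -/
noncomputable def u (k : ℕ) (x : UnitAddCircle) : ℂ :=
  (τ.D k).θ 1 x * τ.phi (k+1) ((τ.D k).N x) x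

/-- accumulated phase -/
noncomputable def U (k : ℕ) (x : UnitAddCircle) : ℂ := ∏ i ∈ Finset.range k, τ.u i x

/-- the model vectors on the circle -/
noncomputable def F (k j : ℕ) (l : ℤ) (x : UnitAddCircle) : ℂ :=
  starRingEnd ℂ (τ.U k x) * (fourier (j : ℤ) x * τ.phi k l x)

end Plan

end Vale.Agent.P130
end
end

section

section

open Filter Topology Finset

namespace Vale.Agent.P130

lemma mem_labs {n : ℕ} {l : ℤ} : l ∈ labs n ↔ l ≠ 0 ∧ |l| ≤ (n : ℤ) := by
  simp only [labs, Finset.mem_erase, Finset.mem_Icc, abs_le]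

lemma mem_idx2 {h n : ℕ} {a : ℕ × ℤ} : a ∈ idx2 h n ↔ a.1 < h ∧ a.2 ∈ labs n := by
  simp only [idx2, Finset.mem_product, Finset.mem_range]

lemma card_labs (n : ℕ) : (labs n).card = 2 * n := by
  rw [labs, Finset.card_erase_of_mem]
  · simp; omega
  · simp

lemma card_idx2 (h n : ℕ) : (idx2 h n).card = h * (2 * n) := by
  rw [idx2, Finset.card_product, Finset.card_range, card_labs]

/-- the data for the Hilbert space limit argument (full Banach version) -/
structure HData2 (H K : Type*) [NormedAddCommGroup H] [InnerProductSpace ℂ H] [CompleteSpace H]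
    [NormedAddCommGroup K] [InnerProductSpace ℂ K] [CompleteSpace K] where
  h : ℕ → ℕ
  n : ℕ → ℕ
  S : H ≃ₗᵢ[ℂ] H
  Z : K ≃ₗᵢ[ℂ] K
  E : ℕ → ℕ → ℤ → H
  F : ℕ → ℕ → ℤ → K
  one : H
  h_pos : ∀ k, 0 < h k
  n_pos : ∀ k, 1 ≤ n k
  one_norm : ‖one‖ = 1
  E_orth : ∀ k, ∀ a ∈ idx2 (h k) (n k), ∀ b ∈ idx2 (h k) (n k),
    inner ℂ (E k a.1 a.2) (E k b.1 b.2) = if a = b then (1:ℂ) else 0
  E_shift : ∀ k j l, l ∈ labs (n k) → j + 1 < h k → S (E k j l) = E k (j+1) l
  E_near : ∀ k, ∀ a ∈ idx2 (h k) (n k), ‖E k a.1 a.2 - ∑ b ∈ idx2 (h (k+1)) (n (k+1)),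
    (inner ℂ (E (k+1) b.1 b.2) (E k a.1 a.2) : ℂ) • E (k+1) b.1 b.2‖ ≤ tol h n k
  E_lim : ∀ v, Tendsto (fun k => ∑ a ∈ idx2 (h k) (n k),
    (inner ℂ (E k a.1 a.2) v : ℂ) • E k a.1 a.2) atTop (𝓝 (v - (inner ℂ one v : ℂ) • one))
  E_top : ∀ v, Tendsto (fun k => ∑ l ∈ labs (n k), ‖(inner ℂ (E k (h k - 1) l) v : ℂ)‖ ^ 2)
    atTop (𝓝 0)
  E_bot : ∀ v, Tendsto (fun k => ∑ l ∈ labs (n k), ‖(inner ℂ (E k 0 l) v : ℂ)‖ ^ 2)
    atTop (𝓝 0)
  F_shift : ∀ k j l, F k (j+1) l = Z (F k j l)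
  F_orth : ∀ k, ∀ a ∈ idx2 (h k) (n k), ∀ b ∈ idx2 (h k) (n k),
    ‖inner ℂ (F k a.1 a.2) (F k b.1 b.2) - (if a = b then (1:ℂ) else 0)‖ ≤ tol h n k
  F_rel : ∀ k, ∀ a ∈ idx2 (h k) (n k), ‖F k a.1 a.2 - ∑ b ∈ idx2 (h (k+1)) (n (k+1)),
    (inner ℂ (E (k+1) b.1 b.2) (E k a.1 a.2) : ℂ) • F (k+1) b.1 b.2‖ ≤ tol h n k

namespace HData2

variable {H K : Type*} [NormedAddCommGroup H] [InnerProductSpace ℂ H] [CompleteSpace H]
    [NormedAddCommGroup K] [InnerProductSpace ℂ K] [CompleteSpace K] (D : HData2 H K)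

/-- the index set at level `k` -/
noncomputable def A (k : ℕ) : Finset (ℕ × ℤ) := idx2 (D.h k) (D.n k)

lemma mem_A {k : ℕ} {a : ℕ × ℤ} : a ∈ D.A k ↔ a.1 < D.h k ∧ a.2 ∈ labs (D.n k) := mem_idx2

lemma card_A (k : ℕ) : (D.A k).card = D.h k * (2 * D.n k) := card_idx2 _ _

lemma card_A_pos (k : ℕ) : (1:ℝ) ≤ ((D.h k * (2 * D.n k) : ℕ) : ℝ) := by
  have h1 := D.h_pos k
  have h2 := D.n_pos k
  exact_mod_cast Nat.one_le_iff_ne_zero.mpr (by positivity)

/-- orthogonal projection to the controlled part -/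
noncomputable def P (k : ℕ) : H →L[ℂ] H :=
  ∑ a ∈ D.A k, (innerSL ℂ (D.E k a.1 a.2)).smulRight (D.E k a.1 a.2)

/-- the approximate intertwiner -/
noncomputable def W (k : ℕ) : H →L[ℂ] K :=
  ∑ a ∈ D.A k, (innerSL ℂ (D.E k a.1 a.2)).smulRight (D.F k a.1 a.2)

lemma P_apply (k : ℕ) (v : H) :
    D.P k v = ∑ a ∈ D.A k, (inner ℂ (D.E k a.1 a.2) v : ℂ) • D.E k a.1 a.2 := by
  simp [P]

lemma W_apply (k : ℕ) (v : H) :
    D.W k v = ∑ a ∈ D.A k, (inner ℂ (D.E k a.1 a.2) v : ℂ) • D.F k a.1 a.2 := by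
  simp [W]

lemma inner_E {k : ℕ} {a b : ℕ × ℤ} (ha : a ∈ D.A k) (hb : b ∈ D.A k) :
    inner ℂ (D.E k a.1 a.2) (D.E k b.1 b.2) = if a = b then (1:ℂ) else 0 :=
  D.E_orth k a ha b hb

lemma norm_E {k : ℕ} {a : ℕ × ℤ} (ha : a ∈ D.A k) : ‖D.E k a.1 a.2‖ = 1 := by
  have := D.inner_E ha ha
  simp only [if_true] at this
  have h2 := inner_self_eq_norm_sq (𝕜 := ℂ) (D.E k a.1 a.2)
  rw [this] at h2
  have h3 : ‖D.E k a.1 a.2‖ ^ 2 = 1 := by rw [← h2]; simp
  nlinarith only [norm_nonneg (D.E k a.1 a.2), h3]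

lemma coef_le {k : ℕ} {a : ℕ × ℤ} (ha : a ∈ D.A k) (v : H) :
    ‖(inner ℂ (D.E k a.1 a.2) v : ℂ)‖ ≤ ‖v‖ := by
  have := norm_inner_le_norm (𝕜 := ℂ) (D.E k a.1 a.2) v
  rwa [D.norm_E ha, one_mul] at this

lemma P_E {k : ℕ} {a : ℕ × ℤ} (ha : a ∈ D.A k) : D.P k (D.E k a.1 a.2) = D.E k a.1 a.2 := by
  rw [P_apply, Finset.sum_eq_single a]
  · rw [D.inner_E ha ha]; simp
  · intro b hb hba
    rw [D.inner_E hb ha]; simp [hba]
  · intro h; exact absurd ha h

lemma W_E {k : ℕ} {a : ℕ × ℤ} (ha : a ∈ D.A k) : D.W k (D.E k a.1 a.2) = D.F k a.1 a.2 := by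
  rw [W_apply, Finset.sum_eq_single a]
  · rw [D.inner_E ha ha]; simp
  · intro b hb hba
    rw [D.inner_E hb ha]; simp [hba]
  · intro h; exact absurd ha h

lemma P_P (k : ℕ) (v : H) : D.P k (D.P k v) = D.P k v := by
  conv_lhs => rw [D.P_apply k v, map_sum]
  rw [D.P_apply k v]
  refine Finset.sum_congr rfl fun a ha => ?_
  rw [map_smul, D.P_E ha]

lemma W_P (k : ℕ) (v : H) : D.W k (D.P k v) = D.W k v := by
  rw [D.P_apply k v, map_sum, D.W_apply k v]
  refine Finset.sum_congr rfl fun a ha => ?_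
  rw [map_smul, D.W_E ha]

lemma inner_P_P (k : ℕ) (u v : H) : inner ℂ (D.P k u) (D.P k v) = inner ℂ (D.P k u) v := by
  rw [D.P_apply k u, sum_inner, sum_inner]
  refine Finset.sum_congr rfl fun a ha => ?_
  rw [inner_smul_left, inner_smul_left]
  congr 1
  rw [D.P_apply k v, inner_sum, Finset.sum_eq_single a]
  · rw [inner_smul_right, D.inner_E ha ha]; simp
  · intro b hb hba
    rw [inner_smul_right, D.inner_E ha hb]; simp [Ne.symm hba]
  · intro h; exact absurd ha h

lemma norm_P_le (k : ℕ) (v : H) : ‖D.P k v‖ ≤ ‖v‖ := by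
  have h1 := D.inner_P_P k v v
  rw [inner_self_eq_norm_sq_to_K] at h1
  have h2 : ‖D.P k v‖ ^ 2 ≤ ‖D.P k v‖ * ‖v‖ := by
    have h3 : ‖(inner ℂ (D.P k v) v : ℂ)‖ ≤ ‖D.P k v‖ * ‖v‖ := norm_inner_le_norm _ _
    rw [← h1] at h3
    simpa using h3
  by_cases h0 : ‖D.P k v‖ = 0
  · rw [h0]; exact norm_nonneg v
  · have : 0 < ‖D.P k v‖ := lt_of_le_of_ne (norm_nonneg _) (Ne.symm h0)
    nlinarith

lemma inner_W_W (k : ℕ) (u v : H) :
    ‖inner ℂ (D.W k u) (D.W k v) - inner ℂ (D.P k u) (D.P k v)‖ ≤ (1/2)^k * (‖u‖ * ‖v‖) := by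
  have e1 : inner ℂ (D.W k u) (D.W k v) = ∑ a ∈ D.A k, ∑ b ∈ D.A k,
      (starRingEnd ℂ) (inner ℂ (D.E k a.1 a.2) u) * inner ℂ (D.E k b.1 b.2) v *
        inner ℂ (D.F k a.1 a.2) (D.F k b.1 b.2) := by
    rw [D.W_apply k u, D.W_apply k v, sum_inner]
    refine Finset.sum_congr rfl fun a _ => ?_
    rw [inner_sum]
    refine Finset.sum_congr rfl fun b _ => ?_
    rw [inner_smul_left, inner_smul_right]; ring
  have e2 : inner ℂ (D.P k u) (D.P k v) = ∑ a ∈ D.A k, ∑ b ∈ D.A k,
      (starRingEnd ℂ) (inner ℂ (D.E k a.1 a.2) u) * inner ℂ (D.E k b.1 b.2) v *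
        (if a = b then (1:ℂ) else 0) := by
    rw [D.P_apply k u, D.P_apply k v, sum_inner]
    refine Finset.sum_congr rfl fun a ha => ?_
    rw [inner_sum]
    refine Finset.sum_congr rfl fun b hb => ?_
    rw [inner_smul_left, inner_smul_right, D.inner_E ha hb]; ring
  rw [e1, e2, ← Finset.sum_sub_distrib]
  have hc := D.card_A_pos k
  calc _ ≤ ∑ a ∈ D.A k, ∑ b ∈ D.A k, (‖u‖ * ‖v‖ * tol D.h D.n k) := by
        refine norm_sum_le_of_le _ fun a ha => ?_
        rw [← Finset.sum_sub_distrib]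
        refine norm_sum_le_of_le _ fun b hb => ?_
        rw [← mul_sub, norm_mul, norm_mul, RCLike.norm_conj]
        have h1 := D.coef_le ha u
        have h2 := D.coef_le hb v
        have h3 := D.F_orth k a ha b hb
        gcongr
    _ = (1/2)^k * (‖u‖ * ‖v‖) := by
        rw [Finset.sum_const, Finset.sum_const, D.card_A, tol]
        simp only [nsmul_eq_mul]
        field_simp

lemma norm_W_le (k : ℕ) (v : H) : ‖D.W k v‖ ≤ 2 * ‖v‖ := by
  have h1 := D.inner_W_W k v v
  have h2 : ‖D.W k v‖ ^ 2 - ‖D.P k v‖ ^ 2 ≤ (1/2)^k * (‖v‖ * ‖v‖) := by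
    refine le_trans ?_ h1
    have h5 := Complex.re_le_norm (inner ℂ (D.W k v) (D.W k v) - inner ℂ (D.P k v) (D.P k v))
    rw [Complex.sub_re] at h5
    have h6 := inner_self_eq_norm_sq (𝕜 := ℂ) (D.W k v)
    have h7 := inner_self_eq_norm_sq (𝕜 := ℂ) (D.P k v)
    simp only [RCLike.re_to_complex] at h6 h7
    rw [h6, h7] at h5
    exact h5
  have h3 : ((1:ℝ)/2)^k ≤ 1 := pow_le_one₀ (by norm_num) (by norm_num)
  have h4 := D.norm_P_le k v
  have h5 : ‖D.P k v‖ ^ 2 ≤ ‖v‖ ^ 2 := by gcongr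
  have h8 : ((1:ℝ)/2)^k * (‖v‖ * ‖v‖) ≤ 1 * (‖v‖ * ‖v‖) := by gcongr
  have h6 : ‖D.W k v‖ ^ 2 ≤ (2 * ‖v‖) ^ 2 := by linarith only [norm_nonneg v, mul_nonneg (norm_nonneg v) (norm_nonneg v), h2, h5, h8]
  exact le_of_sq_le_sq h6 (by positivity)

lemma tol_card (k : ℕ) (t : ℝ) (ht : 0 ≤ t) : ((D.h k * (2 * D.n k) : ℕ) : ℝ) * (t * tol D.h D.n k) ≤ (1/2)^k * t := by
  have hc := D.card_A_pos k
  have e : ((D.h k * (2 * D.n k) : ℕ) : ℝ) * (t * tol D.h D.n k) =
      (1/2)^k * t / ((D.h k * (2 * D.n k) : ℕ) : ℝ) := by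
    rw [tol]; field_simp
  rw [e]
  exact div_le_self (by positivity) hc

lemma W_diff {k : ℕ} {v : H} (hv : D.P k v = v) : ‖D.W k v - D.W (k+1) v‖ ≤ (1/2)^k * ‖v‖ := by
  have e1 : D.W (k+1) v = ∑ a ∈ D.A k, (inner ℂ (D.E k a.1 a.2) v : ℂ) • D.W (k+1) (D.E k a.1 a.2) := by
    conv_lhs => rw [← hv, D.P_apply k v, map_sum]
    exact Finset.sum_congr rfl fun a ha => by rw [map_smul]
  rw [e1, D.W_apply k v, ← Finset.sum_sub_distrib]
  refine le_trans ?_ (D.tol_card k ‖v‖ (norm_nonneg v))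
  calc _ ≤ ∑ a ∈ D.A k, (‖v‖ * tol D.h D.n k) := by
        refine norm_sum_le_of_le _ fun a ha => ?_
        rw [← smul_sub, norm_smul, D.W_apply (k+1)]
        have h1 := D.coef_le ha v
        have h3 := D.F_rel k a ha
        exact mul_le_mul h1 h3 (norm_nonneg _) (norm_nonneg _)
    _ = _ := by rw [Finset.sum_const, D.card_A]; simp only [nsmul_eq_mul]

lemma P_diff {k : ℕ} {v : H} (hv : D.P k v = v) : ‖v - D.P (k+1) v‖ ≤ (1/2)^k * ‖v‖ := by
  have e1 : D.P (k+1) v = ∑ a ∈ D.A k, (inner ℂ (D.E k a.1 a.2) v : ℂ) • D.P (k+1) (D.E k a.1 a.2) := by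
    conv_lhs => rw [← hv, D.P_apply k v, map_sum]
    exact Finset.sum_congr rfl fun a ha => by rw [map_smul]
  have e2 : v = ∑ a ∈ D.A k, (inner ℂ (D.E k a.1 a.2) v : ℂ) • D.E k a.1 a.2 := by
    rw [← D.P_apply k v, hv]
  rw [e1]
  conv_lhs => rw [e2]
  rw [← Finset.sum_sub_distrib]
  refine le_trans ?_ (D.tol_card k ‖v‖ (norm_nonneg v))
  calc _ ≤ ∑ a ∈ D.A k, (‖v‖ * tol D.h D.n k) := by
        refine norm_sum_le_of_le _ fun a ha => ?_
        rw [← e2, ← smul_sub, norm_smul, D.P_apply (k+1)]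
        have h1 := D.coef_le ha v
        have h3 := D.E_near k a ha
        exact mul_le_mul h1 h3 (norm_nonneg _) (norm_nonneg _)
    _ = _ := by rw [Finset.sum_const, D.card_A]; simp only [nsmul_eq_mul]

/-- successive projections -/
noncomputable def X (k : ℕ) (v : H) : ℕ → H
  | 0 => v
  | i + 1 => D.P (k + i + 1) (X k v i)

lemma X_fix {k : ℕ} {v : H} (hv : D.P k v = v) (i : ℕ) : D.P (k + i) (D.X k v i) = D.X k v i := by
  cases i with
  | zero => exact hv
  | succ i => exact D.P_P _ _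

lemma X_norm (k : ℕ) (v : H) (i : ℕ) : ‖D.X k v i‖ ≤ ‖v‖ := by
  induction i with
  | zero => exact le_rfl
  | succ i ih => exact (D.norm_P_le _ _).trans ih

lemma geom_bound (k i : ℕ) : ∑ j ∈ Finset.range i, ((1:ℝ)/2)^(k+j) ≤ 2 * (1/2)^k := by
  have h1 : ∑ j ∈ Finset.range i, ((1:ℝ)/2)^(k+j) = (1/2)^k * ∑ j ∈ Finset.range i, ((1:ℝ)/2)^j := by
    rw [Finset.mul_sum]; exact Finset.sum_congr rfl fun j _ => pow_add _ _ _
  rw [h1, geom_sum_eq (by norm_num)]
  have h2 : (0:ℝ) < (1/2)^k := by positivity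
  have h3 : (0:ℝ) < (1/2)^i := by positivity
  have : (((1:ℝ)/2)^i - 1) / (1/2 - 1) = 2 - 2 * (1/2)^i := by ring
  rw [this]; nlinarith only [h2, h3]

lemma X_dist {k : ℕ} {v : H} (hv : D.P k v = v) (i : ℕ) :
    ‖v - D.X k v i‖ ≤ (∑ j ∈ Finset.range i, ((1:ℝ)/2)^(k+j)) * ‖v‖ := by
  induction i with
  | zero => simp [X]
  | succ i ih =>
    rw [Finset.sum_range_succ, add_mul]
    calc ‖v - D.X k v (i+1)‖ ≤ ‖v - D.X k v i‖ + ‖D.X k v i - D.X k v (i+1)‖ := by
          rw [← sub_add_sub_cancel v (D.X k v i)]; exact norm_add_le _ _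
      _ ≤ _ := by
          refine add_le_add ih ?_
          have := D.P_diff (D.X_fix hv i)
          refine this.trans ?_
          have := D.X_norm k v i
          gcongr

lemma WX_dist {k : ℕ} {v : H} (hv : D.P k v = v) (i : ℕ) :
    ‖D.W k v - D.W (k + i) (D.X k v i)‖ ≤ (∑ j ∈ Finset.range i, ((1:ℝ)/2)^(k+j)) * ‖v‖ := by
  induction i with
  | zero => simp [X]
  | succ i ih =>
    rw [Finset.sum_range_succ, add_mul]
    calc _ ≤ ‖D.W k v - D.W (k+i) (D.X k v i)‖ +
            ‖D.W (k+i) (D.X k v i) - D.W (k+(i+1)) (D.X k v (i+1))‖ := by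
          rw [← sub_add_sub_cancel (D.W k v) (D.W (k+i) (D.X k v i))]; exact norm_add_le _ _
      _ ≤ _ := by
          refine add_le_add ih ?_
          have e : D.W (k+(i+1)) (D.X k v (i+1)) = D.W (k+i+1) (D.X k v i) := D.W_P _ _
          rw [e]
          have := D.W_diff (D.X_fix hv i)
          refine this.trans ?_
          have := D.X_norm k v i
          gcongr

lemma W_stable {k : ℕ} {v : H} (hv : D.P k v = v) (i : ℕ) :
    ‖D.W (k + i) v - D.W k v‖ ≤ 6 * (1/2)^k * ‖v‖ := by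
  have h1 := D.X_dist hv i
  have h2 := D.WX_dist hv i
  have h3 := geom_bound k i
  have h4 : ‖D.W (k+i) v - D.W (k+i) (D.X k v i)‖ ≤ 2 * ‖v - D.X k v i‖ := by
    rw [← map_sub]; exact D.norm_W_le _ _
  have h5 : (∑ j ∈ Finset.range i, ((1:ℝ)/2)^(k+j)) * ‖v‖ ≤ 2 * (1/2)^k * ‖v‖ := by gcongr
  calc _ ≤ ‖D.W (k+i) v - D.W (k+i) (D.X k v i)‖ + ‖D.W (k+i) (D.X k v i) - D.W k v‖ := by
        rw [← sub_add_sub_cancel (D.W (k+i) v) (D.W (k+i) (D.X k v i))]; exact norm_add_le _ _
    _ ≤ 2 * (2 * (1/2)^k * ‖v‖) + 2 * (1/2)^k * ‖v‖ := by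
        refine add_le_add (h4.trans ?_) ?_
        · have := h1.trans h5; linarith only [h1, h5]
        · rw [norm_sub_rev]; exact h2.trans h5
    _ = _ := by ring

lemma tendsto_W_one : Tendsto (fun M => D.W M D.one) atTop (𝓝 0) := by
  have h1 : Tendsto (fun M => ‖D.P M D.one‖) atTop (𝓝 0) := by
    have h2 := (D.E_lim D.one).norm
    have h3 : D.one - (inner ℂ D.one D.one : ℂ) • D.one = 0 := by
      rw [inner_self_eq_norm_sq_to_K, D.one_norm]; simp
    rw [h3, norm_zero] at h2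
    refine h2.congr fun M => ?_
    rw [D.P_apply]; rfl
  rw [tendsto_zero_iff_norm_tendsto_zero]
  refine squeeze_zero (fun M => norm_nonneg _) (fun M => ?_) (by simpa using h1.const_mul 2)
  rw [← D.W_P]
  exact D.norm_W_le _ _

lemma cauchy_W (v : H) : CauchySeq (fun M => D.W M v) := by
  rw [Metric.cauchySeq_iff']
  intro ε hε
  have t1 : Tendsto (fun N : ℕ => 6 * (1/2:ℝ)^N * ‖v‖) atTop (𝓝 0) := by
    have := ((tendsto_pow_atTop_nhds_zero_of_lt_one (r := (1:ℝ)/2) (by norm_num) (by norm_num)).const_mul 6).mul_const ‖v‖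
    simpa using this
  have t2 : Tendsto (fun M => ‖(inner ℂ D.one v : ℂ)‖ * ‖D.W M D.one‖) atTop (𝓝 0) := by
    have := (D.tendsto_W_one.norm).const_mul ‖(inner ℂ D.one v : ℂ)‖
    simpa using this
  have t3 : Tendsto (fun N => 2 * ‖(v - (inner ℂ D.one v : ℂ) • D.one) - D.P N v‖) atTop (𝓝 0) := by
    have h2 := ((D.E_lim v).const_sub (v - (inner ℂ D.one v : ℂ) • D.one)).norm.const_mul 2
    simp only [sub_self, norm_zero, mul_zero] at h2
    refine h2.congr fun M => ?_
    rw [D.P_apply]; rfl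
  obtain ⟨N1, hN1⟩ := eventually_atTop.1 (t1.eventually (gt_mem_nhds (show (0:ℝ) < ε/4 by positivity)))
  obtain ⟨N2, hN2⟩ := eventually_atTop.1 (t2.eventually (gt_mem_nhds (show (0:ℝ) < ε/4 by positivity)))
  obtain ⟨N3, hN3⟩ := eventually_atTop.1 (t3.eventually (gt_mem_nhds (show (0:ℝ) < ε/4 by positivity)))
  refine ⟨max N1 (max N2 N3), fun M hM => ?_⟩
  set N := max N1 (max N2 N3) with hN
  have a1 := hN1 N (le_max_left _ _)
  have a2 := hN2 M (le_trans (le_trans (le_max_left _ _) (le_max_right _ _)) hM)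
  have a3 := hN3 N (le_trans (le_max_right _ _) (le_max_right _ _))
  obtain ⟨i, rfl⟩ := Nat.exists_eq_add_of_le hM
  rw [dist_eq_norm, ← D.W_P N v]
  have b1 := D.W_stable (D.P_P N v) i
  have b2 : ‖D.P N v‖ ≤ ‖v‖ := D.norm_P_le N v
  have b3 : D.W (N+i) v - D.W (N+i) (D.P N v) = (inner ℂ D.one v : ℂ) • D.W (N+i) D.one +
      D.W (N+i) ((v - (inner ℂ D.one v : ℂ) • D.one) - D.P N v) := by
    rw [← map_smul, ← map_add, ← map_sub]; congr 1; abel
  calc ‖D.W (N+i) v - D.W N (D.P N v)‖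
      ≤ ‖D.W (N+i) v - D.W (N+i) (D.P N v)‖ + ‖D.W (N+i) (D.P N v) - D.W N (D.P N v)‖ := by
        rw [← sub_add_sub_cancel (D.W (N+i) v) (D.W (N+i) (D.P N v))]; exact norm_add_le _ _
    _ ≤ (ε/4 + ε/4) + ε/4 := by
        refine add_le_add ?_ ?_
        · rw [b3]
          refine (norm_add_le _ _).trans (add_le_add ?_ ?_)
          · rw [norm_smul]; exact a2.le
          · exact (D.norm_W_le _ _).trans a3.le
        · refine b1.trans (le_trans ?_ a1.le)
          gcongr
    _ < ε := by linarith only [hε]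

lemma exists_V : ∃ V : H →L[ℂ] K, ∀ v, Tendsto (fun M => D.W M v) atTop (𝓝 (V v)) := by
  have h : ∀ v, ∃ x, Tendsto (fun M => D.W M v) atTop (𝓝 x) := fun v =>
    cauchySeq_tendsto_of_complete (D.cauchy_W v)
  choose f hf using h
  refine ⟨continuousLinearMapOfTendsto (fun M => D.W M) (f := f) (l := atTop) ?_, fun v => ?_⟩
  · exact tendsto_pi_nhds.2 hf
  · exact hf v

/-- the limit operator -/
noncomputable def V : H →L[ℂ] K := D.exists_V.choose

lemma tendsto_V (v : H) : Tendsto (fun M => D.W M v) atTop (𝓝 (D.V v)) := D.exists_V.choose_spec v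

lemma V_one : D.V D.one = 0 := tendsto_nhds_unique (D.tendsto_V _) D.tendsto_W_one

/-- projection to the complement of `one` -/
noncomputable def Q (v : H) : H := v - (inner ℂ D.one v : ℂ) • D.one

lemma tendsto_P (v : H) : Tendsto (fun M => D.P M v) atTop (𝓝 (D.Q v)) := by
  refine (D.E_lim v).congr fun M => ?_
  rw [D.P_apply]; rfl

lemma inner_V_V (u v : H) : inner ℂ (D.V u) (D.V v) = inner ℂ (D.Q u) (D.Q v) := by
  have h1 : Tendsto (fun k => inner ℂ (D.W k u) (D.W k v)) atTop (𝓝 (inner ℂ (D.V u) (D.V v))) :=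
    (D.tendsto_V u).inner (D.tendsto_V v)
  have h2 : Tendsto (fun k => inner ℂ (D.P k u) (D.P k v)) atTop (𝓝 (inner ℂ (D.Q u) (D.Q v))) :=
    (D.tendsto_P u).inner (D.tendsto_P v)
  have h3 : Tendsto (fun k => inner ℂ (D.W k u) (D.W k v) - inner ℂ (D.P k u) (D.P k v)) atTop (𝓝 0) := by
    rw [tendsto_zero_iff_norm_tendsto_zero]
    have h4 : Tendsto (fun k : ℕ => ((1:ℝ)/2)^k * (‖u‖ * ‖v‖)) atTop (𝓝 0) := by
      have := (tendsto_pow_atTop_nhds_zero_of_lt_one (r := (1:ℝ)/2) (by norm_num) (by norm_num)).mul_const (‖u‖ * ‖v‖)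
      simpa using this
    exact squeeze_zero (fun k => norm_nonneg _) (fun k => D.inner_W_W k u v) h4
  have h5 := h1.sub h2
  have h6 := tendsto_nhds_unique h5 h3
  exact sub_eq_zero.1 h6

lemma inner_one_Q (v : H) : inner ℂ D.one (D.Q v) = 0 := by
  rw [Q, inner_sub_right, inner_smul_right, inner_self_eq_norm_sq_to_K, D.one_norm]; simp

lemma inner_Q_Q (u v : H) : inner ℂ (D.Q u) (D.Q v) = inner ℂ (D.Q u) v := by
  have h : inner ℂ (D.Q u) D.one = 0 := by
    rw [← inner_conj_symm, D.inner_one_Q, map_zero]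
  conv_lhs => rw [Q, Q]
  rw [inner_sub_right, inner_smul_right]
  change inner ℂ (D.Q u) v - _ * inner ℂ (D.Q u) D.one = _
  rw [h, mul_zero, sub_zero]

lemma V_Q (v : H) : D.V (D.Q v) = D.V v := by
  rw [Q, map_sub, map_smul, D.V_one, smul_zero, sub_zero]

lemma adj_V (v : H) : D.V.adjoint (D.V v) = D.Q v := by
  refine ext_inner_right ℂ fun u => ?_
  rw [ContinuousLinearMap.adjoint_inner_left, D.inner_V_V, D.inner_Q_Q]

lemma V_adj_V (v : H) : D.V (D.V.adjoint (D.V v)) = D.V v := by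
  rw [D.adj_V, D.V_Q]

lemma norm_level_sq (k j : ℕ) (hj : j < D.h k) (c : ℤ → ℂ) :
    ‖∑ l ∈ labs (D.n k), c l • D.E k j l‖ ^ 2 = ∑ l ∈ labs (D.n k), ‖c l‖ ^ 2 := by
  have h1 := inner_self_eq_norm_sq_to_K (𝕜 := ℂ) (∑ l ∈ labs (D.n k), c l • D.E k j l)
  have h2 : inner ℂ (∑ l ∈ labs (D.n k), c l • D.E k j l) (∑ l ∈ labs (D.n k), c l • D.E k j l) =
      ((∑ l ∈ labs (D.n k), ‖c l‖ ^ 2 : ℝ) : ℂ) := by
    rw [sum_inner, Complex.ofReal_sum]
    refine Finset.sum_congr rfl fun l hl => ?_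
    rw [inner_sum, Finset.sum_eq_single l]
    · have := D.inner_E (a := (j, l)) (b := (j, l)) (D.mem_A.2 ⟨hj, hl⟩) (D.mem_A.2 ⟨hj, hl⟩)
      simp only [if_true] at this
      rw [inner_smul_left, inner_smul_right, this, mul_one, Complex.conj_mul', Complex.ofReal_pow]
    · intro l' hl' hne
      have := D.inner_E (a := (j, l)) (b := (j, l')) (D.mem_A.2 ⟨hj, hl⟩) (D.mem_A.2 ⟨hj, hl'⟩)
      simp only [Prod.mk.injEq, true_and, Ne.symm hne, if_false] at this
      rw [inner_smul_left, inner_smul_right, this, mul_zero, mul_zero]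
    · intro h; exact absurd hl h
  rw [h2] at h1
  have h3 : ((‖∑ l ∈ labs (D.n k), c l • D.E k j l‖ ^ 2 : ℝ) : ℂ) =
      ((∑ l ∈ labs (D.n k), ‖c l‖ ^ 2 : ℝ) : ℂ) := by
    rw [h1]; simp
  exact Complex.ofReal_injective h3

lemma W_level (k j : ℕ) (hj : j < D.h k) (c : ℤ → ℂ) :
    D.W k (∑ l ∈ labs (D.n k), c l • D.E k j l) = ∑ l ∈ labs (D.n k), c l • D.F k j l := by
  rw [map_sum]
  refine Finset.sum_congr rfl fun l hl => ?_
  rw [map_smul]
  have := D.W_E (a := (j, l)) (D.mem_A.2 ⟨hj, hl⟩)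
  simp only at this
  rw [this]

lemma W_prod (k : ℕ) (v : H) :
    D.W k v = ∑ j ∈ Finset.range (D.h k), ∑ l ∈ labs (D.n k), (inner ℂ (D.E k j l) v : ℂ) • D.F k j l := by
  rw [D.W_apply, A, idx2, Finset.sum_product]

lemma W_S (k : ℕ) (v : H) : D.W k (D.S v) - D.Z (D.W k v) =
    D.W k (∑ l ∈ labs (D.n k), (inner ℂ (D.E k 0 l) (D.S v) : ℂ) • D.E k 0 l) -
    D.Z (D.W k (∑ l ∈ labs (D.n k), (inner ℂ (D.E k (D.h k - 1) l) v : ℂ) • D.E k (D.h k - 1) l)) := by
  have hp := D.h_pos k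
  rw [D.W_level k 0 hp, D.W_level k (D.h k - 1) (by omega), D.W_prod, D.W_prod]
  obtain ⟨m, hm⟩ : ∃ m, D.h k = m + 1 := ⟨D.h k - 1, by omega⟩
  rw [show D.h k - 1 = m by omega, hm, Finset.sum_range_succ', Finset.sum_range_succ]
  simp only [map_add, map_sum, map_smul]
  have e : ∀ j ∈ Finset.range m, ∑ l ∈ labs (D.n k), (inner ℂ (D.E k (j+1) l) (D.S v) : ℂ) • D.F k (j+1) l =
      ∑ l ∈ labs (D.n k), (inner ℂ (D.E k j l) v : ℂ) • D.Z (D.F k j l) := by
    intro j hj
    refine Finset.sum_congr rfl fun l hl => ?_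
    have hj' := Finset.mem_range.1 hj
    rw [← D.E_shift k j l hl (by omega), LinearIsometryEquiv.inner_map_map, D.F_shift]
  rw [Finset.sum_congr rfl e]
  abel

lemma intertwine (v : H) : D.V (D.S v) = D.Z (D.V v) := by
  have h1 : Tendsto (fun k => D.W k (D.S v) - D.Z (D.W k v)) atTop (𝓝 (D.V (D.S v) - D.Z (D.V v))) :=
    (D.tendsto_V _).sub ((D.Z.continuous.tendsto _).comp (D.tendsto_V v))
  have h2 : Tendsto (fun k => D.W k (D.S v) - D.Z (D.W k v)) atTop (𝓝 0) := by
    rw [tendsto_zero_iff_norm_tendsto_zero]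
    have t1 : Tendsto (fun k => 2 * ‖∑ l ∈ labs (D.n k), (inner ℂ (D.E k 0 l) (D.S v) : ℂ) • D.E k 0 l‖)
        atTop (𝓝 0) := by
      have := ((D.E_bot (D.S v)).sqrt).const_mul 2
      rw [Real.sqrt_zero, mul_zero] at this
      refine this.congr fun k => ?_
      rw [← D.norm_level_sq k 0 (D.h_pos k), Real.sqrt_sq (norm_nonneg _)]
    have t2 : Tendsto (fun k => 2 * ‖∑ l ∈ labs (D.n k), (inner ℂ (D.E k (D.h k - 1) l) v : ℂ) •
        D.E k (D.h k - 1) l‖) atTop (𝓝 0) := by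
      have := ((D.E_top v).sqrt).const_mul 2
      rw [Real.sqrt_zero, mul_zero] at this
      refine this.congr fun k => ?_
      rw [← D.norm_level_sq k (D.h k - 1) (by have := D.h_pos k; omega), Real.sqrt_sq (norm_nonneg _)]
    refine squeeze_zero (fun k => norm_nonneg _) (fun k => ?_) (by simpa using t1.add t2)
    rw [D.W_S]
    refine (norm_sub_le _ _).trans (add_le_add (D.norm_W_le _ _) ?_)
    rw [LinearIsometryEquiv.norm_map]
    exact D.norm_W_le _ _
  exact sub_eq_zero.1 (tendsto_nhds_unique h1 h2)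

lemma intertwine_symm (v : H) : D.V (D.S.symm v) = D.Z.symm (D.V v) := by
  have := D.intertwine (D.S.symm v)
  rw [LinearIsometryEquiv.apply_symm_apply] at this
  rw [this, LinearIsometryEquiv.symm_apply_apply]

lemma intertwine_zpow (n : ℤ) (v : H) : D.V ((D.S ^ n) v) = (D.Z ^ n) (D.V v) := by
  induction n using Int.induction_on with
  | zero => simp
  | succ n ih =>
    rw [add_comm, zpow_add, zpow_add, zpow_one, zpow_one]
    change D.V (D.S ((D.S ^ (n:ℤ)) v)) = D.Z ((D.Z ^ (n:ℤ)) (D.V v))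
    rw [D.intertwine, ih]
  | pred n ih =>
    rw [sub_eq_add_neg, add_comm, zpow_add, zpow_add, zpow_neg_one, zpow_neg_one]
    change D.V (D.S.symm ((D.S ^ (-(n:ℤ))) v)) = D.Z.symm ((D.Z ^ (-(n:ℤ))) (D.V v))
    rw [D.intertwine_symm, ih]

lemma one_mem (k : ℕ) : ((0, 1) : ℕ × ℤ) ∈ D.A k :=
  D.mem_A.2 ⟨D.h_pos k, mem_labs.2 ⟨one_ne_zero, by simpa using D.n_pos k⟩⟩

lemma norm_V_sub_F (k : ℕ) : ‖D.V (D.E k 0 1) - D.F k 0 1‖ ≤ 6 * (1/2)^k := by
  have h1 : D.P k (D.E k 0 1) = D.E k 0 1 := D.P_E (D.one_mem k)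
  have h2 : D.W k (D.E k 0 1) = D.F k 0 1 := D.W_E (D.one_mem k)
  have h0 : ‖D.E k 0 1‖ = 1 := D.norm_E (D.one_mem k)
  have h4 : Tendsto (fun i => ‖D.W (k + i) (D.E k 0 1) - D.W k (D.E k 0 1)‖) atTop
      (𝓝 ‖D.V (D.E k 0 1) - D.W k (D.E k 0 1)‖) := by
    have := (D.tendsto_V (D.E k 0 1)).comp (tendsto_add_atTop_nat k)
    have e : (fun i => D.W (k + i) (D.E k 0 1)) = (fun M => D.W M (D.E k 0 1)) ∘ fun a => a + k := by
      funext i; simp [add_comm]
    rw [← e] at this
    exact (this.sub_const _).norm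
  have h5 := le_of_tendsto' h4 (fun i => D.W_stable h1 i)
  rwa [h2, h0, mul_one] at h5

/-- the surjectivity hypothesis on the target -/
def Surj : Prop := ∀ (w : K) (g : ℕ → K),
  Tendsto (fun k => ‖g k - D.F k 0 1‖) atTop (𝓝 0) →
  (∀ k (n : ℤ), inner ℂ w ((D.Z ^ n) (g k)) = 0) → w = 0

lemma dense_range (hsurj : D.Surj) (w : K) (hw : ∀ v, inner ℂ w (D.V v) = 0) : w = 0 := by
  refine hsurj w (fun k => D.V (D.E k 0 1)) ?_ fun k n => ?_
  · refine squeeze_zero (fun k => norm_nonneg _) (fun k => D.norm_V_sub_F k) ?_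
    have := (tendsto_pow_atTop_nhds_zero_of_lt_one (r := (1:ℝ)/2) (by norm_num) (by norm_num)).const_mul 6
    simpa using this
  · rw [← D.intertwine_zpow]; exact hw _

lemma V_adj (hsurj : D.Surj) (w : K) : D.V (D.V.adjoint w) = w := by
  rw [← sub_eq_zero]
  refine D.dense_range hsurj _ fun v => ?_
  rw [inner_sub_left, ← ContinuousLinearMap.adjoint_inner_right D.V,
    ContinuousLinearMap.adjoint_inner_left, D.V_adj_V, sub_self]

lemma adj_zpow (n : ℤ) (w : K) : D.V.adjoint ((D.Z ^ n) w) = (D.S ^ n) (D.V.adjoint w) := by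
  refine ext_inner_right ℂ fun v => ?_
  rw [ContinuousLinearMap.adjoint_inner_left]
  have h1 : v = (D.S ^ n) ((D.S ^ (-n)) v) := by
    change v = ((D.S ^ n) * (D.S ^ (-n))) v
    rw [← zpow_add, add_neg_cancel, zpow_zero]; rfl
  conv_rhs => rw [h1, LinearIsometryEquiv.inner_map_map, ContinuousLinearMap.adjoint_inner_left,
    D.intertwine_zpow]
  conv_lhs => rw [h1, D.intertwine_zpow, LinearIsometryEquiv.inner_map_map, D.intertwine_zpow]

/-- Main abstract limit theorem. -/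
theorem main (hsurj : D.Surj) (e0 : K) (he : Orthonormal ℂ (fun n : ℤ => (D.Z ^ n) e0))
    (het : ∀ w : K, (∀ n : ℤ, inner ℂ ((D.Z ^ n) e0) w = 0) → w = 0) :
    ∃ f : H, Orthonormal ℂ (fun n : ℤ => (D.S ^ n) f) ∧ inner ℂ D.one f = 0 ∧
      ∀ v, (∀ n : ℤ, inner ℂ ((D.S ^ n) f) v = 0) → inner ℂ D.one v = 0 → v = 0 := by
  refine ⟨D.V.adjoint e0, ?_, ?_, ?_⟩
  · rw [orthonormal_iff_ite] at he ⊢
    intro i j
    rw [← D.adj_zpow, ← D.adj_zpow, ContinuousLinearMap.adjoint_inner_left, D.V_adj hsurj]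
    exact he i j
  · rw [ContinuousLinearMap.adjoint_inner_right, D.V_one, inner_zero_left]
  · intro v h1 h2
    have h3 : D.V v = 0 := by
      refine het _ fun n => ?_
      have := h1 n
      rwa [← D.adj_zpow, ContinuousLinearMap.adjoint_inner_left] at this
    have h4 := D.adj_V v
    rw [h3, map_zero, Q, h2, zero_smul, sub_zero] at h4
    exact h4.symm

end HData2

end Vale.Agent.P130
end
end

section

section

open MeasureTheory Filter Topology

namespace Vale.Agent.P130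

lemma norm_fourier (n : ℤ) (x : UnitAddCircle) : ‖(fourier n x : ℂ)‖ = 1 := by
  rw [fourier_apply]; exact Circle.norm_coe _

lemma measurable_fourier (n : ℤ) : Measurable (fun x : UnitAddCircle => (fourier n x : ℂ)) :=
  (fourier n).continuous.measurable

/-- multiplication by the coordinate -/
noncomputable def Zop : Lp ℂ 2 mT ≃ₗᵢ[ℂ] Lp ℂ 2 mT :=
  mulE (fun x => fourier 1 x) (measurable_fourier 1) (norm_fourier 1)

lemma coe_Zop (f : Lp ℂ 2 mT) : Zop f =ᵐ[mT] fun x => fourier 1 x * f x := coe_mulE _ _ _ _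

lemma coe_Zop_symm (f : Lp ℂ 2 mT) : Zop.symm f =ᵐ[mT] fun x => fourier (-1) x * f x := by
  refine (coe_mulE_symm _ _ _ _).trans (Eventually.of_forall fun x => ?_)
  simp only [fourier_neg]

lemma coe_Zop_zpow (n : ℤ) (f : Lp ℂ 2 mT) : (Zop ^ n) f =ᵐ[mT] fun x => fourier n x * f x := by
  induction n using Int.induction_on with
  | zero => exact Eventually.of_forall fun x => by simp
  | succ n ih =>
    rw [add_comm, zpow_add, zpow_one]
    change (Zop ((Zop ^ (n:ℤ)) f) : Lp ℂ 2 mT) =ᵐ[mT] _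
    refine (coe_Zop _).trans ?_
    filter_upwards [ih] with x hx
    rw [hx, fourier_add]; ring
  | pred n ih =>
    rw [sub_eq_add_neg, add_comm, zpow_add, zpow_neg_one]
    change (Zop.symm ((Zop ^ (-(n:ℤ))) f) : Lp ℂ 2 mT) =ᵐ[mT] _
    refine (coe_Zop_symm _).trans ?_
    filter_upwards [ih] with x hx
    rw [hx, fourier_add]; ring

/-- the cyclic vector of the model -/
noncomputable def e0 : Lp ℂ 2 mT := fourierLp 2 0

lemma Zop_e0 (n : ℤ) : (Zop ^ n) e0 = fourierLp 2 n := by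
  refine Lp.ext ?_
  refine (coe_Zop_zpow n e0).trans ?_
  filter_upwards [coeFn_fourierLp (T := 1) 2 n, coeFn_fourierLp (T := 1) 2 0] with x h1 h2
  rw [h1, e0, h2]; simp

lemma orthonormal_Z : Orthonormal ℂ (fun n : ℤ => (Zop ^ n) e0) := by
  simp only [Zop_e0]; exact orthonormal_fourier

lemma total_Z (w : Lp ℂ 2 mT) (h : ∀ n : ℤ, inner ℂ ((Zop ^ n) e0) w = 0) : w = 0 := by
  simp only [Zop_e0] at h
  refine (fourierBasis (T := 1)).repr.injective ?_
  rw [map_zero]
  ext n
  rw [HilbertBasis.repr_apply_apply, coe_fourierBasis]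
  simpa using h n

/-- an integrable function with vanishing Fourier coefficients is zero -/
lemma ae_zero_of_fourier {f : UnitAddCircle → ℂ} (hf : Integrable f mT)
    (h : ∀ n : ℤ, ∫ x, f x * fourier n x ∂mT = 0) : f =ᵐ[mT] 0 := by
  -- all continuous functions
  have h1 : ∀ φ : C(UnitAddCircle, ℂ), ∫ x, f x * φ x ∂mT = 0 := by
    let L : C(UnitAddCircle, ℂ) →ₗ[ℂ] ℂ :=
      { toFun := fun φ => ∫ x, f x * φ x ∂mT
        map_add' := fun φ ψ => by
          have i1 : ∀ φ : C(UnitAddCircle, ℂ), Integrable (fun x => f x * φ x) mT := fun φ =>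
            hf.mul_bdd (c := ‖φ‖) φ.continuous.aestronglyMeasurable (Eventually.of_forall fun x => φ.norm_coe_le_norm x)
          rw [← integral_add (i1 φ) (i1 ψ)]
          refine integral_congr_ae (Eventually.of_forall fun x => ?_)
          simp only [ContinuousMap.add_apply]; ring
        map_smul' := fun c φ => by
          rw [RingHom.id_apply, ← integral_smul]
          refine integral_congr_ae (Eventually.of_forall fun x => ?_)
          simp only [ContinuousMap.smul_apply, smul_eq_mul]; ring }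
    have hL : ∀ φ, ‖L φ‖ ≤ (∫ x, ‖f x‖ ∂mT) * ‖φ‖ := by
      intro φ
      rw [← integral_mul_const]
      refine norm_integral_le_of_norm_le (hf.norm.mul_const _) (Eventually.of_forall fun x => ?_)
      rw [norm_mul]
      exact mul_le_mul_of_nonneg_left (φ.norm_coe_le_norm x) (norm_nonneg _)
    let L' : C(UnitAddCircle, ℂ) →L[ℂ] ℂ := L.mkContinuous _ hL
    have h2 : (Submodule.span ℂ (Set.range (fourier (T := 1)))).topologicalClosure ≤ L'.ker := by
      refine Submodule.topologicalClosure_minimal _ ?_ (ContinuousLinearMap.isClosed_ker L')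
      rw [Submodule.span_le]
      rintro _ ⟨n, rfl⟩
      exact h n
    rw [span_fourier_closure_eq_top] at h2
    intro φ
    exact h2 (Submodule.mem_top (x := φ))
  refine ae_eq_zero_of_forall_setIntegral_isClosed_eq_zero hf fun s hs => ?_
  have h2 : Tendsto (fun n : ℕ => ∫ x, f x * ((thickenedIndicator (δ := 1 / ((n:ℝ) + 1)) (by positivity) s x : NNReal) : ℂ) ∂mT)
      atTop (𝓝 (∫ x, s.indicator f x ∂mT)) := by
    refine tendsto_integral_of_dominated_convergence (fun x => ‖f x‖) ?_ hf.norm ?_ ?_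
    · intro n
      refine hf.1.mul ?_
      refine Continuous.aestronglyMeasurable ?_
      exact Complex.continuous_ofReal.comp (NNReal.continuous_coe.comp (thickenedIndicator _ s).continuous)
    · intro n
      refine Eventually.of_forall fun x => ?_
      rw [norm_mul]
      refine mul_le_of_le_one_right (norm_nonneg _) ?_
      rw [Complex.norm_real, Real.norm_eq_abs, NNReal.abs_eq]
      exact_mod_cast thickenedIndicator_le_one _ s x
    · refine Eventually.of_forall fun x => ?_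
      have h3 := thickenedIndicator_tendsto_indicator_closure (α := UnitAddCircle)
        (δseq := fun n : ℕ => 1 / ((n:ℝ) + 1)) (fun n => by positivity)
        tendsto_one_div_add_atTop_nhds_zero_nat s
      rw [tendsto_pi_nhds] at h3
      have h4 := h3 x
      rw [hs.closure_eq] at h4
      have h5 : Tendsto (fun n : ℕ => f x * (((thickenedIndicator (δ := 1 / ((n:ℝ) + 1)) (by positivity) s x : NNReal) : ℝ) : ℂ))
          atTop (𝓝 (f x * (((s.indicator (fun _ => (1 : NNReal)) x : NNReal) : ℝ) : ℂ))) := by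
        refine Tendsto.const_mul _ ?_
        exact ((Complex.continuous_ofReal.comp NNReal.continuous_coe).tendsto _).comp h4
      convert h5 using 2
      by_cases hx : x ∈ s
      · simp [hx]
      · simp [hx]
  have h3 : ∀ n : ℕ, ∫ x, f x * ((thickenedIndicator (δ := 1 / ((n:ℝ) + 1)) (by positivity) s x : NNReal) : ℂ) ∂mT = 0 := by
    intro n
    exact h1 ⟨fun x => (((thickenedIndicator (δ := 1 / ((n:ℝ) + 1)) (by positivity) s x : NNReal) : ℝ) : ℂ),
      Complex.continuous_ofReal.comp (NNReal.continuous_coe.comp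
        (thickenedIndicator (δ := 1 / ((n:ℝ) + 1)) (by positivity) s).continuous)⟩
  simp only [h3] at h2
  rw [← integral_indicator hs.measurableSet]
  exact (tendsto_nhds_unique h2 tendsto_const_nhds)

lemma surj_circle (F : ℕ → UnitAddCircle → ℂ) (hF : ∀ k, MemLp (F k) 2 mT) (hF1 : ∀ k x, ‖F k x‖ = 1)
    (w : Lp ℂ 2 mT) (g : ℕ → Lp ℂ 2 mT)
    (hg : Tendsto (fun k => ‖g k - (hF k).toLp (F k)‖) atTop (𝓝 0))
    (hw : ∀ k (n : ℤ), inner ℂ w ((Zop ^ n) (g k)) = 0) : w = 0 := by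
  have h1 : ∀ k, (fun x => starRingEnd ℂ (w x) * g k x) =ᵐ[mT] 0 := by
    intro k
    refine ae_zero_of_fourier ?_ fun n => ?_
    · exact (Lp.memLp w).star.integrable_mul (Lp.memLp (g k))
    · have := hw k n
      rw [inner_eq_integral] at this
      rw [← this]
      refine integral_congr_ae ?_
      filter_upwards [coe_Zop_zpow n (g k)] with x hx
      rw [hx]; ring
  have h2 : ∀ᵐ x ∂mT, ∀ k, starRingEnd ℂ (w x) * g k x = 0 := ae_all_iff.2 h1
  set s : Set UnitAddCircle := {x | w x ≠ 0} with hs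
  have hsm : MeasurableSet s := by
    have := (Lp.stronglyMeasurable w).measurable
    exact this (measurableSet_singleton (0:ℂ)).compl
  have h3 : ∀ k, mT.real s ≤ ‖g k - (hF k).toLp (F k)‖ ^ 2 := by
    intro k
    rw [norm_sq_eq_integral]
    have e : mT.real s = ∫ x, s.indicator (fun _ => (1:ℝ)) x ∂mT := by
      rw [integral_indicator hsm]; simp
    rw [e]
    refine integral_mono_ae ?_ ?_ ?_
    · exact (integrable_const (1:ℝ)).indicator hsm
    · exact (Lp.memLp _).integrable_norm_pow (by norm_num)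
    · filter_upwards [h2, Lp.coeFn_sub (g k) ((hF k).toLp (F k)), (hF k).coeFn_toLp] with x hx h4 h5
      by_cases hxs : x ∈ s
      · rw [Set.indicator_of_mem hxs, h4, Pi.sub_apply, h5]
        have : g k x = 0 := by
          have := hx k
          rcases mul_eq_zero.1 this with h | h
          · exact absurd ((map_eq_zero _).1 h) hxs
          · exact h
        rw [this, zero_sub, norm_neg, hF1]; norm_num
      · rw [Set.indicator_of_notMem hxs]
        positivity
  have h4 : mT.real s ≤ 0 := by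
    have := hg.pow 2
    rw [zero_pow (by norm_num)] at this
    exact ge_of_tendsto' this h3
  have h5 : mT s = 0 := by
    have : mT.real s = 0 := le_antisymm h4 measureReal_nonneg
    rwa [measureReal_eq_zero_iff] at this
  refine Lp.ext ?_
  have h6 : ∀ᵐ x ∂mT, x ∉ s := measure_eq_zero_iff_ae_notMem.1 h5
  filter_upwards [h6, Lp.coeFn_zero ℂ 2 mT] with x hx h0
  rw [h0]
  simpa [hs] using hx

end Vale.Agent.P130
end
end

section

section

open MeasureTheory

namespace Vale.Agent.P130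

/-- The normalized Haar measure of the circle. -/
noncomputable abbrev haar : Measure UnitAddCircle := AddCircle.haarAddCircle (T := 1)

/-- The representative in `[0,1)` of a point of the circle. -/
noncomputable def rep (y : UnitAddCircle) : ℝ := (AddCircle.equivIco 1 0 y : ℝ)

/-- Abstract cutting-and-stacking data with circle fibres. -/
structure Tower where
  h : ℕ → ℕ
  N : ℕ → ℕ
  p : ℕ → ℕ → UnitAddCircle → ℕ
  φ : ℕ → ℕ → UnitAddCircle → UnitAddCircle
  h_pos : ∀ n, 0 < h n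
  N_two : ∀ n, 2 ≤ N n
  p_meas : ∀ n κ, Measurable (p n κ)
  φ_mp : ∀ n κ, MeasurePreserving (φ n κ) haar haar
  fit : ∀ n κ y, κ < N n → p n κ y + h n ≤ h (n + 1)
  disj : ∀ n κ κ' y, κ < κ' → κ' < N n → p n κ y + h n ≤ p n κ' y
  bdd : ∃ B : ℕ, ∀ n, h n ≤ B * ∏ k ∈ Finset.range n, N k

namespace Tower

end Tower

/-- `T` has simple Lebesgue spectrum on the mean-zero space: some mean-zero `f` has an orbit
`(f ∘ T^n)_{n ∈ ℤ}` that is an orthonormal basis of the mean-zero space. -/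
def SimpleLebesgue {X : Type} [MeasurableSpace X] (μ : Measure X) (T : X ≃ᵐ X) : Prop :=
  ∃ f : X → ℂ, MemLp f 2 μ ∧ ∫ x, f x ∂μ = 0 ∧
    (∀ m n : ℤ, ∫ x, starRingEnd ℂ (f (((T.toEquiv : Equiv.Perm X) ^ m) x)) *
        f (((T.toEquiv : Equiv.Perm X) ^ n) x) ∂μ = if m = n then 1 else 0) ∧
    ∀ g : X → ℂ, MemLp g 2 μ → ∫ x, g x ∂μ = 0 →
      (∀ n : ℤ, ∫ x, starRingEnd ℂ (f (((T.toEquiv : Equiv.Perm X) ^ n) x)) * g x ∂μ = 0) →
      g =ᵐ[μ] 0

/-- The statement of the main theorem. -/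
def BanachStatement : Prop :=
  ∃ (X : Type) (_ : MeasurableSpace X) (_ : StandardBorelSpace X) (μ : Measure X)
    (_ : IsProbabilityMeasure μ) (_ : NullSingletonClass μ) (T : X ≃ᵐ X),
    MeasurePreserving T μ μ ∧ SimpleLebesgue μ T

end Vale.Agent.P130
end
end

section

section

open MeasureTheory Filter Topology

namespace Vale.Agent.P130

namespace StageC

/-- sum over `range (a * b)` as a double sum -/
theorem sum_range_mul' {M : Type*} [AddCommMonoid M] (b : ℕ) (hb : 0 < b) (f : ℕ → ℕ → M) (a : ℕ) :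
    ∑ i ∈ Finset.range (a * b), f (i / b) (i % b) =
      ∑ I ∈ Finset.range a, ∑ i ∈ Finset.range b, f I i := by
  induction a with
  | zero => simp
  | succ a ih =>
    rw [add_mul, one_mul, Finset.sum_range_add, Finset.sum_range_succ, ih]
    congr 1
    refine Finset.sum_congr rfl (fun x hx => ?_)
    have hx' : x < b := Finset.mem_range.mp hx
    have h1 : (a * b + x) / b = a := by
      rw [mul_comm, Nat.mul_add_div hb, Nat.div_eq_of_lt hx', add_zero]
    have h2 : (a * b + x) % b = x := by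
      rw [mul_comm, Nat.mul_add_mod, Nat.mod_eq_of_lt hx']
    rw [h1, h2]

theorem mp_zsmul (k : ℤ) (hk : k ≠ 0) : MeasurePreserving (fun x : UnitAddCircle => k • x) mT mT :=
  MeasureTheory.Measure.measurePreserving_zsmul mT hk

theorem mp_add (c : UnitAddCircle) : MeasurePreserving (fun x : UnitAddCircle => x + c) mT mT :=
  measurePreserving_add_right mT c

/-- the composite stage -/
noncomputable def stageD (h K qA mB B : ℕ) (m : ℕ → ℤ) (γ : ℕ → ℝ) (w : ℕ → UnitAddCircle → ℕ)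
    (u : ℕ → UnitAddCircle → UnitAddCircle) (θA : ℤ → UnitAddCircle → ℂ) (lam : UnitAddCircle → ℤ)
    (W : ℤ → UnitAddCircle → ℕ) (U : ℤ → UnitAddCircle → ℂ) (N : ℤ → UnitAddCircle → ℤ) : SD where
  h' := mB * (qA * h + K)
  m := mB * qA
  p := fun i y => (i / qA) * (qA * h + K) + w (i / qA) y + (i % qA) * h
  φ := fun i y => m (i % qA) • u (i / qA) y + ((γ (i % qA) : ℝ) : UnitAddCircle)
  θ := fun l x => θA l ((h : ℤ) • x) *
    (fourier (W (lam ((h : ℤ) • x)) (((qA * h + K : ℕ) : ℤ) • x) : ℤ) x *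
      U (lam ((h : ℤ) • x)) (((qA * h + K : ℕ) : ℤ) • x))
  N := fun x => N (lam ((h : ℤ) • x)) (((qA * h + K : ℕ) : ℤ) • x)
  B := B

/-- the measure of a fibre of `w I` -/
theorem w_meas {K : ℕ} {w : ℕ → UnitAddCircle → ℕ} {u : ℕ → UnitAddCircle → UnitAddCircle}
    (hwu : ∀ I, ∀ r < K, ∀ A, MeasurableSet A →
        mT.real ({y | w I y = r} ∩ u I ⁻¹' A) = (1 / (K : ℝ)) * mT.real A) (I r : ℕ) (hr : r < K) :
    mT.real {y | w I y = r} = 1 / (K : ℝ) := by
  have := hwu I r hr Set.univ MeasurableSet.univ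
  simpa using this

theorem u_mp {K : ℕ} (hK : 1 ≤ K) {w : ℕ → UnitAddCircle → ℕ}
    {u : ℕ → UnitAddCircle → UnitAddCircle}
    (hw : ∀ I, Measurable (w I)) (hu : ∀ I, Measurable (u I)) (hwK : ∀ I y, w I y < K)
    (hwu : ∀ I, ∀ r < K, ∀ A, MeasurableSet A →
        mT.real ({y | w I y = r} ∩ u I ⁻¹' A) = (1 / (K : ℝ)) * mT.real A) (I : ℕ) :
    MeasurePreserving (u I) mT mT := by
  refine ⟨hu I, ?_⟩
  ext A hA
  rw [Measure.map_apply (hu I) hA]
  have h1 : mT.real (u I ⁻¹' A) = mT.real A := by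
    have hun : u I ⁻¹' A = ⋃ r ∈ Finset.range K, ({y | w I y = r} ∩ u I ⁻¹' A) := by
      ext y
      simp only [Set.mem_preimage, Finset.mem_range, Set.mem_iUnion, Set.mem_inter_iff,
        Set.mem_ofPred_eq, exists_prop]
      exact ⟨fun h => ⟨w I y, hwK I y, rfl, h⟩, fun ⟨r, _, _, h⟩ => h⟩
    rw [hun, measureReal_biUnion_finset]
    · rw [Finset.sum_congr rfl (fun r hr => hwu I r (Finset.mem_range.mp hr) A hA)]
      have hK' : (K : ℝ) ≠ 0 := by positivity
      simp only [Finset.sum_const, Finset.card_range, nsmul_eq_mul]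
      field_simp
    · intro a _ b _ hab
      refine Set.disjoint_left.mpr (fun y hy hy' => hab ?_)
      exact hy.1.symm.trans hy'.1
    · intro r _
      exact ((hw I) (measurableSet_singleton r)).inter ((hu I) hA)
  have := congrArg ENNReal.ofReal h1
  rwa [ofReal_measureReal (by finiteness), ofReal_measureReal (by finiteness)] at this

section arith

variable {h K qA mB : ℕ} {w : ℕ → UnitAddCircle → ℕ}

theorem pos_disj (hq : 0 < qA) (hwK : ∀ I y, w I y < K)
    (i i' : ℕ) (y : UnitAddCircle) (hii : i < i') :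
    (i / qA) * (qA * h + K) + w (i / qA) y + (i % qA) * h + h ≤
      (i' / qA) * (qA * h + K) + w (i' / qA) y + (i' % qA) * h := by
  have hdiv : i / qA ≤ i' / qA := Nat.div_le_div_right hii.le
  rcases hdiv.eq_or_lt with he | hl
  · have h1 := Nat.div_add_mod i qA
    have h2 := Nat.div_add_mod i' qA
    rw [← he] at h2 ⊢
    have h3 : i % qA + 1 ≤ i' % qA := by omega
    have h4 : (i % qA + 1) * h ≤ (i' % qA) * h := Nat.mul_le_mul_right h h3
    linarith only [h4]
  · have h1 : i % qA + 1 ≤ qA := Nat.mod_lt _ hq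
    have h2 : (i % qA + 1) * h ≤ qA * h := Nat.mul_le_mul_right h h1
    have h3 : (i / qA + 1) * (qA * h + K) ≤ (i' / qA) * (qA * h + K) :=
      Nat.mul_le_mul_right _ hl
    have h4 := hwK (i / qA) y
    have h5 : 0 ≤ (i' % qA) * h := Nat.zero_le _
    linarith only [h2, h3, h4, h5]

theorem pos_fit (hq : 0 < qA) (hwK : ∀ I y, w I y < K)
    (i : ℕ) (y : UnitAddCircle) (hi : i < mB * qA) :
    (i / qA) * (qA * h + K) + w (i / qA) y + (i % qA) * h + h ≤ mB * (qA * h + K) := by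
  have h0 : i / qA < mB := by
    rw [Nat.div_lt_iff_lt_mul hq]
    exact hi
  have h1 : i % qA + 1 ≤ qA := Nat.mod_lt _ hq
  have h2 : (i % qA + 1) * h ≤ qA * h := Nat.mul_le_mul_right h h1
  have h3 : (i / qA + 1) * (qA * h + K) ≤ mB * (qA * h + K) := Nat.mul_le_mul_right _ h0
  have h4 := hwK (i / qA) y
  linarith only [h2, h3, h4]

end arith

/-- counting the blocks which meet a given level -/
theorem count_le {h κ ρ j : ℕ} (hh : 0 < h) (qA : ℕ) :
    ((Finset.range qA).filter (fun i => i * h + j ≤ ρ ∧ ρ < i * h + j + h * κ)).card ≤ κ := by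
  have hsub : (Finset.range qA).filter (fun i => i * h + j ≤ ρ ∧ ρ < i * h + j + h * κ) ⊆
      Finset.Ico ((ρ - j) / h + 1 - κ) ((ρ - j) / h + 1) := by
    intro i hi
    simp only [Finset.mem_filter, Finset.mem_range] at hi
    obtain ⟨_, h1, h2⟩ := hi
    rw [Finset.mem_Ico]
    have h3 : i ≤ (ρ - j) / h := by
      rw [Nat.le_div_iff_mul_le hh]; omega
    have h4 : (ρ - j) / h < i + κ := by
      rw [Nat.div_lt_iff_lt_mul hh]
      have : (i + κ) * h = i * h + h * κ := by ring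
      omega
    omega
  refine (Finset.card_le_card hsub).trans ?_
  rw [Nat.card_Ico]; omega

theorem count_eq {h κ ρ j : ℕ} (hh : 0 < h) (hκ : 0 < κ) (hj : j < h) (qA : ℕ)
    (h1 : h * κ ≤ ρ) (h2 : ρ < qA * h) :
    ((Finset.range qA).filter (fun i => i * h + j ≤ ρ ∧ ρ < i * h + j + h * κ)).card = κ := by
  have hjρ : j ≤ ρ := by nlinarith only [hκ, hj, h1]
  have ha : (ρ - j) / h < qA := by
    rw [Nat.div_lt_iff_lt_mul hh]; omega
  have hb : κ ≤ (ρ - j) / h + 1 := by
    have : κ - 1 ≤ (ρ - j) / h := by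
      rw [Nat.le_div_iff_mul_le hh]
      obtain ⟨c, rfl⟩ : ∃ c, κ = c + 1 := ⟨κ - 1, by omega⟩
      have : h * (c + 1) = c * h + h := by ring
      simp only [Nat.add_sub_cancel]
      omega
    omega
  have heq : (Finset.range qA).filter (fun i => i * h + j ≤ ρ ∧ ρ < i * h + j + h * κ) =
      Finset.Ico ((ρ - j) / h + 1 - κ) ((ρ - j) / h + 1) := by
    ext i
    simp only [Finset.mem_filter, Finset.mem_range, Finset.mem_Ico]
    have h3 : i ≤ (ρ - j) / h ↔ i * h + j ≤ ρ := by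
      rw [Nat.le_div_iff_mul_le hh]; omega
    have h4 : (ρ - j) / h < i + κ ↔ ρ < i * h + j + h * κ := by
      rw [Nat.div_lt_iff_lt_mul hh]
      have : (i + κ) * h = i * h + h * κ := by ring
      omega
    omega
  rw [heq, Nat.card_Ico]; omega

section meas

variable {K : ℕ} {w : ℕ → UnitAddCircle → ℕ} {u : ℕ → UnitAddCircle → UnitAddCircle}

theorem level_meas (hwK : ∀ I y, w I y < K)
    (hwu : ∀ I, ∀ r < K, ∀ A, MeasurableSet A →
        mT.real ({y | w I y = r} ∩ u I ⁻¹' A) = (1 / (K : ℝ)) * mT.real A) (I a b r : ℕ) :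
    mT.real {y | a + w I y + b = r} = if a + b ≤ r ∧ r < a + b + K then 1 / (K : ℝ) else 0 := by
  split_ifs with hc
  · have : {y | a + w I y + b = r} = {y | w I y = r - (a + b)} := by
      ext y
      simp only [Set.mem_ofPred_eq]
      omega
    rw [this]
    exact w_meas hwu I _ (by omega)
  · have : {y | a + w I y + b = r} = ∅ := by
      ext y
      simp only [Set.mem_ofPred_eq, Set.mem_empty_iff_false, iff_false]
      have := hwK I y
      omega
    rw [this, measureReal_empty]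

theorem level_ind (hwK : ∀ I y, w I y < K)
    (hwu : ∀ I, ∀ r < K, ∀ A, MeasurableSet A →
        mT.real ({y | w I y = r} ∩ u I ⁻¹' A) = (1 / (K : ℝ)) * mT.real A) (I a b r : ℕ)
    (k : ℤ) (hk : k ≠ 0) (c : UnitAddCircle) (A : Set UnitAddCircle) (hA : MeasurableSet A) :
    mT.real ({y | a + w I y + b = r} ∩ (fun y => k • u I y + c) ⁻¹' A) =
      mT.real {y | a + w I y + b = r} * mT.real A := by
  by_cases hc : a + b ≤ r ∧ r < a + b + K
  · have h1 : {y | a + w I y + b = r} = {y | w I y = r - (a + b)} := by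
      ext y
      simp only [Set.mem_ofPred_eq]
      omega
    have hmp : MeasurePreserving (fun x : UnitAddCircle => k • x + c) mT mT :=
      (mp_add c).comp (mp_zsmul k hk)
    have h2 : (fun y => k • u I y + c) ⁻¹' A = u I ⁻¹' ((fun x : UnitAddCircle => k • x + c) ⁻¹' A) := rfl
    have h3 : mT.real ((fun x : UnitAddCircle => k • x + c) ⁻¹' A) = mT.real A :=
      hmp.measureReal_preimage hA.nullMeasurableSet
    rw [h1, h2, hwu I _ (by omega) _ (hmp.measurable hA), h3, w_meas hwu I _ (by omega)]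
  · have : {y | a + w I y + b = r} = ∅ := by
      ext y
      simp only [Set.mem_ofPred_eq, Set.mem_empty_iff_false, iff_false]
      have := hwK I y
      omega
    rw [this, Set.empty_inter, measureReal_empty, zero_mul]

/-- the column sum at a level -/
theorem level_sum {h κ qA mB : ℕ} (hK : K = h * κ) (hq : 0 < qA)
    (hwK : ∀ I y, w I y < K)
    (hwu : ∀ I, ∀ r < K, ∀ A, MeasurableSet A →
        mT.real ({y | w I y = r} ∩ u I ⁻¹' A) = (1 / (K : ℝ)) * mT.real A)
    (I ρ j : ℕ) (hI : I < mB) (hρ : ρ < qA * h + K) (hj : j < h) :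
    ∑ i ∈ Finset.range (mB * qA),
      mT.real {y | (i / qA) * (qA * h + K) + w (i / qA) y + (i % qA) * h + j = I * (qA * h + K) + ρ} =
      (1 / (K : ℝ)) * (((Finset.range qA).filter
        (fun i => i * h + j ≤ ρ ∧ ρ < i * h + j + h * κ)).card : ℝ) := by
  have e1 : ∀ i, mT.real {y | (i / qA) * (qA * h + K) + w (i / qA) y + (i % qA) * h + j =
      I * (qA * h + K) + ρ} = (fun I' i' => if I' * (qA * h + K) + (i' * h + j) ≤ I * (qA * h + K) + ρ
        ∧ I * (qA * h + K) + ρ < I' * (qA * h + K) + (i' * h + j) + K then 1 / (K : ℝ) else 0)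
        (i / qA) (i % qA) := by
    intro i
    have := level_meas hwK hwu (i / qA) ((i / qA) * (qA * h + K)) ((i % qA) * h + j)
      (I * (qA * h + K) + ρ)
    simp only [← add_assoc] at this ⊢
    exact this
  rw [Finset.sum_congr rfl (fun i _ => e1 i)]
  rw [sum_range_mul' qA hq (fun I' i' => if I' * (qA * h + K) + (i' * h + j) ≤ I * (qA * h + K) + ρ
        ∧ I * (qA * h + K) + ρ < I' * (qA * h + K) + (i' * h + j) + K then 1 / (K : ℝ) else 0)]
  rw [Finset.sum_eq_single I]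
  · rw [Finset.card_filter, Nat.cast_sum, Finset.mul_sum]
    refine Finset.sum_congr rfl (fun i _ => ?_)
    by_cases hc : i * h + j ≤ ρ ∧ ρ < i * h + j + h * κ
    · rw [if_pos hc, if_pos]
      · simp
      · rw [hK]; omega
    · rw [if_neg hc, if_neg]
      · simp
      · rw [hK]; omega
  · intro I' _ hne
    refine Finset.sum_eq_zero (fun i hi => ?_)
    rw [if_neg]
    rintro ⟨h1, h2⟩
    have hi' : i + 1 ≤ qA := Finset.mem_range.mp hi
    have h3 : (i + 1) * h ≤ qA * h := Nat.mul_le_mul_right h hi'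
    have h3' : (i + 1) * h = i * h + h := by ring
    rcases lt_or_gt_of_ne hne with hl | hl
    · have h4 : (I' + 1) * (qA * h + K) ≤ I * (qA * h + K) := Nat.mul_le_mul_right _ hl
      have h4' : (I' + 1) * (qA * h + K) = I' * (qA * h + K) + (qA * h + K) := by ring
      omega
    · have h4 : (I + 1) * (qA * h + K) ≤ I' * (qA * h + K) := Nat.mul_le_mul_right _ hl
      have h4' : (I + 1) * (qA * h + K) = I * (qA * h + K) + (qA * h + K) := by ring
      omega
  · intro hI'
    exact absurd (Finset.mem_range.mpr hI) hI'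

/-- roundness -/
theorem rnd_bound {h κ qA mB : ℕ} {ε : ℝ} (hK : K = h * κ) (hh : 0 < h) (hκ : 0 < κ) (hq : 0 < qA)
    (hwK : ∀ I y, w I y < K)
    (hwu : ∀ I, ∀ r < K, ∀ A, MeasurableSet A →
        mT.real ({y | w I y = r} ∩ u I ⁻¹' A) = (1 / (K : ℝ)) * mT.real A)
    (hε : (2 * K : ℝ) ≤ ε * ((qA * h + K : ℕ) : ℝ)) :
    ∑ r ∈ Finset.range (mB * (qA * h + K)), (∑ j ∈ Finset.range h,
      |∑ i ∈ Finset.range (mB * qA),
        mT.real {y | (i / qA) * (qA * h + K) + w (i / qA) y + (i % qA) * h + j = r} - 1 / (h : ℝ)|) ^ 2 ≤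
      ε * ((mB * (qA * h + K) : ℕ) : ℝ) := by
  have hK0 : 0 < K := by rw [hK]; positivity
  have hHpos : 0 < qA * h + K := by positivity
  have hKr : (K : ℝ) = h * κ := by rw [hK]; push_cast; ring
  have hhr : (0 : ℝ) < h := by exact_mod_cast hh
  have hκr : (0 : ℝ) < κ := by exact_mod_cast hκ
  -- rewrite as a double sum
  have e1 : ∀ r ∈ Finset.range (mB * (qA * h + K)), (∑ j ∈ Finset.range h,
      |∑ i ∈ Finset.range (mB * qA),
        mT.real {y | (i / qA) * (qA * h + K) + w (i / qA) y + (i % qA) * h + j = r}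
          - 1 / (h : ℝ)|) ^ 2 ≤
      (fun (_ ρ : ℕ) => if h * κ ≤ ρ ∧ ρ < qA * h then (0 : ℝ) else 1)
        (r / (qA * h + K)) (r % (qA * h + K)) := by
    intro r hr
    have hρ : r % (qA * h + K) < qA * h + K := Nat.mod_lt _ hHpos
    have hI : r / (qA * h + K) < mB := by
      rw [Nat.div_lt_iff_lt_mul hHpos]; exact Finset.mem_range.mp hr
    have hrr : r = (r / (qA * h + K)) * (qA * h + K) + r % (qA * h + K) := by
      rw [mul_comm]; exact (Nat.div_add_mod r _).symm
    have e2 : ∀ j ∈ Finset.range h, |∑ i ∈ Finset.range (mB * qA),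
        mT.real {y | (i / qA) * (qA * h + K) + w (i / qA) y + (i % qA) * h + j = r}
          - 1 / (h : ℝ)| = |(1 / (K : ℝ)) * (((Finset.range qA).filter
        (fun i => i * h + j ≤ r % (qA * h + K) ∧ r % (qA * h + K) < i * h + j + h * κ)).card : ℝ)
          - 1 / (h : ℝ)| := by
      intro j hj
      have := level_sum (mB := mB) hK hq hwK hwu (r / (qA * h + K)) (r % (qA * h + K)) j hI hρ
        (Finset.mem_range.mp hj)
      rw [← hrr] at this
      rw [this]
    rw [Finset.sum_congr rfl e2]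
    dsimp only
    split_ifs with hc
    · have : ∀ j ∈ Finset.range h, |(1 / (K : ℝ)) * (((Finset.range qA).filter
        (fun i => i * h + j ≤ r % (qA * h + K) ∧ r % (qA * h + K) < i * h + j + h * κ)).card : ℝ)
          - 1 / (h : ℝ)| = 0 := by
        intro j hj
        rw [count_eq hh hκ (Finset.mem_range.mp hj) qA hc.1 hc.2, hKr]
        rw [abs_eq_zero]
        field_simp
        ring
      rw [Finset.sum_congr rfl this]
      simp
    · have h1 : ∀ j ∈ Finset.range h, |(1 / (K : ℝ)) * (((Finset.range qA).filter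
        (fun i => i * h + j ≤ r % (qA * h + K) ∧ r % (qA * h + K) < i * h + j + h * κ)).card : ℝ)
          - 1 / (h : ℝ)| ≤ 1 / (h : ℝ) := by
        intro j hj
        have hcl := count_le (κ := κ) (ρ := r % (qA * h + K)) (j := j) hh qA
        have hcl' : (((Finset.range qA).filter
          (fun i => i * h + j ≤ r % (qA * h + K) ∧ r % (qA * h + K) < i * h + j + h * κ)).card : ℝ)
            ≤ κ := by exact_mod_cast hcl
        have hc0 : (0:ℝ) ≤ (((Finset.range qA).filter
          (fun i => i * h + j ≤ r % (qA * h + K) ∧ r % (qA * h + K) < i * h + j + h * κ)).card : ℝ) :=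
          Nat.cast_nonneg _
        have hb : (1 / (K : ℝ)) * (((Finset.range qA).filter
          (fun i => i * h + j ≤ r % (qA * h + K) ∧ r % (qA * h + K) < i * h + j + h * κ)).card : ℝ)
            ≤ 1 / (h : ℝ) := by
          have : 1 / (h : ℝ) = (1 / (K : ℝ)) * κ := by rw [hKr]; field_simp
          rw [this]
          exact mul_le_mul_of_nonneg_left hcl' (by positivity)
        have hb0 : 0 ≤ (1 / (K : ℝ)) * (((Finset.range qA).filter
          (fun i => i * h + j ≤ r % (qA * h + K) ∧ r % (qA * h + K) < i * h + j + h * κ)).card : ℝ) :=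
          mul_nonneg (by positivity) hc0
        rw [abs_le]
        constructor <;> [skip; skip] <;> have : 0 < 1 / (h : ℝ) := by positivity
        · linarith only [hb0]
        · linarith only [hb, this]
      have h2 := Finset.sum_le_sum h1
      rw [Finset.sum_const, Finset.card_range, nsmul_eq_mul, mul_one_div_cancel hhr.ne'] at h2
      have h3 : 0 ≤ ∑ j ∈ Finset.range h, |(1 / (K : ℝ)) * (((Finset.range qA).filter
        (fun i => i * h + j ≤ r % (qA * h + K) ∧ r % (qA * h + K) < i * h + j + h * κ)).card : ℝ)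
          - 1 / (h : ℝ)| := Finset.sum_nonneg (fun _ _ => abs_nonneg _)
      nlinarith only [h2, h3]
  refine (Finset.sum_le_sum e1).trans ?_
  rw [sum_range_mul' (qA * h + K) hHpos
    (fun (_ ρ : ℕ) => if h * κ ≤ ρ ∧ ρ < qA * h then (0 : ℝ) else 1)]
  have h4 : ∑ i ∈ Finset.range (qA * h + K), (if h * κ ≤ i ∧ i < qA * h then (0 : ℝ) else 1) ≤
      2 * K := by
    have h5 : ∑ i ∈ Finset.range (qA * h + K), (if h * κ ≤ i ∧ i < qA * h then (0 : ℝ) else 1) =
      (((Finset.range (qA * h + K)).filter (fun i => ¬ (h * κ ≤ i ∧ i < qA * h))).card : ℝ) := by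
      rw [Finset.card_filter, Nat.cast_sum]
      refine Finset.sum_congr rfl (fun i _ => ?_)
      by_cases hc : h * κ ≤ i ∧ i < qA * h
      · rw [if_pos hc, if_neg (not_not.mpr hc)]; simp
      · rw [if_neg hc, if_pos hc]; simp
    rw [h5]
    have h6 : (Finset.range (qA * h + K)).filter (fun i => ¬ (h * κ ≤ i ∧ i < qA * h)) ⊆
        Finset.range K ∪ Finset.Ico (qA * h) (qA * h + K) := by
      intro i hi
      simp only [Finset.mem_filter, Finset.mem_range, Finset.mem_union, Finset.mem_Ico] at hi ⊢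
      rw [hK] at hi ⊢
      omega
    have h7 := (Finset.card_le_card h6).trans (Finset.card_union_le _ _)
    rw [Finset.card_range, Nat.card_Ico] at h7
    have h8 : ((Finset.range (qA * h + K)).filter (fun i => ¬ (h * κ ≤ i ∧ i < qA * h))).card
        ≤ 2 * K := by omega
    exact_mod_cast h8
  calc ∑ I ∈ Finset.range mB, ∑ i ∈ Finset.range (qA * h + K),
        (if h * κ ≤ i ∧ i < qA * h then (0 : ℝ) else 1)
      ≤ ∑ I ∈ Finset.range mB, (2 * K : ℝ) := Finset.sum_le_sum (fun _ _ => h4)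
    _ = mB * (2 * K) := by simp
    _ ≤ mB * (ε * ((qA * h + K : ℕ) : ℝ)) := by gcongr
    _ = ε * ((mB * (qA * h + K) : ℕ) : ℝ) := by push_cast; ring

end meas

section four

theorem fourier_add_arg (l : ℤ) (a b : UnitAddCircle) :
    (fourier l (a + b) : ℂ) = fourier l a * fourier l b := by
  rw [fourier_apply, fourier_apply, fourier_apply, smul_add, AddCircle.toCircle_add,
    Circle.coe_mul]

theorem fourier_zsmul_arg (l k : ℤ) (a : UnitAddCircle) :
    (fourier l (k • a) : ℂ) = fourier (l * k) a := by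
  rw [fourier_apply, fourier_apply, mul_smul]

theorem fourier_coe_ee (l : ℤ) (t : ℝ) :
    (fourier l ((t : ℝ) : UnitAddCircle) : ℂ) = ee (l * t) := by
  rw [fourier_coe_apply, ee]
  congr 1
  push_cast
  ring

theorem norm_fourier_apply (l : ℤ) (a : UnitAddCircle) : ‖(fourier l a : ℂ)‖ = 1 := by
  rw [fourier_apply]; exact Circle.norm_coe _

theorem norm_ee (t : ℝ) : ‖ee t‖ = 1 := by
  rw [ee]
  have : (2 * Real.pi * Complex.I * (t : ℂ)) = ((2 * Real.pi * t : ℝ) : ℂ) * Complex.I := by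
    push_cast; ring
  rw [this, Complex.norm_exp_ofReal_mul_I]

theorem measurable_fourier_prod : Measurable (fun p : ℤ × UnitAddCircle => (fourier p.1 p.2 : ℂ)) :=
  measurable_from_prod_countable_right (fun n => (fourier n).continuous.measurable)

theorem meas_sel {α β : Type*} [MeasurableSpace α] [MeasurableSpace β] (f : ℤ → α → β)
    (hf : ∀ k, Measurable (f k)) (g : α → ℤ) (hg : Measurable g) :
    Measurable (fun x => f (g x) x) := by
  have h1 : Measurable (fun p : ℤ × α => f p.1 p.2) := measurable_from_prod_countable_right hf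
  exact h1.comp (hg.prodMk measurable_id)

end four

section mainest

variable {h K qA mB BA : ℕ} {m : ℕ → ℤ} {γ : ℕ → ℝ} {w : ℕ → UnitAddCircle → ℕ}
    {u : ℕ → UnitAddCircle → UnitAddCircle} {θA : ℤ → UnitAddCircle → ℂ} {lam : UnitAddCircle → ℤ}
    {W : ℤ → UnitAddCircle → ℕ} {U : ℤ → UnitAddCircle → ℂ} {N : ℤ → UnitAddCircle → ℤ}

/-- the pmp sums -/
noncomputable def qf (mB : ℕ) (w : ℕ → UnitAddCircle → ℕ) (u : ℕ → UnitAddCircle → UnitAddCircle)
    (k : ℤ) (r : ℕ) (z y : UnitAddCircle) : ℂ :=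
  ((Real.sqrt mB : ℝ) : ℂ)⁻¹ * ∑ I ∈ Finset.range mB,
    (if w I y = r then 1 else 0) * (fourier (I : ℤ) z * fourier k (u I y))

/-- the pmp limits -/
noncomputable def tf (W : ℤ → UnitAddCircle → ℕ) (U : ℤ → UnitAddCircle → ℂ)
    (N : ℤ → UnitAddCircle → ℤ) (k : ℤ) (r : ℕ) (z y : UnitAddCircle) : ℂ :=
  (if W k z = r then 1 else 0) * (U k z * fourier (N k z) y)

theorem MM_eq (hq : 0 < qA) (hwK : ∀ I y, w I y < K) (l : ℤ)
    (hl : ∀ i, |l * m i| ≤ (BA : ℤ)) (x y : UnitAddCircle) :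
    MM (mB * qA) (fun i y => (i / qA) * (qA * h + K) + w (i / qA) y + (i % qA) * h)
      (fun i y => m (i % qA) • u (i / qA) y + ((γ (i % qA) : ℝ) : UnitAddCircle)) l x y =
    ∑ k ∈ Finset.Icc (-(BA : ℤ)) (BA : ℤ),
      P (fun i => ee (l * γ i)) (fun i => l * m i) qA k ((h : ℤ) • x) *
        ∑ r ∈ Finset.range K, fourier (r : ℤ) x * qf mB w u k r (((qA * h + K : ℕ) : ℤ) • x) y := by
  have e1 : ∀ k : ℤ, ∑ r ∈ Finset.range K, fourier (r : ℤ) x *
      qf mB w u k r (((qA * h + K : ℕ) : ℤ) • x) y = ((Real.sqrt mB : ℝ) : ℂ)⁻¹ *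
      ∑ I ∈ Finset.range mB, fourier (w I y : ℤ) x * (fourier (I : ℤ) (((qA * h + K : ℕ) : ℤ) • x) *
        fourier k (u I y)) := by
    intro k
    simp only [qf, Finset.mul_sum]
    rw [Finset.sum_comm]
    refine Finset.sum_congr rfl (fun I _ => ?_)
    rw [Finset.sum_eq_single (w I y)]
    · simp only [if_true]; ring
    · intro r _ hr
      rw [if_neg (fun h => hr h.symm)]; ring
    · intro hr
      exact absurd (Finset.mem_range.mpr (hwK I y)) hr
  simp only [e1, P]
  -- right side: expand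
  have e2 : ∑ k ∈ Finset.Icc (-(BA : ℤ)) (BA : ℤ),
      ((Real.sqrt qA : ℝ) : ℂ)⁻¹ * (∑ i ∈ (Finset.range qA).filter (fun i => l * m i = k),
        ee (l * γ i) * fourier (i : ℤ) ((h : ℤ) • x)) * (((Real.sqrt mB : ℝ) : ℂ)⁻¹ *
      ∑ I ∈ Finset.range mB, fourier (w I y : ℤ) x * (fourier (I : ℤ) (((qA * h + K : ℕ) : ℤ) • x) *
        fourier k (u I y))) = ((Real.sqrt qA : ℝ) : ℂ)⁻¹ * ((Real.sqrt mB : ℝ) : ℂ)⁻¹ *
      ∑ i ∈ Finset.range qA, ∑ I ∈ Finset.range mB, ee (l * γ i) * fourier (i : ℤ) ((h : ℤ) • x) *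
        (fourier (w I y : ℤ) x * (fourier (I : ℤ) (((qA * h + K : ℕ) : ℤ) • x) *
        fourier (l * m i) (u I y))) := by
    have : ∀ k : ℤ, ((Real.sqrt qA : ℝ) : ℂ)⁻¹ * (∑ i ∈ (Finset.range qA).filter (fun i => l * m i = k),
        ee (l * γ i) * fourier (i : ℤ) ((h : ℤ) • x)) * (((Real.sqrt mB : ℝ) : ℂ)⁻¹ *
      ∑ I ∈ Finset.range mB, fourier (w I y : ℤ) x * (fourier (I : ℤ) (((qA * h + K : ℕ) : ℤ) • x) *
        fourier k (u I y))) = ((Real.sqrt qA : ℝ) : ℂ)⁻¹ * ((Real.sqrt mB : ℝ) : ℂ)⁻¹ *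
      ∑ i ∈ (Finset.range qA).filter (fun i => l * m i = k), ∑ I ∈ Finset.range mB,
        ee (l * γ i) * fourier (i : ℤ) ((h : ℤ) • x) *
        (fourier (w I y : ℤ) x * (fourier (I : ℤ) (((qA * h + K : ℕ) : ℤ) • x) *
        fourier (l * m i) (u I y))) := by
      intro k
      rw [mul_mul_mul_comm, Finset.sum_mul_sum]
      congr 1
      refine Finset.sum_congr rfl (fun i hi => ?_)
      rw [(Finset.mem_filter.mp hi).2]
    rw [Finset.sum_congr rfl (fun k _ => this k), ← Finset.mul_sum]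
    congr 1
    rw [Finset.sum_fiberwise_of_maps_to]
    intro i _
    rw [Finset.mem_Icc]
    exact abs_le.mp (hl i)
  rw [e2]
  unfold MM
  rw [sum_range_mul' qA hq (fun I i => (fourier ((I * (qA * h + K) + w I y + i * h : ℕ) : ℤ) x : ℂ) *
    fourier l (m i • u I y + ((γ i : ℝ) : UnitAddCircle)))]
  rw [Finset.sum_comm]
  have e3 : ((Real.sqrt ((mB * qA : ℕ) : ℝ) : ℝ) : ℂ)⁻¹ =
      ((Real.sqrt qA : ℝ) : ℂ)⁻¹ * ((Real.sqrt mB : ℝ) : ℂ)⁻¹ := by
    rw [Nat.cast_mul, Real.sqrt_mul (Nat.cast_nonneg _), Complex.ofReal_mul, mul_inv, mul_comm]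
  rw [e3]
  congr 1
  refine Finset.sum_congr rfl (fun i _ => Finset.sum_congr rfl (fun I _ => ?_))
  rw [fourier_add_arg, fourier_zsmul_arg, fourier_coe_ee, fourier_zsmul_arg, fourier_zsmul_arg]
  have e4 : (((I * (qA * h + K) + w I y + i * h : ℕ) : ℤ)) =
      (I : ℤ) * ((qA * h + K : ℕ) : ℤ) + (w I y : ℤ) + (i : ℤ) * (h : ℤ) := by push_cast; ring
  rw [e4, fourier_add, fourier_add]
  ring

theorem P_norm_le (c : ℕ → ℂ) (hc : ∀ i, ‖c i‖ = 1) (lab : ℕ → ℤ) (k : ℤ)
    (z : UnitAddCircle) : ‖P c lab qA k z‖ ≤ Real.sqrt qA := by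
  unfold P
  rw [norm_mul, norm_inv, Complex.norm_real, Real.norm_of_nonneg (Real.sqrt_nonneg _)]
  have h1 : ‖∑ i ∈ (Finset.range qA).filter (fun i => lab i = k), c i * fourier (i : ℤ) z‖ ≤ qA := by
    refine (norm_sum_le _ _).trans ?_
    have : ∀ i ∈ (Finset.range qA).filter (fun i => lab i = k),
        ‖c i * fourier (i : ℤ) z‖ ≤ 1 := by
      intro i _
      rw [norm_mul, hc, norm_fourier_apply, mul_one]
    refine (Finset.sum_le_sum this).trans ?_
    rw [Finset.sum_const, nsmul_eq_mul, mul_one]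
    have := Finset.card_filter_le (Finset.range qA) (fun i => lab i = k)
    rw [Finset.card_range] at this
    exact_mod_cast this
  rcases Nat.eq_zero_or_pos qA with h0 | h0
  · subst h0; simp
  · have h2 : (0 : ℝ) < Real.sqrt qA := Real.sqrt_pos.mpr (by exact_mod_cast h0)
    rw [inv_mul_le_iff₀ h2, Real.mul_self_sqrt (Nat.cast_nonneg _)]
    exact h1

theorem P_zero (l : ℤ) (hl : l ≠ 0) (hm : ∀ i, m i ≠ 0) (c : ℕ → ℂ) (z : UnitAddCircle) :
    P c (fun i => l * m i) qA 0 z = 0 := by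
  unfold P
  rw [Finset.filter_false_of_mem (fun i _ => mul_ne_zero hl (hm i))]
  simp

/-- pointwise bound -/
theorem point_bound (hq : 0 < qA) (hwK : ∀ I y, w I y < K) (hm : ∀ i, m i ≠ 0)
    (hlam : ∀ x, |lam x| ≤ (BA : ℤ))
    (hWK : ∀ l x, W l x < K) (hU : ∀ l x, ‖U l x‖ = 1) (l : ℤ) (hl0 : l ≠ 0)
    (hl : ∀ i, |l * m i| ≤ (BA : ℤ)) (x y : UnitAddCircle) :
    ‖MM (mB * qA) (fun i y => (i / qA) * (qA * h + K) + w (i / qA) y + (i % qA) * h)
      (fun i y => m (i % qA) • u (i / qA) y + ((γ (i % qA) : ℝ) : UnitAddCircle)) l x y -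
      θA l ((h : ℤ) • x) *
    (fourier (W (lam ((h : ℤ) • x)) (((qA * h + K : ℕ) : ℤ) • x) : ℤ) x *
      U (lam ((h : ℤ) • x)) (((qA * h + K : ℕ) : ℤ) • x)) *
        fourier (N (lam ((h : ℤ) • x)) (((qA * h + K : ℕ) : ℤ) • x)) y‖ ≤
    (∑ k ∈ Finset.Icc (-(BA : ℤ)) (BA : ℤ),
      ‖P (fun i => ee (l * γ i)) (fun i => l * m i) qA k ((h : ℤ) • x) -
        θA l ((h : ℤ) • x) * (if lam ((h : ℤ) • x) = k then 1 else 0)‖) +
    Real.sqrt qA * ∑ k ∈ labs BA, ∑ r ∈ Finset.range K,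
      ‖qf mB w u k r (((qA * h + K : ℕ) : ℤ) • x) y - tf W U N k r (((qA * h + K : ℕ) : ℤ) • x) y‖ := by
  rw [MM_eq hq hwK l hl x y]
  set z : UnitAddCircle := ((qA * h + K : ℕ) : ℤ) • x with hz
  set v : UnitAddCircle := (h : ℤ) • x with hv
  set Pk : ℤ → ℂ := fun k => P (fun i => ee (l * γ i)) (fun i => l * m i) qA k v with hPk
  set Tk : ℤ → ℂ := fun k => fourier (W k z : ℤ) x * U k z * fourier (N k z) y with hTk
  have hT1 : ∀ k, ‖Tk k‖ = 1 := by
    intro k
    rw [hTk]
    simp only [norm_mul, norm_fourier_apply, hU, mul_one]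
  have hTsum : ∀ k, Tk k = ∑ r ∈ Finset.range K, fourier (r : ℤ) x * tf W U N k r z y := by
    intro k
    rw [Finset.sum_eq_single (W k z)]
    · simp only [tf, if_true, hTk]; ring
    · intro r _ hr
      rw [tf, if_neg (fun h => hr h.symm)]; ring
    · intro hr
      exact absurd (Finset.mem_range.mpr (hWK k z)) hr
  have hlamm : lam v ∈ Finset.Icc (-(BA : ℤ)) (BA : ℤ) := by
    rw [Finset.mem_Icc]; exact abs_le.mp (hlam v)
  have hlim : θA l v * (fourier (W (lam v) z : ℤ) x * U (lam v) z) * fourier (N (lam v) z) y =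
      ∑ k ∈ Finset.Icc (-(BA : ℤ)) (BA : ℤ), (θA l v * (if lam v = k then 1 else 0)) * Tk k := by
    rw [Finset.sum_eq_single (lam v)]
    · simp only [hTk, if_true]; ring
    · intro k _ hk
      rw [if_neg (fun h => hk h.symm)]; ring
    · intro hk; exact absurd hlamm hk
  rw [hlim, ← Finset.sum_sub_distrib]
  have hterm : ∀ k ∈ Finset.Icc (-(BA : ℤ)) (BA : ℤ),
      ‖Pk k * (∑ r ∈ Finset.range K, fourier (r : ℤ) x * qf mB w u k r z y) -
        θA l v * (if lam v = k then 1 else 0) * Tk k‖ ≤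
      ‖Pk k - θA l v * (if lam v = k then 1 else 0)‖ +
        (if k = 0 then 0 else Real.sqrt qA * ∑ r ∈ Finset.range K, ‖qf mB w u k r z y - tf W U N k r z y‖) := by
    intro k _
    have e1 : Pk k * (∑ r ∈ Finset.range K, fourier (r : ℤ) x * qf mB w u k r z y) -
        θA l v * (if lam v = k then 1 else 0) * Tk k =
        (Pk k - θA l v * (if lam v = k then 1 else 0)) * Tk k +
        Pk k * ∑ r ∈ Finset.range K, fourier (r : ℤ) x * (qf mB w u k r z y - tf W U N k r z y) := by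
      have : ∑ r ∈ Finset.range K, (fourier (r : ℤ) x : ℂ) * (qf mB w u k r z y - tf W U N k r z y) =
        (∑ r ∈ Finset.range K, fourier (r : ℤ) x * qf mB w u k r z y) - Tk k := by
        rw [hTsum, ← Finset.sum_sub_distrib]
        refine Finset.sum_congr rfl (fun r _ => by ring)
      rw [this]; ring
    rw [e1]
    refine (norm_add_le _ _).trans ?_
    rw [norm_mul, hT1, mul_one]
    refine add_le_add le_rfl ?_
    split_ifs with hk
    · have : Pk k = 0 := by
        rw [hPk, hk]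
        exact P_zero l hl0 hm _ _
      rw [this, zero_mul, norm_zero]
    · rw [norm_mul]
      refine mul_le_mul (P_norm_le _ (fun i => norm_ee _) _ _ _) ?_ (norm_nonneg _)
        (Real.sqrt_nonneg _)
      refine (norm_sum_le _ _).trans (Finset.sum_le_sum (fun r _ => ?_))
      rw [norm_mul, norm_fourier_apply, one_mul]
  refine (norm_sum_le _ _).trans ((Finset.sum_le_sum hterm).trans ?_)
  rw [Finset.sum_add_distrib]
  refine add_le_add le_rfl ?_
  rw [Finset.mul_sum, labs, ← Finset.sum_erase (Finset.Icc (-(BA : ℤ)) (BA : ℤ)) (a := 0)]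
  · refine Finset.sum_le_sum (fun k hk => ?_)
    rw [if_neg (Finset.ne_of_mem_erase hk)]
  · simp

theorem meas_qf (hw : ∀ I, Measurable (w I)) (hu : ∀ I, Measurable (u I)) (k : ℤ) (r : ℕ) :
    Measurable (fun p : UnitAddCircle × UnitAddCircle => qf mB w u k r p.1 p.2) := by
  unfold qf
  refine Measurable.const_mul (Finset.measurable_sum _ (fun I _ => ?_)) _
  refine Measurable.mul ?_ (Measurable.mul ?_ ?_)
  · refine Measurable.ite ?_ measurable_const measurable_const
    exact ((hw I).comp measurable_snd) (measurableSet_singleton r)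
  · exact (fourier (I : ℤ)).continuous.measurable.comp measurable_fst
  · exact (fourier k).continuous.measurable.comp ((hu I).comp measurable_snd)

theorem meas_tf (hW : ∀ l, Measurable (W l)) (hUm : ∀ l, Measurable (U l))
    (hN : ∀ l, Measurable (N l)) (k : ℤ) (r : ℕ) :
    Measurable (fun p : UnitAddCircle × UnitAddCircle => tf W U N k r p.1 p.2) := by
  unfold tf
  refine Measurable.mul ?_ (Measurable.mul ((hUm k).comp measurable_fst) ?_)
  · refine Measurable.ite ?_ measurable_const measurable_const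
    exact ((hW k).comp measurable_fst) (measurableSet_singleton r)
  · exact measurable_fourier_prod.comp (((hN k).comp measurable_fst).prodMk measurable_snd)

theorem norm_qf_le (k : ℤ) (r : ℕ) (z y : UnitAddCircle) :
    ‖qf mB w u k r z y‖ ≤ (Real.sqrt mB)⁻¹ * mB := by
  unfold qf
  rw [norm_mul, norm_inv, Complex.norm_real, Real.norm_of_nonneg (Real.sqrt_nonneg _)]
  refine mul_le_mul_of_nonneg_left ?_ (by positivity)
  refine (norm_sum_le _ _).trans ?_
  have : ∀ I ∈ Finset.range mB, ‖(if w I y = r then (1:ℂ) else 0) * (fourier (I : ℤ) z * fourier k (u I y))‖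
      ≤ 1 := by
    intro I _
    rw [norm_mul, norm_mul, norm_fourier_apply, norm_fourier_apply]
    split_ifs <;> simp
  refine (Finset.sum_le_sum this).trans ?_
  simp

theorem norm_tf_le (hU : ∀ l x, ‖U l x‖ = 1) (k : ℤ) (r : ℕ) (z y : UnitAddCircle) :
    ‖tf W U N k r z y‖ ≤ 1 := by
  unfold tf
  rw [norm_mul, norm_mul, norm_fourier_apply, hU]
  split_ifs <;> simp

theorem meas_P (c : ℕ → ℂ) (lab : ℕ → ℤ) (k : ℤ) : Measurable (fun z => P c lab qA k z) := by
  unfold P
  refine Measurable.const_mul (Finset.measurable_sum _ (fun i _ => ?_)) _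
  exact Measurable.const_mul (fourier (i : ℤ)).continuous.measurable _

theorem integral_comp_mp {f : UnitAddCircle → UnitAddCircle} (hf : MeasurePreserving f mT mT)
    {g : UnitAddCircle → ℝ} (hg : Measurable g) : ∫ x, g (f x) ∂mT = ∫ x, g x ∂mT := by
  conv_rhs => rw [← hf.map_eq]
  rw [integral_map hf.measurable.aemeasurable hg.aestronglyMeasurable]

theorem integrable_of_bd {g : UnitAddCircle → ℝ} (hg : Measurable g) (C : ℝ) (hC : ∀ x, ‖g x‖ ≤ C) :
    Integrable g mT :=
  Integrable.of_bound hg.aestronglyMeasurable C (Filter.Eventually.of_forall hC)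

theorem int_bound {ι : Type*} (S : Finset ι) (d : ι → UnitAddCircle → UnitAddCircle → ℝ)
    (hdm : ∀ i, Measurable (fun p : UnitAddCircle × UnitAddCircle => d i p.1 p.2)) (Cb : ℝ)
    (hdb : ∀ i z y, ‖d i z y‖ ≤ Cb) (SA : UnitAddCircle → ℝ) (hSAm : Measurable SA)
    (hSAn : ∀ z, 0 ≤ SA z) (CA : ℝ) (hSAb : ∀ z, SA z ≤ CA)
    (F : UnitAddCircle → UnitAddCircle → ℝ) (hF0 : ∀ x y, 0 ≤ F x y) (h H : ℤ) (hh : h ≠ 0)
    (hH : H ≠ 0) (c : ℝ) (hc0 : 0 ≤ c)
    (hpt : ∀ x y, F x y ≤ 2 * (SA (h • x)) ^ 2 + c * ∑ i ∈ S, d i (H • x) y) (eA eB : ℝ)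
    (hA : ∫ z, (SA z) ^ 2 ∂mT ≤ eA) (hB : ∀ i ∈ S, ∫ x, (∫ y, d i x y ∂mT) ∂mT ≤ eB) :
    ∫ x, (∫ y, F x y ∂mT) ∂mT ≤ 2 * eA + c * (S.card * eB) := by
  have hdy : ∀ i z, Integrable (d i z) mT := fun i z =>
    integrable_of_bd ((hdm i).comp (measurable_const.prodMk measurable_id)) Cb (hdb i z)
  have hIm : ∀ i, Measurable (fun z => ∫ y, d i z y ∂mT) := by
    intro i
    exact ((hdm i).stronglyMeasurable.integral_prod_right (ν := mT)).measurable
  have hIb : ∀ i z, ‖∫ y, d i z y ∂mT‖ ≤ Cb := by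
    intro i z
    have := norm_integral_le_of_norm_le_const (μ := mT) (Filter.Eventually.of_forall (hdb i z))
    simpa using this
  have hmpH := mp_zsmul H hH
  have hmph := mp_zsmul h hh
  have hSA2i : Integrable (fun x => (SA (h • x)) ^ 2) mT := by
    refine integrable_of_bd ?_ (CA ^ 2) (fun x => ?_)
    · exact (hSAm.comp hmph.measurable).pow_const 2
    · rw [Real.norm_of_nonneg (by positivity)]
      exact pow_le_pow_left₀ (hSAn _) (hSAb _) 2
  have hGy : ∀ x, Integrable (fun y => 2 * (SA (h • x)) ^ 2 + c * ∑ i ∈ S, d i (H • x) y) mT :=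
    fun x => (integrable_const _).add ((integrable_finsetSum _ (fun i _ => hdy i _)).const_mul c)
  have hGint : ∀ x, ∫ y, (2 * (SA (h • x)) ^ 2 + c * ∑ i ∈ S, d i (H • x) y) ∂mT =
      2 * (SA (h • x)) ^ 2 + c * ∑ i ∈ S, ∫ y, d i (H • x) y ∂mT := by
    intro x
    rw [integral_add (integrable_const _)
      ((integrable_finsetSum _ (fun i _ => hdy i _)).const_mul c)]
    rw [integral_const, integral_const_mul, integral_finsetSum _ (fun i _ => hdy i _)]
    simp
  have hIi : ∀ i, Integrable (fun x => ∫ y, d i (H • x) y ∂mT) mT := fun i =>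
    integrable_of_bd ((hIm i).comp hmpH.measurable) Cb (fun x => hIb i _)
  have hout : Integrable (fun x => 2 * (SA (h • x)) ^ 2 +
      c * ∑ i ∈ S, ∫ y, d i (H • x) y ∂mT) mT :=
    (hSA2i.const_mul 2).add ((integrable_finsetSum _ (fun i _ => hIi i)).const_mul c)
  have hstep : ∫ x, (∫ y, F x y ∂mT) ∂mT ≤
      ∫ x, (2 * (SA (h • x)) ^ 2 + c * ∑ i ∈ S, ∫ y, d i (H • x) y ∂mT) ∂mT := by
    refine integral_mono_of_nonneg (Filter.Eventually.of_forall (fun x => ?_)) hout
      (Filter.Eventually.of_forall (fun x => ?_))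
    · exact integral_nonneg (fun y => hF0 x y)
    · dsimp only
      rw [← hGint x]
      exact integral_mono_of_nonneg (Filter.Eventually.of_forall (fun y => hF0 x y)) (hGy x)
        (Filter.Eventually.of_forall (fun y => hpt x y))
  refine hstep.trans ?_
  rw [integral_add (hSA2i.const_mul 2)
    ((integrable_finsetSum _ (fun i _ => hIi i)).const_mul c)]
  rw [integral_const_mul, integral_const_mul, integral_finsetSum _ (fun i _ => hIi i)]
  have hA' : ∫ x, (SA (h • x)) ^ 2 ∂mT ≤ eA := by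
    rw [integral_comp_mp hmph (hSAm.pow_const 2)]
    exact hA
  have hB' : ∑ i ∈ S, ∫ x, ∫ y, d i (H • x) y ∂mT ∂mT ≤ S.card * eB := by
    have h2 : ∀ i ∈ S, ∫ x, ∫ y, d i (H • x) y ∂mT ∂mT ≤ eB := by
      intro i hi
      rw [integral_comp_mp hmpH (hIm i)]
      exact hB i hi
    refine (Finset.sum_le_sum h2).trans (le_of_eq ?_)
    simp
  have := mul_le_mul_of_nonneg_left hB' hc0
  linarith

/-- the label error function -/
noncomputable def SAf (qA BA : ℕ) (m : ℕ → ℤ) (γ : ℕ → ℝ) (θA : ℤ → UnitAddCircle → ℂ)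
    (lam : UnitAddCircle → ℤ) (l : ℤ) (z : UnitAddCircle) : ℝ :=
  ∑ k ∈ Finset.Icc (-(BA : ℤ)) (BA : ℤ),
      ‖P (fun i => ee (l * γ i)) (fun i => l * m i) qA k z -
        θA l z * (if lam z = k then 1 else 0)‖

theorem meas_SAf (hθm : ∀ l, Measurable (θA l)) (hlamm : Measurable lam) (l : ℤ) :
    Measurable (SAf qA BA m γ θA lam l) := by
  refine Finset.measurable_sum _ (fun k _ => Measurable.norm ?_)
  refine (meas_P _ _ _).sub ((hθm l).mul ?_)
  refine Measurable.ite ?_ measurable_const measurable_const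
  exact hlamm (measurableSet_singleton k)

theorem SAf_nonneg (l : ℤ) (z : UnitAddCircle) : 0 ≤ SAf qA BA m γ θA lam l z :=
  Finset.sum_nonneg (fun _ _ => norm_nonneg _)

theorem SAf_le (hθA : ∀ l x, ‖θA l x‖ = 1) (l : ℤ) (z : UnitAddCircle) :
    SAf qA BA m γ θA lam l z ≤
      ∑ k ∈ Finset.Icc (-(BA : ℤ)) (BA : ℤ), (Real.sqrt qA + 1) := by
  refine Finset.sum_le_sum (fun k _ => (norm_sub_le _ _).trans (add_le_add ?_ ?_))
  · exact P_norm_le _ (fun i => norm_ee _) _ _ _
  · rw [norm_mul, hθA]; split_ifs <;> simp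

/-- the pmp error function -/
noncomputable def dfun (mB : ℕ) (w : ℕ → UnitAddCircle → ℕ) (u : ℕ → UnitAddCircle → UnitAddCircle)
    (W : ℤ → UnitAddCircle → ℕ) (U : ℤ → UnitAddCircle → ℂ)
    (N : ℤ → UnitAddCircle → ℤ) (i : ℤ × ℕ) (z y : UnitAddCircle) : ℝ :=
  ‖qf mB w u i.1 i.2 z y - tf W U N i.1 i.2 z y‖ ^ 2

theorem meas_dfun (hw : ∀ I, Measurable (w I)) (hu : ∀ I, Measurable (u I))
    (hW : ∀ l, Measurable (W l)) (hUm : ∀ l, Measurable (U l))
    (hN : ∀ l, Measurable (N l)) (i : ℤ × ℕ) :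
    Measurable (fun p : UnitAddCircle × UnitAddCircle => dfun mB w u W U N i p.1 p.2) :=
  ((meas_qf hw hu i.1 i.2).sub (meas_tf hW hUm hN i.1 i.2)).norm.pow_const 2

theorem dfun_bd (hU : ∀ l x, ‖U l x‖ = 1) (i : ℤ × ℕ) (z y : UnitAddCircle) :
    ‖dfun mB w u W U N i z y‖ ≤ ((Real.sqrt mB)⁻¹ * mB + 1) ^ 2 := by
  unfold dfun
  rw [Real.norm_of_nonneg (by positivity)]
  refine pow_le_pow_left₀ (norm_nonneg _) ((norm_sub_le _ _).trans ?_) 2
  exact add_le_add (norm_qf_le _ _ z y) (norm_tf_le hU _ _ z y)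

/-- the composite error -/
noncomputable def Ffun (h K qA mB : ℕ) (m : ℕ → ℤ) (γ : ℕ → ℝ) (w : ℕ → UnitAddCircle → ℕ)
    (u : ℕ → UnitAddCircle → UnitAddCircle) (θA : ℤ → UnitAddCircle → ℂ) (lam : UnitAddCircle → ℤ)
    (W : ℤ → UnitAddCircle → ℕ) (U : ℤ → UnitAddCircle → ℂ) (N : ℤ → UnitAddCircle → ℤ)
    (l : ℤ) (x y : UnitAddCircle) : ℝ :=
  ‖MM (mB * qA) (fun i y => (i / qA) * (qA * h + K) + w (i / qA) y + (i % qA) * h)
      (fun i y => m (i % qA) • u (i / qA) y + ((γ (i % qA) : ℝ) : UnitAddCircle)) l x y -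
      θA l ((h : ℤ) • x) *
    (fourier (W (lam ((h : ℤ) • x)) (((qA * h + K : ℕ) : ℤ) • x) : ℤ) x *
      U (lam ((h : ℤ) • x)) (((qA * h + K : ℕ) : ℤ) • x)) *
        fourier (N (lam ((h : ℤ) • x)) (((qA * h + K : ℕ) : ℤ) • x)) y‖ ^ 2

theorem F_le (hq : 0 < qA) (hwK : ∀ I y, w I y < K) (hm : ∀ i, m i ≠ 0)
    (hlam : ∀ x, |lam x| ≤ (BA : ℤ))
    (hWK : ∀ l x, W l x < K) (hU : ∀ l x, ‖U l x‖ = 1) (l : ℤ) (hl0 : l ≠ 0)
    (hl : ∀ i, |l * m i| ≤ (BA : ℤ)) (x y : UnitAddCircle) :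
    Ffun h K qA mB m γ w u θA lam W U N l x y ≤
      2 * (SAf qA BA m γ θA lam l ((h : ℤ) • x)) ^ 2 + 2 * qA * ((labs BA).card * K : ℝ) *
        ∑ i ∈ labs BA ×ˢ Finset.range K, dfun mB w u W U N i (((qA * h + K : ℕ) : ℤ) • x) y := by
  have h1 := point_bound (mB := mB) (h := h) (γ := γ) (θA := θA) (lam := lam) (N := N) (u := u)
      hq hwK hm hlam hWK hU l hl0 hl x y
  set D1 : ℝ := ∑ k ∈ labs BA, ∑ r ∈ Finset.range K,
      ‖qf mB w u k r (((qA * h + K : ℕ) : ℤ) • x) y -
        tf W U N k r (((qA * h + K : ℕ) : ℤ) • x) y‖ with hD1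
  have h2 : D1 ^ 2 ≤ ((labs BA).card * K : ℝ) *
      ∑ i ∈ labs BA ×ˢ Finset.range K, dfun mB w u W U N i (((qA * h + K : ℕ) : ℤ) • x) y := by
    rw [hD1, ← Finset.sum_product']
    refine (sq_sum_le_card_mul_sum_sq).trans (le_of_eq ?_)
    rw [Finset.card_product, Finset.card_range]
    push_cast
    rfl
  have h6 : SAf qA BA m γ θA lam l ((h : ℤ) • x) = ∑ k ∈ Finset.Icc (-(BA : ℤ)) (BA : ℤ),
      ‖P (fun i => ee (l * γ i)) (fun i => l * m i) qA k ((h : ℤ) • x) -
        θA l ((h : ℤ) • x) * (if lam ((h : ℤ) • x) = k then 1 else 0)‖ := rfl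
  rw [← h6] at h1
  have h7 := SAf_nonneg (qA := qA) (BA := BA) (m := m) (γ := γ) (θA := θA) (lam := lam) l ((h : ℤ) • x)
  unfold Ffun
  refine (pow_le_pow_left₀ (norm_nonneg _) h1 2).trans ?_
  have h8 : (SAf qA BA m γ θA lam l ((h : ℤ) • x) + Real.sqrt qA * D1) ^ 2 ≤
      2 * (SAf qA BA m γ θA lam l ((h : ℤ) • x)) ^ 2 + 2 * (Real.sqrt qA * D1) ^ 2 := by
    linarith only [sq_nonneg (SAf qA BA m γ θA lam l ((h : ℤ) • x) - Real.sqrt qA * D1)]
  refine h8.trans ?_
  have h9 : (Real.sqrt qA * D1) ^ 2 = qA * D1 ^ 2 := by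
    rw [mul_pow, Real.sq_sqrt (Nat.cast_nonneg _)]
  rw [h9]
  have h10 := mul_le_mul_of_nonneg_left h2 (Nat.cast_nonneg (α := ℝ) qA)
  linarith only [h10]

theorem main_bound (hq : 0 < qA) (hh : 0 < h) (hwK : ∀ I y, w I y < K) (hm : ∀ i, m i ≠ 0)
    (hθm : ∀ l, Measurable (θA l)) (hθA : ∀ l x, ‖θA l x‖ = 1)
    (hlamm : Measurable lam) (hlam : ∀ x, |lam x| ≤ (BA : ℤ))
    (hw : ∀ I, Measurable (w I)) (hu : ∀ I, Measurable (u I))
    (hW : ∀ l, Measurable (W l)) (hWK : ∀ l x, W l x < K)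
    (hUm : ∀ l, Measurable (U l)) (hU : ∀ l x, ‖U l x‖ = 1)
    (hN : ∀ l, Measurable (N l)) (l : ℤ) (hl0 : l ≠ 0)
    (hl : ∀ i, |l * m i| ≤ (BA : ℤ)) (eA eB : ℝ)
    (hA : ∫ z, (SAf qA BA m γ θA lam l z) ^ 2 ∂mT ≤ eA)
    (hB : ∀ i ∈ labs BA ×ˢ Finset.range K, ∫ x, (∫ y, dfun mB w u W U N i x y ∂mT) ∂mT ≤ eB) :
    ∫ x, (∫ y, Ffun h K qA mB m γ w u θA lam W U N l x y ∂mT) ∂mT ≤
    2 * eA + 2 * qA * ((labs BA).card * K : ℝ) * (((labs BA).card * K : ℝ) * eB) := by
  have := int_bound (labs BA ×ˢ Finset.range K) (dfun mB w u W U N) (meas_dfun hw hu hW hUm hN)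
    _ (dfun_bd hU) (SAf qA BA m γ θA lam l) (meas_SAf hθm hlamm l) (SAf_nonneg l) _ (SAf_le hθA l)
    (Ffun h K qA mB m γ w u θA lam W U N l) (fun x y => by unfold Ffun; positivity) (h : ℤ)
    ((qA * h + K : ℕ) : ℤ) (by exact_mod_cast hh.ne')
    (by
      have : 0 < qA * h := Nat.mul_pos hq hh
      have h2 : qA * h + K ≠ 0 := by omega
      exact_mod_cast h2)
    (2 * qA * ((labs BA).card * K : ℝ)) (by positivity)
    (F_le hq hwK hm hlam hWK hU l hl0 hl) eA eB hA hB
  rw [Finset.card_product, Finset.card_range] at this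
  push_cast at this
  exact this

end mainest

end StageC

/-- statement of the step lemma (B4) -/
def StepStatement : Prop :=
  ∀ (n : ℕ), 1 ≤ n → ∀ (ε : ℝ), 0 < ε → ∀ (N0 : ℕ), 1 ≤ N0 →
    ∃ B : ℕ, ∃ q0 : ℕ, ∀ q ≥ q0, ∃ (m : ℕ → ℤ) (γ : ℕ → ℝ),
      (∀ i, m i ≠ 0 ∧ (N0 : ℤ) ∣ m i ∧ ∀ l : ℤ, |l| ≤ (n : ℤ) → |l * m i| ≤ (B : ℤ)) ∧
      StepProp n ε q m γ B

/-- statement of the position measurement by phases (P3) -/
def PmpStatement : Prop :=
  ∀ (K : ℕ), 1 ≤ K → ∀ (L : ℕ), 1 ≤ L → ∀ (ε : ℝ), 0 < ε →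
    ∃ (m : ℕ) (w : ℕ → UnitAddCircle → ℕ) (u : ℕ → UnitAddCircle → UnitAddCircle) (B : ℕ)
      (W : ℤ → UnitAddCircle → ℕ) (U : ℤ → UnitAddCircle → ℂ) (N : ℤ → UnitAddCircle → ℤ),
      1 ≤ m ∧ (∀ I, Measurable (w I)) ∧ (∀ I, Measurable (u I)) ∧ (∀ I y, w I y < K) ∧
      (∀ I, ∀ r < K, ∀ A, MeasurableSet A →
        mT.real ({y | w I y = r} ∩ u I ⁻¹' A) = (1 / (K : ℝ)) * mT.real A) ∧
      (∀ l, Measurable (W l)) ∧ (∀ l x, W l x < K) ∧
      (∀ l, Measurable (U l)) ∧ (∀ l x, ‖U l x‖ = 1) ∧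
      (∀ l, Measurable (N l)) ∧ (∀ l x, l ≠ 0 → |l| ≤ (L : ℤ) → N l x ≠ 0 ∧ |N l x| ≤ (B : ℤ)) ∧
      ∀ l : ℤ, l ≠ 0 → |l| ≤ (L : ℤ) → ∀ r < K,
        ∫ x, (∫ y, ‖((Real.sqrt m : ℝ) : ℂ)⁻¹ * ∑ I ∈ Finset.range m,
            (if w I y = r then 1 else 0) * (fourier (I : ℤ) x * fourier l (u I y))
          - (if W l x = r then 1 else 0) * (U l x * fourier (N l x) y)‖ ^ 2 ∂mT) ∂mT ≤ ε ^ 2

open StageC in
/-- (C) the composite stage lemma, from the step lemma and pmp -/
theorem stage_lemma_of (step_lemma : StepStatement) (pmp : PmpStatement) (h : ℕ) (hh : 1 ≤ h) (n : ℕ) (hn : 1 ≤ n) (ε : ℝ) (hε : 0 < ε) :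
    ∃ D : SD, GoodStage h n ε D := by
  obtain ⟨BA, q0, hstep⟩ := step_lemma n hn (ε / 2) (by positivity) 1 le_rfl
  obtain ⟨q1, hq1⟩ := exists_nat_gt (2 / ε)
  set qA : ℕ := max q0 (max q1 2) with hqA
  have hqA0 : q0 ≤ qA := le_max_left _ _
  have hqA1 : q1 ≤ qA := (le_max_left _ _).trans (le_max_right _ _)
  have hqA2 : 2 ≤ qA := (le_max_right _ _).trans (le_max_right _ _)
  have hqr : 2 ≤ ε * qA := by
    have h1 : (2 / ε : ℝ) < qA := hq1.trans_le (by exact_mod_cast hqA1)
    have h2 := (div_lt_iff₀' hε).mp h1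
    linarith only [h2]
  obtain ⟨m, γ, hm, θA, lam, hθm, hθ1, hlamm, hlam, hmain⟩ := hstep qA hqA0
  set c : ℝ := ((labs BA).card * h : ℝ) with hc
  have hc0 : 0 ≤ c := by positivity
  set εB : ℝ := ε / (2 * (Real.sqrt qA + 1) * (c + 1)) with hεB
  have hsq : 0 ≤ Real.sqrt qA := Real.sqrt_nonneg _
  have hεB0 : 0 < εB := by positivity
  obtain ⟨mB, w, u, B, W, U, N, hmB, hw, hu, hwK, hwu, hW, hWK, hUm, hU, hN, hN2, hpm⟩ :=
    pmp h hh (BA + 1) (by omega) εB hεB0
  have hq : 0 < qA := by omega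
  have hlamx : ∀ x, |lam x| ≤ (BA : ℤ) := fun x => (hlam x).2
  have hlamN : ∀ (x z : UnitAddCircle), N (lam x) z ≠ 0 ∧ |N (lam x) z| ≤ (B : ℤ) := by
    intro x z
    refine hN2 (lam x) z (hlam x).1 ((hlamx x).trans ?_)
    push_cast; linarith only []
  have hhr : (0 : ℝ) < h := by exact_mod_cast hh
  refine ⟨stageD h h qA mB B m γ w u θA lam W U N, ?_⟩
  constructor
  · -- two_le
    show 2 ≤ mB * qA
    nlinarith only [hqA2, hmB]
  · -- meas_p
    intro i
    exact (measurable_const.add (hw _)).add measurable_const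
  · -- mp_φ
    intro i
    exact (mp_add _).comp ((mp_zsmul _ (hm _).1).comp (u_mp hh hw hu hwK hwu _))
  · -- disj
    intro i i' y hii _
    exact pos_disj hq hwK i i' y hii
  · -- fit
    intro i y hi
    exact pos_fit hq hwK i y hi
  · -- ratio
    show ((mB * (qA * h + h) : ℕ) : ℝ) ≤ (1 + ε) * (((mB * qA : ℕ) : ℝ) * h)
    push_cast
    have h1 : (0 : ℝ) ≤ mB * h := by positivity
    have h2 : (mB : ℝ) * h * 1 ≤ mB * h * (ε * qA) := mul_le_mul_of_nonneg_left (by linarith only [hqr]) h1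
    linarith only [h2]
  · -- ind
    intro i _ r A hA
    have := level_ind hwK hwu (i / qA) ((i / qA) * (qA * h + h)) ((i % qA) * h) r (m (i % qA))
      (hm _).1 ((γ (i % qA) : ℝ) : UnitAddCircle) A hA
    exact this
  · -- rnd
    refine rnd_bound (K := h) (κ := 1) (by ring) hh one_pos hq hwK hwu ?_
    push_cast
    nlinarith only [hε, hqr]
  · -- meas_θ
    intro l
    have hv := (mp_zsmul (h : ℤ) (by exact_mod_cast (show h ≠ 0 by omega))).measurable
    have hz : Measurable (fun x : UnitAddCircle => ((qA * h + h : ℕ) : ℤ) • x) :=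
      (mp_zsmul ((qA * h + h : ℕ) : ℤ) (by
        have h2 : qA * h + h ≠ 0 := by omega
        exact_mod_cast h2)).measurable
    refine ((hθm l).comp hv).mul ?_
    refine meas_sel (fun k x => (fourier (W k (((qA * h + h : ℕ) : ℤ) • x) : ℤ) x : ℂ) *
      U k (((qA * h + h : ℕ) : ℤ) • x)) (fun k => ?_) (fun x => lam ((h : ℤ) • x)) (hlamm.comp hv)
    refine Measurable.mul ?_ ((hUm k).comp hz)
    exact measurable_fourier_prod.comp
      ((measurable_from_top.comp ((hW k).comp hz)).prodMk measurable_id)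
  · -- norm_θ
    intro l x
    show ‖θA l ((h : ℤ) • x) * (fourier (W (lam ((h : ℤ) • x)) (((qA * h + h : ℕ) : ℤ) • x) : ℤ) x *
      U (lam ((h : ℤ) • x)) (((qA * h + h : ℕ) : ℤ) • x))‖ = 1
    rw [norm_mul, norm_mul, hθ1, norm_fourier_apply, hU]
    norm_num
  · -- meas_N
    have hv := (mp_zsmul (h : ℤ) (by exact_mod_cast (show h ≠ 0 by omega))).measurable
    have hz : Measurable (fun x : UnitAddCircle => ((qA * h + h : ℕ) : ℤ) • x) :=
      (mp_zsmul ((qA * h + h : ℕ) : ℤ) (by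
        have h2 : qA * h + h ≠ 0 := by omega
        exact_mod_cast h2)).measurable
    exact meas_sel (fun k x => N k (((qA * h + h : ℕ) : ℤ) • x)) (fun k => (hN k).comp hz)
      (fun x => lam ((h : ℤ) • x)) (hlamm.comp hv)
  · intro x
    exact (hlamN _ _).1
  · intro x
    exact (hlamN _ _).2
  · -- main
    intro l hl
    have hl0 : l ≠ 0 := Finset.ne_of_mem_erase hl
    have hln : |l| ≤ (n : ℤ) := by
      have := Finset.mem_of_mem_erase hl
      rw [Finset.mem_Icc] at this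
      exact abs_le.mpr this
    have hA : ∫ z, (SAf qA BA m γ θA lam l z) ^ 2 ∂mT ≤ (ε / 2) ^ 2 := hmain l hl0 hln
    have hB : ∀ i ∈ labs BA ×ˢ Finset.range h,
        ∫ x, (∫ y, dfun mB w u W U N i x y ∂mT) ∂mT ≤ εB ^ 2 := by
      intro i hi
      rw [Finset.mem_product] at hi
      have h0 : i.1 ≠ 0 := Finset.ne_of_mem_erase hi.1
      have h1 : |i.1| ≤ ((BA + 1 : ℕ) : ℤ) := by
        have := Finset.mem_of_mem_erase hi.1
        rw [Finset.mem_Icc] at this
        have := abs_le.mpr this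
        push_cast
        linarith only [this]
      exact hpm i.1 h0 h1 i.2 (Finset.mem_range.mp hi.2)
    have hfin := main_bound (h := h) (K := h) (mB := mB) hq hh hwK (fun i => (hm i).1) hθm hθ1 hlamm hlamx
      hw hu hW hWK hUm hU hN l hl0 (fun i => (hm i).2.2 l hln) ((ε / 2) ^ 2) (εB ^ 2) hA hB
    refine le_trans hfin ?_
    rw [← hc]
    have h1 : εB ^ 2 * (4 * ((Real.sqrt qA + 1) ^ 2 * (c + 1) ^ 2)) = ε ^ 2 := by
      rw [hεB]; field_simp; ring
    have h2 : (qA : ℝ) ≤ (Real.sqrt qA + 1) ^ 2 := by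
      have := Real.sq_sqrt (Nat.cast_nonneg (α := ℝ) qA)
      linarith only [hsq, this]
    have h3 : c ^ 2 ≤ (c + 1) ^ 2 := by linarith only [hc0]
    have h4 : (qA : ℝ) * c ^ 2 ≤ (Real.sqrt qA + 1) ^ 2 * (c + 1) ^ 2 :=
      mul_le_mul h2 h3 (by positivity) (by positivity)
    have h5 := mul_le_mul_of_nonneg_left h4 (sq_nonneg εB)
    linarith only [h1, h5]

end Vale.Agent.P130
end
end

section

section

open MeasureTheory Filter Topology

namespace Vale.Agent.P130

/-! ### Folner sets for multiplication by small integers -/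

lemma divisors_ratio (D : ℕ) (hD : D ≠ 0) (δ : ℝ) (hδ : 0 < δ) :
    ∃ E : ℕ, ((Nat.divisors (D ^ (E + 1))).card : ℝ) ≤ (1 + δ) * (Nat.divisors (D ^ E)).card := by
  have hcard : ∀ E : ℕ, E ≠ 0 → (Nat.divisors (D ^ E)).card =
      ∏ p ∈ D.primeFactors, (E * D.factorization p + 1) := by
    intro E hE
    rw [Nat.card_divisors (pow_ne_zero _ hD), Nat.primeFactors_pow _ hE]
    refine Finset.prod_congr rfl fun p _ => ?_
    rw [Nat.factorization_pow]
    simp
  have hlim : Tendsto (fun E : ℕ => ∏ p ∈ D.primeFactors,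
      ((((E : ℝ) + 1) * D.factorization p + 1) / ((E : ℝ) * D.factorization p + 1))) atTop
      (𝓝 (∏ p ∈ D.primeFactors, (1 : ℝ))) := by
    refine tendsto_finsetProd _ fun p _ => ?_
    set v : ℝ := (D.factorization p : ℝ) with hv
    have hv0 : 0 ≤ v := by positivity
    have h1 : ∀ E : ℕ, (((E : ℝ) + 1) * v + 1) / ((E : ℝ) * v + 1) = 1 + v / ((E : ℝ) * v + 1) := by
      intro E
      have : (E : ℝ) * v + 1 ≠ 0 := by positivity
      field_simp
      ring
    simp only [h1]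
    have h2 : Tendsto (fun E : ℕ => v / ((E : ℝ) * v + 1)) atTop (𝓝 0) := by
      rcases hv0.eq_or_lt with h0 | h0
      · rw [← h0]; simp
      · refine Tendsto.div_atTop tendsto_const_nhds ?_
        exact tendsto_atTop_add_const_right _ _
          (Tendsto.atTop_mul_const h0 tendsto_natCast_atTop_atTop)
    simpa using h2.const_add 1
  rw [Finset.prod_const_one] at hlim
  have hev := (hlim.eventually (gt_mem_nhds (show (1 : ℝ) < 1 + δ by linarith))).and
    (eventually_ge_atTop 1)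
  obtain ⟨E, hE, hE1⟩ := hev.exists
  refine ⟨E, ?_⟩
  rw [hcard E (by omega), hcard (E + 1) (by omega)]
  rw [Finset.prod_div_distrib, div_lt_iff₀ (Finset.prod_pos fun p _ => by positivity)] at hE
  push_cast
  exact hE.le

lemma folner (n : ℕ) (δ : ℝ) (hδ : 0 < δ) :
    ∃ (J : Finset ℤ) (D0 : ℤ), J.Nonempty ∧ D0 ≠ 0 ∧ (∀ j ∈ J, j ∣ D0) ∧
      ∀ l : ℤ, l ≠ 0 → |l| ≤ (n : ℤ) → ((J \ J.image (fun j => l * j)).card : ℝ) ≤ δ * J.card := by
  classical
  set D := n.factorial with hD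
  have hD0 : D ≠ 0 := Nat.factorial_ne_zero n
  obtain ⟨E, hE⟩ := divisors_ratio D hD0 δ hδ
  -- all integer divisors of `D^e`
  let J : ℕ → Finset ℤ := fun e => (Nat.divisors (D ^ e)).image (fun d : ℕ => (d : ℤ)) ∪
    (Nat.divisors (D ^ e)).image (fun d : ℕ => -(d : ℤ))
  have hmem : ∀ e (j : ℤ), j ∈ J e ↔ j ∣ ((D ^ e : ℕ) : ℤ) := by
    intro e j
    simp only [J, Finset.mem_union, Finset.mem_image, Nat.mem_divisors]
    constructor
    · rintro (⟨d, ⟨hd, _⟩, rfl⟩ | ⟨d, ⟨hd, _⟩, rfl⟩)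
      · exact Int.natCast_dvd_natCast.2 hd
      · exact (neg_dvd).2 (Int.natCast_dvd_natCast.2 hd)
    · intro h
      have h2 : j.natAbs ∣ D ^ e := Int.natCast_dvd_natCast.1 (Int.natAbs_dvd.2 h)
      rcases Int.natAbs_eq j with hj | hj
      · exact Or.inl ⟨j.natAbs, ⟨h2, pow_ne_zero _ hD0⟩, hj.symm⟩
      · exact Or.inr ⟨j.natAbs, ⟨h2, pow_ne_zero _ hD0⟩, hj.symm⟩
  have hcard : ∀ e, (J e).card = 2 * (Nat.divisors (D ^ e)).card := by
    intro e
    rw [Finset.card_union_of_disjoint, Finset.card_image_of_injective _ Nat.cast_injective,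
      Finset.card_image_of_injective _ (fun a b h => by simpa using h)]
    · ring
    · rw [Finset.disjoint_left]
      intro x hx hy
      simp only [Finset.mem_image, Nat.mem_divisors] at hx hy
      obtain ⟨a, ⟨ha, _⟩, rfl⟩ := hx
      obtain ⟨b, ⟨hb, _⟩, hab⟩ := hy
      have ha0 : a ≠ 0 := fun h => by
        rw [h] at ha; exact pow_ne_zero e hD0 (Nat.eq_zero_of_zero_dvd ha)
      omega
  refine ⟨J E, ((D ^ E : ℕ) : ℤ), ⟨1, (hmem E 1).2 (one_dvd _)⟩,
    by exact_mod_cast pow_ne_zero _ hD0, fun j hj => (hmem E j).1 hj, fun l hl hln => ?_⟩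
  have hlD : l ∣ (D : ℤ) := by
    rw [← Int.natAbs_dvd]
    refine Int.natCast_dvd_natCast.2 (Nat.dvd_factorial (Int.natAbs_pos.2 hl) ?_)
    have := Int.abs_eq_natAbs l
    omega
  have hsub : J E ⊆ J (E + 1) := fun j hj => by
    rw [hmem] at hj ⊢
    exact hj.trans (Int.natCast_dvd_natCast.2 (pow_dvd_pow _ (Nat.le_succ _)))
  have hsub2 : (J E).image (fun j => l * j) ⊆ J (E + 1) := fun x hx => by
    obtain ⟨j, hj, rfl⟩ := Finset.mem_image.1 hx
    rw [hmem] at hj ⊢
    rw [pow_succ', Nat.cast_mul]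
    exact mul_dvd_mul hlD hj
  have hci : ((J E).image (fun j => l * j)).card = (J E).card :=
    Finset.card_image_of_injective _ fun a b h => mul_left_cancel₀ hl h
  have h1 : (J E \ (J E).image (fun j => l * j)).card + (J E).card ≤ (J (E + 1)).card := by
    rw [← hci, ← Finset.card_union_of_disjoint Finset.sdiff_disjoint]
    exact Finset.card_le_card (Finset.union_subset (Finset.sdiff_subset.trans hsub) hsub2)
  have h2 : ((J E \ (J E).image (fun j => l * j)).card : ℝ) + (J E).card ≤ (J (E + 1)).card := by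
    exact_mod_cast h1
  rw [hcard E, hcard (E + 1)] at h2
  rw [hcard E]
  push_cast at h2 ⊢
  linarith only [hE, h2]

/-! ### The counting argument for random permutations -/

lemma count_argmin {Q : ℕ} (S R : Finset ℤ) (hRS : R ⊆ S) (f : ℤ → Fin Q)
    (hf : Set.InjOn f S) :
    S.card * (Finset.univ.filter (fun π : Equiv.Perm (Fin Q) =>
      ∃ s ∈ R, ∀ t ∈ S, π (f s) ≤ π (f t))).card ≤ R.card * Fintype.card (Equiv.Perm (Fin Q)) := by
  classical
  let A : ℤ → Finset (Equiv.Perm (Fin Q)) := fun s =>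
    Finset.univ.filter (fun π => ∀ t ∈ S, π (f s) ≤ π (f t))
  have hAle : ∀ s ∈ S, ∀ s' ∈ S, (A s).card ≤ (A s').card := by
    intro s hs s' hs'
    refine Finset.card_le_card_of_injOn (fun π => π * Equiv.swap (f s) (f s')) ?_ ?_
    · intro π hπ
      simp only [A, Finset.coe_filter, Finset.mem_univ, true_and, Set.mem_ofPred_eq] at hπ ⊢
      intro t ht
      simp only [Equiv.Perm.coe_mul, Function.comp_apply, Equiv.swap_apply_right]
      by_cases h1 : f t = f s
      · rw [h1, Equiv.swap_apply_left]; exact hπ s' hs'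
      · by_cases h2 : f t = f s'
        · rw [h2, Equiv.swap_apply_right]
        · rw [Equiv.swap_apply_of_ne_of_ne h1 h2]; exact hπ t ht
    · intro a _ b _ hab
      exact mul_right_cancel hab
  have hAeq : ∀ s ∈ S, ∀ s' ∈ S, (A s).card = (A s').card := fun s hs s' hs' =>
    le_antisymm (hAle s hs s' hs') (hAle s' hs' s hs)
  have hdisj : Set.PairwiseDisjoint (S : Set ℤ) A := by
    intro s hs s' hs' hne
    rw [Function.onFun, Finset.disjoint_left]
    intro π h1 h2
    simp only [A, Finset.mem_filter, Finset.mem_univ, true_and] at h1 h2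
    have := le_antisymm (h1 s' hs') (h2 s hs)
    exact hne (hf hs hs' (π.injective this))
  rcases R.eq_empty_or_nonempty with rfl | ⟨r, hr⟩
  · simp
  have hsub : (Finset.univ.filter (fun π : Equiv.Perm (Fin Q) =>
      ∃ s ∈ R, ∀ t ∈ S, π (f s) ≤ π (f t))) = R.biUnion A := by
    ext π
    simp [A]
  rw [hsub]
  have h1 : (R.biUnion A).card ≤ R.card * (A r).card := by
    refine (Finset.card_biUnion_le).trans ?_
    rw [Finset.card_eq_sum_ones R, Finset.sum_mul]
    exact Finset.sum_le_sum fun s hs => by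
      rw [one_mul]; exact (hAeq s (hRS hs) r (hRS hr)).le
  have h2 : S.card * (A r).card ≤ Fintype.card (Equiv.Perm (Fin Q)) := by
    have : (S.biUnion A).card = S.card * (A r).card := by
      rw [Finset.card_biUnion hdisj, Finset.card_eq_sum_ones S, Finset.sum_mul]
      exact Finset.sum_congr rfl fun s hs => by rw [one_mul]; exact hAeq s hs r (hRS hr)
    rw [← this]
    exact Finset.card_le_univ _
  calc S.card * (R.biUnion A).card ≤ S.card * (R.card * (A r).card) := Nat.mul_le_mul_left _ h1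
    _ = R.card * (S.card * (A r).card) := by ring
    _ ≤ R.card * Fintype.card (Equiv.Perm (Fin Q)) := Nat.mul_le_mul_left _ h2

/-! ### Cells of the circle -/

/-- The cell `floor (Q t)`. -/
noncomputable def cell (Q : ℕ) (t : UnitAddCircle) : ℕ :=
  ⌊(Q : ℝ) * (AddCircle.equivIco 1 0 t : ℝ)⌋₊

lemma cell_lt (Q : ℕ) (hQ : 0 < Q) (t : UnitAddCircle) : cell Q t < Q := by
  have h := (AddCircle.equivIco 1 0 t).2
  have hQ' : (0 : ℝ) < Q := by exact_mod_cast hQ
  rw [cell, Nat.floor_lt (mul_nonneg hQ'.le h.1)]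
  have h2 : (AddCircle.equivIco 1 0 t : ℝ) < 1 := by
    have := h.2
    linarith
  nlinarith only [hQ', h2]

lemma measurable_cell (Q : ℕ) : Measurable (cell Q) := by
  unfold cell
  refine Nat.measurable_floor.comp (measurable_const.mul ?_)
  exact measurable_subtype_coe.comp (AddCircle.measurableEquivIco 1 0).measurable

lemma coe_equivIco (t : UnitAddCircle) : (((AddCircle.equivIco 1 0 t : ℝ)) : UnitAddCircle) = t :=
  (AddCircle.equivIco (1 : ℝ) 0).symm_apply_apply t

/-- points of the same cell are close. -/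
lemma norm_sub_le_of_cell_eq (Q : ℕ) (hQ : 0 < Q) (s t : UnitAddCircle) (h : cell Q s = cell Q t) :
    ‖s - t‖ ≤ 1 / Q := by
  have hQ' : (0 : ℝ) < Q := by exact_mod_cast hQ
  set x : ℝ := (AddCircle.equivIco 1 0 s : ℝ) with hx
  set y : ℝ := (AddCircle.equivIco 1 0 t : ℝ) with hy
  have hx0 : 0 ≤ x := (AddCircle.equivIco 1 0 s).2.1
  have hy0 : 0 ≤ y := (AddCircle.equivIco 1 0 t).2.1
  have h' : ⌊(Q : ℝ) * x⌋₊ = ⌊(Q : ℝ) * y⌋₊ := h
  have h1 := Nat.floor_le (mul_nonneg hQ'.le hx0)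
  have h2 := Nat.lt_floor_add_one ((Q : ℝ) * x)
  have h3 := Nat.floor_le (mul_nonneg hQ'.le hy0)
  have h4 := Nat.lt_floor_add_one ((Q : ℝ) * y)
  rw [h'] at h1 h2
  have h5 : |x - y| ≤ 1 / Q := by
    rw [abs_le, ← neg_div]
    constructor
    · rw [div_le_iff₀ hQ']; linarith only [h1, h4]
    · rw [le_div_iff₀ hQ']; linarith only [h2, h3]
  have h6 : s - t = ((x - y : ℝ) : UnitAddCircle) := by
    rw [← coe_equivIco s, ← coe_equivIco t]
    rfl
  rw [h6]
  refine le_trans ?_ h5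
  exact QuotientAddGroup.norm_mk_le_norm

lemma haar_eq_volume : (AddCircle.haarAddCircle (T := 1)) = (volume : Measure UnitAddCircle) := by
  rw [AddCircle.volume_eq_smul_haarAddCircle]
  simp

lemma measure_countable_eq_zero (B : Set UnitAddCircle) (h : B.Countable) : (AddCircle.haarAddCircle (T := 1)) B = 0 := by
  rw [haar_eq_volume, ← Set.biUnion_of_singleton B]
  refine (measure_biUnion_null_iff h).2 fun x _ => ?_
  rw [← Metric.closedBall_zero, AddCircle.volume_closedBall]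
  simp

lemma mp_zsmul (k : ℤ) (hk : k ≠ 0) : MeasurePreserving (fun v : UnitAddCircle => k • v) (AddCircle.haarAddCircle (T := 1)) (AddCircle.haarAddCircle (T := 1)) :=
  MeasureTheory.Measure.measurePreserving_zsmul _ hk

lemma measure_small (k : ℤ) (hk : k ≠ 0) (r : ℝ) (hr : 0 ≤ r) :
    (AddCircle.haarAddCircle (T := 1)).real {v : UnitAddCircle | ‖k • v‖ ≤ r} ≤ 2 * r := by
  have h1 : {v : UnitAddCircle | ‖k • v‖ ≤ r} =
      (fun v : UnitAddCircle => k • v) ⁻¹' Metric.closedBall 0 r := by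
    ext v; simp
  rw [h1, (mp_zsmul k hk).measureReal_preimage Metric.isClosed_closedBall.measurableSet.nullMeasurableSet,
    haar_eq_volume, Measure.real, AddCircle.volume_closedBall]
  rw [ENNReal.toReal_ofReal (by positivity)]
  exact min_le_right _ _

lemma measure_collision (Q : ℕ) (hQ : 0 < Q) (S : Finset ℤ) :
    (AddCircle.haarAddCircle (T := 1)).real {v : UnitAddCircle | ¬ Set.InjOn (fun s : ℤ => cell Q (s • v)) S} ≤
      S.card ^ 2 * (2 / Q) := by
  classical
  have hsub : {v : UnitAddCircle | ¬ Set.InjOn (fun s : ℤ => cell Q (s • v)) S} ⊆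
      ⋃ p ∈ (S ×ˢ S).filter (fun p => p.1 ≠ p.2),
        {v : UnitAddCircle | ‖(p.1 - p.2) • v‖ ≤ 1 / Q} := by
    intro v hv
    simp only [Set.mem_ofPred_eq, Set.InjOn, not_forall] at hv
    obtain ⟨s, hs, t, ht, hst, hne⟩ := hv
    refine Set.mem_biUnion (x := (s, t)) ?_ ?_
    · simp only [Finset.coe_filter, Finset.mem_product, Set.mem_ofPred_eq]
      exact ⟨⟨hs, ht⟩, hne⟩
    · simp only [Set.mem_ofPred_eq]
      rw [sub_smul]
      exact norm_sub_le_of_cell_eq Q hQ _ _ hst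
  calc (AddCircle.haarAddCircle (T := 1)).real {v : UnitAddCircle | ¬ Set.InjOn (fun s : ℤ => cell Q (s • v)) S}
      ≤ (AddCircle.haarAddCircle (T := 1)).real (⋃ p ∈ (S ×ˢ S).filter (fun p => p.1 ≠ p.2),
        {v : UnitAddCircle | ‖(p.1 - p.2) • v‖ ≤ 1 / Q}) :=
          measureReal_mono hsub (measure_ne_top _ _)
    _ ≤ ∑ p ∈ (S ×ˢ S).filter (fun p => p.1 ≠ p.2),
        (AddCircle.haarAddCircle (T := 1)).real {v : UnitAddCircle | ‖(p.1 - p.2) • v‖ ≤ 1 / Q} :=
          measureReal_biUnion_finset_le _ _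
    _ ≤ ∑ _p ∈ (S ×ˢ S).filter (fun p => p.1 ≠ p.2), (2 / (Q : ℝ)) := by
        refine Finset.sum_le_sum fun p hp => ?_
        have := measure_small (p.1 - p.2) (sub_ne_zero.2 (Finset.mem_filter.1 hp).2) (1 / Q)
          (by positivity)
        calc _ ≤ 2 * (1 / (Q : ℝ)) := this
          _ = 2 / Q := by ring
    _ ≤ S.card ^ 2 * (2 / Q) := by
        rw [Finset.sum_const, nsmul_eq_mul]
        refine mul_le_mul_of_nonneg_right ?_ (by positivity)
        have h1 : ((S ×ˢ S).filter (fun p => p.1 ≠ p.2)).card ≤ (S ×ˢ S).card :=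
          Finset.card_filter_le _ _
        rw [Finset.card_product] at h1
        calc (((S ×ˢ S).filter (fun p => p.1 ≠ p.2)).card : ℝ) ≤ ((S.card * S.card : ℕ) : ℝ) := by
              exact_mod_cast h1
          _ = S.card ^ 2 := by push_cast; ring

/-- boundary points of the cells -/
lemma cell_eventuallyEq (Q : ℕ) (hQ : 0 < Q) (t : UnitAddCircle)
    (ht : ∀ i : ℕ, t ≠ (((i : ℝ) / Q : ℝ) : UnitAddCircle)) :
    ∀ᶠ w in 𝓝 t, cell Q w = cell Q t := by
  have hQ' : (0 : ℝ) < Q := by exact_mod_cast hQ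
  have ht0 : t ≠ ((0 : ℝ) : UnitAddCircle) := by simpa using ht 0
  have hc : ContinuousAt (fun w : UnitAddCircle => (Q : ℝ) * (AddCircle.equivIco 1 0 w : ℝ)) t :=
    continuousAt_const.mul
      (continuousAt_subtype_val.comp (AddCircle.continuousAt_equivIco 1 0 ht0))
  have hx0 : 0 ≤ (AddCircle.equivIco 1 0 t : ℝ) := (AddCircle.equivIco 1 0 t).2.1
  have h1 := Nat.floor_le (mul_nonneg hQ'.le hx0)
  have h2 := Nat.lt_floor_add_one ((Q : ℝ) * (AddCircle.equivIco 1 0 t : ℝ))
  have h3 : ((cell Q t : ℕ) : ℝ) < (Q : ℝ) * (AddCircle.equivIco 1 0 t : ℝ) := by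
    refine lt_of_le_of_ne h1 fun h => ht (cell Q t) ?_
    have h4 : (AddCircle.equivIco 1 0 t : ℝ) = ((cell Q t : ℕ) : ℝ) / Q := by
      rw [eq_div_iff hQ'.ne']
      refine Eq.trans ?_ h.symm
      ring
    calc t = (((AddCircle.equivIco 1 0 t : ℝ)) : UnitAddCircle) := (coe_equivIco t).symm
      _ = _ := by rw [h4]
  have hnh : Set.Ioo ((cell Q t : ℕ) : ℝ) ((cell Q t : ℕ) + 1) ∈
      𝓝 ((Q : ℝ) * (AddCircle.equivIco 1 0 t : ℝ)) := Ioo_mem_nhds h3 h2
  filter_upwards [hc hnh] with w hw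
  rw [cell, Nat.floor_eq_iff (mul_nonneg hQ'.le (AddCircle.equivIco 1 0 w).2.1)]
  exact ⟨hw.1.le, hw.2⟩

theorem label_lemma (n : ℕ) (hn : 1 ≤ n) (ε : ℝ) (hε : 0 < ε) (N0 : ℕ) (hN0 : 1 ≤ N0) :
    ∃ (M : UnitAddCircle → ℤ) (B : ℕ), Measurable M ∧ (∀ v, M v ≠ 0 ∧ (N0 : ℤ) ∣ M v ∧ |M v| ≤ (B : ℤ)) ∧
      (∀ k : ℤ, (AddCircle.haarAddCircle (T := 1)) (frontier (M ⁻¹' {k})) = 0) ∧
      ∀ l : ℤ, l ≠ 0 → |l| ≤ (n : ℤ) →
        (AddCircle.haarAddCircle (T := 1)).real {v | M (l • v) ≠ l * M v} ≤ ε := by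
  classical
  have hn' : (0 : ℝ) < n := by exact_mod_cast hn
  obtain ⟨J, D0, ⟨j0, hj0⟩, hD0, hJD, hJl⟩ := folner n (ε / (8 * n)) (by positivity)
  have hJ0 : ∀ j ∈ J, j ≠ 0 := fun j hj h => hD0 (by
    have := hJD j hj
    rw [h] at this
    exact zero_dvd_iff.1 this)
  obtain ⟨Q, hQ⟩ := exists_nat_gt (16 * (J.card : ℝ) ^ 2 / ε)
  have hQ'' : (0 : ℝ) < Q := lt_of_le_of_lt (by positivity) hQ
  have hQ' : 0 < Q := by exact_mod_cast hQ''
  have hne : Nonempty J := ⟨⟨j0, hj0⟩⟩
  -- the cell map with values in `Fin Q`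
  let f : UnitAddCircle → ℤ → Fin Q := fun v s => ⟨cell Q (s • v), cell_lt Q hQ' _⟩
  have hfm : ∀ s, Measurable (fun v => f v s) := fun s => by
    have h1 : Measurable (fun v : UnitAddCircle => cell Q (s • v)) :=
      (measurable_cell Q).comp (measurable_const_smul s)
    refine measurable_to_countable' fun x => ?_
    have : (fun v => f v s) ⁻¹' {x} = (fun v : UnitAddCircle => cell Q (s • v)) ⁻¹' {x.1} := by
      ext v
      simp [f, Fin.ext_iff]
    rw [this]
    exact h1 (measurableSet_singleton _)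
  let G : Equiv.Perm (Fin Q) → (J → Fin Q) → ℤ := fun π g =>
    (N0 : ℤ) * D0 / ((Finite.exists_min (fun j : J => π (g j))).choose : ℤ)
  let M : Equiv.Perm (Fin Q) → UnitAddCircle → ℤ := fun π v => G π (fun j => f v j)
  have hGj : ∀ π g, ∃ j : J, G π g = (N0 : ℤ) * (D0 / (j : ℤ)) ∧ G π g * (j : ℤ) = N0 * D0 ∧
      ∀ i : J, π (g j) ≤ π (g i) := by
    intro π g
    refine ⟨(Finite.exists_min (fun j : J => π (g j))).choose, ?_, ?_,
      (Finite.exists_min (fun j : J => π (g j))).choose_spec⟩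
    · exact Int.mul_ediv_assoc _ (hJD _ (Subtype.prop _))
    · exact Int.ediv_mul_cancel ((hJD _ (Subtype.prop _)).mul_left _)
  have hMm : ∀ π, Measurable (M π) := fun π => by
    have : Measurable (fun v => (fun j : J => f v j)) := measurable_pi_iff.2 fun j => hfm j
    exact (Measurable.of_discrete (f := G π)).comp this
  -- the sets
  let S : ℤ → Finset ℤ := fun l => J ∪ J.image (fun j => l * j)
  let R : ℤ → Finset ℤ := fun l => S l \ (J ∩ J.image (fun j => l * j))
  let Bad : Equiv.Perm (Fin Q) → ℤ → Set UnitAddCircle := fun π l =>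
    {v | ∃ s ∈ R l, ∀ t ∈ S l, π (f v s) ≤ π (f v t)}
  let Coll : ℤ → Set UnitAddCircle := fun l => {v | ¬ Set.InjOn (f v) (S l)}
  have hpair : ∀ (s t : ℤ) (A : Set (Fin Q × Fin Q)), MeasurableSet {v | (f v s, f v t) ∈ A} :=
    fun s t A => ((hfm s).prodMk (hfm t)) (MeasurableSet.of_discrete (s := A))
  have hBadm : ∀ π l, MeasurableSet (Bad π l) := fun π l => by
    have : Bad π l = ⋃ s ∈ R l, ⋂ t ∈ S l, {v | (f v s, f v t) ∈ {p : Fin Q × Fin Q | π p.1 ≤ π p.2}} := by
      ext v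
      simp [Bad]
    rw [this]
    exact Finset.measurableSet_biUnion _ fun s _ => Finset.measurableSet_biInter _ fun t _ =>
      hpair s t _
  have hCollm : ∀ l, MeasurableSet (Coll l) := fun l => by
    have : Coll l = (⋂ s ∈ S l, ⋂ t ∈ S l,
        {v | (f v s, f v t) ∈ {p : Fin Q × Fin Q | p.1 = p.2 → s = t}})ᶜ := by
      ext v
      simp only [Coll, Set.InjOn, Set.mem_ofPred_eq, Set.mem_compl_iff, Set.mem_iInter, not_iff_not]
      constructor
      · intro h s hs t ht hst; exact h hs ht hst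
      · intro h s hs t ht hst; exact h s hs t ht hst
    rw [this]
    exact (Finset.measurableSet_biInter _ fun s _ => Finset.measurableSet_biInter _ fun t _ =>
      hpair s t _).compl
  -- equivariance off the bad sets
  have hequi : ∀ π l v, l ≠ 0 → v ∉ Bad π l → v ∉ Coll l → M π (l • v) = l * M π v := by
    intro π l v hl hB hC
    have hinj : Set.InjOn (f v) (S l) := not_not.1 hC
    have hSne : (S l).Nonempty := ⟨j0, Finset.mem_union_left _ hj0⟩
    obtain ⟨s, hs, hsmin⟩ := Finset.exists_min_image (S l) (fun t => π (f v t)) hSne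
    have hsR : s ∉ R l := fun h => hB ⟨s, h, hsmin⟩
    have hs2 : s ∈ J ∩ J.image (fun j => l * j) := by
      by_contra h
      exact hsR (Finset.mem_sdiff.2 ⟨hs, h⟩)
    obtain ⟨hsJ, hsl⟩ := Finset.mem_inter.1 hs2
    obtain ⟨j1, hj1, hj1s⟩ := Finset.mem_image.1 hsl
    obtain ⟨a, -, ha2, hamin⟩ := hGj π (fun j => f v j)
    obtain ⟨b, -, hb2, hbmin⟩ := hGj π (fun j => f (l • v) j)
    have hfl : ∀ j : ℤ, f (l • v) j = f v (l * j) := fun j => by
      simp only [f]
      congr 2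
      rw [smul_smul, mul_comm]
    have h1 : (a : ℤ) = s := by
      have h2 : π (f v a) ≤ π (f v s) := hamin ⟨s, hsJ⟩
      have h3 : π (f v s) ≤ π (f v a) := hsmin a (Finset.mem_union_left _ a.2)
      exact hinj (Finset.mem_coe.2 (Finset.mem_union_left _ a.2)) (Finset.mem_coe.2 hs)
        (π.injective (le_antisymm h2 h3))
    have h4 : l * (b : ℤ) = s := by
      have h5 : π (f v (l * b)) ≤ π (f v s) := by
        have := hbmin ⟨j1, hj1⟩
        simp only [hfl] at this
        rwa [hj1s] at this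
      have hmem : l * (b : ℤ) ∈ S l :=
        Finset.mem_union_right _ (Finset.mem_image.2 ⟨b, b.2, rfl⟩)
      exact hinj (Finset.mem_coe.2 hmem) (Finset.mem_coe.2 hs)
        (π.injective (le_antisymm h5 (hsmin _ hmem)))
    have hs0 : s ≠ 0 := hJ0 s hsJ
    change G π (fun j => f (l • v) j) = l * G π (fun j => f v j)
    have hb0 : (b : ℤ) ≠ 0 := hJ0 _ b.2
    apply mul_right_cancel₀ hb0
    rw [hb2, ← ha2, h1, ← h4]
    ring
  -- counting
  have hcount : ∀ l : ℤ, l ≠ 0 → |l| ≤ (n : ℤ) → ∀ v ∉ Coll l,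
      ((Finset.univ.filter (fun π : Equiv.Perm (Fin Q) => v ∈ Bad π l)).card : ℝ) ≤
        2 * (ε / (8 * n)) * Fintype.card (Equiv.Perm (Fin Q)) := by
    intro l hl hln v hv
    have hinj : Set.InjOn (f v) (S l) := not_not.1 hv
    have h1 := count_argmin (S l) (R l) Finset.sdiff_subset (f v) hinj
    have h1' : ((S l).card : ℝ) * (Finset.univ.filter (fun π : Equiv.Perm (Fin Q) => v ∈ Bad π l)).card
        ≤ (R l).card * Fintype.card (Equiv.Perm (Fin Q)) := by exact_mod_cast h1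
    have hci : (J.image (fun j => l * j)).card = J.card :=
      Finset.card_image_of_injective _ fun a b h => mul_left_cancel₀ hl h
    have h2 : (R l).card ≤ 2 * (J \ J.image (fun j => l * j)).card := by
      have hsub : R l ⊆ (J \ J.image (fun j => l * j)) ∪ (J.image (fun j => l * j) \ J) := by
        intro x hx
        simp only [R, S, Finset.mem_sdiff, Finset.mem_union, Finset.mem_inter] at hx ⊢
        tauto
      have h3 := (Finset.card_le_card hsub).trans (Finset.card_union_le _ _)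
      have h4 := Finset.card_sdiff_add_card_inter J (J.image (fun j => l * j))
      have h5 := Finset.card_sdiff_add_card_inter (J.image (fun j => l * j)) J
      rw [Finset.inter_comm] at h5
      omega
    have h2' : ((R l).card : ℝ) ≤ 2 * ((J \ J.image (fun j => l * j)).card : ℝ) := by
      exact_mod_cast h2
    have h6 := hJl l hl hln
    have h7 : (J.card : ℝ) ≤ (S l).card := by
      exact_mod_cast Finset.card_le_card (Finset.subset_union_left)
    have hJc : (0 : ℝ) < J.card := by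
      exact_mod_cast Finset.card_pos.2 ⟨j0, hj0⟩
    set x : ℝ := ((Finset.univ.filter (fun π : Equiv.Perm (Fin Q) => v ∈ Bad π l)).card : ℝ)
    set Nn : ℝ := (Fintype.card (Equiv.Perm (Fin Q)) : ℝ)
    have hx : 0 ≤ x := Nat.cast_nonneg _
    have hN : 0 ≤ Nn := Nat.cast_nonneg _
    have h8 : J.card * x ≤ J.card * (2 * (ε / (8 * n)) * Nn) := by
      calc J.card * x ≤ (S l).card * x := mul_le_mul_of_nonneg_right h7 hx
        _ ≤ (R l).card * Nn := h1'
        _ ≤ (2 * (ε / (8 * n) * J.card)) * Nn :=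
            mul_le_mul_of_nonneg_right (h2'.trans (mul_le_mul_of_nonneg_left h6 (by norm_num))) hN
        _ = J.card * (2 * (ε / (8 * n)) * Nn) := by ring
    exact le_of_mul_le_mul_left h8 hJc
  have hsum : ∀ l : ℤ, l ≠ 0 → |l| ≤ (n : ℤ) →
      ∑ π : Equiv.Perm (Fin Q), (AddCircle.haarAddCircle (T := 1)).real (Bad π l \ Coll l) ≤
        2 * (ε / (8 * n)) * Fintype.card (Equiv.Perm (Fin Q)) := by
    intro l hl hln
    have hm : ∀ π, MeasurableSet (Bad π l \ Coll l) := fun π => (hBadm π l).diff (hCollm l)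
    have h1 : ∀ π, (AddCircle.haarAddCircle (T := 1)).real (Bad π l \ Coll l) =
        ∫ v, (Bad π l \ Coll l).indicator (fun _ => (1 : ℝ)) v ∂(AddCircle.haarAddCircle (T := 1)) := fun π => by
      rw [integral_indicator (hm π)]
      simp [Measure.real]
    have hi : ∀ π, Integrable ((Bad π l \ Coll l).indicator (fun _ => (1 : ℝ))) (AddCircle.haarAddCircle (T := 1)) := fun π =>
      (integrable_const 1).indicator (hm π)
    simp only [h1]
    rw [← integral_finsetSum _ fun π _ => hi π]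
    calc ∫ v, ∑ π : Equiv.Perm (Fin Q), (Bad π l \ Coll l).indicator (fun _ => (1 : ℝ)) v ∂(AddCircle.haarAddCircle (T := 1))
        ≤ ∫ _v, 2 * (ε / (8 * n)) * Fintype.card (Equiv.Perm (Fin Q)) ∂(AddCircle.haarAddCircle (T := 1)) := by
          refine integral_mono (integrable_finsetSum _ fun π _ => hi π) (integrable_const _)
            fun v => ?_
          by_cases hv : v ∈ Coll l
          · have : ∀ π, (Bad π l \ Coll l).indicator (fun _ => (1 : ℝ)) v = 0 := fun π =>
              Set.indicator_of_notMem (fun h => h.2 hv) _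
            simp only [this, Finset.sum_const_zero]
            positivity
          · refine le_trans (le_of_eq ?_) (hcount l hl hln v hv)
            rw [Finset.card_filter, Nat.cast_sum]
            refine Finset.sum_congr rfl fun π _ => ?_
            by_cases hb : v ∈ Bad π l
            · simp [hb, hv]
            · simp [hb]
      _ = 2 * (ε / (8 * n)) * Fintype.card (Equiv.Perm (Fin Q)) := by simp
  have hcoll : ∀ l : ℤ, (AddCircle.haarAddCircle (T := 1)).real (Coll l) ≤ ε / 2 := by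
    intro l
    have h1 : Coll l = {v : UnitAddCircle | ¬ Set.InjOn (fun s : ℤ => cell Q (s • v)) (S l)} := by
      ext v
      simp only [Coll, Set.mem_ofPred_eq, Set.InjOn, f, Fin.mk.injEq]
    rw [h1]
    refine (measure_collision Q hQ' (S l)).trans ?_
    have h2 : (S l).card ≤ 2 * J.card := by
      have : (S l).card ≤ J.card + (J.image (fun j => l * j)).card := Finset.card_union_le _ _
      have h3 : (J.image (fun j => l * j)).card ≤ J.card := Finset.card_image_le
      omega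
    have h2' : ((S l).card : ℝ) ≤ 2 * J.card := by exact_mod_cast h2
    rw [div_lt_iff₀ hε] at hQ
    have h4 : ((S l).card : ℝ) ^ 2 ≤ (2 * J.card) ^ 2 := by gcongr
    calc ((S l).card : ℝ) ^ 2 * (2 / Q) ≤ (2 * J.card) ^ 2 * (2 / Q) := by gcongr
      _ = (8 * (J.card : ℝ) ^ 2) / Q := by ring
      _ ≤ ε / 2 := by
          rw [div_le_iff₀ hQ'']
          linarith only [hQ]
  -- choice of the permutation
  set L : Finset ℤ := (Finset.Icc (-(n : ℤ)) n).erase 0 with hL
  have hLcard : L.card = 2 * n := by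
    rw [hL, Finset.card_erase_of_mem (by simp), Int.card_Icc]
    omega
  have hLmem : ∀ l : ℤ, l ∈ L ↔ l ≠ 0 ∧ |l| ≤ (n : ℤ) := fun l => by
    rw [hL, Finset.mem_erase, Finset.mem_Icc, abs_le]
  obtain ⟨π, -, hπ⟩ : ∃ π ∈ (Finset.univ : Finset (Equiv.Perm (Fin Q))),
      ∑ l ∈ L, (AddCircle.haarAddCircle (T := 1)).real (Bad π l \ Coll l) ≤ ε / 2 := by
    refine Finset.exists_le_of_sum_le ⟨1, Finset.mem_univ _⟩ ?_
    rw [Finset.sum_comm]
    calc ∑ l ∈ L, ∑ π : Equiv.Perm (Fin Q), (AddCircle.haarAddCircle (T := 1)).real (Bad π l \ Coll l)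
        ≤ ∑ _l ∈ L, 2 * (ε / (8 * n)) * Fintype.card (Equiv.Perm (Fin Q)) :=
          Finset.sum_le_sum fun l hl => hsum l ((hLmem l).1 hl).1 ((hLmem l).1 hl).2
      _ = ∑ _π : Equiv.Perm (Fin Q), ε / 2 := by
          rw [Finset.sum_const, Finset.sum_const, hLcard, Finset.card_univ, nsmul_eq_mul,
            nsmul_eq_mul]
          push_cast
          field_simp
          ring
  obtain ⟨B, hB⟩ : ∃ B : ℕ, ∀ g, |G π g| ≤ (B : ℤ) := by
    refine ⟨((Finset.univ : Finset (J → Fin Q)).sup fun g => (G π g).natAbs), fun g => ?_⟩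
    rw [Int.abs_eq_natAbs]
    exact_mod_cast Finset.le_sup (f := fun g => (G π g).natAbs) (Finset.mem_univ g)
  have hN0' : (N0 : ℤ) ≠ 0 := by exact_mod_cast (by omega : N0 ≠ 0)
  refine ⟨M π, B, hMm π, fun v => ⟨?_, ?_, hB _⟩, fun k => ?_, fun l hl hln => ?_⟩
  · obtain ⟨j, -, h2, -⟩ := hGj π (fun j => f v j)
    intro h
    have h3 : G π (fun j => f v j) = 0 := h
    rw [h3, zero_mul] at h2
    exact mul_ne_zero hN0' hD0 h2.symm
  · obtain ⟨j, h1, -, -⟩ := hGj π (fun j => f v j)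
    exact ⟨_, h1⟩
  · -- the frontier
    let Bd : Set UnitAddCircle := (fun i : ℕ => (((i : ℝ) / Q : ℝ) : UnitAddCircle)) '' Set.univ
    have hBdc : Bd.Countable := (Set.countable_univ).image _
    have hsub : frontier (M π ⁻¹' {k}) ⊆ ⋃ j ∈ J, (fun v : UnitAddCircle => j • v) ⁻¹' Bd := by
      intro v hv
      by_contra hnot
      simp only [Set.mem_iUnion, Set.mem_preimage, not_exists] at hnot
      have hev : ∀ᶠ w in 𝓝 v, ∀ j ∈ J, cell Q (j • w) = cell Q (j • v) := by
        rw [Finset.eventually_all]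
        intro j hj
        have hc : ContinuousAt (fun w : UnitAddCircle => j • w) v :=
          (continuous_const_smul j).continuousAt
        exact hc.eventually (cell_eventuallyEq Q hQ' (j • v) fun i h =>
          hnot j hj ⟨i, Set.mem_univ _, h.symm⟩)
      have hev2 : ∀ᶠ w in 𝓝 v, M π w = M π v := by
        filter_upwards [hev] with w hw
        have : (fun j : J => f w j) = (fun j : J => f v j) := by
          funext j
          simp only [f, hw j j.2]
        change G π (fun j : J => f w j) = G π (fun j : J => f v j)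
        rw [this]
      have h1 : v ∈ closure (M π ⁻¹' {k}) := hv.1
      have h2 : v ∈ closure (M π ⁻¹' {k})ᶜ := by
        rw [closure_compl]; exact hv.2
      obtain ⟨w, hw1, hw2⟩ := ((mem_closure_iff_frequently.1 h1).and_eventually hev2).exists
      obtain ⟨w', hw3, hw4⟩ := ((mem_closure_iff_frequently.1 h2).and_eventually hev2).exists
      have e1 : M π w = k := hw1
      have e2 : M π w' ≠ k := hw3
      exact e2 (by rw [hw4, ← hw2, e1])
    refine measure_mono_null hsub ?_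
    refine (measure_biUnion_null_iff (Finset.countable_toSet J)).2 fun j hj => ?_
    rw [(mp_zsmul j (hJ0 j hj)).measure_preimage hBdc.measurableSet.nullMeasurableSet]
    exact measure_countable_eq_zero Bd hBdc
  · have hlL : l ∈ L := (hLmem l).2 ⟨hl, hln⟩
    have h1 : (AddCircle.haarAddCircle (T := 1)).real (Bad π l \ Coll l) ≤ ε / 2 :=
      (Finset.single_le_sum (f := fun l => (AddCircle.haarAddCircle (T := 1)).real (Bad π l \ Coll l))
        (fun l _ => measureReal_nonneg) hlL).trans hπ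
    have hsub : {v | M π (l • v) ≠ l * M π v} ⊆ (Bad π l \ Coll l) ∪ Coll l := by
      intro v hv
      by_contra hnot
      simp only [Set.mem_union, Set.mem_sdiff, not_or, not_and, not_not] at hnot
      refine hv (hequi π l v hl (fun hb => hnot.2 (hnot.1 hb)) hnot.2)
    calc (AddCircle.haarAddCircle (T := 1)).real {v | M π (l • v) ≠ l * M π v}
        ≤ (AddCircle.haarAddCircle (T := 1)).real ((Bad π l \ Coll l) ∪ Coll l) := measureReal_mono hsub (measure_ne_top _ _)
      _ ≤ (AddCircle.haarAddCircle (T := 1)).real (Bad π l \ Coll l) + (AddCircle.haarAddCircle (T := 1)).real (Coll l) := measureReal_union_le _ _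
      _ ≤ ε := by linarith only [hcoll l, h1]

end Vale.Agent.P130
end
end

section

section

open MeasureTheory Filter Topology

namespace Vale.Agent.P130

/-! ### a recursion principle with prefixes -/

theorem exists_seq_prefix {α : Type} (a0 : α) (P : ℕ → (ℕ → α) → Prop)
    (hcongr : ∀ k f g, (∀ j ≤ k, f j = g j) → P k f → P k g)
    (hstep : ∀ k f, (∀ j < k, P j f) → ∃ a, P k (Function.update f k a)) :
    ∃ f, ∀ k, P k f := by
  classical
  let step : ℕ → (ℕ → α) → (ℕ → α) := fun k f =>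
    if h : ∃ a, P k (Function.update f k a) then Function.update f k h.choose else f
  let F : ℕ → (ℕ → α) := fun k => Nat.rec (fun _ => a0) (fun k f => step k f) k
  have hF : ∀ k, F (k+1) = step k (F k) := fun k => rfl
  have hne : ∀ k j, j ≠ k → F (k+1) j = F k j := by
    intro k j hj
    rw [hF]
    simp only [step]
    split_ifs with h
    · exact Function.update_of_ne hj _ _
    · rfl
  have hstab : ∀ j d, F (j + 1 + d) j = F (j+1) j := by
    intro j d
    induction d with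
    | zero => rfl
    | succ d ih => rw [← add_assoc, hne (j+1+d) j (by omega), ih]
  have hf : ∀ K j, j < K → F K j = F (j+1) j := by
    intro K j hj
    obtain ⟨d, rfl⟩ := Nat.exists_eq_add_of_le (Nat.succ_le_of_lt hj)
    exact hstab j d
  refine ⟨fun k => F (k+1) k, ?_⟩
  intro k
  induction k using Nat.strong_induction_on with
  | _ k ih =>
    have h1 : ∀ j < k, P j (F k) := fun j hj =>
      hcongr j _ _ (fun i hi => (hf k i (lt_of_le_of_lt hi hj)).symm) (ih j hj)
    have h2 := hstep k (F k) h1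
    have h3 : P k (F (k+1)) := by
      rw [hF]
      simp only [step, dif_pos h2]
      exact h2.choose_spec
    exact hcongr k _ _ (fun j hj => hf (k+1) j (Nat.lt_succ_of_le hj)) h3

/-! ### measurability and boundedness -/

/-- a family of uniformly bounded measurable functions -/
def PeNice (g : ℕ → UnitAddCircle → ℂ) : Prop :=
  (∀ r, Measurable (g r)) ∧ ∃ C : ℝ, ∀ r y, ‖g r y‖ ≤ C

theorem pe_nice_unitFam (j : ℕ) (l : ℤ) : PeNice (unitFam j l) := by
  refine ⟨fun r => ?_, 1, fun r y => ?_⟩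
  · unfold unitFam
    split_ifs with h
    · exact (fourier l).continuous.measurable
    · exact measurable_const
  · unfold unitFam
    split_ifs with h
    · exact le_of_eq (by rw [fourier_apply, Circle.norm_coe])
    · simp

theorem PeNice.lift {h n : ℕ} {ε : ℝ} {D : SD} (hD : GoodStage h n ε D)
    {g : ℕ → UnitAddCircle → ℂ} (hg : PeNice g) : PeNice (lift h D g) := by
  obtain ⟨hm, C, hC⟩ := hg
  have hC0 : 0 ≤ C := le_trans (norm_nonneg _) (hC 0 0)
  refine ⟨fun r => ?_, (D.m * h : ℕ) * C, fun r y => ?_⟩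
  · unfold P130.lift
    refine Finset.measurable_sum _ fun i _ => Finset.measurable_sum _ fun j _ => ?_
    refine Measurable.ite ?_ ((hm j).comp (hD.mp_φ i).measurable) measurable_const
    exact measurableSet_eq_fun ((hD.meas_p i).add_const j) measurable_const
  · unfold P130.lift
    calc ‖∑ i ∈ Finset.range D.m, ∑ j ∈ Finset.range h,
          if D.p i y + j = r then g j (D.φ i y) else 0‖
        ≤ ∑ i ∈ Finset.range D.m, ∑ j ∈ Finset.range h, C := by
          refine (norm_sum_le _ _).trans (Finset.sum_le_sum fun i _ => ?_)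
          refine (norm_sum_le _ _).trans (Finset.sum_le_sum fun j _ => ?_)
          split_ifs
          · exact hC _ _
          · simpa using hC0
      _ = (D.m * h : ℕ) * C := by simp [Nat.cast_mul, mul_assoc]

theorem pe_nice_liftN {h n : ℕ → ℕ} {ε : ℕ → ℝ} {D : ℕ → SD} (k d : ℕ)
    (hD : ∀ i, k ≤ i → i < k + d → GoodStage (h i) (n i) (ε i) (D i))
    {g : ℕ → UnitAddCircle → ℂ} (hg : PeNice g) : PeNice (liftN h D k g d) := by
  induction d with
  | zero => exact hg
  | succ d ih =>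
    have h1 := ih (fun i hi hi' => hD i hi (by omega))
    exact h1.lift (hD (k + d) (by omega) (by omega))

theorem pe_liftN_congr {h h' : ℕ → ℕ} {D D' : ℕ → SD} (k : ℕ) (g : ℕ → UnitAddCircle → ℂ) (d : ℕ)
    (hh : ∀ i, k ≤ i → i < k + d → h i = h' i) (hD : ∀ i, k ≤ i → i < k + d → D i = D' i) :
    liftN h D k g d = liftN h' D' k g d := by
  induction d with
  | zero => rfl
  | succ d ih =>
    have h1 := ih (fun i hi hi' => hh i hi (by omega)) (fun i hi hi' => hD i hi (by omega))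
    show P130.lift (h (k + d)) (D (k + d)) (liftN h D k g d)
      = P130.lift (h' (k + d)) (D' (k + d)) (liftN h' D' k g d)
    rw [h1, hh (k+d) (by omega) (by omega), hD (k+d) (by omega) (by omega)]

/-! ### tails -/

theorem pe_tail_tendsto {g : UnitAddCircle → ℂ} (hg : MemLp g 2 mT) :
    Tendsto (fun n => tail n g) atTop (𝓝 0) := by
  have hs := hasSum_fourier_series_L2 (hg.toLp g)
  have hco : fourierCoeff (hg.toLp g : UnitAddCircle → ℂ) = fourierCoeff g :=
    fourierCoeff_congr_ae hg.coeFn_toLp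
  have h1 : Tendsto (fun n : ℕ => ∑ ν ∈ Finset.Icc (-(n : ℤ)) (n : ℤ),
      fourierCoeff (hg.toLp g : UnitAddCircle → ℂ) ν • fourierLp 2 ν) atTop (𝓝 (hg.toLp g)) :=
    hs.comp (Finset.tendsto_Icc_neg (R := ℤ))
  have h2 : Tendsto (fun n : ℕ => ‖hg.toLp g - ∑ ν ∈ Finset.Icc (-(n : ℤ)) (n : ℤ),
      fourierCoeff (hg.toLp g : UnitAddCircle → ℂ) ν • fourierLp 2 ν‖ ^ 2) atTop (𝓝 0) := by
    have := ((tendsto_const_nhds (x := hg.toLp g)).sub h1).norm.pow 2
    simpa using this
  refine h2.congr fun n => ?_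
  have h3 : ∀ f : Lp ℂ 2 mT, ‖f‖ ^ 2 = ∫ y, ‖f y‖ ^ 2 ∂mT := by
    intro f
    have H₃ := congr_arg RCLike.re (@L2.inner_def UnitAddCircle ℂ ℂ _ _ _ _ _ f f)
    rw [← integral_re] at H₃
    · simp only [← norm_sq_eq_re_inner] at H₃
      exact H₃
    · exact L2.integrable_inner f f
  rw [h3]
  unfold tail
  refine integral_congr_ae ?_
  have h4 : ∀ n : ℕ, ((∑ ν ∈ Finset.Icc (-(n : ℤ)) (n : ℤ),
      fourierCoeff (hg.toLp g : UnitAddCircle → ℂ) ν • (fourierLp 2 ν : Lp ℂ 2 mT) : Lp ℂ 2 mT) :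
      UnitAddCircle → ℂ) =ᵐ[mT] fun y => ∑ ν ∈ Finset.Icc (-(n : ℤ)) (n : ℤ),
        fourierCoeff g ν * fourier ν y := by
    intro n
    have h5 : ∀ᵐ y ∂mT, ∀ ν : ℤ, (fourierLp 2 ν : UnitAddCircle → ℂ) y = fourier ν y :=
      ae_all_iff.2 fun ν => coeFn_fourierLp 2 ν
    have h6 : ∀ᵐ y ∂mT, ∀ ν : ℤ, ((fourierCoeff (hg.toLp g : UnitAddCircle → ℂ) ν •
        (fourierLp 2 ν : Lp ℂ 2 mT) : Lp ℂ 2 mT) : UnitAddCircle → ℂ) y =
        fourierCoeff (hg.toLp g : UnitAddCircle → ℂ) ν * (fourierLp 2 ν : UnitAddCircle → ℂ) y :=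
      ae_all_iff.2 fun ν => by
        filter_upwards [Lp.coeFn_smul (fourierCoeff (hg.toLp g : UnitAddCircle → ℂ) ν)
          (fourierLp 2 ν : Lp ℂ 2 mT)] with y hy
        rw [hy]
        simp
    have h7 := Lp.coeFn_finsetSum (Finset.Icc (-(n : ℤ)) (n : ℤ))
      (fun ν => fourierCoeff (hg.toLp g : UnitAddCircle → ℂ) ν • (fourierLp 2 ν : Lp ℂ 2 mT))
    filter_upwards [h5, h6, h7] with y h5 h6 h7
    rw [h7]
    simp only [Finset.sum_apply]
    refine Finset.sum_congr rfl fun ν _ => ?_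
    rw [h6 ν, h5 ν, hco]
  filter_upwards [Lp.coeFn_sub (hg.toLp g) (∑ ν ∈ Finset.Icc (-(n : ℤ)) (n : ℤ),
      fourierCoeff (hg.toLp g : UnitAddCircle → ℂ) ν • (fourierLp 2 ν : Lp ℂ 2 mT)),
      hg.coeFn_toLp, h4 n] with y hy1 hy2 hy3
  rw [hy1]
  simp only [Pi.sub_apply]
  rw [hy2, hy3]

/-! ### the error coefficients -/

theorem pe_norm_fourier (l : ℤ) (x : UnitAddCircle) : ‖(fourier l x : ℂ)‖ = 1 := by
  rw [fourier_apply, Circle.norm_coe]

theorem pe_measurable_MM {m : ℕ} {p : ℕ → UnitAddCircle → ℕ} {φ : ℕ → UnitAddCircle → UnitAddCircle}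
    (hp : ∀ i, Measurable (p i)) (hφ : ∀ i, Measurable (φ i)) (l : ℤ) :
    Measurable (fun z : UnitAddCircle × UnitAddCircle => MM m p φ l z.1 z.2) := by
  unfold MM
  refine Measurable.const_mul (Finset.measurable_sum _ fun i _ => Measurable.mul ?_ ?_) _
  · have h1 : Measurable (fun z : UnitAddCircle × ℕ => (fourier (z.2 : ℤ) z.1 : ℂ)) :=
      measurable_from_prod_countable_left fun n => (fourier (n : ℤ)).continuous.measurable
    exact h1.comp (measurable_fst.prodMk ((hp i).comp measurable_snd))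
  · exact (fourier l).continuous.measurable.comp ((hφ i).comp measurable_snd)

theorem pe_norm_MM_le (m : ℕ) (p : ℕ → UnitAddCircle → ℕ) (φ : ℕ → UnitAddCircle → UnitAddCircle)
    (l : ℤ) (x y : UnitAddCircle) : ‖MM m p φ l x y‖ ≤ (Real.sqrt m)⁻¹ * m := by
  unfold MM
  rw [norm_mul, norm_inv, Complex.norm_real, Real.norm_of_nonneg (Real.sqrt_nonneg _)]
  refine mul_le_mul_of_nonneg_left ?_ (by positivity)
  refine (norm_sum_le _ _).trans ?_
  calc ∑ i ∈ Finset.range m, ‖(fourier (p i y : ℤ) x * fourier l (φ i y) : ℂ)‖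
      = ∑ i ∈ Finset.range m, (1 : ℝ) := by
        refine Finset.sum_congr rfl fun i _ => ?_
        rw [norm_mul, pe_norm_fourier, pe_norm_fourier, one_mul]
    _ ≤ m := by simp

theorem pe_memLp_acoef {h n : ℕ} {ε : ℝ} {D : SD} (hD : GoodStage h n ε D) (l lam : ℤ) :
    MemLp (acoef D l lam) 2 mT := by
  have hMM := pe_measurable_MM (m := D.m) hD.meas_p (fun i => (hD.mp_φ i).measurable) l
  have h1 : Measurable (fun x => fourierCoeff (fun y => MM D.m D.p D.φ l x y) lam) := by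
    unfold fourierCoeff
    have h2 : Measurable (fun z : UnitAddCircle × UnitAddCircle =>
        (fourier (-lam) z.2 : ℂ) • MM D.m D.p D.φ l z.1 z.2) :=
      ((fourier (-lam)).continuous.measurable.comp measurable_snd).smul hMM
    exact h2.stronglyMeasurable.integral_prod_right'.measurable
  have h3 : Measurable (acoef D l lam) := by
    unfold acoef
    refine h1.sub ((hD.meas_θ l).mul (Measurable.ite ?_ measurable_const measurable_const))
    exact measurableSet_eq_fun hD.meas_N measurable_const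
  refine MemLp.of_bound h3.aestronglyMeasurable ((Real.sqrt D.m)⁻¹ * D.m + 1)
    (Eventually.of_forall fun x => ?_)
  unfold acoef
  refine (norm_sub_le _ _).trans (add_le_add ?_ ?_)
  · unfold fourierCoeff
    refine (norm_integral_le_of_norm_le_const (C := (Real.sqrt D.m)⁻¹ * D.m)
      (Eventually.of_forall fun y => ?_)).trans ?_
    · rw [norm_smul, pe_norm_fourier, one_mul]
      exact pe_norm_MM_le _ _ _ _ _ _
    · simp
  · rw [norm_mul, hD.norm_θ, one_mul]
    split_ifs <;> simp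

/-! ### the recursion -/

/-- data at one level of a plan -/
structure LD where
  h : ℕ
  n : ℕ
  ε : ℝ
  D : SD

/-- a dummy value -/
def LD0 : LD := ⟨1, 1, 1, ⟨1, 1, fun _ _ => 0, fun _ y => y, fun _ _ => 1, fun _ => 1, 1⟩⟩

/-- the conditions of a plan at level `k` -/
structure LvGood (k : ℕ) (f : ℕ → LD) : Prop where
  h_zero : k = 0 → (f k).h = 1
  h_pos : 1 ≤ (f k).h
  h_succ : ∀ j, j + 1 = k → (f k).h = (f j).D.h'
  n_ge : k + 1 ≤ (f k).n
  n_B : ∀ j, j + 1 = k → (f j).D.B ≤ (f k).n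
  ε_pos : 0 < (f k).ε
  ε_le : 4 * (f k).n * (f k).ε ≤ (1/2)^k / (((f k).h * (2 * (f k).n) : ℕ) : ℝ)^2
  good : GoodStage (f k).h (f k).n (f k).ε (f k).D
  rot : ∀ j, j + 1 = k → ∑ l ∈ labs (f j).n,
    ∫ x, ‖∑ lam ∈ labs (f k).n, acoef (f j).D l lam x * (f k).D.θ lam x‖ ^ 2 ∂mT ≤
      ∑ l ∈ labs (f j).n, ∑ lam ∈ labs (f k).n, ∫ x, ‖acoef (f j).D l lam x‖ ^ 2 ∂mT
  tails : ∀ k' d, k' + d = k → ∀ j (l : ℤ) r, j < (f k').h → |l| ≤ (k : ℤ) → r < (f k).h →
    tail (f k).n (liftN (fun i => (f i).h) (fun i => (f i).D) k' (unitFam j l) d r) ≤ (1/2)^k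

theorem LvGood.congr (k : ℕ) (f g : ℕ → LD) (hfg : ∀ j ≤ k, f j = g j) (hf : LvGood k f) :
    LvGood k g := by
  have e := hfg k le_rfl
  have e' : ∀ j, j + 1 = k → f j = g j := fun j hj => hfg j (by omega)
  refine ⟨?_, ?_, ?_, ?_, ?_, ?_, ?_, ?_, ?_, ?_⟩
  · rw [← e]; exact hf.h_zero
  · rw [← e]; exact hf.h_pos
  · intro j hj; rw [← e, ← e' j hj]; exact hf.h_succ j hj
  · rw [← e]; exact hf.n_ge
  · intro j hj; rw [← e, ← e' j hj]; exact hf.n_B j hj
  · rw [← e]; exact hf.ε_pos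
  · rw [← e]; exact hf.ε_le
  · rw [← e]; exact hf.good
  · intro j hj; rw [← e, ← e' j hj]; exact hf.rot j hj
  · intro k' d hk j l r hj hl hr
    have e1 : f k' = g k' := hfg k' (by omega)
    rw [← e] at hr ⊢
    rw [← e1] at hj
    rw [← pe_liftN_congr (h := fun i => (f i).h) (D := fun i => (f i).D) k' (unitFam j l) d
      (fun i _ hi => by rw [hfg i (by omega)]) (fun i _ hi => by rw [hfg i (by omega)])]
    exact hf.tails k' d hk j l r hj hl hr

theorem LvGood.step
    (hstage : ∀ (h : ℕ), 1 ≤ h → ∀ (n : ℕ), 1 ≤ n → ∀ (ε : ℝ), 0 < ε → ∃ D : SD, GoodStage h n ε D)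
    (hrot : ∀ (h n : ℕ) (ε : ℝ) (D : SD) (ρ : UnitAddCircle),
      GoodStage h n ε D → GoodStage h n ε (D.rot ρ))
    (hexrot : ∀ (n : ℕ) (D : SD), (∀ l, Measurable (D.θ l)) → (∀ l x, ‖D.θ l x‖ = 1) →
      ∀ (I : Finset ℤ) (a : ℤ → ℤ → UnitAddCircle → ℂ), (∀ i l, MemLp (a i l) 2 mT) →
      ∃ ρ : UnitAddCircle, ∑ i ∈ I, ∫ x, ‖∑ lam ∈ labs n, a i lam x * (D.rot ρ).θ lam x‖ ^ 2 ∂mT ≤
        ∑ i ∈ I, ∑ lam ∈ labs n, ∫ x, ‖a i lam x‖ ^ 2 ∂mT)
    (k : ℕ) (f : ℕ → LD) (hf : ∀ j < k, LvGood j f) :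
    ∃ a, LvGood k (Function.update f k a) := by
  -- the height
  obtain ⟨hk, hk0, hk1, hk2⟩ : ∃ hk : ℕ, (k = 0 → hk = 1) ∧ 1 ≤ hk ∧
      (∀ j, j + 1 = k → hk = (f j).D.h') := by
    rcases k with _ | k
    · exact ⟨1, fun _ => rfl, le_rfl, fun j hj => by omega⟩
    · refine ⟨(f k).D.h', fun h => by omega, ?_, ?_⟩
      · have h1 := hf k (by omega)
        have h2 := h1.good.fit 0 0 (by have := h1.good.two_le; omega)
        have h3 := h1.h_pos
        omega
      · intro j hj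
        have : j = k := by omega
        rw [this]
  -- tails
  have hnice : ∀ k' d, k' + d = k → ∀ j (l : ℤ),
      PeNice (liftN (fun i => (f i).h) (fun i => (f i).D) k' (unitFam j l) d) := by
    intro k' d hd j l
    exact pe_nice_liftN (n := fun i => (f i).n) (ε := fun i => (f i).ε) k' d
      (fun i _ hi => (hf i (by omega)).good) (pe_nice_unitFam j l)
  have htail : ∀ k' d, k' + d = k → ∀ j (l : ℤ) r, ∀ᶠ N : ℕ in atTop,
      tail N (liftN (fun i => (f i).h) (fun i => (f i).D) k' (unitFam j l) d r) ≤ (1/2)^k := by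
    intro k' d hd j l r
    obtain ⟨hm, C, hC⟩ := hnice k' d hd j l
    have hLp : MemLp (liftN (fun i => (f i).h) (fun i => (f i).D) k' (unitFam j l) d r) 2 mT :=
      MemLp.of_bound (hm r).aestronglyMeasurable C (Eventually.of_forall fun x => hC r x)
    exact ((pe_tail_tendsto hLp).eventually_lt_const (by positivity)).mono fun N hN => hN.le
  have hall : ∀ᶠ N : ℕ in atTop, ∀ k' ∈ Finset.range (k+1), ∀ j ∈ Finset.range ((f k').h + hk),
      ∀ l ∈ Finset.Icc (-(k : ℤ)) k, ∀ r ∈ Finset.range hk,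
      tail N (liftN (fun i => (f i).h) (fun i => (f i).D) k' (unitFam j l) (k - k') r)
        ≤ (1/2)^k := by
    rw [Finset.eventually_all]
    intro k' hk'
    rw [Finset.eventually_all]
    intro j _
    rw [Finset.eventually_all]
    intro l _
    rw [Finset.eventually_all]
    intro r _
    have := Finset.mem_range.1 hk'
    exact htail k' (k - k') (by omega) j l r
  obtain ⟨B, hB⟩ : ∃ B : ℕ, ∀ j, j + 1 = k → (f j).D.B ≤ B := by
    rcases k with _ | k
    · exact ⟨0, fun j hj => by omega⟩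
    · refine ⟨(f k).D.B, fun j hj => ?_⟩
      have : j = k := by omega
      rw [this]
  obtain ⟨N, hN1, hN2, hN3⟩ : ∃ N : ℕ, k + 1 ≤ N ∧ B ≤ N ∧
      ∀ k' ∈ Finset.range (k+1), ∀ j ∈ Finset.range ((f k').h + hk),
      ∀ l ∈ Finset.Icc (-(k : ℤ)) k, ∀ r ∈ Finset.range hk,
      tail N (liftN (fun i => (f i).h) (fun i => (f i).D) k' (unitFam j l) (k - k') r)
        ≤ (1/2)^k := by
    obtain ⟨N, h1, h2, h3⟩ := ((eventually_ge_atTop (k+1)).and
      ((eventually_ge_atTop B).and hall)).exists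
    exact ⟨N, h1, h2, h3⟩
  -- the tolerance
  have hNpos : (0 : ℝ) < N := by
    have : 0 < N := by omega
    exact_mod_cast this
  have hT : (0 : ℝ) < (1/2)^k / ((hk * (2 * N) : ℕ) : ℝ)^2 := by
    have : 0 < hk * (2 * N) := by
      have : 0 < N := by omega
      positivity
    have h2 : (0 : ℝ) < ((hk * (2 * N) : ℕ) : ℝ) := by exact_mod_cast this
    positivity
  obtain ⟨ε, hε0, hε⟩ : ∃ ε : ℝ, 0 < ε ∧ 4 * N * ε ≤ (1/2)^k / ((hk * (2 * N) : ℕ) : ℝ)^2 := by
    refine ⟨(1/2)^k / ((hk * (2 * N) : ℕ) : ℝ)^2 / (4 * N), by positivity, le_of_eq ?_⟩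
    field_simp
  -- the stage
  obtain ⟨D, hD, hDrot⟩ : ∃ D : SD, GoodStage hk N ε D ∧ ∀ j, j + 1 = k →
      ∑ l ∈ labs (f j).n, ∫ x, ‖∑ lam ∈ labs N, acoef (f j).D l lam x * D.θ lam x‖ ^ 2 ∂mT ≤
      ∑ l ∈ labs (f j).n, ∑ lam ∈ labs N, ∫ x, ‖acoef (f j).D l lam x‖ ^ 2 ∂mT := by
    obtain ⟨D0, hD0⟩ := hstage hk hk1 N (by omega) ε hε0
    rcases k with _ | k
    · exact ⟨D0, hD0, fun j hj => by omega⟩
    · obtain ⟨ρ, hρ⟩ := hexrot N D0 hD0.meas_θ hD0.norm_θ (labs (f k).n)
        (fun l lam => acoef (f k).D l lam) (fun l lam => pe_memLp_acoef (hf k (by omega)).good l lam)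
      refine ⟨D0.rot ρ, hrot _ _ _ _ _ hD0, fun j hj => ?_⟩
      have : j = k := by omega
      rw [this]
      exact hρ
  have e : ∀ a : LD, Function.update f k a k = a := fun a => Function.update_self _ _ _
  have e' : ∀ (a : LD) (j : ℕ), j + 1 = k → Function.update f k a j = f j := fun a j hj =>
    Function.update_of_ne (by omega) _ _
  have e'' : ∀ (a : LD) (j : ℕ), j < k → Function.update f k a j = f j := fun a j hj =>
    Function.update_of_ne (by omega) _ _
  refine ⟨⟨hk, N, ε, D⟩, ?_⟩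
  refine ⟨?_, ?_, ?_, ?_, ?_, ?_, ?_, ?_, ?_, ?_⟩
  · rw [e]; exact hk0
  · rw [e]; exact hk1
  · intro j hj; rw [e, e' _ j hj]; exact hk2 j hj
  · rw [e]; exact hN1
  · intro j hj; rw [e, e' _ j hj]; exact (hB j hj).trans hN2
  · rw [e]; exact hε0
  · rw [e]; exact hε
  · rw [e]; exact hD
  · intro j hj; rw [e, e' _ j hj]; exact hDrot j hj
  · intro k' d hkd j l r hj hl hr
    rw [e] at hr ⊢
    have hl' := abs_le.1 hl
    rw [pe_liftN_congr (h' := fun i => (f i).h) (D' := fun i => (f i).D) k' (unitFam j l) d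
      (fun i _ hi => by simp only [e'' _ i (by omega : i < k)])
      (fun i _ hi => by simp only [e'' _ i (by omega : i < k)])]
    have hd : d = k - k' := by omega
    rw [hd]
    refine hN3 k' (Finset.mem_range.2 (by omega)) j (Finset.mem_range.2 ?_) l
      (Finset.mem_Icc.2 ⟨hl'.1, hl'.2⟩) r (Finset.mem_range.2 hr)
    rcases Nat.lt_or_ge k' k with h | h
    · rw [e'' _ k' h] at hj
      omega
    · have : k' = k := by omega
      rw [this, e] at hj
      simp only at hj
      omega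

/-- existence of a full plan from the stage lemma and the rotation lemmas -/
theorem exists_plan_of
    (hstage : ∀ (h : ℕ), 1 ≤ h → ∀ (n : ℕ), 1 ≤ n → ∀ (ε : ℝ), 0 < ε → ∃ D : SD, GoodStage h n ε D)
    (hrot : ∀ (h n : ℕ) (ε : ℝ) (D : SD) (ρ : UnitAddCircle),
      GoodStage h n ε D → GoodStage h n ε (D.rot ρ))
    (hexrot : ∀ (n : ℕ) (D : SD), (∀ l, Measurable (D.θ l)) → (∀ l x, ‖D.θ l x‖ = 1) →
      ∀ (I : Finset ℤ) (a : ℤ → ℤ → UnitAddCircle → ℂ), (∀ i l, MemLp (a i l) 2 mT) →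
      ∃ ρ : UnitAddCircle, ∑ i ∈ I, ∫ x, ‖∑ lam ∈ labs n, a i lam x * (D.rot ρ).θ lam x‖ ^ 2 ∂mT ≤
        ∑ i ∈ I, ∑ lam ∈ labs n, ∫ x, ‖a i lam x‖ ^ 2 ∂mT) :
    Nonempty Plan := by
  obtain ⟨f, hf⟩ := exists_seq_prefix LD0 LvGood LvGood.congr
    (LvGood.step hstage hrot hexrot)
  exact ⟨{
    D := fun k => (f k).D
    h := fun k => (f k).h
    n := fun k => (f k).n
    ε := fun k => (f k).ε
    h_zero := (hf 0).h_zero rfl
    h_succ := fun k => (hf (k+1)).h_succ k rfl
    n_ge := fun k => (hf k).n_ge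
    n_B := fun k => (hf (k+1)).n_B k rfl
    ε_pos := fun k => (hf k).ε_pos
    ε_le := fun k => (hf k).ε_le
    good := fun k => (hf k).good
    rot := fun k => (hf (k+1)).rot k rfl
    tails := fun k d j l r hj hl hr => (hf (k+d)).tails k d rfl j l r hj hl hr }⟩

end Vale.Agent.P130
end
end

section

section

/-!
# P130, task F1: circle side I

Orthonormality relations of the model vectors on the circle, and the bound for the transition
coefficients.
-/

open MeasureTheory Filter Topology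

namespace Vale.Agent.P130

section basics

lemma c1_norm_fourier_apply (n : ℤ) (x : UnitAddCircle) : ‖(fourier n x : ℂ)‖ = 1 := by
  rw [fourier_apply, Circle.norm_coe]

lemma c1_conj_fourier_mul (n m : ℤ) (x : UnitAddCircle) :
    starRingEnd ℂ (fourier n x) * fourier m x = fourier (m - n) x := by
  rw [← fourier_neg, ← fourier_add]
  congr 2
  ring

lemma c1_integral_fourier (n : ℤ) : ∫ x, (fourier n x : ℂ) ∂mT = if n = 0 then 1 else 0 := by
  have h := congrFun (fourierCoeff_fourier (T := 1) n) 0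
  simp only [fourierCoeff, neg_zero, fourier_zero, one_smul] at h
  rw [h, Pi.single_apply]
  simp [eq_comm]

lemma c1_measurable_fourier (n : ℤ) : Measurable fun x : UnitAddCircle => (fourier n x : ℂ) :=
  (map_continuous (fourier n)).measurable

lemma c1_measurable_fourier_uncurry :
    Measurable fun z : ℤ × UnitAddCircle => (fourier z.1 z.2 : ℂ) :=
  measurable_from_prod_countable_right fun n => c1_measurable_fourier n

lemma c1_measurable_fourier_comp {α : Type*} [MeasurableSpace α] {f : α → ℤ} {g : α → UnitAddCircle}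
    (hf : Measurable f) (hg : Measurable g) : Measurable fun a => (fourier (f a) (g a) : ℂ) :=
  c1_measurable_fourier_uncurry.comp (hf.prodMk hg)

/-- The product of two copies of the circle. -/
noncomputable abbrev c1_mT2 : Measure (UnitAddCircle × UnitAddCircle) := mT.prod mT

lemma c1_integrable_of_bound {α : Type*} [MeasurableSpace α] {μ : Measure α} [IsFiniteMeasure μ]
    {E : Type*} [NormedAddCommGroup E] [MeasurableSpace E] [BorelSpace E]
    [SecondCountableTopology E] {f : α → E} (hf : Measurable f) (C : ℝ) (hC : ∀ a, ‖f a‖ ≤ C) :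
    Integrable f μ :=
  Integrable.of_bound hf.aestronglyMeasurable C (Filter.Eventually.of_forall hC)

end basics

section MM

variable {m : ℕ} {p : ℕ → UnitAddCircle → ℕ} {φ : ℕ → UnitAddCircle → UnitAddCircle}

lemma c1_measurable_MM (hp : ∀ i, Measurable (p i)) (hφ : ∀ i, Measurable (φ i)) (l : ℤ) :
    Measurable fun z : UnitAddCircle × UnitAddCircle => MM m p φ l z.1 z.2 := by
  unfold MM
  refine Measurable.const_mul (Finset.measurable_fun_sum _ fun i _ => ?_) _
  refine Measurable.mul ?_ ?_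
  · exact c1_measurable_fourier_comp
      ((measurable_of_countable (fun n : ℕ => (n : ℤ))).comp ((hp i).comp measurable_snd))
      measurable_fst
  · exact (c1_measurable_fourier l).comp ((hφ i).comp measurable_snd)

lemma c1_norm_MM_le (l : ℤ) (x y : UnitAddCircle) : ‖MM m p φ l x y‖ ≤ √m := by
  unfold MM
  rw [norm_mul, norm_inv, Complex.norm_real, Real.norm_of_nonneg (Real.sqrt_nonneg _)]
  have h1 : ‖∑ i ∈ Finset.range m, (fourier (p i y : ℤ) x : ℂ) * fourier l (φ i y)‖ ≤ m := by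
    refine (norm_sum_le _ _).trans ?_
    have : ∀ i ∈ Finset.range m, ‖(fourier (p i y : ℤ) x : ℂ) * fourier l (φ i y)‖ = 1 := by
      intro i _
      rw [norm_mul, c1_norm_fourier_apply, c1_norm_fourier_apply, one_mul]
    rw [Finset.sum_congr rfl this]
    simp
  rcases Nat.eq_zero_or_pos m with h0 | h0
  · subst h0
    simp
  · have hm : (0 : ℝ) < √m := Real.sqrt_pos.2 (by exact_mod_cast h0)
    calc (√(m : ℝ))⁻¹ * ‖∑ i ∈ Finset.range m, (fourier (p i y : ℤ) x : ℂ) * fourier l (φ i y)‖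
        ≤ (√(m : ℝ))⁻¹ * m := by gcongr
      _ = √m := by
        rw [inv_mul_eq_div, div_eq_iff hm.ne']
        exact (Real.mul_self_sqrt (Nat.cast_nonneg m)).symm

end MM

namespace GoodStage

variable {h n : ℕ} {ε : ℝ} {D : SD}

lemma meas_φ (hD : GoodStage h n ε D) (i : ℕ) : Measurable (D.φ i) := (hD.mp_φ i).measurable

lemma meas_MM (hD : GoodStage h n ε D) (l : ℤ) :
    Measurable fun z : UnitAddCircle × UnitAddCircle => MM D.m D.p D.φ l z.1 z.2 :=
  c1_measurable_MM hD.meas_p hD.meas_φ l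

lemma meas_MM_right (hD : GoodStage h n ε D) (l : ℤ) (x : UnitAddCircle) :
    Measurable fun y => MM D.m D.p D.φ l x y := (hD.meas_MM l).of_uncurry_left

/-- The model function `θ_l(x) e_{N x}(y)`. -/
lemma meas_model (hD : GoodStage h n ε D) (l : ℤ) :
    Measurable fun z : UnitAddCircle × UnitAddCircle => D.θ l z.1 * fourier (D.N z.1) z.2 :=
  ((hD.meas_θ l).comp measurable_fst).mul
    (c1_measurable_fourier_comp (hD.meas_N.comp measurable_fst) measurable_snd)

lemma norm_model (hD : GoodStage h n ε D) (l : ℤ) (z : UnitAddCircle × UnitAddCircle) :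
    ‖D.θ l z.1 * fourier (D.N z.1) z.2‖ = 1 := by
  rw [norm_mul, hD.norm_θ, c1_norm_fourier_apply, one_mul]

lemma main_prod (hD : GoodStage h n ε D) {l : ℤ} (hl : l ∈ labs n) :
    ∫ z, ‖MM D.m D.p D.φ l z.1 z.2 - D.θ l z.1 * fourier (D.N z.1) z.2‖ ^ 2 ∂c1_mT2 ≤ ε ^ 2 := by
  have hi : Integrable (fun z : UnitAddCircle × UnitAddCircle =>
      ‖MM D.m D.p D.φ l z.1 z.2 - D.θ l z.1 * fourier (D.N z.1) z.2‖ ^ 2) c1_mT2 := by
    refine c1_integrable_of_bound (((hD.meas_MM l).sub (hD.meas_model l)).norm.pow_const 2)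
      ((√D.m + 1) ^ 2) fun z => ?_
    have h1 : ‖MM D.m D.p D.φ l z.1 z.2‖ ≤ √D.m := c1_norm_MM_le l z.1 z.2
    have h2 : ‖D.θ l z.1 * fourier (D.N z.1) z.2‖ = 1 := hD.norm_model l z
    have h3 : ‖MM D.m D.p D.φ l z.1 z.2 - D.θ l z.1 * fourier (D.N z.1) z.2‖ ≤ √D.m + 1 := by
      refine (norm_sub_le _ _).trans ?_
      rw [h2]
      linarith
    rw [norm_pow, norm_norm]
    exact pow_le_pow_left₀ (norm_nonneg _) h3 2
  have h4 := hD.main l hl
  rw [integral_prod _ hi]
  exact h4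

/-- Frequencies of distinct blocks are distinct. -/
lemma inj (hD : GoodStage h n ε D) {i i' : ℕ} (hi : i < D.m) (hi' : i' < D.m) {j j' : ℕ}
    (hj : j < h) (hj' : j' < h) {y : UnitAddCircle} (he : D.p i y + j = D.p i' y + j') :
    i = i' ∧ j = j' := by
  rcases lt_trichotomy i i' with hlt | heq | hlt
  · have := hD.disj i i' y hlt hi'
    omega
  · subst heq
    exact ⟨rfl, by omega⟩
  · have := hD.disj i' i y hlt hi
    omega

/-- Exact orthonormality of the transferred functions. -/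
lemma orth_MM (hD : GoodStage h n ε D) {j j' : ℕ} (hj : j < h) (hj' : j' < h) (l l' : ℤ) :
    ∫ z, starRingEnd ℂ (MM D.m D.p D.φ l z.1 z.2) * MM D.m D.p D.φ l' z.1 z.2 *
      fourier ((j' : ℤ) - j) z.1 ∂c1_mT2 = if j = j' ∧ l = l' then 1 else 0 := by
  have hm : (0 : ℝ) < D.m := by
    have := hD.two_le
    exact_mod_cast (by omega : 0 < D.m)
  have hi : Integrable (fun z : UnitAddCircle × UnitAddCircle =>
      starRingEnd ℂ (MM D.m D.p D.φ l z.1 z.2) * MM D.m D.p D.φ l' z.1 z.2 *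
      fourier ((j' : ℤ) - j) z.1) c1_mT2 := by
    refine c1_integrable_of_bound ((((Complex.continuous_conj.measurable.comp (hD.meas_MM l))).mul
      (hD.meas_MM l')).mul ((c1_measurable_fourier _).comp measurable_fst)) (√D.m * √D.m) fun z => ?_
    rw [norm_mul, norm_mul, c1_norm_fourier_apply, mul_one, RCLike.norm_conj]
    exact mul_le_mul (c1_norm_MM_le _ _ _) (c1_norm_MM_le _ _ _) (norm_nonneg _) (Real.sqrt_nonneg _)
  rw [integral_prod_symm _ hi]
  have hinner : ∀ y : UnitAddCircle, ∫ x, starRingEnd ℂ (MM D.m D.p D.φ l x y) *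
      MM D.m D.p D.φ l' x y * fourier ((j' : ℤ) - j) x ∂mT
      = ((D.m : ℝ) : ℂ)⁻¹ * ∑ i ∈ Finset.range D.m,
        (if j = j' then fourier (l' - l) (D.φ i y) else 0) := by
    intro y
    have e1 : ∀ x, starRingEnd ℂ (MM D.m D.p D.φ l x y) *
        MM D.m D.p D.φ l' x y * fourier ((j' : ℤ) - j) x
        = ((D.m : ℝ) : ℂ)⁻¹ * ∑ i ∈ Finset.range D.m, ∑ i' ∈ Finset.range D.m,
          (starRingEnd ℂ (fourier l (D.φ i y)) * fourier l' (D.φ i' y)) *
            fourier ((D.p i' y : ℤ) + j' - (D.p i y + j)) x := by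
      intro x
      have hsq : ((Real.sqrt D.m : ℝ) : ℂ)⁻¹ * ((Real.sqrt D.m : ℝ) : ℂ)⁻¹
          = ((D.m : ℝ) : ℂ)⁻¹ := by
        rw [← mul_inv, ← Complex.ofReal_mul, Real.mul_self_sqrt hm.le]
      unfold MM
      rw [map_mul, map_inv₀, Complex.conj_ofReal, map_sum]
      calc ((Real.sqrt D.m : ℝ) : ℂ)⁻¹ * (∑ i ∈ Finset.range D.m,
            starRingEnd ℂ (fourier (D.p i y : ℤ) x * fourier l (D.φ i y))) *
            (((Real.sqrt D.m : ℝ) : ℂ)⁻¹ * ∑ i ∈ Finset.range D.m,
              fourier (D.p i y : ℤ) x * fourier l' (D.φ i y)) * fourier ((j' : ℤ) - j) x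
          = (((Real.sqrt D.m : ℝ) : ℂ)⁻¹ * ((Real.sqrt D.m : ℝ) : ℂ)⁻¹) *
            (((∑ i ∈ Finset.range D.m,
            starRingEnd ℂ (fourier (D.p i y : ℤ) x * fourier l (D.φ i y))) *
            ∑ i ∈ Finset.range D.m, fourier (D.p i y : ℤ) x * fourier l' (D.φ i y))
              * fourier ((j' : ℤ) - j) x) := by ring
        _ = _ := by
          rw [hsq, Finset.sum_mul_sum, Finset.sum_mul]
          congr 1
          refine Finset.sum_congr rfl fun i _ => ?_
          rw [Finset.sum_mul]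
          refine Finset.sum_congr rfl fun i' _ => ?_
          have e2 : ((D.p i' y : ℤ) + j' - (D.p i y + j))
              = ((D.p i' y : ℤ) - (D.p i y : ℤ)) + ((j' : ℤ) - j) := by ring
          rw [e2, fourier_add, ← c1_conj_fourier_mul (D.p i y : ℤ) (D.p i' y : ℤ) x, map_mul]
          ring
    simp_rw [e1]
    rw [integral_const_mul, integral_finsetSum]
    · congr 1
      refine Finset.sum_congr rfl fun i hi' => ?_
      rw [integral_finsetSum]
      · have e3 : ∀ i' ∈ Finset.range D.m,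
            ∫ x, (starRingEnd ℂ (fourier l (D.φ i y)) * fourier l' (D.φ i' y)) *
            fourier ((D.p i' y : ℤ) + j' - (D.p i y + j)) x ∂mT
            = if i' = i then (if j = j' then fourier (l' - l) (D.φ i y) else 0) else 0 := by
          intro i' hi''
          rw [integral_const_mul, c1_integral_fourier]
          by_cases hc : (D.p i' y : ℤ) + j' - (D.p i y + j) = 0
          · rw [if_pos hc]
            have h1 : D.p i y + j = D.p i' y + j' := by omega
            obtain ⟨h2, h3⟩ := hD.inj (Finset.mem_range.1 hi') (Finset.mem_range.1 hi'') hj hj' h1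
            subst h2
            rw [if_pos rfl, if_pos h3, mul_one, c1_conj_fourier_mul]
          · rw [if_neg hc, mul_zero]
            by_cases h2 : i' = i
            · subst h2
              rw [if_pos rfl, if_neg]
              rintro rfl
              exact hc (by ring)
            · rw [if_neg h2]
        rw [Finset.sum_congr rfl e3, Finset.sum_ite_eq' (Finset.range D.m) i, if_pos hi']
      · intro i' _
        exact Integrable.const_mul (c1_integrable_of_bound (c1_measurable_fourier _) 1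
          fun x => (c1_norm_fourier_apply _ _).le) _
    · intro i _
      refine integrable_finsetSum _ fun i' _ => ?_
      exact Integrable.const_mul (c1_integrable_of_bound (c1_measurable_fourier _) 1
          fun x => (c1_norm_fourier_apply _ _).le) _
  simp_rw [hinner]
  rw [integral_const_mul, integral_finsetSum]
  · by_cases hjj : j = j'
    · simp only [hjj, if_true, true_and]
      have e4 : ∀ i ∈ Finset.range D.m, ∫ y, (fourier (l' - l) (D.φ i y) : ℂ) ∂mT
          = if l = l' then 1 else 0 := by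
        intro i _
        have h1 : ∫ y, (fourier (l' - l) (D.φ i y) : ℂ) ∂mT
            = ∫ y, (fourier (l' - l) y : ℂ) ∂mT := by
          conv_rhs => rw [← (hD.mp_φ i).map_eq]
          rw [integral_map (hD.meas_φ i).aemeasurable
            (c1_measurable_fourier _).aestronglyMeasurable]
        rw [h1, c1_integral_fourier]
        by_cases hll : l = l'
        · simp [hll]
        · rw [if_neg hll, if_neg]
          intro h2
          exact hll (by omega)
      rw [Finset.sum_congr rfl e4]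
      by_cases hll : l = l'
      · simp only [hll, if_true, Finset.sum_const, Finset.card_range, nsmul_eq_mul, mul_one]
        have : ((D.m : ℝ) : ℂ) ≠ 0 := by exact_mod_cast hm.ne'
        rw [Complex.ofReal_natCast] at this ⊢
        exact inv_mul_cancel₀ this
      · simp [hll]
    · simp [hjj]
  · intro i _
    refine c1_integrable_of_bound (Measurable.ite (by measurability)
      ((c1_measurable_fourier _).comp (hD.meas_φ i)) measurable_const) 1 fun y => ?_
    split_ifs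
    · exact (c1_norm_fourier_apply _ _).le
    · simp

/-- `∫∫ conj(θ_l e_N) θ_{l'} e_N e_d = ∫ conj(θ_l) θ_{l'} e_d`. -/
lemma integral_model (_hD : GoodStage h n ε D) (l l' d : ℤ) :
    ∫ z, starRingEnd ℂ (D.θ l z.1 * fourier (D.N z.1) z.2) *
      (D.θ l' z.1 * fourier (D.N z.1) z.2) * fourier d z.1 ∂c1_mT2
      = ∫ x, starRingEnd ℂ (D.θ l x) * D.θ l' x * fourier d x ∂mT := by
  have e1 : ∀ z : UnitAddCircle × UnitAddCircle,
      starRingEnd ℂ (D.θ l z.1 * fourier (D.N z.1) z.2) *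
      (D.θ l' z.1 * fourier (D.N z.1) z.2) * fourier d z.1
      = starRingEnd ℂ (D.θ l z.1) * D.θ l' z.1 * fourier d z.1 := by
    intro z
    have h1 := c1_conj_fourier_mul (D.N z.1) (D.N z.1) z.2
    rw [sub_self, fourier_zero] at h1
    rw [map_mul]
    calc starRingEnd ℂ (D.θ l z.1) * starRingEnd ℂ (fourier (D.N z.1) z.2) *
          (D.θ l' z.1 * fourier (D.N z.1) z.2) * fourier d z.1
        = (starRingEnd ℂ (fourier (D.N z.1) z.2) * fourier (D.N z.1) z.2) *
          (starRingEnd ℂ (D.θ l z.1) * D.θ l' z.1 * fourier d z.1) := by ring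
      _ = _ := by rw [h1, one_mul]
  simp_rw [e1]
  have h2 := integral_fun_fst (μ := mT) (ν := mT)
    (f := fun x : UnitAddCircle => starRingEnd ℂ (D.θ l x) * D.θ l' x * fourier d x)
  rw [h2]
  simp

/-- Approximate orthonormality of the phases. -/
lemma orth_θ (hD : GoodStage h n ε D) (hε : 0 < ε) {j j' : ℕ} (hj : j < h) (hj' : j' < h)
    {l l' : ℤ} (hl : l ∈ labs n) (hl' : l' ∈ labs n) :
    ‖∫ x, starRingEnd ℂ (D.θ l x) * D.θ l' x * fourier ((j' : ℤ) - j) x ∂mT
      - (if j = j' ∧ l = l' then (1 : ℂ) else 0)‖ ≤ 2 * ε := by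
  set G : UnitAddCircle × UnitAddCircle → ℂ := fun z => MM D.m D.p D.φ l z.1 z.2 with hG
  set G' : UnitAddCircle × UnitAddCircle → ℂ := fun z => MM D.m D.p D.φ l' z.1 z.2 with hG'
  set T : UnitAddCircle × UnitAddCircle → ℂ :=
    fun z => D.θ l z.1 * fourier (D.N z.1) z.2 with hT
  set T' : UnitAddCircle × UnitAddCircle → ℂ :=
    fun z => D.θ l' z.1 * fourier (D.N z.1) z.2 with hT'
  set e : UnitAddCircle × UnitAddCircle → ℂ := fun z => fourier ((j' : ℤ) - j) z.1 with he
  have mG : Measurable G := hD.meas_MM l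
  have mG' : Measurable G' := hD.meas_MM l'
  have mT' : Measurable T := hD.meas_model l
  have mT'' : Measurable T' := hD.meas_model l'
  have me : Measurable e := (c1_measurable_fourier _).comp measurable_fst
  have nG : ∀ z, ‖G z‖ ≤ √D.m := fun z => c1_norm_MM_le l z.1 z.2
  have nG' : ∀ z, ‖G' z‖ ≤ √D.m := fun z => c1_norm_MM_le l' z.1 z.2
  have nT : ∀ z, ‖T z‖ = 1 := fun z => hD.norm_model l z
  have nT' : ∀ z, ‖T' z‖ = 1 := fun z => hD.norm_model l' z
  have ne : ∀ z, ‖e z‖ = 1 := fun z => c1_norm_fourier_apply _ _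
  have h1 : ∫ z, starRingEnd ℂ (G z) * G' z * e z ∂c1_mT2 = if j = j' ∧ l = l' then (1 : ℂ) else 0 :=
    hD.orth_MM hj hj' l l'
  have h2 : ∫ z, starRingEnd ℂ (T z) * T' z * e z ∂c1_mT2
      = ∫ x, starRingEnd ℂ (D.θ l x) * D.θ l' x * fourier ((j' : ℤ) - j) x ∂mT :=
    hD.integral_model l l' _
  have hsq : ∫ z, ‖G' z‖ ^ 2 ∂c1_mT2 = 1 := by
    have h3 := hD.orth_MM hj' hj' l' l'
    rw [if_pos ⟨rfl, rfl⟩] at h3
    have e2 : ∀ z : UnitAddCircle × UnitAddCircle,
        starRingEnd ℂ (MM D.m D.p D.φ l' z.1 z.2) * MM D.m D.p D.φ l' z.1 z.2 *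
          fourier ((j' : ℤ) - j') z.1 = ((‖G' z‖ ^ 2 : ℝ) : ℂ) := by
      intro z
      rw [sub_self, fourier_zero, mul_one, hG', RCLike.conj_mul]
      push_cast
      rfl
    simp_rw [e2] at h3
    have h4 : ∫ z, ((‖G' z‖ ^ 2 : ℝ) : ℂ) ∂c1_mT2 = ((∫ z, ‖G' z‖ ^ 2 ∂c1_mT2 : ℝ) : ℂ) :=
      integral_complex_ofReal
    rw [h4] at h3
    exact_mod_cast h3
  have iG : Integrable (fun z => starRingEnd ℂ (G z) * G' z * e z) c1_mT2 := by
    refine c1_integrable_of_bound (((Complex.continuous_conj.measurable.comp mG).mul mG').mul me)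
      (√D.m * √D.m) fun z => ?_
    rw [norm_mul, norm_mul, ne, mul_one, RCLike.norm_conj]
    exact mul_le_mul (nG z) (nG' z) (norm_nonneg _) (Real.sqrt_nonneg _)
  have iT : Integrable (fun z => starRingEnd ℂ (T z) * T' z * e z) c1_mT2 := by
    refine c1_integrable_of_bound (((Complex.continuous_conj.measurable.comp mT').mul mT'').mul me)
      1 fun z => ?_
    rw [norm_mul, norm_mul, ne, mul_one, RCLike.norm_conj, nT, nT', one_mul]
  rw [← h1, ← h2, ← integral_sub iT iG]
  refine (norm_integral_le_integral_norm _).trans ?_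
  have i1 : Integrable (fun z => ‖G z - T z‖ ^ 2) c1_mT2 := by
    refine c1_integrable_of_bound ((mG.sub mT').norm.pow_const 2) ((√D.m + 1) ^ 2) fun z => ?_
    rw [norm_pow, norm_norm]
    refine pow_le_pow_left₀ (norm_nonneg _) ((norm_sub_le _ _).trans ?_) 2
    rw [nT z]
    linarith [nG z]
  have i2 : Integrable (fun z => ‖G' z - T' z‖ ^ 2) c1_mT2 := by
    refine c1_integrable_of_bound ((mG'.sub mT'').norm.pow_const 2) ((√D.m + 1) ^ 2) fun z => ?_
    rw [norm_pow, norm_norm]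
    refine pow_le_pow_left₀ (norm_nonneg _) ((norm_sub_le _ _).trans ?_) 2
    rw [nT' z]
    linarith [nG' z]
  have i3 : Integrable (fun z => ‖G' z‖ ^ 2) c1_mT2 := by
    refine c1_integrable_of_bound (mG'.norm.pow_const 2) ((√D.m) ^ 2) fun z => ?_
    rw [norm_pow, norm_norm]
    exact pow_le_pow_left₀ (norm_nonneg _) (nG' z) 2
  have hpt : ∀ z, ‖starRingEnd ℂ (T z) * T' z * e z - starRingEnd ℂ (G z) * G' z * e z‖
      ≤ (2 * ε)⁻¹ * ‖G z - T z‖ ^ 2 + ε / 2 * ‖G' z‖ ^ 2
        + ((2 * ε)⁻¹ * ‖G' z - T' z‖ ^ 2 + ε / 2) := by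
    intro z
    have e3 : starRingEnd ℂ (T z) * T' z * e z - starRingEnd ℂ (G z) * G' z * e z
        = -(starRingEnd ℂ (G z - T z) * G' z + starRingEnd ℂ (T z) * (G' z - T' z)) * e z := by
      rw [map_sub]
      ring
    rw [e3, norm_mul, ne, mul_one, norm_neg]
    refine (norm_add_le _ _).trans ?_
    rw [norm_mul, norm_mul, RCLike.norm_conj, RCLike.norm_conj, nT, one_mul]
    have am : ∀ a b : ℝ, a * b ≤ (2 * ε)⁻¹ * a ^ 2 + ε / 2 * b ^ 2 := by
      intro a b
      have : (2 * ε)⁻¹ * a ^ 2 + ε / 2 * b ^ 2 - a * b = (2 * ε)⁻¹ * (a - ε * b) ^ 2 := by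
        field_simp
        ring
      have h5 : 0 ≤ (2 * ε)⁻¹ * (a - ε * b) ^ 2 := by positivity
      linarith only [this, h5]
    have a1 := am ‖G z - T z‖ ‖G' z‖
    have a2 := am ‖G' z - T' z‖ 1
    rw [mul_one, one_pow, mul_one] at a2
    linarith only [a1, a2]
  have i4 : Integrable (fun z => (2 * ε)⁻¹ * ‖G z - T z‖ ^ 2 + ε / 2 * ‖G' z‖ ^ 2
        + ((2 * ε)⁻¹ * ‖G' z - T' z‖ ^ 2 + ε / 2)) c1_mT2 :=
    ((i1.const_mul _).add (i3.const_mul _)).add ((i2.const_mul _).add (integrable_const _))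
  refine (integral_mono (iT.sub iG).norm i4 hpt).trans ?_
  have h6 : ∫ z, ‖G z - T z‖ ^ 2 ∂c1_mT2 ≤ ε ^ 2 := hD.main_prod hl
  have h7 : ∫ z, ‖G' z - T' z‖ ^ 2 ∂c1_mT2 ≤ ε ^ 2 := hD.main_prod hl'
  have e4 : ∫ z, ((2 * ε)⁻¹ * ‖G z - T z‖ ^ 2 + ε / 2 * ‖G' z‖ ^ 2
        + ((2 * ε)⁻¹ * ‖G' z - T' z‖ ^ 2 + ε / 2)) ∂c1_mT2
      = (2 * ε)⁻¹ * (∫ z, ‖G z - T z‖ ^ 2 ∂c1_mT2) + ε / 2 * 1
        + ((2 * ε)⁻¹ * (∫ z, ‖G' z - T' z‖ ^ 2 ∂c1_mT2) + ε / 2) := by
    have j1 : Integrable (fun z => (2 * ε)⁻¹ * ‖G z - T z‖ ^ 2 + ε / 2 * ‖G' z‖ ^ 2) c1_mT2 :=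
      (i1.const_mul _).add (i3.const_mul _)
    have j2 : Integrable (fun z => (2 * ε)⁻¹ * ‖G' z - T' z‖ ^ 2 + ε / 2) c1_mT2 :=
      (i2.const_mul _).add (integrable_const _)
    rw [integral_add j1 j2, integral_add (i1.const_mul _) (i3.const_mul _),
      integral_add (i2.const_mul _) (integrable_const _), integral_const_mul, integral_const_mul,
      integral_const_mul, integral_const, hsq]
    simp
  rw [e4]
  have h8 : (2 * ε)⁻¹ * ∫ z, ‖G z - T z‖ ^ 2 ∂c1_mT2 ≤ ε / 2 := by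
    calc (2 * ε)⁻¹ * ∫ z, ‖G z - T z‖ ^ 2 ∂c1_mT2 ≤ (2 * ε)⁻¹ * ε ^ 2 := by gcongr
      _ = ε / 2 := by field_simp
  have h9 : (2 * ε)⁻¹ * ∫ z, ‖G' z - T' z‖ ^ 2 ∂c1_mT2 ≤ ε / 2 := by
    calc (2 * ε)⁻¹ * ∫ z, ‖G' z - T' z‖ ^ 2 ∂c1_mT2 ≤ (2 * ε)⁻¹ * ε ^ 2 := by gcongr
      _ = ε / 2 := by field_simp
  linarith only [h8, h9]

lemma lift_unitFam {j : ℕ} (hj : j < h) (l : ℤ) (r : ℕ) (y : UnitAddCircle) :
    lift h D (unitFam j l) r y
      = ∑ i ∈ Finset.range D.m, if D.p i y + j = r then fourier l (D.φ i y) else 0 := by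
  unfold lift unitFam
  refine Finset.sum_congr rfl fun i _ => ?_
  rw [Finset.sum_eq_single j]
  · simp
  · intro j' _ hne
    simp [hne]
  · intro hne
    exact absurd (Finset.mem_range.2 hj) hne

lemma meas_lift_unitFam (hD : GoodStage h n ε D) {j : ℕ} (hj : j < h) (l : ℤ) (r : ℕ) :
    Measurable fun y => lift h D (unitFam j l) r y := by
  have h1 : (fun y => lift h D (unitFam j l) r y) = fun y =>
      ∑ i ∈ Finset.range D.m, if D.p i y + j = r then (fourier l (D.φ i y) : ℂ) else 0 :=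
    funext fun y => lift_unitFam hj l r y
  rw [h1]
  refine Finset.measurable_fun_sum _ fun i _ => Measurable.ite ?_
    ((c1_measurable_fourier l).comp (hD.meas_φ i)) measurable_const
  exact measurableSet_eq_fun ((hD.meas_p i).add_const j) measurable_const

lemma norm_lift_unitFam_le {j : ℕ} (hj : j < h) (l : ℤ) (r : ℕ) (y : UnitAddCircle) :
    ‖lift h D (unitFam j l) r y‖ ≤ D.m := by
  rw [lift_unitFam hj]
  refine (norm_sum_le _ _).trans ?_
  have : ∀ i ∈ Finset.range D.m,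
      ‖if D.p i y + j = r then (fourier l (D.φ i y) : ℂ) else 0‖ ≤ 1 := by
    intro i _
    split_ifs
    · exact (c1_norm_fourier_apply _ _).le
    · simp
  refine (Finset.sum_le_sum this).trans ?_
  simp

/-- The transition coefficients are the Fourier coefficients of `MM`. -/
theorem coef_sum (hD : GoodStage h n ε D) {j : ℕ} (hj : j < h) (l lam : ℤ) (x : UnitAddCircle) :
    ∑ r ∈ Finset.range D.h', coef h D j l r lam * fourier (r : ℤ) x
      = fourier (j : ℤ) x * fourierCoeff (fun y => MM D.m D.p D.φ l x y) lam := by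
  unfold coef fourierCoeff
  have hint : ∀ r : ℕ, Integrable (fun y => (fourier (-lam) y : ℂ) • lift h D (unitFam j l) r y)
      mT := by
    intro r
    refine c1_integrable_of_bound ((c1_measurable_fourier _).smul (hD.meas_lift_unitFam hj l r)) D.m
      fun y => ?_
    rw [norm_smul, c1_norm_fourier_apply, one_mul]
    exact norm_lift_unitFam_le hj l r y
  have e1 : ∑ r ∈ Finset.range D.h', ((Real.sqrt D.m : ℝ) : ℂ)⁻¹ *
        (∫ y, (fourier (-lam) y : ℂ) • lift h D (unitFam j l) r y ∂mT) * fourier (r : ℤ) x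
      = ((Real.sqrt D.m : ℝ) : ℂ)⁻¹ * ∫ y, ∑ r ∈ Finset.range D.h',
        ((fourier (-lam) y : ℂ) • lift h D (unitFam j l) r y) * fourier (r : ℤ) x ∂mT := by
    rw [integral_finsetSum _ fun r _ => (hint r).mul_const _, Finset.mul_sum]
    refine Finset.sum_congr rfl fun r _ => ?_
    rw [integral_mul_const]
    ring
  refine Eq.trans e1 ?_
  have e2 : (fourier (j : ℤ) x : ℂ) * ∫ y, (fourier (-lam) y : ℂ) • MM D.m D.p D.φ l x y ∂mT
      = ∫ y, (fourier (j : ℤ) x : ℂ) * ((fourier (-lam) y : ℂ) • MM D.m D.p D.φ l x y) ∂mT :=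
    (integral_const_mul _ _).symm
  refine Eq.trans ?_ e2.symm
  rw [← integral_const_mul]
  refine integral_congr_ae (Filter.Eventually.of_forall fun y => ?_)
  simp only [smul_eq_mul]
  have e3 : ∑ r ∈ Finset.range D.h',
        ((fourier (-lam) y : ℂ) * lift h D (unitFam j l) r y) * fourier (r : ℤ) x
      = (fourier (-lam) y : ℂ) * ∑ i ∈ Finset.range D.m,
        fourier l (D.φ i y) * fourier ((D.p i y + j : ℕ) : ℤ) x := by
    rw [Finset.mul_sum]
    have e4 : ∀ r ∈ Finset.range D.h',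
        ((fourier (-lam) y : ℂ) * lift h D (unitFam j l) r y) * fourier (r : ℤ) x
        = ∑ i ∈ Finset.range D.m, if D.p i y + j = r then
          (fourier (-lam) y : ℂ) * (fourier l (D.φ i y) * fourier (r : ℤ) x) else 0 := by
      intro r _
      rw [lift_unitFam hj, Finset.mul_sum, Finset.sum_mul]
      refine Finset.sum_congr rfl fun i _ => ?_
      split_ifs
      · ring
      · simp
    rw [Finset.sum_congr rfl e4, Finset.sum_comm]
    refine Finset.sum_congr rfl fun i hi => ?_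
    rw [Finset.sum_ite_eq (Finset.range D.h') (D.p i y + j), if_pos]
    rw [Finset.mem_range]
    have := hD.fit i y (Finset.mem_range.1 hi)
    omega
  rw [e3]
  unfold MM
  have e5 : ∀ i, (fourier ((D.p i y + j : ℕ) : ℤ) x : ℂ)
      = fourier (j : ℤ) x * fourier (D.p i y : ℤ) x := by
    intro i
    rw [← fourier_add]
    congr 2
    push_cast
    ring
  have e6 : ∑ i ∈ Finset.range D.m, (fourier l (D.φ i y) : ℂ) * fourier ((D.p i y + j : ℕ) : ℤ) x
      = fourier (j : ℤ) x * ∑ i ∈ Finset.range D.m, fourier (D.p i y : ℤ) x * fourier l (D.φ i y) := by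
    rw [Finset.mul_sum]
    refine Finset.sum_congr rfl fun i _ => ?_
    rw [e5]
    ring
  rw [e6]
  ring

/-- Parseval for a finite trigonometric polynomial. -/
lemma parseval_range (N : ℕ) (a : ℕ → ℂ) :
    ∫ x, ‖∑ r ∈ Finset.range N, a r * (fourier (r : ℤ) x : ℂ)‖ ^ 2 ∂mT
      = ∑ r ∈ Finset.range N, ‖a r‖ ^ 2 := by
  have e1 : ∀ x : UnitAddCircle,
      ((‖∑ r ∈ Finset.range N, a r * (fourier (r : ℤ) x : ℂ)‖ ^ 2 : ℝ) : ℂ)
      = ∑ r ∈ Finset.range N, ∑ s ∈ Finset.range N,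
        (starRingEnd ℂ (a r) * a s) * fourier ((s : ℤ) - r) x := by
    intro x
    rw [Complex.ofReal_pow, ← Complex.conj_mul', map_sum, Finset.sum_mul_sum]
    refine Finset.sum_congr rfl fun r _ => Finset.sum_congr rfl fun s _ => ?_
    rw [← c1_conj_fourier_mul, map_mul]
    ring
  have h1 : ((∫ x, ‖∑ r ∈ Finset.range N, a r * (fourier (r : ℤ) x : ℂ)‖ ^ 2 ∂mT : ℝ) : ℂ)
      = ((∑ r ∈ Finset.range N, ‖a r‖ ^ 2 : ℝ) : ℂ) := by
    rw [← integral_complex_ofReal]
    simp_rw [e1]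
    rw [integral_finsetSum]
    · push_cast
      refine Finset.sum_congr rfl fun r hr => ?_
      rw [integral_finsetSum]
      · have e2 : ∀ s ∈ Finset.range N, ∫ x, (starRingEnd ℂ (a r) * a s) *
            (fourier ((s : ℤ) - r) x : ℂ) ∂mT = if s = r then (‖a r‖ : ℂ) ^ 2 else 0 := by
          intro s _
          rw [integral_const_mul, c1_integral_fourier]
          by_cases hsr : s = r
          · subst hsr
            simp [RCLike.conj_mul]
          · rw [if_neg (by omega), if_neg hsr, mul_zero]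
        rw [Finset.sum_congr rfl e2, Finset.sum_ite_eq' (Finset.range N) r, if_pos hr]
      · intro s _
        exact (c1_integrable_of_bound (c1_measurable_fourier _) 1
          fun x => (c1_norm_fourier_apply _ _).le).const_mul _
    · intro r _
      refine integrable_finsetSum _ fun s _ => ?_
      exact (c1_integrable_of_bound (c1_measurable_fourier _) 1
          fun x => (c1_norm_fourier_apply _ _).le).const_mul _
  exact_mod_cast h1

/-- One-term Bessel inequality. -/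
lemma bessel_one {f : UnitAddCircle → ℂ} (hf : Measurable f) {C : ℝ} (hC : ∀ y, ‖f y‖ ≤ C)
    (b : ℂ) (ν : ℤ) :
    ∫ y, ‖f y‖ ^ 2 ∂mT - ‖fourierCoeff f ν‖ ^ 2 ≤ ∫ y, ‖f y - b * fourier ν y‖ ^ 2 ∂mT := by
  have hC0 : 0 ≤ C := (norm_nonneg _).trans (hC 0)
  have if2 : Integrable (fun y => ‖f y‖ ^ 2) mT := by
    refine c1_integrable_of_bound (hf.norm.pow_const 2) (C ^ 2) fun y => ?_
    rw [norm_pow, norm_norm]
    exact pow_le_pow_left₀ (norm_nonneg _) (hC y) 2
  have ifc : Integrable (fun y => (fourier (-ν) y : ℂ) • f y) mT := by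
    refine c1_integrable_of_bound ((c1_measurable_fourier _).smul hf) C fun y => ?_
    rw [norm_smul, c1_norm_fourier_apply, one_mul]
    exact hC y
  have e1 : ∀ y, ‖f y - b * fourier ν y‖ ^ 2
      = ‖f y‖ ^ 2 + ‖b‖ ^ 2 - 2 * (starRingEnd ℂ b * ((fourier (-ν) y : ℂ) • f y)).re := by
    intro y
    have h1 : (starRingEnd ℂ b * ((fourier (-ν) y : ℂ) • f y)).re
        = (f y * starRingEnd ℂ (b * fourier ν y)).re := by
      congr 1
      rw [smul_eq_mul, fourier_neg, map_mul]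
      ring
    rw [h1, ← Complex.normSq_eq_norm_sq, Complex.normSq_sub, Complex.normSq_eq_norm_sq,
      Complex.normSq_eq_norm_sq, norm_mul, c1_norm_fourier_apply, mul_one]
  simp_rw [e1]
  have j1 : Integrable (fun y => ‖f y‖ ^ 2 + ‖b‖ ^ 2) mT := if2.add (integrable_const _)
  have j2 : Integrable (fun y => 2 * (starRingEnd ℂ b * ((fourier (-ν) y : ℂ) • f y)).re) mT :=
    ((ifc.const_mul _).re).const_mul 2
  rw [integral_sub j1 j2, integral_add if2 (integrable_const _), integral_const_mul]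
  have h2 : ∫ y, (starRingEnd ℂ b * ((fourier (-ν) y : ℂ) • f y)).re ∂mT
      = (starRingEnd ℂ b * fourierCoeff f ν).re := by
    have h3 := integral_re (μ := mT) (ifc.const_mul (starRingEnd ℂ b))
    simp only [RCLike.re_to_complex] at h3
    rw [h3, integral_const_mul]
    rfl
  rw [h2]
  have h4 : (starRingEnd ℂ b * fourierCoeff f ν).re ≤ ‖b‖ * ‖fourierCoeff f ν‖ := by
    refine (Complex.re_le_norm _).trans (le_of_eq ?_)
    rw [norm_mul, RCLike.norm_conj]
  have h5 : ∫ _y : UnitAddCircle, ‖b‖ ^ 2 ∂mT = ‖b‖ ^ 2 := by simp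
  rw [h5]
  linarith only [sq_nonneg (‖b‖ - ‖fourierCoeff f ν‖), h4]

/-- The controlled coefficients exhaust the vector up to `ε²`. -/
lemma one_sub_sum_coef_le (hD : GoodStage h n ε D) {n' : ℕ} (hB : D.B ≤ n') {j : ℕ} (hj : j < h)
    {l : ℤ} (hl : l ∈ labs n) :
    1 - ∑ b ∈ idx2 D.h' n', ‖coef h D j l b.1 b.2‖ ^ 2 ≤ ε ^ 2 := by
  set c : ℤ → UnitAddCircle → ℂ :=
    fun lam x => fourierCoeff (fun y => MM D.m D.p D.φ l x y) lam with hc
  have hcm : ∀ lam, Measurable (c lam) := by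
    intro lam
    have h1 : Measurable fun z : UnitAddCircle × UnitAddCircle =>
        (fourier (-lam) z.2 : ℂ) • MM D.m D.p D.φ l z.1 z.2 :=
      ((c1_measurable_fourier _).comp measurable_snd).smul (hD.meas_MM l)
    exact (h1.stronglyMeasurable.integral_prod_right (ν := mT)).measurable
  have hcb : ∀ lam x, ‖c lam x‖ ≤ √D.m := by
    intro lam x
    have h2 : ‖c lam x‖ ≤ ∫ y, ‖(fourier (-lam) y : ℂ) • MM D.m D.p D.φ l x y‖ ∂mT :=
      norm_integral_le_integral_norm _
    refine h2.trans ?_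
    have h3 : ∫ y, ‖(fourier (-lam) y : ℂ) • MM D.m D.p D.φ l x y‖ ∂mT ≤ ∫ _y, √D.m ∂mT := by
      refine integral_mono_of_nonneg (Filter.Eventually.of_forall fun y => norm_nonneg _)
        (integrable_const _) (Filter.Eventually.of_forall fun y => ?_)
      simp only
      rw [norm_smul, c1_norm_fourier_apply, one_mul]
      exact c1_norm_MM_le l x y
    refine h3.trans (le_of_eq ?_)
    simp
  have hic : ∀ lam, Integrable (fun x => ‖c lam x‖ ^ 2) mT := by
    intro lam
    refine c1_integrable_of_bound ((hcm lam).norm.pow_const 2) (√D.m ^ 2) fun x => ?_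
    rw [norm_pow, norm_norm]
    exact pow_le_pow_left₀ (norm_nonneg _) (hcb lam x) 2
  -- Parseval in `x`
  have hP : ∀ lam, ∑ r ∈ Finset.range D.h', ‖coef h D j l r lam‖ ^ 2 = ∫ x, ‖c lam x‖ ^ 2 ∂mT := by
    intro lam
    rw [← parseval_range]
    refine integral_congr_ae (Filter.Eventually.of_forall fun x => ?_)
    simp only
    rw [hD.coef_sum hj l lam x, norm_mul, c1_norm_fourier_apply, one_mul]
  have hS : ∑ b ∈ idx2 D.h' n', ‖coef h D j l b.1 b.2‖ ^ 2
      = ∫ x, ∑ lam ∈ labs n', ‖c lam x‖ ^ 2 ∂mT := by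
    unfold idx2
    rw [Finset.sum_product_right, integral_finsetSum _ fun lam _ => hic lam]
    exact Finset.sum_congr rfl fun lam _ => hP lam
  -- total mass
  have hi2 : Integrable (fun z : UnitAddCircle × UnitAddCircle =>
      ‖MM D.m D.p D.φ l z.1 z.2‖ ^ 2) c1_mT2 := by
    refine c1_integrable_of_bound ((hD.meas_MM l).norm.pow_const 2) (√D.m ^ 2) fun z => ?_
    rw [norm_pow, norm_norm]
    exact pow_le_pow_left₀ (norm_nonneg _) (c1_norm_MM_le l z.1 z.2) 2
  have hone : ∫ x, ∫ y, ‖MM D.m D.p D.φ l x y‖ ^ 2 ∂mT ∂mT = 1 := by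
    have h3 := hD.orth_MM hj hj l l
    rw [if_pos ⟨rfl, rfl⟩] at h3
    have e2 : ∀ z : UnitAddCircle × UnitAddCircle,
        starRingEnd ℂ (MM D.m D.p D.φ l z.1 z.2) * MM D.m D.p D.φ l z.1 z.2 *
          fourier ((j : ℤ) - j) z.1 = ((‖MM D.m D.p D.φ l z.1 z.2‖ ^ 2 : ℝ) : ℂ) := by
      intro z
      rw [sub_self, fourier_zero, mul_one, Complex.conj_mul', Complex.ofReal_pow]
    simp_rw [e2] at h3
    have h4 : ∫ z : UnitAddCircle × UnitAddCircle,
          ((‖MM D.m D.p D.φ l z.1 z.2‖ ^ 2 : ℝ) : ℂ) ∂c1_mT2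
        = ((∫ z : UnitAddCircle × UnitAddCircle, ‖MM D.m D.p D.φ l z.1 z.2‖ ^ 2 ∂c1_mT2 : ℝ) : ℂ) :=
      integral_complex_ofReal
    rw [h4] at h3
    have h5 : ∫ z : UnitAddCircle × UnitAddCircle, ‖MM D.m D.p D.φ l z.1 z.2‖ ^ 2 ∂c1_mT2 = 1 := by
      exact_mod_cast h3
    have h6 := integral_prod _ hi2
    exact h6.symm.trans h5
  have hmid : Integrable (fun x => ∫ y, ‖MM D.m D.p D.φ l x y‖ ^ 2 ∂mT) mT :=
    hi2.integral_prod_left
  have hsub : Integrable (fun z : UnitAddCircle × UnitAddCircle =>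
      ‖MM D.m D.p D.φ l z.1 z.2 - D.θ l z.1 * fourier (D.N z.1) z.2‖ ^ 2) c1_mT2 := by
    refine c1_integrable_of_bound (((hD.meas_MM l).sub (hD.meas_model l)).norm.pow_const 2)
      ((√D.m + 1) ^ 2) fun z => ?_
    have h1 : ‖MM D.m D.p D.φ l z.1 z.2‖ ≤ √D.m := c1_norm_MM_le l z.1 z.2
    have h2 : ‖D.θ l z.1 * fourier (D.N z.1) z.2‖ = 1 := hD.norm_model l z
    have h3 : ‖MM D.m D.p D.φ l z.1 z.2 - D.θ l z.1 * fourier (D.N z.1) z.2‖ ≤ √D.m + 1 := by
      refine (norm_sub_le _ _).trans ?_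
      rw [h2]
      linarith
    rw [norm_pow, norm_norm]
    exact pow_le_pow_left₀ (norm_nonneg _) h3 2
  have hright : Integrable (fun x =>
      ∫ y, ‖MM D.m D.p D.φ l x y - D.θ l x * fourier (D.N x) y‖ ^ 2 ∂mT) mT :=
    hsub.integral_prod_left
  have hpt : ∀ x, (∫ y, ‖MM D.m D.p D.φ l x y‖ ^ 2 ∂mT) - ∑ lam ∈ labs n', ‖c lam x‖ ^ 2
      ≤ ∫ y, ‖MM D.m D.p D.φ l x y - D.θ l x * fourier (D.N x) y‖ ^ 2 ∂mT := by
    intro x
    have h1 := bessel_one (hD.meas_MM_right l x) (fun y => c1_norm_MM_le l x y) (D.θ l x) (D.N x)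
    have h2 : D.N x ∈ labs n' := by
      unfold labs
      rw [Finset.mem_erase, Finset.mem_Icc]
      have h3 := hD.N_le x
      rw [abs_le] at h3
      exact ⟨hD.N_ne x, by omega, by omega⟩
    have h3 : ‖c (D.N x) x‖ ^ 2 ≤ ∑ lam ∈ labs n', ‖c lam x‖ ^ 2 :=
      Finset.single_le_sum (f := fun lam => ‖c lam x‖ ^ 2) (fun lam _ => sq_nonneg _) h2
    have h4 : ‖c (D.N x) x‖ ^ 2 = ‖fourierCoeff (fun y => MM D.m D.p D.φ l x y) (D.N x)‖ ^ 2 := rfl
    linarith
  have hsum : Integrable (fun x => ∑ lam ∈ labs n', ‖c lam x‖ ^ 2) mT :=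
    integrable_finsetSum _ fun lam _ => hic lam
  have h1 := integral_mono (hmid.sub hsum) hright hpt
  have h2 : ∫ x, ((∫ y, ‖MM D.m D.p D.φ l x y‖ ^ 2 ∂mT) - ∑ lam ∈ labs n', ‖c lam x‖ ^ 2) ∂mT
      = 1 - ∑ b ∈ idx2 D.h' n', ‖coef h D j l b.1 b.2‖ ^ 2 := by
    rw [integral_sub hmid hsum, hone, hS]
  have h3 := hD.main l hl
  rw [← h2]
  exact h1.trans h3

end GoodStage

namespace Plan

variable (τ : Plan)

lemma norm_phi (k : ℕ) (l : ℤ) (x : UnitAddCircle) : ‖τ.phi k l x‖ = 1 := by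
  unfold phi
  rw [norm_mul, RCLike.norm_conj, (τ.good k).norm_θ, (τ.good k).norm_θ, one_mul]

lemma measurable_phi (k : ℕ) (l : ℤ) : Measurable (τ.phi k l) := by
  unfold phi
  exact ((τ.good k).meas_θ l).mul (Complex.continuous_conj.measurable.comp ((τ.good k).meas_θ 1))

lemma norm_u (k : ℕ) (x : UnitAddCircle) : ‖τ.u k x‖ = 1 := by
  unfold u
  rw [norm_mul, (τ.good k).norm_θ, norm_phi, one_mul]

lemma measurable_u (k : ℕ) : Measurable (τ.u k) := by
  unfold u
  refine ((τ.good k).meas_θ 1).mul ?_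
  have h1 : Measurable fun z : ℤ × UnitAddCircle => τ.phi (k + 1) z.1 z.2 :=
    measurable_from_prod_countable_right fun l => τ.measurable_phi (k + 1) l
  exact h1.comp ((τ.good k).meas_N.prodMk measurable_id)

lemma norm_U (k : ℕ) (x : UnitAddCircle) : ‖τ.U k x‖ = 1 := by
  unfold U
  rw [norm_prod]
  exact Finset.prod_eq_one fun i _ => τ.norm_u i x

lemma measurable_U (k : ℕ) : Measurable (τ.U k) := by
  unfold U
  exact Finset.measurable_fun_prod _ fun i _ => τ.measurable_u i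

theorem measurable_F (k j : ℕ) (l : ℤ) : Measurable (τ.F k j l) := by
  unfold F
  exact (Complex.continuous_conj.measurable.comp (τ.measurable_U k)).mul
    ((c1_measurable_fourier _).mul (τ.measurable_phi k l))

theorem norm_F (k j : ℕ) (l : ℤ) (x : UnitAddCircle) : ‖τ.F k j l x‖ = 1 := by
  unfold F
  rw [norm_mul, norm_mul, RCLike.norm_conj, norm_U, norm_phi, c1_norm_fourier_apply, one_mul, one_mul]

lemma one_le_n (k : ℕ) : (1 : ℝ) ≤ τ.n k := by
  have := τ.n_ge k
  exact_mod_cast (by omega : 1 ≤ τ.n k)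

lemma ε_le_tol (k : ℕ) : 4 * τ.ε k ≤ tol τ.h τ.n k := by
  have h1 := τ.ε_le k
  have h2 := τ.one_le_n k
  have h3 := τ.ε_pos k
  nlinarith

lemma conj_F_mul (k j j' : ℕ) (l l' : ℤ) (x : UnitAddCircle) :
    starRingEnd ℂ (τ.F k j l x) * τ.F k j' l' x
      = starRingEnd ℂ ((τ.D k).θ l x) * (τ.D k).θ l' x * fourier ((j' : ℤ) - j) x := by
  have hU : starRingEnd ℂ (τ.U k x) * τ.U k x = 1 := by
    rw [Complex.conj_mul', τ.norm_U]
    simp
  have h1 : starRingEnd ℂ ((τ.D k).θ 1 x) * (τ.D k).θ 1 x = 1 := by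
    rw [Complex.conj_mul', (τ.good k).norm_θ]
    simp
  unfold F phi
  rw [← c1_conj_fourier_mul]
  simp only [map_mul, Complex.conj_conj]
  calc τ.U k x * (starRingEnd ℂ (fourier (j : ℤ) x) *
        (starRingEnd ℂ ((τ.D k).θ l x) * (τ.D k).θ 1 x)) *
        (starRingEnd ℂ (τ.U k x) * (fourier (j' : ℤ) x *
          ((τ.D k).θ l' x * starRingEnd ℂ ((τ.D k).θ 1 x))))
      = (starRingEnd ℂ (τ.U k x) * τ.U k x) * (starRingEnd ℂ ((τ.D k).θ 1 x) * (τ.D k).θ 1 x) *
        (starRingEnd ℂ ((τ.D k).θ l x) * (τ.D k).θ l' x *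
          (starRingEnd ℂ (fourier (j : ℤ) x) * fourier (j' : ℤ) x)) := by ring
    _ = _ := by rw [hU, h1, one_mul, one_mul]

theorem F_orth (k : ℕ) (a b : ℕ × ℤ) (ha : a ∈ idx2 (τ.h k) (τ.n k))
    (hb : b ∈ idx2 (τ.h k) (τ.n k)) :
    ‖∫ x, starRingEnd ℂ (τ.F k a.1 a.2 x) * τ.F k b.1 b.2 x ∂mT - (if a = b then (1 : ℂ) else 0)‖ ≤
      tol τ.h τ.n k := by
  obtain ⟨j, l⟩ := a
  obtain ⟨j', l'⟩ := b
  unfold idx2 at ha hb
  rw [Finset.mem_product, Finset.mem_range] at ha hb
  simp_rw [τ.conj_F_mul]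
  have h1 := (τ.good k).orth_θ (τ.ε_pos k) ha.1 hb.1 ha.2 hb.2
  have h2 := τ.ε_le_tol k
  have h3 := τ.ε_pos k
  have h4 : (if (j, l) = (j', l') then (1 : ℂ) else 0) = if j = j' ∧ l = l' then 1 else 0 := by
    simp only [Prod.mk.injEq]
  rw [h4]
  refine h1.trans ?_
  linarith

theorem coef_near (k : ℕ) (a : ℕ × ℤ) (ha : a ∈ idx2 (τ.h k) (τ.n k)) :
    1 - ∑ b ∈ idx2 (τ.h (k+1)) (τ.n (k+1)), ‖coef (τ.h k) (τ.D k) a.1 a.2 b.1 b.2‖ ^ 2 ≤
      (tol τ.h τ.n k) ^ 2 := by
  unfold idx2 at ha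
  rw [Finset.mem_product, Finset.mem_range] at ha
  have h1 := (τ.good k).one_sub_sum_coef_le (τ.n_B k) ha.1 ha.2
  rw [τ.h_succ]
  refine h1.trans ?_
  have h2 := τ.ε_le_tol k
  have h3 := τ.ε_pos k
  have h4 : τ.ε k ≤ tol τ.h τ.n k := by linarith
  exact pow_le_pow_left₀ h3.le h4 2

end Plan

end Vale.Agent.P130
end
end

section

section

open MeasureTheory Filter Topology

namespace Vale.Agent.P130

/-- A measure-preserving system realizing the tower data `W`: `P n x` is the position of `x` in the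
`n`-th tower (`P n x ≥ W.h n` means that `x` is not in the `n`-th tower), `Y n x` is the fibre
coordinate of `x` in the `n`-th tower. -/
structure Realization (W : Tower) where
  X : Type
  ms : MeasurableSpace X
  sb : StandardBorelSpace X
  μ : Measure X
  pm : IsProbabilityMeasure μ
  na : NullSingletonClass μ
  T : X ≃ᵐ X
  hT : MeasurePreserving T μ μ
  w0 : ℝ
  w0_pos : 0 < w0
  P : ℕ → X → ℕ
  Y : ℕ → X → UnitAddCircle
  P_meas : ∀ n, Measurable (P n)
  Y_meas : ∀ n, Measurable (Y n)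
  dist : ∀ n, ∀ j < W.h n, ∀ A : Set UnitAddCircle, MeasurableSet A →
    μ.real {x | P n x = j ∧ Y n x ∈ A} =
      w0 / (∏ k ∈ Finset.range n, (W.N k : ℝ)) * haar.real A
  up : ∀ x n κ j, κ < W.N n → j < W.h n → P (n + 1) x = W.p n κ (Y (n + 1) x) + j →
    P n x = j ∧ Y n x = W.φ n κ (Y (n + 1) x)
  down : ∀ x n, P n x < W.h n → ∃ κ < W.N n, P (n + 1) x = W.p n κ (Y (n + 1) x) + P n x
  shift : ∀ x n, P n x + 1 < W.h n → P n (T x) = P n x + 1 ∧ Y n (T x) = Y n x
  exh : Tendsto (fun n => μ.real {x | P n x < W.h n}) atTop (𝓝 1)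
  total : ∀ g : X → ℂ, MemLp g 2 μ →
    (∀ n, ∀ j < W.h n, ∀ l : ℤ,
      ∫ x, (if P n x = j then starRingEnd ℂ (fourier l (Y n x)) else 0) * g x ∂μ = 0) → g =ᵐ[μ] 0

end Vale.Agent.P130
end
end

section

section

open MeasureTheory Filter Topology

namespace Vale.Agent.P130

namespace Plan

variable (τ : Plan)

/-- the level vectors as functions on the realization -/
noncomputable def Ef {W : Tower} (R : Realization W) (k j : ℕ) (l : ℤ) (x : R.X) : ℂ :=
  ((Real.sqrt (R.w0 / (∏ i ∈ Finset.range k, (W.N i : ℝ))) : ℝ) : ℂ)⁻¹ *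
    (if R.P k x = j then fourier l (R.Y k x) else 0)

end Plan

end Vale.Agent.P130
end
end

section

section

open MeasureTheory Filter Topology

namespace Vale.Agent.P130

namespace Realization

variable {W : Tower} (S : Realization W)

instance : MeasurableSpace S.X := S.ms
instance : IsProbabilityMeasure S.μ := S.pm
/-- Width (measure of one level) of the `k`-th tower. -/
noncomputable def wt (k : ℕ) : ℝ := S.w0 / (∏ i ∈ Finset.range k, (W.N i : ℝ))

end Realization

end Vale.Agent.P130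
end
end

section

section

/-!
# The bridge: inner products of the mean-zero family of a realization

`∫ conj (xi k j l) * xi k' j' l' dμ` equals the inner product `W.ip n k j l k' j' l'` of the
transforms on the circle, for every common level `n ≥ k, k'`.
-/

open MeasureTheory Filter Topology

namespace Vale.Agent.P130

namespace Bridge

/-- One step of the combinatorial transform. -/
noncomputable def MM (W : Tower) (n : ℕ) (F : ℕ → UnitAddCircle → ℂ) (p : ℕ)
    (y : UnitAddCircle) : ℂ :=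
  ((Real.sqrt (W.N n) : ℝ) : ℂ)⁻¹ *
    ∑ κ ∈ Finset.range (W.N n),
      if W.p n κ y ≤ p ∧ p < W.p n κ y + W.h n then F (p - W.p n κ y) (W.φ n κ y) else 0

/-- The function on the space given by a family at level `n`. -/
noncomputable def SF {W : Tower} (S : Realization W) (n : ℕ) (F : ℕ → UnitAddCircle → ℂ)
    (x : S.X) : ℂ :=
  ((Real.sqrt (S.wt n) : ℝ) : ℂ)⁻¹ *
    (if S.P n x < W.h n then F (S.P n x) (S.Y n x) else 0)

variable {W : Tower} (S : Realization W)

theorem prodN_pos (n : ℕ) : 0 < ∏ i ∈ Finset.range n, (W.N i : ℝ) :=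
  Finset.prod_pos fun i _ => by
    have := W.N_two i
    exact_mod_cast (by omega : 0 < W.N i)

theorem wt_pos (n : ℕ) : 0 < S.wt n :=
  div_pos S.w0_pos (prodN_pos n)

theorem wt_succ (n : ℕ) : S.wt n = W.N n * S.wt (n + 1) := by
  have h1 : (W.N n : ℝ) ≠ 0 := by
    have := W.N_two n
    exact_mod_cast (by omega : W.N n ≠ 0)
  have h2 := (prodN_pos (W := W) n).ne'
  unfold Realization.wt
  rw [Finset.prod_range_succ]
  field_simp

theorem sqrt_wt (n : ℕ) : ((Real.sqrt (S.wt n) : ℝ) : ℂ)⁻¹ =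
    ((Real.sqrt (S.wt (n + 1)) : ℝ) : ℂ)⁻¹ * ((Real.sqrt (W.N n) : ℝ) : ℂ)⁻¹ := by
  rw [wt_succ S n, Real.sqrt_mul (by positivity)]
  push_cast
  rw [mul_inv, mul_comm]

/-- The function of a family does not change under one step of the transform. -/
theorem SF_succ (n : ℕ) (F : ℕ → UnitAddCircle → ℂ) (x : S.X) :
    SF S n F x = SF S (n + 1) (MM W n F) x := by
  unfold SF
  rw [sqrt_wt S n, mul_assoc]
  congr 1
  by_cases hP : S.P n x < W.h n
  · rw [if_pos hP]
    obtain ⟨κ, hκ, hPκ⟩ := S.down x n hP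
    obtain ⟨-, hY⟩ := S.up x n κ (S.P n x) hκ hP hPκ
    have hfit := W.fit n κ (S.Y (n + 1) x) hκ
    rw [if_pos (by omega)]
    unfold MM
    congr 1
    rw [Finset.sum_eq_single_of_mem κ (Finset.mem_range.2 hκ)]
    · rw [if_pos (by omega), ← hY]
      congr 2
      omega
    · intro κ' hκ' hne
      rw [Finset.mem_range] at hκ'
      rw [if_neg]
      rintro ⟨h1, h2⟩
      rcases lt_or_gt_of_ne hne with h | h
      · have := W.disj n κ' κ (S.Y (n + 1) x) h hκ
        omega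
      · have := W.disj n κ κ' (S.Y (n + 1) x) h hκ'
        omega
  · rw [if_neg hP, mul_zero]
    by_cases hP' : S.P (n + 1) x < W.h (n + 1)
    · rw [if_pos hP']
      unfold MM
      rw [Finset.sum_eq_zero, mul_zero]
      intro κ hκ
      rw [Finset.mem_range] at hκ
      rw [if_neg]
      rintro ⟨h1, h2⟩
      have := S.up x n κ (S.P (n + 1) x - W.p n κ (S.Y (n + 1) x)) hκ (by omega) (by omega)
      omega
    · rw [if_neg hP']

theorem measurable_MM (n : ℕ) {F : ℕ → UnitAddCircle → ℂ} (hF : ∀ p, Measurable (F p)) (p : ℕ) :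
    Measurable (MM W n F p) := by
  unfold MM
  refine Measurable.const_mul (Finset.measurable_sum _ fun κ _ => ?_) _
  have hp := W.p_meas n κ
  refine Measurable.ite ?_ ?_ measurable_const
  · exact (hp (t := {m : ℕ | m ≤ p ∧ p < m + W.h n}) trivial)
  · have h1 : Measurable (fun z : ℕ × UnitAddCircle => F z.1 z.2) :=
      measurable_from_prod_countable_right hF
    have h2 : Measurable (fun y => (p - W.p n κ y, W.φ n κ y)) :=
      ((measurable_const (a := p)).sub hp).prodMk (W.φ_mp n κ).measurable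
    exact h1.comp h2

theorem norm_MM_le (n : ℕ) {F : ℕ → UnitAddCircle → ℂ} {C : ℝ} (hC : ∀ p y, ‖F p y‖ ≤ C)
    (p : ℕ) (y : UnitAddCircle) : ‖MM W n F p y‖ ≤
      ‖((Real.sqrt (W.N n) : ℝ) : ℂ)⁻¹‖ * (W.N n * C) := by
  unfold MM
  rw [norm_mul]
  refine mul_le_mul_of_nonneg_left ?_ (norm_nonneg _)
  refine (norm_sum_le _ _).trans ?_
  refine (Finset.sum_le_card_nsmul _ _ C fun κ _ => ?_).trans ?_
  · split_ifs
    · exact hC _ _
    · rw [norm_zero]
      exact (norm_nonneg _).trans (hC 0 0)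
  · simp

/-! ### Integration over the levels -/

theorem map_floor (n : ℕ) {j : ℕ} (hj : j < W.h n) :
    (S.μ.restrict {x | S.P n x = j}).map (S.Y n) = ENNReal.ofReal (S.wt n) • haar := by
  ext A hA
  have hmeas : MeasurableSet {x | S.P n x = j} := S.P_meas n (measurableSet_singleton j)
  rw [Measure.map_apply (S.Y_meas n) hA, Measure.restrict_apply (S.Y_meas n hA),
    Measure.smul_apply, smul_eq_mul]
  have h := S.dist n j hj A hA
  have hset : S.Y n ⁻¹' A ∩ {x | S.P n x = j} = {x | S.P n x = j ∧ S.Y n x ∈ A} := by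
    ext x
    simp [and_comm]
  rw [hset]
  have h1 : S.μ {x | S.P n x = j ∧ S.Y n x ∈ A} =
      ENNReal.ofReal (S.μ.real {x | S.P n x = j ∧ S.Y n x ∈ A}) := by
    rw [ofReal_measureReal]
  have h' : S.μ.real {x | S.P n x = j ∧ S.Y n x ∈ A} = S.wt n * haar.real A := h
  rw [h1, h', ENNReal.ofReal_mul (wt_pos S n).le, ofReal_measureReal]

theorem integral_floor (n : ℕ) {j : ℕ} (hj : j < W.h n) {u : UnitAddCircle → ℂ}
    (hu : Measurable u) :
    ∫ x, (if S.P n x = j then u (S.Y n x) else 0) ∂S.μ = S.wt n * ∫ y, u y ∂haar := by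
  have hmeas : MeasurableSet {x | S.P n x = j} := S.P_meas n (measurableSet_singleton j)
  have h1 : ∫ x, (if S.P n x = j then u (S.Y n x) else 0) ∂S.μ =
      ∫ x in {x | S.P n x = j}, u (S.Y n x) ∂S.μ := by
    rw [← integral_indicator hmeas]
    refine integral_congr_ae (Eventually.of_forall fun x => ?_)
    by_cases h : S.P n x = j <;> simp [h]
  rw [h1, ← integral_map (S.Y_meas n).aemeasurable hu.aestronglyMeasurable, map_floor S n hj,
    integral_smul_measure, ENNReal.toReal_ofReal (wt_pos S n).le]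
  simp

theorem integrable_floor (n : ℕ) (j : ℕ) {u : UnitAddCircle → ℂ}
    (hu : Measurable u) {C : ℝ} (hC : ∀ y, ‖u y‖ ≤ C) :
    Integrable (fun x => if S.P n x = j then u (S.Y n x) else 0) S.μ := by
  have hmeas : MeasurableSet {x | S.P n x = j} := S.P_meas n (measurableSet_singleton j)
  have hm : Measurable (fun x => if S.P n x = j then u (S.Y n x) else 0) :=
    Measurable.ite hmeas (hu.comp (S.Y_meas n)) measurable_const
  refine Integrable.of_bound hm.aestronglyMeasurable (max C 0) (Eventually.of_forall fun x => ?_)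
  split_ifs
  · exact (hC _).trans (le_max_left _ _)
  · simp

theorem integral_level (n : ℕ) {u : ℕ → UnitAddCircle → ℂ}
    (hu : ∀ j, Measurable (u j)) {C : ℝ} (hC : ∀ j y, ‖u j y‖ ≤ C) :
    ∫ x, (if S.P n x < W.h n then u (S.P n x) (S.Y n x) else 0) ∂S.μ =
      S.wt n * ∑ j ∈ Finset.range (W.h n), ∫ y, u j y ∂haar := by
  have h1 : ∀ x, (if S.P n x < W.h n then u (S.P n x) (S.Y n x) else 0) =
      ∑ j ∈ Finset.range (W.h n), if S.P n x = j then u j (S.Y n x) else 0 := by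
    intro x
    split_ifs with h
    · rw [Finset.sum_eq_single_of_mem _ (Finset.mem_range.2 h)]
      · rw [if_pos rfl]
      · intro j _ hj
        rw [if_neg (Ne.symm hj)]
    · symm
      refine Finset.sum_eq_zero fun j hj => ?_
      rw [Finset.mem_range] at hj
      rw [if_neg]
      omega
  simp only [h1]
  rw [integral_finsetSum _ fun j _ => integrable_floor S n j (hu j) (hC j), Finset.mul_sum]
  refine Finset.sum_congr rfl fun j hj => ?_
  exact integral_floor S n (Finset.mem_range.1 hj) (hu j)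

/-- Inner products of functions given by families at a common level. -/
theorem integral_SF (n : ℕ) {F G : ℕ → UnitAddCircle → ℂ}
    (hF : ∀ j, Measurable (F j)) (hG : ∀ j, Measurable (G j))
    {C D : ℝ} (hC : ∀ j y, ‖F j y‖ ≤ C) (hD : ∀ j y, ‖G j y‖ ≤ D) :
    ∫ x, starRingEnd ℂ (SF S n F x) * SF S n G x ∂S.μ =
      ∑ j ∈ Finset.range (W.h n), ∫ y, starRingEnd ℂ (F j y) * G j y ∂haar := by
  have hw := wt_pos S n
  have h1 : ∀ x, starRingEnd ℂ (SF S n F x) * SF S n G x =
      ((S.wt n : ℝ) : ℂ)⁻¹ * (if S.P n x < W.h n then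
        starRingEnd ℂ (F (S.P n x) (S.Y n x)) * G (S.P n x) (S.Y n x) else 0) := by
    intro x
    unfold SF
    have h2 : ((Real.sqrt (S.wt n) : ℝ) : ℂ)⁻¹ * ((Real.sqrt (S.wt n) : ℝ) : ℂ)⁻¹ =
        ((S.wt n : ℝ) : ℂ)⁻¹ := by
      rw [← mul_inv]
      congr 1
      rw [← Complex.ofReal_mul, Real.mul_self_sqrt hw.le]
    rw [← h2]
    split_ifs
    · simp only [map_mul, map_inv₀, Complex.conj_ofReal]
      ring
    · simp
  simp only [h1]
  rw [integral_const_mul, integral_level S n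
    (u := fun j y => starRingEnd ℂ (F j y) * G j y) (C := C * D)]
  · rw [← mul_assoc, inv_mul_cancel₀, one_mul]
    exact_mod_cast hw.ne'
  · intro j
    exact (Complex.continuous_conj.measurable.comp (hF j)).mul (hG j)
  · intro j y
    rw [norm_mul, RCLike.norm_conj]
    exact mul_le_mul (hC j y) (hD j y) (norm_nonneg _) ((norm_nonneg _).trans (hC j y))

/-! ### Parseval -/

theorem integral_conj_fourier_mul (p q : ℤ) :
    ∫ x, starRingEnd ℂ (fourier p x) * fourier q x ∂haar = if p = q then 1 else 0 := by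
  have h := orthonormal_fourier (T := 1)
  rw [orthonormal_iff_ite] at h
  have h2 := h p q
  rw [← h2, ContinuousMap.inner_toLp]
  refine integral_congr_ae (Eventually.of_forall fun x => ?_)
  simp [mul_comm]

/-! ### The family of the mean-zero vectors at all levels -/

end Bridge

end Vale.Agent.P130
end
end

section

section

/-!
# X-side, part 1: tower data of a plan, the relation between consecutive levels, orthonormality,
transition coefficients, shift
-/

open MeasureTheory Filter Topology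

namespace Vale.Agent.P130

/-- the inner sum in `lift` -/
theorem lift_inner (h a r : ℕ) (G : ℕ → ℂ) :
    (∑ j ∈ Finset.range h, if a + j = r then G j else 0) =
      if a ≤ r ∧ r < a + h then G (r - a) else 0 := by
  split_ifs with hr
  · rw [Finset.sum_eq_single_of_mem (r - a) (by rw [Finset.mem_range]; omega)]
    · rw [if_pos (by omega)]
    · intro j _ hj
      rw [if_neg (by omega)]
  · refine Finset.sum_eq_zero fun j hj => ?_
    rw [Finset.mem_range] at hj
    rw [if_neg (by omega)]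

theorem lift_eq (h : ℕ) (D : SD) (g : ℕ → UnitAddCircle → ℂ) (r : ℕ) (y : UnitAddCircle) :
    lift h D g r y = ∑ i ∈ Finset.range D.m,
      if D.p i y ≤ r ∧ r < D.p i y + h then g (r - D.p i y) (D.φ i y) else 0 := by
  unfold lift
  refine Finset.sum_congr rfl fun i _ => ?_
  rw [lift_inner h (D.p i y) r (fun j => g j (D.φ i y))]

namespace Plan

variable (τ : Plan)

theorem h_pos (k : ℕ) : 0 < τ.h k := by
  induction k with
  | zero => rw [τ.h_zero]; exact one_pos
  | succ k ih =>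
    rw [τ.h_succ]
    have h1 := (τ.good k).fit 0 0 (by have := (τ.good k).two_le; omega)
    omega

theorem tol_le (k : ℕ) : tol τ.h τ.n k ≤ (1 / 2) ^ k := by
  unfold tol
  have h1 : 1 ≤ τ.h k * (2 * τ.n k) := by
    have := τ.h_pos k
    have h2 := τ.n_ge k
    exact Nat.mul_pos this (by omega)
  have h2 : (1 : ℝ) ≤ ((τ.h k * (2 * τ.n k) : ℕ) : ℝ) ^ 2 := by
    have h3 : (1 : ℝ) ≤ ((τ.h k * (2 * τ.n k) : ℕ) : ℝ) := by exact_mod_cast h1
    nlinarith only [h3]
  rw [div_le_iff₀ (by linarith)]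
  have h3 : (0 : ℝ) < (1 / 2) ^ k := by positivity
  nlinarith only [h2, h3]

theorem ε_le_pow (k : ℕ) : τ.ε k ≤ (1 / 2) ^ k / 4 := by
  have h1 := τ.ε_le k
  have h2 := τ.tol_le k
  have h3 : (1 : ℝ) ≤ τ.n k := by
    have := τ.n_ge k
    exact_mod_cast (by omega : 1 ≤ τ.n k)
  have h4 := τ.ε_pos k
  nlinarith

theorem sum_ε_le (n : ℕ) : ∑ k ∈ Finset.range n, τ.ε k ≤ 1 := by
  have h1 : ∑ k ∈ Finset.range n, τ.ε k ≤ ∑ k ∈ Finset.range n, (1 / 2 : ℝ) ^ k / 4 :=
    Finset.sum_le_sum fun k _ => τ.ε_le_pow k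
  have h2 : ∑ k ∈ Finset.range n, (1 / 2 : ℝ) ^ k ≤ 2 := by
    have := sum_geometric_two_le n
    simpa using this
  rw [← Finset.sum_div] at h1
  linarith

theorem h_le_exp (n : ℕ) : (τ.h n : ℝ) ≤
    Real.exp (∑ k ∈ Finset.range n, τ.ε k) * ∏ k ∈ Finset.range n, ((τ.D k).m : ℝ) := by
  induction n with
  | zero => simp [τ.h_zero]
  | succ n ih =>
    rw [Finset.sum_range_succ, Finset.prod_range_succ, Real.exp_add, τ.h_succ]
    have h1 := (τ.good n).ratio
    have h2 : 1 + τ.ε n ≤ Real.exp (τ.ε n) := by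
      have := Real.add_one_le_exp (τ.ε n); linarith
    have h3 : (0 : ℝ) ≤ (τ.D n).m := Nat.cast_nonneg _
    have h4 : (0 : ℝ) ≤ τ.h n := Nat.cast_nonneg _
    calc ((τ.D n).h' : ℝ) ≤ (1 + τ.ε n) * (((τ.D n).m : ℝ) * τ.h n) := h1
      _ ≤ Real.exp (τ.ε n) * (((τ.D n).m : ℝ) * τ.h n) :=
          mul_le_mul_of_nonneg_right h2 (mul_nonneg h3 h4)
      _ ≤ Real.exp (τ.ε n) * (((τ.D n).m : ℝ) *
            (Real.exp (∑ k ∈ Finset.range n, τ.ε k) * ∏ k ∈ Finset.range n, ((τ.D k).m : ℝ))) :=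
          mul_le_mul_of_nonneg_left (mul_le_mul_of_nonneg_left ih h3) (Real.exp_pos _).le
      _ = _ := by ring

/-- the cutting-and-stacking data of a plan -/
theorem exists_toTower : ∃ W : Tower, W.h = τ.h ∧ W.N = (fun k => (τ.D k).m) ∧
    W.p = (fun k => (τ.D k).p) ∧ W.φ = (fun k => (τ.D k).φ) := by
  refine ⟨⟨τ.h, fun k => (τ.D k).m, fun k => (τ.D k).p, fun k => (τ.D k).φ, τ.h_pos,
    fun n => (τ.good n).two_le, fun n => (τ.good n).meas_p, fun n => (τ.good n).mp_φ, ?_, ?_, ?_⟩,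
    rfl, rfl, rfl, rfl⟩
  · intro n κ y hκ
    rw [τ.h_succ]
    exact (τ.good n).fit κ y hκ
  · intro n κ κ' y h1 h2
    exact (τ.good n).disj κ κ' y h1 h2
  · refine ⟨3, fun n => ?_⟩
    have h1 := τ.h_le_exp n
    have h2 : Real.exp (∑ k ∈ Finset.range n, τ.ε k) ≤ 3 := by
      have h3 := Real.exp_one_lt_d9
      have h4 := Real.exp_le_exp.2 (τ.sum_ε_le n)
      linarith
    have h5 : (0 : ℝ) ≤ ∏ k ∈ Finset.range n, ((τ.D k).m : ℝ) :=
      Finset.prod_nonneg fun k _ => Nat.cast_nonneg _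
    have h6 : (τ.h n : ℝ) ≤ 3 * ∏ k ∈ Finset.range n, ((τ.D k).m : ℝ) :=
      h1.trans (mul_le_mul_of_nonneg_right h2 h5)
    exact_mod_cast h6

section real

variable {τ} {W : Tower}

/-- the transform `MM` of the bridge in terms of `lift` -/
theorem MM_eq_lift (hh : W.h = τ.h) (hN : W.N = fun k => (τ.D k).m)
    (hp : W.p = fun k => (τ.D k).p) (hφ : W.φ = fun k => (τ.D k).φ) (k : ℕ)
    (g : ℕ → UnitAddCircle → ℂ) (r : ℕ) (y : UnitAddCircle) :
    Bridge.MM W k g r y =
      ((Real.sqrt ((τ.D k).m : ℝ) : ℝ) : ℂ)⁻¹ * lift (τ.h k) (τ.D k) g r y := by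
  rw [lift_eq]
  unfold Bridge.MM
  rw [hh, hN, hp, hφ]

/-- value of a family of fibre functions at level `k` -/
noncomputable def val (R : Realization W) (k : ℕ) (g : ℕ → UnitAddCircle → ℂ) (x : R.X) : ℂ :=
  if R.P k x < W.h k then g (R.P k x) (R.Y k x) else 0

theorem SF_eq_val (R : Realization W) (k : ℕ) (g : ℕ → UnitAddCircle → ℂ) (x : R.X) :
    Bridge.SF R k g x = ((Real.sqrt (R.wt k) : ℝ) : ℂ)⁻¹ * val R k g x := rfl

theorem Ef_eq_val (R : Realization W) (k j : ℕ) (hj : j < W.h k) (l : ℤ) (x : R.X) :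
    Ef R k j l x = ((Real.sqrt (R.wt k) : ℝ) : ℂ)⁻¹ * val R k (unitFam j l) x := by
  unfold Ef val unitFam Realization.wt
  congr 1
  by_cases h : R.P k x < W.h k
  · rw [if_pos h]
  · rw [if_neg h, if_neg (by omega)]

theorem Ef_eq_SF (R : Realization W) (k j : ℕ) (hj : j < W.h k) (l : ℤ) (x : R.X) :
    Ef R k j l x = Bridge.SF R k (unitFam j l) x := by
  rw [Ef_eq_val R k j hj l x, SF_eq_val]

theorem measurable_unitFam (j : ℕ) (l : ℤ) (r : ℕ) : Measurable (unitFam j l r) := by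
  unfold unitFam
  by_cases h : r = j
  · simp only [h, if_true]
    exact (fourier l).continuous.measurable
  · simp only [h, if_false]
    exact measurable_const

theorem norm_unitFam_le (j : ℕ) (l : ℤ) (r : ℕ) (y : UnitAddCircle) : ‖unitFam j l r y‖ ≤ 1 := by
  unfold unitFam
  split_ifs
  · simp only [fourier_apply, Circle.norm_coe, le_refl]
  · simp

theorem measurable_Ef (R : Realization W) (k j : ℕ) (l : ℤ) : Measurable (Ef R k j l) := by
  unfold Ef
  refine Measurable.const_mul ?_ _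
  exact Measurable.ite (R.P_meas k (measurableSet_singleton j))
    ((fourier l).continuous.measurable.comp (R.Y_meas k)) measurable_const

theorem norm_Ef_le (R : Realization W) (k j : ℕ) (l : ℤ) (x : R.X) :
    ‖Ef R k j l x‖ ≤ (Real.sqrt (R.wt k))⁻¹ := by
  unfold Ef
  rw [norm_mul]
  have h1 : ‖(if R.P k x = j then fourier l (R.Y k x) else (0 : ℂ))‖ ≤ 1 := by
    split_ifs
    · simp only [fourier_apply, Circle.norm_coe, le_refl]
    · simp
  have h2 : ‖((Real.sqrt (R.w0 / (∏ i ∈ Finset.range k, (W.N i : ℝ))) : ℝ) : ℂ)⁻¹‖ =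
      (Real.sqrt (R.wt k))⁻¹ := by
    rw [norm_inv, Complex.norm_real, Real.norm_of_nonneg (Real.sqrt_nonneg _)]
    rfl
  rw [h2]
  exact mul_le_of_le_one_right (by positivity) h1

theorem memLp_Ef (R : Realization W) (k j : ℕ) (l : ℤ) : MemLp (Ef R k j l) 2 R.μ :=
  MemLp.of_bound (measurable_Ef R k j l).aestronglyMeasurable _
    (Eventually.of_forall (norm_Ef_le R k j l))

/-- clause 2: orthonormality -/
theorem ortho_Ef (R : Realization W) (k : ℕ) {j j' : ℕ} (hj : j < W.h k) (hj' : j' < W.h k)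
    (l l' : ℤ) :
    ∫ x, starRingEnd ℂ (Ef R k j l x) * Ef R k j' l' x ∂(R.μ) =
      if j = j' ∧ l = l' then 1 else 0 := by
  simp only [Ef_eq_SF R k j hj l, Ef_eq_SF R k j' hj' l']
  rw [Bridge.integral_SF R k (measurable_unitFam j l) (measurable_unitFam j' l')
    (norm_unitFam_le j l) (norm_unitFam_le j' l')]
  rw [Finset.sum_eq_single_of_mem j (Finset.mem_range.2 hj)]
  · unfold unitFam
    by_cases h : j = j'
    · subst h
      simp only [if_true, Bridge.integral_conj_fourier_mul, true_and]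
    · simp [h]
  · intro r _ hr
    unfold unitFam
    simp [hr]

/-- clause 3: transition coefficients -/
theorem coef_Ef (hh : W.h = τ.h) (hN : W.N = fun k => (τ.D k).m)
    (hp : W.p = fun k => (τ.D k).p) (hφ : W.φ = fun k => (τ.D k).φ) (R : Realization W)
    (k : ℕ) {j : ℕ} (hj : j < τ.h k) {r : ℕ} (hr : r < τ.h (k + 1)) (l lam : ℤ) :
    ∫ x, starRingEnd ℂ (Ef R (k + 1) r lam x) * Ef R k j l x ∂(R.μ) =
      coef (τ.h k) (τ.D k) j l r lam := by
  have hj' : j < W.h k := by rw [hh]; exact hj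
  have hr' : r < W.h (k + 1) := by rw [hh]; exact hr
  simp only [Ef_eq_SF R k j hj' l, Ef_eq_SF R (k + 1) r hr' lam, Bridge.SF_succ R k (unitFam j l)]
  rw [Bridge.integral_SF R (k + 1) (measurable_unitFam r lam)
    (Bridge.measurable_MM k (measurable_unitFam j l))
    (norm_unitFam_le r lam) (Bridge.norm_MM_le k (norm_unitFam_le j l))]
  rw [Finset.sum_eq_single_of_mem r (Finset.mem_range.2 hr')]
  · unfold coef fourierCoeff
    rw [← integral_const_mul]
    refine integral_congr_ae (Eventually.of_forall fun y => ?_)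
    simp only
    rw [MM_eq_lift hh hN hp hφ]
    unfold unitFam
    rw [if_pos rfl, ← fourier_neg, smul_eq_mul]
    ring
  · intro s _ hs
    have h0 : ∀ y, unitFam r lam s y = 0 := fun y => by
      unfold unitFam; rw [if_neg hs]
    simp [h0]

/-- measure of a level set -/
theorem measure_level (R : Realization W) (k : ℕ) {j : ℕ} (hj : j < W.h k) :
    R.μ.real {x | R.P k x = j} = R.wt k := by
  have h1 := R.dist k j hj Set.univ MeasurableSet.univ
  have h2 : {x | R.P k x = j ∧ R.Y k x ∈ Set.univ} = {x | R.P k x = j} := by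
    ext x; simp
  rw [h2] at h1
  rw [h1]
  simp [Realization.wt]

/-- clause 4: the shift -/
theorem shift_Ef (R : Realization W) (k j : ℕ) (l : ℤ) (hj : j + 1 < W.h k) :
    ∀ᵐ x ∂(R.μ), Ef R k (j + 1) l (R.T x) = Ef R k j l x := by
  have hA : MeasurableSet {x | R.P k x = j} := R.P_meas k (measurableSet_singleton j)
  have hA1 : MeasurableSet {x | R.P k x = j + 1} := R.P_meas k (measurableSet_singleton (j + 1))
  have hB : MeasurableSet (R.T ⁻¹' {x | R.P k x = j + 1}) := R.hT.measurable hA1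
  have hsub : {x | R.P k x = j} ⊆ R.T ⁻¹' {x | R.P k x = j + 1} := by
    intro x hx
    have hx' : R.P k x = j := hx
    have := (R.shift x k (by omega)).1
    show R.P k (R.T x) = j + 1
    omega
  have hm1 : R.μ (R.T ⁻¹' {x | R.P k x = j + 1}) = R.μ {x | R.P k x = j} := by
    rw [R.hT.measure_preimage hA1.nullMeasurableSet]
    rw [← ofReal_measureReal (μ := R.μ) (s := {x | R.P k x = j + 1}),
      ← ofReal_measureReal (μ := R.μ) (s := {x | R.P k x = j}),
      measure_level R k hj, measure_level R k (by omega : j < W.h k)]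
  have hnull : R.μ (R.T ⁻¹' {x | R.P k x = j + 1} \ {x | R.P k x = j}) = 0 := by
    rw [measure_sdiff hsub hA.nullMeasurableSet (measure_ne_top _ _), hm1, tsub_self]
  have hae : ∀ᵐ x ∂(R.μ), x ∉ R.T ⁻¹' {x | R.P k x = j + 1} \ {x | R.P k x = j} :=
    measure_eq_zero_iff_ae_notMem.1 hnull
  filter_upwards [hae] with x hx
  unfold Ef
  congr 1
  by_cases h : R.P k x = j
  · have h1 := R.shift x k (by omega)
    rw [if_pos h, h1.1, h1.2, h, if_pos rfl]
  · rw [if_neg h, if_neg]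
    intro h2
    exact hx ⟨h2, h⟩

end real

end Plan

end Vale.Agent.P130
end
end

section

section

/-!
# P130: inverse limits of standard Borel probability spaces
-/

open MeasureTheory ProbabilityTheory Filter Finset Preorder

namespace Vale.Agent.P130

/-- Pushing forward a composition-product with a pulled back kernel. -/
theorem compProd_comap_map {A B C : Type*} [MeasurableSpace A] [MeasurableSpace B]
    [MeasurableSpace C] (m : Measure A) [SFinite m] (k : Kernel B C) [IsSFiniteKernel k]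
    (f : A → B) (hf : Measurable f) :
    (m ⊗ₘ (k.comap f hf)).map (fun p => (f p.1, p.2)) = (m.map f) ⊗ₘ k := by
  have hmeas : Measurable fun p : A × C => (f p.1, p.2) :=
    (hf.comp measurable_fst).prodMk measurable_snd
  ext s hs
  rw [Measure.map_apply hmeas hs, Measure.compProd_apply (hmeas hs), Measure.compProd_apply hs,
    lintegral_map (Kernel.measurable_kernel_prodMk_left hs) hf]
  rfl

/-- S1: the inverse limit of a sequence of standard Borel probability spaces. -/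
theorem inverse_limit (Z : ℕ → Type) [∀ n, MeasurableSpace (Z n)] [∀ n, StandardBorelSpace (Z n)]
    [∀ n, Nonempty (Z n)] (μ : ∀ n, Measure (Z n)) [∀ n, IsProbabilityMeasure (μ n)]
    (π : ∀ n, Z (n + 1) → Z n) (hπ : ∀ n, MeasurePreserving (π n) (μ (n + 1)) (μ n)) :
    ∃ (ν : Measure (∀ n, Z n)) (_ : IsProbabilityMeasure ν),
      (∀ n, MeasurePreserving (fun z : ∀ n, Z n => z n) ν (μ n)) ∧
        ∀ᵐ z ∂ν, ∀ n, π n (z (n + 1)) = z n := by
  -- the transition kernels
  obtain ⟨k, hk, hkμ⟩ : ∃ k : ∀ n, Kernel (Z n) (Z (n + 1)), (∀ n, IsMarkovKernel (k n)) ∧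
      ∀ n, (μ n) ⊗ₘ (k n) = (μ (n + 1)).map fun z => (π n z, z) := by
    refine ⟨fun n => condDistrib id (π n) (μ (n + 1)), fun n => inferInstance, fun n => ?_⟩
    have h1 : ((μ (n + 1)).map (π n)) ⊗ₘ condDistrib id (π n) (μ (n + 1)) =
        (μ (n + 1)).map fun a => (π n a, id a) := compProd_map_condDistrib aemeasurable_id
    rw [(hπ n).map_eq] at h1
    exact h1
  obtain ⟨κ, hκ⟩ : ∃ κ : ∀ n, Kernel (Π i : Iic n, Z i) (Z (n + 1)), ∀ n, κ n =
      (k n).comap (fun x : Π i : Iic n, Z i => x ⟨n, by simp⟩) (measurable_pi_apply _) :=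
    ⟨_, fun n => rfl⟩
  have hκm : ∀ n, IsMarkovKernel (κ n) := fun n => by rw [hκ]; infer_instance
  obtain ⟨ν, hν⟩ : ∃ ν, ν = Kernel.trajMeasure (μ 0) κ := ⟨_, rfl⟩
  have hνp : IsProbabilityMeasure ν := by rw [hν]; infer_instance
  -- joint law of consecutive coordinates
  have hjoint : ∀ n, ν.map (fun x => (x n, x (n + 1))) = (ν.map fun x => x n) ⊗ₘ (k n) := by
    intro n
    have h1 := Kernel.map_frestrictLe_trajMeasure_compProd_eq_map_trajMeasure (μ₀ := μ 0)
      (κ := κ) (a := n)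
    rw [← hν, hκ] at h1
    have h2 := compProd_comap_map (ν.map (frestrictLe n)) (k n)
      (fun x : Π i : Iic n, Z i => x ⟨n, by simp⟩) (measurable_pi_apply _)
    have m1 : Measurable fun x : Π i : Iic n, Z i => x ⟨n, by simp⟩ := measurable_pi_apply _
    have e1 : Measure.map (fun p : (Π i : Iic n, Z i) × Z (n + 1) => (p.1 ⟨n, by simp⟩, p.2))
        (ν.map fun x => (frestrictLe n x, x (n + 1))) = ν.map fun x => (x n, x (n + 1)) :=
      Measure.map_map ((m1.comp measurable_fst).prodMk measurable_snd)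
        ((measurable_frestrictLe n).prodMk (measurable_pi_apply _))
    have e2 : Measure.map (fun x : Π i : Iic n, Z i => x ⟨n, by simp⟩) (ν.map (frestrictLe n)) =
        ν.map fun x => x n := Measure.map_map m1 (measurable_frestrictLe n)
    rw [h1, e1, e2] at h2
    exact h2
  -- the first coordinate
  have h0 : ν.map (fun x => x 0) = μ 0 := by
    have m1 : Measurable fun x : Π i : Iic 0, Z i => x ⟨0, by simp⟩ := measurable_pi_apply _
    have e2 : Measure.map (fun x : Π i : Iic 0, Z i => x ⟨0, by simp⟩) (ν.map (frestrictLe 0)) =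
        ν.map fun x => x 0 := Measure.map_map m1 (measurable_frestrictLe 0)
    rw [← e2, hν, Kernel.trajMeasure, Measure.map_comp _ _ (by fun_prop),
      Kernel.traj_map_frestrictLe, Kernel.partialTraj_self, Measure.id_comp]
    have m2 : Measurable (MeasurableEquiv.piUnique fun i : Iic 0 => Z i).symm :=
      MeasurableEquiv.measurable _
    exact (Measure.map_map m1 m2).trans Measure.map_id
  have hlaw : ∀ n, ν.map (fun x => x n) = μ n := by
    intro n
    induction n with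
    | zero => exact h0
    | succ n ih =>
      have h1 := hjoint n
      rw [ih, hkμ] at h1
      have h2 : (ν.map fun x => (x n, x (n + 1))).map Prod.snd =
          ((μ (n + 1)).map fun z => (π n z, z)).map Prod.snd := by rw [h1]
      have e1 : (ν.map fun x => (x n, x (n + 1))).map Prod.snd = ν.map fun x => x (n + 1) :=
        Measure.map_map measurable_snd ((measurable_pi_apply n).prodMk
          (measurable_pi_apply (n + 1)))
      have e2 : ((μ (n + 1)).map fun z => (π n z, z)).map Prod.snd = (μ (n + 1)).map id :=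
        Measure.map_map measurable_snd ((hπ n).measurable.prodMk measurable_id)
      rw [e1, e2, Measure.map_id] at h2
      exact h2
  refine ⟨ν, hνp, fun n => ⟨measurable_pi_apply n, hlaw n⟩, ?_⟩
  rw [ae_all_iff]
  intro n
  have hS : MeasurableSet {p : Z n × Z (n + 1) | π n p.2 = p.1} := 
    measurableSet_eq_fun ((hπ n).measurable.comp measurable_snd) measurable_fst
  have h1 := hjoint n
  rw [hlaw, hkμ] at h1
  have h2 : ∀ᵐ p ∂(ν.map (fun x => (x n, x (n + 1)))), π n p.2 = p.1 := by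
    rw [h1]
    have m2 : Measurable fun z : Z (n + 1) => (π n z, z) :=
      (hπ n).measurable.prodMk measurable_id
    exact (ae_map_iff m2.aemeasurable hS).2 (ae_of_all _ fun z => rfl)
  have m3 : Measurable fun x : ∀ n, Z n => (x n, x (n + 1)) :=
    (measurable_pi_apply n).prodMk (measurable_pi_apply (n + 1))
  exact (ae_map_iff m3.aemeasurable hS).1 h2

end Vale.Agent.P130
end
end

section

section

/-!
# The cutting-and-stacking system: levels

State space of a level, level measures, the projections between levels, good sequences.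
-/

open MeasureTheory Filter Topology

namespace Vale.Agent.P130

/-- State space of a level: position and fibre coordinate. -/
abbrev St : Type := ℕ × UnitAddCircle

/-- Normalized Haar measure of the circle. -/
noncomputable abbrev hc : Measure UnitAddCircle := AddCircle.haarAddCircle (T := 1)

namespace Tower

variable (W : Tower)

/-- Product of the numbers of blocks. -/
noncomputable def prodN (n : ℕ) : ℝ := ∏ k ∈ Finset.range n, (W.N k : ℝ)

/-- The normalizing constant. -/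
noncomputable def w0 : ℝ := (⨆ n, (W.h n : ℝ) / W.prodN n)⁻¹

/-- The weight of a floor of the `n`-th tower. -/
noncomputable def wt (n : ℕ) : ℝ := W.w0 / W.prodN n

theorem two_pow_le_prodN (n : ℕ) : (2 : ℝ) ^ n ≤ W.prodN n := by
  rw [prodN, ← Finset.card_range n, ← Finset.prod_const, Finset.card_range]
  refine Finset.prod_le_prod (fun _ _ => by norm_num) fun k _ => ?_
  exact_mod_cast W.N_two k

theorem prodN_pos (n : ℕ) : 0 < W.prodN n :=
  lt_of_lt_of_le (by positivity) (W.two_pow_le_prodN n)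

theorem prodN_succ (n : ℕ) : W.prodN (n + 1) = W.prodN n * W.N n := by
  rw [prodN, prodN, Finset.prod_range_succ]

theorem N_pos (n : ℕ) : 0 < W.N n := lt_of_lt_of_le (by norm_num) (W.N_two n)

theorem mul_le_p (n κ : ℕ) (y : UnitAddCircle) (hκ : κ < W.N n) :
    κ * W.h n ≤ W.p n κ y := by
  induction κ with
  | zero => simp
  | succ κ ih =>
    have h1 := ih (by omega)
    have h2 := W.disj n κ (κ + 1) y (by omega) hκ
    rw [Nat.succ_mul]
    omega

theorem N_mul_h_le (n : ℕ) : W.N n * W.h n ≤ W.h (n + 1) := by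
  have hN := W.N_pos n
  have h1 := W.mul_le_p n (W.N n - 1) 0 (by omega)
  have h2 := W.fit n (W.N n - 1) 0 (by omega)
  have h3 : W.N n * W.h n = (W.N n - 1) * W.h n + W.h n := by
    conv_lhs => rw [← Nat.sub_add_cancel hN]
    rw [Nat.add_mul, Nat.one_mul]
  omega

theorem ratio_mono : Monotone fun n => (W.h n : ℝ) / W.prodN n := by
  refine monotone_nat_of_le_succ fun n => ?_
  rw [prodN_succ, div_le_div_iff₀ (W.prodN_pos n)
    (mul_pos (W.prodN_pos n) (by exact_mod_cast W.N_pos n))]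
  have h1 : ((W.N n * W.h n : ℕ) : ℝ) ≤ W.h (n + 1) := by exact_mod_cast W.N_mul_h_le n
  push_cast at h1
  have h2 := W.prodN_pos n
  nlinarith

theorem ratio_bdd : BddAbove (Set.range fun n => (W.h n : ℝ) / W.prodN n) := by
  obtain ⟨B, hB⟩ := W.bdd
  refine ⟨B, ?_⟩
  rintro _ ⟨n, rfl⟩
  simp only
  rw [div_le_iff₀ (W.prodN_pos n), prodN]
  exact_mod_cast hB n

theorem sup_pos : 0 < ⨆ n, (W.h n : ℝ) / W.prodN n := by
  have h0 : (0 : ℝ) < (W.h 0 : ℝ) / W.prodN 0 :=
    div_pos (by exact_mod_cast W.h_pos 0) (W.prodN_pos 0)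
  exact lt_of_lt_of_le h0 (le_ciSup W.ratio_bdd 0)

theorem w0_pos : 0 < W.w0 := inv_pos.2 W.sup_pos

theorem wt_pos (n : ℕ) : 0 < W.wt n := div_pos W.w0_pos (W.prodN_pos n)

theorem wt_succ (n : ℕ) : W.wt n = W.N n * W.wt (n + 1) := by
  have h1 := W.prodN_pos n
  have h2 : (0 : ℝ) < W.N n := by exact_mod_cast W.N_pos n
  rw [wt, wt, prodN_succ]
  field_simp

theorem wt_mul_h (n : ℕ) : W.wt n * W.h n = W.w0 * ((W.h n : ℝ) / W.prodN n) := by
  rw [wt]
  ring

theorem wt_mul_h_le (n : ℕ) : W.wt n * W.h n ≤ 1 := by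
  rw [wt_mul_h, w0, inv_mul_le_iff₀ W.sup_pos, mul_one]
  exact le_ciSup W.ratio_bdd n

theorem tendsto_wt_mul_h : Tendsto (fun n => W.wt n * W.h n) atTop (𝓝 1) := by
  have h1 := (tendsto_atTop_ciSup W.ratio_mono W.ratio_bdd).const_mul W.w0
  rw [show W.w0 * (⨆ n, (W.h n : ℝ) / W.prodN n) = 1 from inv_mul_cancel₀ W.sup_pos.ne'] at h1
  simpa only [wt_mul_h] using h1

theorem tendsto_wt : Tendsto W.wt atTop (𝓝 0) := by
  have h1 : Tendsto (fun n : ℕ => W.w0 * (1 / 2 : ℝ) ^ n) atTop (𝓝 (W.w0 * 0)) :=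
    (tendsto_pow_atTop_nhds_zero_of_lt_one (by norm_num) (by norm_num)).const_mul _
  rw [mul_zero] at h1
  refine squeeze_zero (fun n => (W.wt_pos n).le) (fun n => ?_) h1
  rw [wt, div_eq_mul_inv]
  refine mul_le_mul_of_nonneg_left ?_ W.w0_pos.le
  rw [one_div, inv_pow]
  exact inv_anti₀ (by positivity) (W.two_pow_le_prodN n)

/-- The measure of level `n`. -/
noncomputable def lev (n : ℕ) : Measure St :=
  ENNReal.ofReal (W.wt n) • (∑ j ∈ Finset.range (W.h n), hc.map (fun y => (j, y))) +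
    ENNReal.ofReal (1 - W.wt n * W.h n) • Measure.dirac (W.h n, 0)

/-- Integration against the measure of level `n`. -/
theorem lintegral_lev (n : ℕ) {f : St → ENNReal} (hf : Measurable f) :
    ∫⁻ z, f z ∂(W.lev n) = ENNReal.ofReal (W.wt n) *
        (∑ j ∈ Finset.range (W.h n), ∫⁻ y, f (j, y) ∂hc) +
      ENNReal.ofReal (1 - W.wt n * W.h n) * f (W.h n, 0) := by
  rw [lev, lintegral_add_measure, lintegral_smul_measure, lintegral_smul_measure,
    lintegral_dirac' _ hf, lintegral_finsetSum_measure]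
  simp only [smul_eq_mul]
  congr 2
  refine Finset.sum_congr rfl fun j _ => ?_
  rw [lintegral_map hf measurable_prodMk_left]

instance isProbabilityMeasure_lev (n : ℕ) : IsProbabilityMeasure (W.lev n) := by
  refine ⟨?_⟩
  rw [← lintegral_one, lintegral_lev _ _ measurable_const]
  have h1 := W.wt_mul_h_le n
  have h2 := W.wt_pos n
  simp only [lintegral_one, measure_univ, Finset.sum_const, Finset.card_range, nsmul_eq_mul,
    mul_one]
  rw [← ENNReal.ofReal_natCast, ← ENNReal.ofReal_mul h2.le,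
    ← ENNReal.ofReal_add (by positivity) (by linarith)]
  norm_num

/-- The measure of a part of a floor. -/
theorem lev_floor (n : ℕ) {j : ℕ} (hj : j < W.h n) {A : Set UnitAddCircle}
    (hA : MeasurableSet A) :
    W.lev n {z : St | z.1 = j ∧ z.2 ∈ A} = ENNReal.ofReal (W.wt n) * hc A := by
  have hm : MeasurableSet {z : St | z.1 = j ∧ z.2 ∈ A} :=
    (measurable_fst (measurableSet_singleton j)).inter (measurable_snd hA)
  rw [← lintegral_indicator_one hm, lintegral_lev _ _ (measurable_one.indicator hm)]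
  have h1 : ({z : St | z.1 = j ∧ z.2 ∈ A}.indicator 1 (W.h n, 0) : ENNReal) = 0 := by
    apply Set.indicator_of_notMem
    rintro ⟨h, _⟩
    simp only at h
    omega
  have h2 : ∀ i ∈ Finset.range (W.h n), i ≠ j →
      ∫⁻ y, {z : St | z.1 = j ∧ z.2 ∈ A}.indicator 1 (i, y) ∂hc = 0 := by
    intro i _ hij
    have : ∀ y : UnitAddCircle,
        ({z : St | z.1 = j ∧ z.2 ∈ A}.indicator 1 (i, y) : ENNReal) = 0 := by
      intro y
      apply Set.indicator_of_notMem
      rintro ⟨h, _⟩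
      exact hij h
    simp only [this, lintegral_zero]
  have h3 : ∫⁻ y, {z : St | z.1 = j ∧ z.2 ∈ A}.indicator 1 (j, y) ∂hc = hc A := by
    rw [← lintegral_indicator_one hA]
    refine lintegral_congr fun y => ?_
    by_cases hy : y ∈ A
    · rw [Set.indicator_of_mem hy, Set.indicator_of_mem]
      · rfl
      · exact ⟨rfl, hy⟩
    · rw [Set.indicator_of_notMem hy, Set.indicator_of_notMem]
      rintro ⟨_, h⟩
      exact hy h
  rw [h1, mul_zero, add_zero, Finset.sum_eq_single_of_mem j (Finset.mem_range.2 hj) h2, h3]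

/-- The projection from level `n + 1` to level `n`. -/
noncomputable def pr (n : ℕ) (z : St) : St := by
  classical
  exact if h : ∃ κ, κ < W.N n ∧ W.p n κ z.2 ≤ z.1 ∧ z.1 < W.p n κ z.2 + W.h n then
    (z.1 - W.p n (Nat.find h) z.2, W.φ n (Nat.find h) z.2) else (W.h n, 0)

/-- The block `κ` in the level `n + 1`. -/
def blk' (n κ : ℕ) : Set St :=
  {z | κ < W.N n ∧ W.p n κ z.2 ≤ z.1 ∧ z.1 < W.p n κ z.2 + W.h n}

theorem pr_of_mem {n κ : ℕ} {z : St} (h : z ∈ W.blk' n κ) :
    W.pr n z = (z.1 - W.p n κ z.2, W.φ n κ z.2) := by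
  classical
  have hex : ∃ κ, κ < W.N n ∧ W.p n κ z.2 ≤ z.1 ∧ z.1 < W.p n κ z.2 + W.h n := ⟨κ, h⟩
  have hfind : Nat.find hex = κ := by
    have h1 := Nat.find_spec hex
    rcases lt_trichotomy (Nat.find hex) κ with h2 | h2 | h2
    · have := W.disj n _ _ z.2 h2 h.1
      have := h.2.1
      omega
    · exact h2
    · have := W.disj n _ _ z.2 h2 h1.1
      have := h.2.2
      omega
  rw [pr, dif_pos hex, hfind]

theorem pr_of_not {n : ℕ} {z : St} (h : ∀ κ, z ∉ W.blk' n κ) : W.pr n z = (W.h n, 0) := by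
  classical
  rw [pr, dif_neg]
  rintro ⟨κ, hκ⟩
  exact h κ hκ

theorem measurableSet_blk' (n κ : ℕ) : MeasurableSet (W.blk' n κ) := by
  have h1 : Measurable fun z : St => W.p n κ z.2 := (W.p_meas n κ).comp measurable_snd
  have h2 : MeasurableSet {z : St | W.p n κ z.2 ≤ z.1} := measurableSet_le h1 measurable_fst
  have h3 : MeasurableSet {z : St | z.1 < W.p n κ z.2 + W.h n} :=
    measurableSet_lt measurable_fst (h1.add_const _)
  exact (MeasurableSet.const _).inter (h2.inter h3)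

theorem measurable_pr (n : ℕ) : Measurable (W.pr n) := by
  intro B hB
  have h1 : W.pr n ⁻¹' B = (⋃ κ, W.blk' n κ ∩
      (fun z : St => (z.1 - W.p n κ z.2, W.φ n κ z.2)) ⁻¹' B) ∪
        ((⋃ κ, W.blk' n κ)ᶜ ∩ {_z : St | (W.h n, (0 : UnitAddCircle)) ∈ B}) := by
    ext z
    by_cases hz : ∃ κ, z ∈ W.blk' n κ
    · obtain ⟨κ, hκ⟩ := hz
      constructor
      · intro h
        refine Or.inl (Set.mem_iUnion.2 ⟨κ, hκ, ?_⟩)
        rw [Set.mem_preimage, W.pr_of_mem hκ] at h
        exact h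
      · rintro (h | h)
        · obtain ⟨κ', hκ', h'⟩ := Set.mem_iUnion.1 h
          rw [Set.mem_preimage, W.pr_of_mem hκ']
          exact h'
        · exact absurd (Set.mem_iUnion.2 ⟨κ, hκ⟩) h.1
    · have hz' : ∀ κ, z ∉ W.blk' n κ := fun κ hκ => hz ⟨κ, hκ⟩
      rw [Set.mem_preimage, W.pr_of_not hz']
      constructor
      · intro h
        refine Or.inr ⟨fun h' => ?_, h⟩
        exact hz (Set.mem_iUnion.1 h')
      · rintro (h | h)
        · obtain ⟨κ', hκ', h'⟩ := Set.mem_iUnion.1 h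
          exact absurd hκ' (hz' κ')
        · exact h.2
  rw [h1]
  refine MeasurableSet.union (MeasurableSet.iUnion fun κ => ?_)
    ((MeasurableSet.iUnion fun κ => W.measurableSet_blk' n κ).compl.inter (MeasurableSet.const _))
  refine (W.measurableSet_blk' n κ).inter ?_
  have h2 : Measurable fun z : St => (z.1 - W.p n κ z.2, W.φ n κ z.2) :=
    (measurable_fst.sub ((W.p_meas n κ).comp measurable_snd)).prodMk
      ((W.φ_mp n κ).measurable.comp measurable_snd)
  exact h2 hB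

/-- The projection inside the block `κ`. -/
theorem pr_of_block {n κ j : ℕ} (y : UnitAddCircle) (hκ : κ < W.N n) (hj : j < W.h n) :
    W.pr n (W.p n κ y + j, y) = (j, W.φ n κ y) := by
  have h : ((W.p n κ y + j, y) : St) ∈ W.blk' n κ :=
    ⟨hκ, Nat.le_add_right _ _, Nat.add_lt_add_left hj _⟩
  rw [W.pr_of_mem h]
  simp only [Nat.add_sub_cancel_left]

/-- A point which is defined after projection lies in a block. -/
theorem exists_block {n : ℕ} {z : St} (h : (W.pr n z).1 < W.h n) :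
    ∃ κ < W.N n, z.1 = W.p n κ z.2 + (W.pr n z).1 ∧ (W.pr n z).2 = W.φ n κ z.2 := by
  by_cases hz : ∃ κ, z ∈ W.blk' n κ
  · obtain ⟨κ, hκ⟩ := hz
    refine ⟨κ, hκ.1, ?_, ?_⟩
    · rw [W.pr_of_mem hκ]
      have := hκ.2.1
      simp only
      omega
    · rw [W.pr_of_mem hκ]
  · rw [W.pr_of_not fun κ hκ => hz ⟨κ, hκ⟩] at h
    exact absurd h (lt_irrefl _)

/-- Sum over a fibre of the level `n + 1`. -/
theorem sum_fibre (n : ℕ) (f : St → ENNReal) (y : UnitAddCircle) :
    ∑ q ∈ Finset.range (W.h (n + 1)), f (W.pr n (q, y)) =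
      ∑ κ ∈ Finset.range (W.N n), ∑ j ∈ Finset.range (W.h n), f (j, W.φ n κ y) +
        ((W.h (n + 1) - W.N n * W.h n : ℕ) : ENNReal) * f (W.h n, 0) := by
  classical
  set ψ : ℕ × ℕ → ℕ := fun q => W.p n q.1 y + q.2 with hψ
  set D := Finset.range (W.N n) ×ˢ Finset.range (W.h n) with hD
  have hinj : Set.InjOn ψ (D : Set (ℕ × ℕ)) := by
    rintro ⟨κ, j⟩ h ⟨κ', j'⟩ h' heq
    rw [Finset.mem_coe, hD, Finset.mem_product, Finset.mem_range, Finset.mem_range] at h h'
    simp only [hψ] at heq h h'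
    rcases lt_trichotomy κ κ' with h2 | h2 | h2
    · have := W.disj n _ _ y h2 h'.1
      omega
    · subst h2
      congr 1
      omega
    · have := W.disj n _ _ y h2 h.1
      omega
  have hsub : D.image ψ ⊆ Finset.range (W.h (n + 1)) := by
    intro q hq
    obtain ⟨⟨κ, j⟩, h, rfl⟩ := Finset.mem_image.1 hq
    rw [hD, Finset.mem_product, Finset.mem_range, Finset.mem_range] at h
    have := W.fit n κ y h.1
    simp only at h
    rw [Finset.mem_range]
    simp only [hψ]
    omega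
  have hcard : (D.image ψ).card = W.N n * W.h n := by
    rw [Finset.card_image_of_injOn hinj, hD, Finset.card_product, Finset.card_range,
      Finset.card_range]
  rw [← Finset.sum_sdiff hsub, add_comm]
  congr 1
  · rw [Finset.sum_image hinj, hD, Finset.sum_product]
    refine Finset.sum_congr rfl fun κ hκ => Finset.sum_congr rfl fun j hj => ?_
    rw [hψ]
    simp only
    rw [W.pr_of_block y (Finset.mem_range.1 hκ) (Finset.mem_range.1 hj)]
  · have h1 : ∀ q ∈ Finset.range (W.h (n + 1)) \ D.image ψ, f (W.pr n (q, y)) =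
        f (W.h n, 0) := by
      intro q hq
      rw [Finset.mem_sdiff] at hq
      rw [W.pr_of_not]
      intro κ hκ
      apply hq.2
      refine Finset.mem_image.2 ⟨(κ, q - W.p n κ y), ?_, ?_⟩
      · rw [hD, Finset.mem_product, Finset.mem_range, Finset.mem_range]
        have h2 := hκ.2.1
        have h3 := hκ.2.2
        simp only at h2 h3 ⊢
        exact ⟨hκ.1, by omega⟩
      · have h2 := hκ.2.1
        simp only [hψ] at h2 ⊢
        omega
    rw [Finset.sum_congr rfl h1, Finset.sum_const, Finset.card_sdiff_of_subset hsub, hcard,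
      Finset.card_range, nsmul_eq_mul]

theorem lintegral_pr (n : ℕ) {f : St → ENNReal} (hf : Measurable f) :
    ∫⁻ z, f (W.pr n z) ∂(W.lev (n + 1)) = ∫⁻ z, f z ∂(W.lev n) := by
  have hfp : Measurable fun z => f (W.pr n z) := hf.comp (W.measurable_pr n)
  have hfib : ∀ j : ℕ, Measurable fun y : UnitAddCircle => f (j, y) :=
    fun j => hf.comp measurable_prodMk_left
  have hφ : ∀ κ j : ℕ, Measurable fun y : UnitAddCircle => f (j, W.φ n κ y) :=
    fun κ j => (hfib j).comp (W.φ_mp n κ).measurable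
  have hfin := measure_univ (μ := hc)
  rw [W.lintegral_lev _ hfp, W.lintegral_lev _ hf]
  have hend : W.pr n (W.h (n + 1), 0) = (W.h n, 0) := by
    apply W.pr_of_not
    intro κ hκ
    have h1 := W.fit n κ 0 hκ.1
    have h2 := hκ.2.2
    simp only at h2
    omega
  have hsum : ∑ j ∈ Finset.range (W.h (n + 1)), ∫⁻ y, f (W.pr n (j, y)) ∂hc =
      (W.N n : ENNReal) * (∑ j ∈ Finset.range (W.h n), ∫⁻ y, f (j, y) ∂hc) +
        ((W.h (n + 1) - W.N n * W.h n : ℕ) : ENNReal) * f (W.h n, 0) := by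
    rw [← lintegral_finsetSum _ fun j _ =>
      show Measurable fun y => f (W.pr n (j, y)) from hfp.comp measurable_prodMk_left]
    simp only [W.sum_fibre n f]
    rw [lintegral_add_right _ measurable_const, lintegral_const, hfin, mul_one,
      lintegral_finsetSum _ fun κ _ => Finset.measurable_sum _ fun j _ => hφ κ j]
    congr 1
    have h1 : ∀ κ ∈ Finset.range (W.N n),
        ∫⁻ y, ∑ j ∈ Finset.range (W.h n), f (j, W.φ n κ y) ∂hc =
          ∑ j ∈ Finset.range (W.h n), ∫⁻ y, f (j, y) ∂hc := by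
      intro κ _
      rw [lintegral_finsetSum _ fun j _ => hφ κ j]
      refine Finset.sum_congr rfl fun j _ => ?_
      exact (W.φ_mp n κ).lintegral_comp (hfib j)
    rw [Finset.sum_congr rfl h1, Finset.sum_const, Finset.card_range, nsmul_eq_mul]
  have hw := W.wt_pos (n + 1)
  have hle : W.N n * W.h n ≤ W.h (n + 1) := W.N_mul_h_le n
  have h1 := W.wt_mul_h_le (n + 1)
  rw [hsum, hend, mul_add, ← mul_assoc, ← mul_assoc, add_assoc, ← add_mul]
  congr 2
  · rw [W.wt_succ n, ENNReal.ofReal_mul (Nat.cast_nonneg _), ENNReal.ofReal_natCast, mul_comm]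
  · rw [← ENNReal.ofReal_natCast, ← ENNReal.ofReal_mul hw.le,
      ← ENNReal.ofReal_add (by positivity) (by linarith only [h1])]
    congr 1
    rw [W.wt_succ n, Nat.cast_sub hle]
    push_cast
    ring

theorem measurePreserving_pr (n : ℕ) :
    MeasurePreserving (W.pr n) (W.lev (n + 1)) (W.lev n) := by
  refine ⟨W.measurable_pr n, ?_⟩
  ext B hB
  rw [Measure.map_apply (W.measurable_pr n) hB, ← lintegral_indicator_one hB,
    ← W.lintegral_pr n (measurable_one.indicator hB), ← lintegral_indicator_one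
      (W.measurable_pr n hB)]
  rfl

/-- Consistent sequences which are eventually far from the ends of the towers. -/
def good : Set (ℕ → St) :=
  {z | (∀ n, W.pr n (z (n + 1)) = z n) ∧ ∀ M, ∃ n, M ≤ (z n).1 ∧ (z n).1 + M < W.h n}

theorem measurableSet_good : MeasurableSet W.good := by
  have h1 : MeasurableSet {z : ℕ → St | ∀ n, W.pr n (z (n + 1)) = z n} := by
    rw [Set.ofPred_forall]
    exact MeasurableSet.iInter fun n =>
      measurableSet_eq_fun ((W.measurable_pr n).comp (measurable_pi_apply (n + 1)))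
        (measurable_pi_apply n)
  have h2 : MeasurableSet {z : ℕ → St | ∀ M, ∃ n, M ≤ (z n).1 ∧ (z n).1 + M < W.h n} := by
    rw [Set.ofPred_forall]
    refine MeasurableSet.iInter fun M => ?_
    rw [Set.ofPred_exists]
    refine MeasurableSet.iUnion fun n => ?_
    have h3 : Measurable fun z : ℕ → St => (z n).1 := measurable_fst.comp (measurable_pi_apply n)
    exact (measurableSet_le measurable_const h3).inter
      (measurableSet_lt (h3.add_const M) measurable_const)
  exact h1.inter h2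

theorem good_persist_succ {z : ℕ → St} (hz : ∀ n, W.pr n (z (n + 1)) = z n) {M n : ℕ}
    (h1 : M ≤ (z n).1) (h2 : (z n).1 + M < W.h n) :
    M ≤ (z (n + 1)).1 ∧ (z (n + 1)).1 + M < W.h (n + 1) := by
  have h3 : (W.pr n (z (n + 1))).1 < W.h n := by
    rw [hz n]
    omega
  obtain ⟨κ, hκ, h4, -⟩ := W.exists_block h3
  have h5 := W.fit n κ (z (n + 1)).2 hκ
  rw [hz n] at h4
  omega

/-- Being far from the ends persists to higher levels. -/
theorem good_persist {z : ℕ → St} (hz : ∀ n, W.pr n (z (n + 1)) = z n) {M n m : ℕ}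
    (h1 : M ≤ (z n).1) (h2 : (z n).1 + M < W.h n) (hnm : n ≤ m) :
    M ≤ (z m).1 ∧ (z m).1 + M < W.h m := by
  induction m, hnm using Nat.le_induction with
  | base => exact ⟨h1, h2⟩
  | succ m _ ih => exact W.good_persist_succ hz ih.1 ih.2

/-- A probability measure on the good sequences with the prescribed marginals. -/
structure Lim (ν : Measure W.good) : Prop where
  prob : IsProbabilityMeasure ν
  ev : ∀ n, MeasurePreserving (fun z : W.good => z.1 n) ν (W.lev n)

/-- Points of level `n` at distance at least `M` from the ends. -/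
theorem lev_core_ge (n M : ℕ) :
    ENNReal.ofReal (W.wt n * W.h n - 2 * M * W.wt n) ≤
      W.lev n {z : St | M ≤ z.1 ∧ z.1 + M < W.h n} := by
  have hm : MeasurableSet {z : St | M ≤ z.1 ∧ z.1 + M < W.h n} :=
    (measurableSet_le measurable_const measurable_fst).inter
      (measurableSet_lt (measurable_fst.add_const M) measurable_const)
  rw [← lintegral_indicator_one hm, W.lintegral_lev _ (measurable_one.indicator hm)]
  refine le_add_right ?_
  have h1 : ∑ j ∈ Finset.Ico M (W.h n - M), (1 : ENNReal) ≤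
      ∑ j ∈ Finset.range (W.h n),
        ∫⁻ y, {z : St | M ≤ z.1 ∧ z.1 + M < W.h n}.indicator 1 (j, y) ∂hc := by
    refine le_trans (Finset.sum_le_sum fun j hj => ?_)
      (Finset.sum_le_sum_of_subset (s := Finset.Ico M (W.h n - M)) ?_)
    · rw [Finset.mem_Ico] at hj
      have : ∀ y : UnitAddCircle,
          ({z : St | M ≤ z.1 ∧ z.1 + M < W.h n}.indicator 1 (j, y) : ENNReal) = 1 := by
        intro y
        rw [Set.indicator_of_mem]
        · rfl
        · exact ⟨hj.1, show j + M < W.h n by omega⟩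
      simp only [this, lintegral_one, measure_univ, le_refl]
    · intro j hj
      rw [Finset.mem_Ico] at hj
      rw [Finset.mem_range]
      omega
  refine le_trans ?_ (mul_le_mul_right h1 _)
  rw [Finset.sum_const, Nat.card_Ico, nsmul_eq_mul, mul_one, ← ENNReal.ofReal_natCast,
    ← ENNReal.ofReal_mul (W.wt_pos n).le]
  apply ENNReal.ofReal_le_ofReal
  have h2 : (W.h n : ℝ) - 2 * M ≤ ((W.h n - M - M : ℕ) : ℝ) := by
    rw [Nat.sub_sub]
    have h4 : W.h n ≤ (W.h n - (M + M)) + (M + M) := by omega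
    have h5 : (W.h n : ℝ) ≤ ((W.h n - (M + M) : ℕ) : ℝ) + (M + M) := by exact_mod_cast h4
    linarith only [h5]
  nlinarith only [W.wt_pos n, h2]

theorem exists_lim : ∃ ν : Measure W.good, W.Lim ν := by
  obtain ⟨ν, hν, hev, hcons⟩ := inverse_limit (fun _ => St) W.lev W.pr W.measurePreserving_pr
  have hfar : ∀ M : ℕ, ∀ᵐ z ∂ν, ∃ n, M ≤ (z n).1 ∧ (z n).1 + M < W.h n := by
    intro M
    rw [ae_iff]
    have h1 : ∀ n, ν {z : ℕ → St | ¬ ∃ n, M ≤ (z n).1 ∧ (z n).1 + M < W.h n} ≤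
        ENNReal.ofReal (1 - (W.wt n * W.h n - 2 * M * W.wt n)) := by
      intro n
      have hm : MeasurableSet {z : St | M ≤ z.1 ∧ z.1 + M < W.h n} :=
        (measurableSet_le measurable_const measurable_fst).inter
          (measurableSet_lt (measurable_fst.add_const M) measurable_const)
      calc ν {z : ℕ → St | ¬ ∃ n, M ≤ (z n).1 ∧ (z n).1 + M < W.h n}
          ≤ ν ((fun z : ℕ → St => z n) ⁻¹' {z : St | M ≤ z.1 ∧ z.1 + M < W.h n}ᶜ) := by
            apply measure_mono
            intro z hz hz'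
            exact hz ⟨n, hz'⟩
        _ = W.lev n {z : St | M ≤ z.1 ∧ z.1 + M < W.h n}ᶜ :=
            (hev n).measure_preimage hm.compl.nullMeasurableSet
        _ = 1 - W.lev n {z : St | M ≤ z.1 ∧ z.1 + M < W.h n} := prob_compl_eq_one_sub hm
        _ ≤ 1 - ENNReal.ofReal (W.wt n * W.h n - 2 * M * W.wt n) :=
            tsub_le_tsub_left (W.lev_core_ge n M) _
        _ ≤ ENNReal.ofReal (1 - (W.wt n * W.h n - 2 * M * W.wt n)) := by
            rw [tsub_le_iff_right, ← ENNReal.ofReal_one]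
            refine le_trans (ENNReal.ofReal_le_ofReal (le_of_eq ?_)) ENNReal.ofReal_add_le
            ring
    have h2 : Tendsto (fun n => ENNReal.ofReal (1 - (W.wt n * W.h n - 2 * M * W.wt n))) atTop
        (𝓝 (ENNReal.ofReal (1 - (1 - 2 * M * 0)))) :=
      ENNReal.tendsto_ofReal (tendsto_const_nhds.sub
        (W.tendsto_wt_mul_h.sub (W.tendsto_wt.const_mul _)))
    rw [show ENNReal.ofReal (1 - (1 - 2 * (M : ℝ) * 0)) = 0 by simp] at h2
    exact le_antisymm (ge_of_tendsto' h2 h1) zero_le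
  have hgood : ∀ᵐ z ∂ν, z ∈ W.good := by
    filter_upwards [hcons, ae_all_iff.2 hfar] with z h1 h2
    exact ⟨h1, h2⟩
  refine ⟨ν.comap (↑), ?_, fun n => ?_⟩
  · refine ⟨?_⟩
    rw [comap_subtype_coe_apply W.measurableSet_good, Set.image_univ, Subtype.range_coe,
      ← measure_univ (μ := ν)]
    exact measure_congr (Filter.eventuallyEq_univ.2 hgood)
  · have hmap : (ν.comap ((↑) : W.good → (ℕ → St))).map (↑) = ν := by
      rw [map_comap_subtype_coe W.measurableSet_good, Measure.restrict_eq_self_of_ae_mem hgood]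
    have h1 : MeasurePreserving ((↑) : W.good → (ℕ → St)) (ν.comap (↑)) ν :=
      ⟨measurable_subtype_coe, hmap⟩
    exact (hev n).comp h1

end Tower

end Vale.Agent.P130
end
end

section

section

/-!
# The cutting-and-stacking system: totality of the cylinder functions
-/

open MeasureTheory Filter Topology

namespace Vale.Agent.P130

namespace Tower

variable (W : Tower)

theorem setInt_floor {ν : Measure W.good} (hν : W.Lim ν) (g : W.good → ℂ) (hg : MemLp g 2 ν)
    (n j : ℕ) (hj : j < W.h n)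
    (h0 : ∀ l : ℤ,
      ∫ z : W.good, (if (z.1 n).1 = j then starRingEnd ℂ (fourier l (z.1 n).2) else 0) * g z ∂ν
        = 0) (A : Set UnitAddCircle) (hA : MeasurableSet A) :
    ∫ z in {z : W.good | (z.1 n).1 = j ∧ (z.1 n).2 ∈ A}, g z ∂ν = 0 := by
  have := hν.prob
  have hev : Measurable (fun z : W.good => z.1 n) := (hν.ev n).measurable
  set Y : W.good → UnitAddCircle := fun z => (z.1 n).2 with hYdef
  have hYm : Measurable Y := measurable_snd.comp hev
  set E : Set W.good := {z | (z.1 n).1 = j} with hE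
  have hEm : MeasurableSet E := (measurable_fst.comp hev) (measurableSet_singleton j)
  set c : ENNReal := ENNReal.ofReal (W.wt n) with hc'
  have hc0 : c ≠ 0 := by
    rw [hc', Ne, ENNReal.ofReal_eq_zero, not_le]
    exact W.wt_pos n
  have hct : c ≠ ⊤ := ENNReal.ofReal_ne_top
  have hci : c⁻¹ ≠ ⊤ := ENNReal.inv_ne_top.2 hc0
  have hci0 : c⁻¹.toReal ≠ 0 := by
    rw [Ne, ENNReal.toReal_eq_zero_iff, not_or]
    exact ⟨ENNReal.inv_ne_zero.2 hct, hci⟩
  set μ : Measure W.good := c⁻¹ • ν.restrict E with hμ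
  have hY : MeasurePreserving Y μ hc := by
    refine ⟨hYm, ?_⟩
    ext B hB
    rw [Measure.map_apply hYm hB, hμ, Measure.smul_apply, Measure.restrict_apply (hYm hB)]
    have h1 : Y ⁻¹' B ∩ E = (fun z : W.good => z.1 n) ⁻¹' {z : St | z.1 = j ∧ z.2 ∈ B} := by
      ext z
      constructor
      · rintro ⟨h2, h3⟩
        exact ⟨h3, h2⟩
      · rintro ⟨h2, h3⟩
        exact ⟨h3, h2⟩
    have hm : MeasurableSet {z : St | z.1 = j ∧ z.2 ∈ B} :=
      (measurable_fst (measurableSet_singleton j)).inter (measurable_snd hB)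
    rw [h1, (hν.ev n).measure_preimage hm.nullMeasurableSet, W.lev_floor n hj hB, smul_eq_mul,
      ← mul_assoc, ENNReal.inv_mul_cancel hc0 hct, one_mul]
  have hgμ : MemLp g 2 μ := (hg.restrict E).smul_measure hci
  set G : Lp ℂ 2 μ := hgμ.toLp g with hG
  have hGg : G =ᵐ[μ] g := hgμ.coeFn_toLp
  set T : Lp ℂ 2 hc →ₗᵢ[ℂ] Lp ℂ 2 μ := Lp.compMeasurePreservingₗᵢ ℂ Y hY with hT
  have hTv : ∀ v : Lp ℂ 2 hc, T v =ᵐ[μ] v ∘ Y := fun v => Lp.coeFn_compMeasurePreserving v hY
  have hqmp := hY.quasiMeasurePreserving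
  have hinner : ∀ (v : Lp ℂ 2 hc) (w : UnitAddCircle → ℂ), v =ᵐ[hc] w →
      inner ℂ (T v) G = c⁻¹.toReal • ∫ z in E, starRingEnd ℂ (w (Y z)) * g z ∂ν := by
    intro v w hvw
    rw [L2.inner_def, ← integral_smul_measure]
    refine integral_congr_ae ?_
    filter_upwards [hGg, hTv v, hqmp.ae_eq_comp hvw] with z h1 h2 h3
    rw [h1, h2, h3, RCLike.inner_apply, mul_comm]
    rfl
  have hfour : ∀ l : ℤ, inner ℂ (T (fourierLp 2 l)) G = 0 := by
    intro l
    rw [hinner _ _ (coeFn_fourierLp 2 l)]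
    have h1 : ∫ z in E, starRingEnd ℂ (fourier l (Y z)) * g z ∂ν = 0 := by
      rw [← h0 l, ← integral_indicator hEm]
      refine integral_congr_ae (Eventually.of_forall fun z => ?_)
      by_cases hz : z ∈ E
      · rw [Set.indicator_of_mem hz]
        have hz' : (z.1 n).1 = j := hz
        simp only [hz', if_true, hYdef]
      · rw [Set.indicator_of_notMem hz]
        have hz' : ¬ (z.1 n).1 = j := hz
        simp only [hz', if_false, zero_mul]
    rw [h1, smul_zero]
  have hall : ∀ v : Lp ℂ 2 hc, inner ℂ (T v) G = 0 := by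
    set S : Submodule ℂ (Lp ℂ 2 hc) := ((Submodule.span ℂ {G})ᗮ).comap T.toLinearMap with hS
    have hSc : IsClosed (S : Set (Lp ℂ 2 hc)) := by
      have : (S : Set (Lp ℂ 2 hc)) = T ⁻¹' ((Submodule.span ℂ {G})ᗮ : Set (Lp ℂ 2 μ)) := rfl
      rw [this]
      exact (Submodule.isClosed_orthogonal _).preimage T.continuous
    have hsub : (Submodule.span ℂ (Set.range (@fourierLp 1 _ 2 _))) ≤ S := by
      rw [Submodule.span_le]
      rintro _ ⟨l, rfl⟩
      change T (fourierLp 2 l) ∈ (Submodule.span ℂ {G})ᗮ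
      rw [Submodule.mem_orthogonal_singleton_iff_inner_left]
      exact hfour l
    have htop : S = ⊤ := by
      rw [eq_top_iff, ← span_fourierLp_closure_eq_top (T := 1) (p := 2) (by norm_num)]
      exact Submodule.topologicalClosure_minimal _ hsub hSc
    intro v
    have hv : v ∈ S := htop ▸ Submodule.mem_top
    have hv' : T v ∈ (Submodule.span ℂ {G})ᗮ := hv
    rwa [Submodule.mem_orthogonal_singleton_iff_inner_left] at hv'
  have h1 := hall (indicatorConstLp 2 hA (measure_ne_top hc A) (1 : ℂ))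
  rw [hinner _ _ indicatorConstLp_coeFn] at h1
  have h2 : ∫ z in E, starRingEnd ℂ (A.indicator (fun _ => (1 : ℂ)) (Y z)) * g z ∂ν = 0 := by
    rcases smul_eq_zero.1 h1 with h | h
    · exact absurd h hci0
    · exact h
  have hm : MeasurableSet {z : W.good | (z.1 n).1 = j ∧ (z.1 n).2 ∈ A} := hEm.inter (hYm hA)
  rw [← h2, ← integral_indicator hEm, ← integral_indicator hm]
  refine integral_congr_ae (Eventually.of_forall fun z => ?_)
  by_cases hz : z ∈ E
  · by_cases hz2 : Y z ∈ A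
    · have hz3 : z ∈ {z : W.good | (z.1 n).1 = j ∧ (z.1 n).2 ∈ A} := ⟨hz, hz2⟩
      simp only [Set.indicator_of_mem hz3, Set.indicator_of_mem hz, Set.indicator_of_mem hz2,
        map_one, one_mul]
    · have hz3 : z ∉ {z : W.good | (z.1 n).1 = j ∧ (z.1 n).2 ∈ A} := fun h => hz2 h.2
      simp only [Set.indicator_of_notMem hz3, Set.indicator_of_mem hz,
        Set.indicator_of_notMem hz2, map_zero, zero_mul]
  · have hz3 : z ∉ {z : W.good | (z.1 n).1 = j ∧ (z.1 n).2 ∈ A} := fun h => hz h.1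
    simp only [Set.indicator_of_notMem hz3, Set.indicator_of_notMem hz]

/-- The set of good sequences whose coordinate `n` lies in the tower and in `B`. -/
theorem setInt_level {ν : Measure W.good} (hν : W.Lim ν) (g : W.good → ℂ) (hg : MemLp g 2 ν)
    (h0 : ∀ n, ∀ j < W.h n, ∀ l : ℤ,
      ∫ z : W.good, (if (z.1 n).1 = j then starRingEnd ℂ (fourier l (z.1 n).2) else 0) * g z ∂ν
        = 0) (n : ℕ) (B : Set St) (hB : MeasurableSet B) :
    ∫ z in {z : W.good | z.1 n ∈ B ∧ (z.1 n).1 < W.h n}, g z ∂ν = 0 := by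
  have := hν.prob
  have hev : Measurable (fun z : W.good => z.1 n) := (hν.ev n).measurable
  have hgi : Integrable g ν := hg.integrable (by norm_num)
  have h1 : {z : W.good | z.1 n ∈ B ∧ (z.1 n).1 < W.h n} =
      ⋃ j ∈ Finset.range (W.h n),
        {z : W.good | (z.1 n).1 = j ∧ (z.1 n).2 ∈ {y : UnitAddCircle | ((j, y) : St) ∈ B}} := by
    ext z
    simp only [Set.mem_iUnion, Finset.mem_range, exists_prop]
    constructor
    · rintro ⟨h2, h3⟩
      exact ⟨(z.1 n).1, h3, rfl, h2⟩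
    · rintro ⟨j, hj, h2, h3⟩
      refine ⟨?_, ?_⟩
      · have h4 : (((z.1 n).1, (z.1 n).2) : St) ∈ B := by
          rw [h2]
          exact h3
        exact h4
      · rw [h2]
        exact hj
  have hAm : ∀ j : ℕ, MeasurableSet {y : UnitAddCircle | ((j, y) : St) ∈ B} :=
    fun j => measurable_prodMk_left hB
  rw [h1, integral_biUnion_finset]
  · refine Finset.sum_eq_zero fun j hj => ?_
    exact W.setInt_floor hν g hg n j (Finset.mem_range.1 hj)
      (h0 n j (Finset.mem_range.1 hj)) _ (hAm j)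
  · intro j _
    exact ((measurable_fst.comp hev) (measurableSet_singleton j)).inter
      ((measurable_snd.comp hev) (hAm j))
  · intro i _ j _ hij
    rw [Function.onFun, Set.disjoint_left]
    rintro z ⟨h2, -⟩ ⟨h3, -⟩
    exact hij (h2.symm.trans h3)
  · intro j _
    exact hgi.integrableOn

/-- Iterated projections. -/
noncomputable def prIC (W : Tower) (n : ℕ) (t : ℕ) : St → St :=
  Nat.rec id (fun t f z => f (W.pr (n + t) z)) t

theorem measurable_prIC (n t : ℕ) : Measurable (W.prIC n t) := by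
  induction t with
  | zero => exact measurable_id
  | succ t ih => exact ih.comp (W.measurable_pr (n + t))

theorem prIC_good (n t : ℕ) {z : ℕ → St} (hz : ∀ n, W.pr n (z (n + 1)) = z n) :
    W.prIC n t (z (n + t)) = z n := by
  induction t with
  | zero => rfl
  | succ t ih =>
    change W.prIC n t (W.pr (n + t) (z (n + t + 1))) = z n
    rw [hz (n + t), ih]

theorem setInt_cyl {ν : Measure W.good} (hν : W.Lim ν) (g : W.good → ℂ) (hg : MemLp g 2 ν)
    (h0 : ∀ n, ∀ j < W.h n, ∀ l : ℤ,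
      ∫ z : W.good, (if (z.1 n).1 = j then starRingEnd ℂ (fourier l (z.1 n).2) else 0) * g z ∂ν
        = 0) (n : ℕ) (B : Set St) (hB : MeasurableSet B) :
    ∫ z in {z : W.good | z.1 n ∈ B}, g z ∂ν = 0 := by
  have := hν.prob
  have hev : ∀ n, Measurable (fun z : W.good => z.1 n) := fun n => (hν.ev n).measurable
  have hgi : Integrable g ν := hg.integrable (by norm_num)
  have hset : ∀ t : ℕ, MeasurableSet {z : W.good | z.1 n ∈ B ∧ (z.1 (n + t)).1 < W.h (n + t)} :=
    fun t => ((hev n) hB).inter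
      ((measurable_fst.comp (hev (n + t))) (measurableSet_Iio (a := W.h (n + t))))
  have hzero : ∀ t : ℕ,
      ∫ z in {z : W.good | z.1 n ∈ B ∧ (z.1 (n + t)).1 < W.h (n + t)}, g z ∂ν = 0 := by
    intro t
    have h1 := W.setInt_level hν g hg h0 (n + t) (W.prIC n t ⁻¹' B) (W.measurable_prIC n t hB)
    have h2 : {z : W.good | z.1 (n + t) ∈ W.prIC n t ⁻¹' B ∧ (z.1 (n + t)).1 < W.h (n + t)} =
        {z : W.good | z.1 n ∈ B ∧ (z.1 (n + t)).1 < W.h (n + t)} := by
      ext z
      have h3 := W.prIC_good n t z.2.1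
      constructor
      · rintro ⟨h4, h5⟩
        rw [Set.mem_preimage, h3] at h4
        exact ⟨h4, h5⟩
      · rintro ⟨h4, h5⟩
        refine ⟨?_, h5⟩
        rw [Set.mem_preimage, h3]
        exact h4
    rwa [h2] at h1
  have hlim : Tendsto (fun t : ℕ =>
      ∫ z, ({z : W.good | z.1 n ∈ B ∧ (z.1 (n + t)).1 < W.h (n + t)}).indicator g z ∂ν) atTop
      (𝓝 (∫ z, ({z : W.good | z.1 n ∈ B}).indicator g z ∂ν)) := by
    refine tendsto_integral_of_dominated_convergence (fun z => ‖g z‖) ?_ hgi.norm ?_ ?_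
    · intro t
      exact hgi.aestronglyMeasurable.indicator (hset t)
    · intro t
      exact Eventually.of_forall fun z => norm_indicator_le_norm_self g z
    · refine Eventually.of_forall fun z => ?_
      obtain ⟨m, -, hm⟩ := z.2.2 0
      refine tendsto_const_nhds.congr' ?_
      filter_upwards [eventually_ge_atTop m] with t ht
      have h1 := (W.good_persist z.2.1 (Nat.zero_le _) hm (show m ≤ n + t by omega)).2
      rw [add_zero] at h1
      by_cases hz : z.1 n ∈ B
      · rw [Set.indicator_of_mem, Set.indicator_of_mem]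
        · exact ⟨hz, h1⟩
        · exact hz
      · rw [Set.indicator_of_notMem, Set.indicator_of_notMem]
        · exact fun h => hz h.1
        · exact hz
  have h1 : ∀ t : ℕ,
      ∫ z, ({z : W.good | z.1 n ∈ B ∧ (z.1 (n + t)).1 < W.h (n + t)}).indicator g z ∂ν = 0 := by
    intro t
    rw [integral_indicator (hset t)]
    exact hzero t
  simp only [h1] at hlim
  have hBm : MeasurableSet {z : W.good | z.1 n ∈ B} := (hev n) hB
  rw [← integral_indicator hBm]
  exact tendsto_nhds_unique hlim tendsto_const_nhds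

theorem total_good {ν : Measure W.good} (hν : W.Lim ν) (g : W.good → ℂ) (hg : MemLp g 2 ν)
    (h0 : ∀ n, ∀ j < W.h n, ∀ l : ℤ,
      ∫ z : W.good, (if (z.1 n).1 = j then starRingEnd ℂ (fourier l (z.1 n).2) else 0) * g z ∂ν
        = 0) : g =ᵐ[ν] 0 := by
  have := hν.prob
  have hev : ∀ n, Measurable (fun z : W.good => z.1 n) := fun n => (hν.ev n).measurable
  have hgi : Integrable g ν := hg.integrable (by norm_num)
  set Pi0 : Set (Set W.good) :=
    {S | ∃ (n : ℕ) (B : Set St), MeasurableSet B ∧ S = {z : W.good | z.1 n ∈ B}} with hPi0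
  have hgen : (inferInstance : MeasurableSpace W.good) = MeasurableSpace.generateFrom Pi0 := by
    apply le_antisymm
    · change MeasurableSpace.comap (fun z : W.good => z.1)
        (⨆ a : ℕ, MeasurableSpace.comap (fun b : ℕ → St => b a) inferInstance) ≤ _
      rw [MeasurableSpace.comap_iSup]
      refine iSup_le fun n => ?_
      rw [MeasurableSpace.comap_comp]
      rintro S ⟨B, hB, rfl⟩
      exact MeasurableSpace.measurableSet_generateFrom ⟨n, B, hB, rfl⟩
    · refine MeasurableSpace.generateFrom_le ?_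
      rintro S ⟨n, B, hB, rfl⟩
      exact (hev n) hB
  have hpi : IsPiSystem Pi0 := by
    rintro S ⟨n, B, hB, rfl⟩ S' ⟨n', B', hB', rfl⟩ -
    rcases le_total n n' with h | h
    · obtain ⟨t, rfl⟩ := Nat.exists_eq_add_of_le h
      refine ⟨n + t, W.prIC n t ⁻¹' B ∩ B', (W.measurable_prIC n t hB).inter hB', ?_⟩
      ext z
      have h3 := W.prIC_good n t z.2.1
      constructor
      · rintro ⟨h4, h5⟩
        refine ⟨?_, h5⟩
        rw [Set.mem_preimage, h3]
        exact h4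
      · rintro ⟨h4, h5⟩
        rw [Set.mem_preimage, h3] at h4
        exact ⟨h4, h5⟩
    · obtain ⟨t, rfl⟩ := Nat.exists_eq_add_of_le h
      refine ⟨n' + t, W.prIC n' t ⁻¹' B' ∩ B, (W.measurable_prIC n' t hB').inter hB, ?_⟩
      ext z
      have h3 := W.prIC_good n' t z.2.1
      constructor
      · rintro ⟨h4, h5⟩
        refine ⟨?_, h4⟩
        rw [Set.mem_preimage, h3]
        exact h5
      · rintro ⟨h4, h5⟩
        rw [Set.mem_preimage, h3] at h4
        exact ⟨h5, h4⟩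
  have huniv : ∫ z, g z ∂ν = 0 := by
    have h1 := W.setInt_cyl hν g hg h0 0 Set.univ MeasurableSet.univ
    simpa using h1
  refine ae_eq_zero_of_forall_setIntegral_eq_of_sigmaFinite (fun s _ _ => hgi.integrableOn) ?_
  intro s hs _
  refine MeasurableSpace.induction_on_inter (C := fun s _ => ∫ z in s, g z ∂ν = 0)
    hgen hpi ?_ ?_ ?_ ?_ s hs
  · simp
  · rintro t ⟨n, B, hB, rfl⟩
    exact W.setInt_cyl hν g hg h0 n B hB
  · intro t ht h1
    have h2 := integral_add_compl ht hgi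
    rw [h1, huniv, zero_add] at h2
    exact h2
  · intro f hd hf h1
    rw [integral_iUnion hf hd hgi.integrableOn]
    simp only [h1, tsum_zero]

end Tower

end Vale.Agent.P130
end
end

section

section

open MeasureTheory Filter Topology

namespace Vale.Agent.P130

lemma ee_add (s t : ℝ) : ee (s + t) = ee s * ee t := by
  unfold ee
  rw [← Complex.exp_add]
  congr 1
  push_cast
  ring

lemma ee_zero : ee 0 = 1 := by simp [ee]

lemma ee_intCast (k : ℤ) : ee (k : ℝ) = 1 := by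
  unfold ee
  rw [Complex.exp_eq_one_iff]
  exact ⟨k, by push_cast; ring⟩

lemma ee_add_int (t : ℝ) (k : ℤ) : ee (t + k) = ee t := by
  rw [ee_add, ee_intCast, mul_one]

lemma ee_natCast_mul (n : ℕ) (t : ℝ) : ee (n * t) = ee t ^ n := by
  unfold ee
  rw [← Complex.exp_nat_mul]
  congr 1
  push_cast
  ring

lemma norm_ee (t : ℝ) : ‖ee t‖ = 1 := by
  unfold ee
  have : 2 * (Real.pi : ℂ) * Complex.I * (t : ℂ) = ((2 * Real.pi * t : ℝ) : ℂ) * Complex.I := by
    push_cast; ring
  rw [this]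
  exact Complex.norm_exp_ofReal_mul_I _

lemma conj_ee (t : ℝ) : starRingEnd ℂ (ee t) = ee (-t) := by
  unfold ee
  rw [← Complex.exp_conj]
  congr 1
  simp only [map_mul, Complex.conj_ofReal, Complex.conj_I, map_ofNat]
  push_cast
  ring

lemma fourier_coe_eq_ee (n : ℤ) (t : ℝ) : fourier n ((t : ℝ) : UnitAddCircle) = ee (n * t) := by
  rw [fourier_coe_apply]
  unfold ee
  congr 1
  push_cast
  ring

lemma norm_fourier_apply (n : ℤ) (x : UnitAddCircle) : ‖fourier n x‖ = 1 := by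
  rw [fourier_apply]
  exact Circle.norm_coe _

/-- Jordan inequality on the circle. -/
lemma norm_ee_sub_one_ge (x δ : ℝ) (h : ∀ k : ℤ, δ ≤ |x - k|) : 4 * δ ≤ ‖ee x - 1‖ := by
  have h1 := h (round x)
  have h2 : |x - round x| ≤ 1 / 2 := abs_sub_round x
  set y := x - round x with hy
  have h3 : ee x = ee y := by
    rw [hy, ← ee_add_int (x - round x) (round x)]
    congr 1
    ring
  have h4 : ‖ee y - 1‖ = 2 * |Real.sin (Real.pi * y)| := by
    unfold ee
    have : 2 * (Real.pi : ℂ) * Complex.I * (y : ℂ) = Complex.I * ((2 * Real.pi * y : ℝ) : ℂ) := by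
      push_cast; ring
    rw [this, Complex.norm_exp_I_mul_ofReal_sub_one, Real.norm_eq_abs, abs_mul, abs_two]
    congr 3
    ring
  have h5 : 2 / Real.pi * |Real.pi * y| ≤ |Real.sin (Real.pi * y)| := by
    apply Real.mul_abs_le_abs_sin
    rw [abs_mul, abs_of_pos Real.pi_pos]
    nlinarith only [Real.pi_pos, h2]
  have h6 : 2 / Real.pi * |Real.pi * y| = 2 * |y| := by
    rw [abs_mul, abs_of_pos Real.pi_pos]
    field_simp
  rw [h3, h4]
  linarith only [h1, h5, h6]

/-- Geometric sums. -/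
lemma norm_geom_le (w : ℂ) (hw : ‖w‖ = 1) (δ : ℝ) (hδ : 0 < δ) (h : 4 * δ ≤ ‖w - 1‖) (M : ℕ) :
    ‖∑ i ∈ Finset.range M, w ^ i‖ ≤ 1 / (2 * δ) := by
  have h1 : w ≠ 1 := by
    rintro rfl
    simp at h
    linarith
  rw [geom_sum_eq h1, norm_div]
  have h2 : ‖w ^ M - 1‖ ≤ 2 := by
    calc ‖w ^ M - 1‖ ≤ ‖w ^ M‖ + ‖(1 : ℂ)‖ := norm_sub_le _ _
      _ = 2 := by rw [norm_pow, hw]; norm_num
  calc ‖w ^ M - 1‖ / ‖w - 1‖ ≤ 2 / (4 * δ) := by
        apply div_le_div₀ (by norm_num) h2 (by positivity) h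
    _ = 1 / (2 * δ) := by field_simp; norm_num


lemma integrable_of_continuous {E : Type*} [NormedAddCommGroup E] {f : UnitAddCircle → E}
    (hf : Continuous f) : Integrable f haar :=
  hf.integrable_of_hasCompactSupport (HasCompactSupport.of_compactSpace f)

lemma integral_fourier (k : ℤ) : ∫ x, (fourier k x : ℂ) ∂haar = if k = 0 then 1 else 0 := by
  have h := fourierCoeff_fourier (T := 1) k
  have h2 := congrFun h 0
  unfold fourierCoeff at h2
  simp only [neg_zero, fourier_zero, one_smul] at h2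
  rw [h2, Pi.single_apply]
  simp [eq_comm]

lemma integral_norm_sq_trig {ι : Type*} (S : Finset ι) (φ : ι → ℤ) (hφ : Set.InjOn φ S)
    (a : ι → ℂ) :
    ∫ x, ‖∑ n ∈ S, a n * fourier (φ n) x‖ ^ 2 ∂haar = ∑ n ∈ S, ‖a n‖ ^ 2 := by
  classical
  have h1 : ∀ x : UnitAddCircle, ((‖∑ n ∈ S, a n * fourier (φ n) x‖ ^ 2 : ℝ) : ℂ) =
      ∑ n ∈ S, ∑ m ∈ S, a n * starRingEnd ℂ (a m) * fourier (φ n - φ m) x := by
    intro x
    have h2 := (Complex.mul_conj' (∑ n ∈ S, a n * fourier (φ n) x)).symm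
    push_cast
    rw [h2, map_sum, Finset.sum_mul_sum]
    apply Finset.sum_congr rfl
    intro n _
    apply Finset.sum_congr rfl
    intro m _
    rw [sub_eq_add_neg, fourier_add, fourier_neg, map_mul]
    ring
  have h3 : ((∫ x, ‖∑ n ∈ S, a n * fourier (φ n) x‖ ^ 2 ∂haar : ℝ) : ℂ) =
      ((∑ n ∈ S, ‖a n‖ ^ 2 : ℝ) : ℂ) := by
    rw [← integral_complex_ofReal]
    simp_rw [h1]
    have hcont : ∀ k : ℤ, Continuous (fun x : UnitAddCircle => (fourier k x : ℂ)) :=
      fun k => (fourier k).continuous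
    rw [integral_finsetSum]
    · push_cast
      apply Finset.sum_congr rfl
      intro n hn
      rw [integral_finsetSum]
      · have h4 : ∀ m ∈ S, ∫ x, a n * starRingEnd ℂ (a m) * fourier (φ n - φ m) x ∂haar =
            if m = n then ((‖a n‖ : ℝ) : ℂ) ^ 2 else 0 := by
          intro m hm
          rw [integral_const_mul, integral_fourier]
          by_cases h : m = n
          · subst h
            simp [Complex.mul_conj']
          · have : φ n - φ m ≠ 0 := by
              intro h5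
              exact h (hφ hm hn (by linarith))
            simp [h, this]
        rw [Finset.sum_congr rfl h4]
        simp [hn]
      · intro m _
        exact integrable_of_continuous (continuous_const.mul (hcont _))
    · intro n _
      apply integrable_of_continuous
      apply continuous_finsetSum
      intro m _
      exact continuous_const.mul (hcont _)
  exact_mod_cast h3

end Vale.Agent.P130
end
end
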