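import Vale.Agent.P130.MathlibUsed
import Vale.Agent.P130.Bdl.B2
attribute [-instance] ProperSMul.toContinuousSMul IsTopologicalTorsor.toContinuousSMul IdemSemiring.toCanonicallyOrderedAdd IdemSemiring.toMulLeftMono IdemSemiring.toMulRightMono AddQuantale.instAddLeftMono AddQuantale.instAddRightMono Quantale.instMulLeftMono Quantale.instMulRightMono FiniteDimensional.rclike_to_real IsScalarTower.complexToReal FiniteDimensional.complexToReal

set_option linter.all false

section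

section

open MeasureTheory

namespace Vale.Agent.P130

/-- the shift `s = ⌊r b y⌋` -/
noncomputable def sI (r b : ℕ) (y : UnitAddCircle) : ℕ := ⌊((r * b : ℕ) : ℝ) * rep y⌋₊

/-- the phase of slot `I` for shift `s` -/
noncomputable def GI (b r q s I : ℕ) : ℝ :=
  (I : ℝ) ^ 2 / (2 * b) + (((s + I) % r : ℕ) : ℝ) ^ 2 / (2 * b * r) + chirp b q ((s + I) / r)
    - (((s + I) / r : ℕ) : ℝ) * s / (r * b * q)

/-- number of leading spacers of slot `I` for shift `s` -/
def wI (K r s I : ℕ) : ℕ := K * ((s + I) % r) / r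

/-- intermediate fibre coordinate of slot `I` -/
noncomputable def uI (b r q I : ℕ) (y : UnitAddCircle) : UnitAddCircle :=
  ((r * b : ℕ) : ℤ) • y + ((GI b r q (sI r b y) I : ℝ) : UnitAddCircle)

/-- representative in `[0,1)` of the resonance -/
noncomputable def vp (b : ℕ) (l : ℤ) (x : UnitAddCircle) : ℝ := rep (vres b l x)

/-- the label shift, an integer -/
noncomputable def Nr (b : ℕ) (l : ℤ) (r : ℕ) (x : UnitAddCircle) : ℝ :=
  l * ((r : ℝ) * vp b l x - vp b l ((r : ℤ) • x))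

end Vale.Agent.P130
end
end

section

section

/-!
# Position measurement by phases: the measure part
-/

open MeasureTheory Filter Topology

namespace Vale.Agent.P130

theorem rep_nonneg' (y : UnitAddCircle) : 0 ≤ rep y := (AddCircle.equivIco 1 0 y).2.1

theorem rep_lt_one' (y : UnitAddCircle) : rep y < 1 := by
  have h : rep y < 0 + 1 := (AddCircle.equivIco 1 0 y).2.2
  linarith

theorem coe_rep' (y : UnitAddCircle) : ((rep y : ℝ) : UnitAddCircle) = y :=
  AddCircle.coe_equivIco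

theorem rep_coe' {t : ℝ} (h0 : 0 ≤ t) (h1 : t < 1) : rep (t : UnitAddCircle) = t := by
  have h : t ∈ Set.Ico (0 : ℝ) (0 + 1) := ⟨h0, by rwa [zero_add]⟩
  rw [rep, AddCircle.equivIco_coe_eq h]

theorem measurable_rep' : Measurable rep :=
  (AddCircle.measurableEquivIco 1 0).measurable.subtype_val

/-- The arc `s` of length `1/n`. -/
def arcN (n s : ℕ) : Set UnitAddCircle := {y | ⌊(n : ℝ) * rep y⌋₊ = s}

theorem measurable_floor_rep (n : ℕ) : Measurable fun y : UnitAddCircle => ⌊(n : ℝ) * rep y⌋₊ :=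
  Nat.measurable_floor.comp (measurable_rep'.const_mul _)

theorem measurableSet_arcN (n s : ℕ) : MeasurableSet (arcN n s) :=
  measurable_floor_rep n (measurableSet_singleton s)

theorem mem_arcN {n s : ℕ} (y : UnitAddCircle) :
    y ∈ arcN n s ↔ (s : ℝ) ≤ n * rep y ∧ (n : ℝ) * rep y < s + 1 :=
  Nat.floor_eq_iff (mul_nonneg (Nat.cast_nonneg _) (rep_nonneg' y))

/-- Translation by `s / n` moves the arc `0` to the arc `s`. -/
theorem add_mem_arcN_iff {n s : ℕ} (hs : s < n) (y : UnitAddCircle) :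
    y + (((s : ℝ) / n : ℝ) : UnitAddCircle) ∈ arcN n s ↔ y ∈ arcN n 0 := by
  have hn : (0 : ℝ) < n := by exact_mod_cast (Nat.zero_le s).trans_lt hs
  have hs' : (s : ℝ) + 1 ≤ n := by exact_mod_cast hs
  have hs0 : (0 : ℝ) ≤ s := Nat.cast_nonneg s
  constructor
  · intro h
    obtain ⟨h1, h2⟩ := (mem_arcN _).1 h
    set y' := y + (((s : ℝ) / n : ℝ) : UnitAddCircle) with hy'
    have e1 : y = ((rep y' - s / n : ℝ) : UnitAddCircle) := by
      rw [AddCircle.coe_sub, coe_rep', hy', add_sub_cancel_right]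
    have h3 : (s : ℝ) / n ≤ rep y' := by
      rw [div_le_iff₀ hn]
      linarith only [h1]
    have h4 : rep y' < (s + 1) / n := by
      rw [lt_div_iff₀ hn]
      linarith only [h2]
    have h5 : rep y' - s / n < 1 / n := by
      rw [add_div] at h4
      linarith only [h4]
    have h6 : (1 : ℝ) / n ≤ 1 := by
      rw [div_le_one hn]
      linarith
    have e2 : rep y = rep y' - s / n := by
      conv_lhs => rw [e1]
      exact rep_coe' (by linarith only [h3]) (by linarith only [h5, h6])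
    refine (mem_arcN y).2 ⟨?_, ?_⟩
    · rw [Nat.cast_zero]
      exact mul_nonneg hn.le (rep_nonneg' y)
    · rw [e2, Nat.cast_zero, zero_add, ← lt_div_iff₀' hn]
      exact h5
  · intro h
    obtain ⟨-, h2⟩ := (mem_arcN _).1 h
    rw [Nat.cast_zero, zero_add] at h2
    have h0 := rep_nonneg' y
    have e1 : y + (((s : ℝ) / n : ℝ) : UnitAddCircle) = ((rep y + s / n : ℝ) : UnitAddCircle) := by
      rw [AddCircle.coe_add, coe_rep']
    have h3 : rep y < 1 / n := by
      rw [lt_div_iff₀ hn]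
      linarith
    have h4 : ((s : ℝ) + 1) / n ≤ 1 := by
      rw [div_le_one hn]
      exact hs'
    have e2 : rep (y + (((s : ℝ) / n : ℝ) : UnitAddCircle)) = rep y + s / n := by
      rw [e1]
      refine rep_coe' (by positivity) ?_
      rw [add_div] at h4
      linarith
    refine (mem_arcN _).2 ?_
    rw [e2, mul_add, mul_div_cancel₀ _ hn.ne']
    constructor
    · have := mul_nonneg hn.le h0
      linarith
    · linarith

theorem measure_arcN_inter {n s : ℕ} (hs : s < n) {B : Set UnitAddCircle}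
    (hB : MeasurableSet B) :
    mT (arcN n s ∩ (fun y : UnitAddCircle => (n : ℤ) • y) ⁻¹' B) =
      mT (arcN n 0 ∩ (fun y : UnitAddCircle => (n : ℤ) • y) ⁻¹' B) := by
  have hn : (n : ℝ) ≠ 0 := by
    have : 0 < n := (Nat.zero_le s).trans_lt hs
    exact_mod_cast this.ne'
  have hmp : MeasurePreserving (fun y : UnitAddCircle =>
      y + (((s : ℝ) / n : ℝ) : UnitAddCircle)) mT mT := measurePreserving_add_right mT _
  have hz : Measurable fun y : UnitAddCircle => (n : ℤ) • y := (continuous_zsmul _).measurable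
  rw [← hmp.measure_preimage ((measurableSet_arcN n s).inter (hz hB)).nullMeasurableSet]
  congr 1
  ext y
  simp only [Set.mem_preimage, Set.mem_inter_iff, add_mem_arcN_iff hs]
  have h1 : (n : ℤ) • (y + (((s : ℝ) / n : ℝ) : UnitAddCircle)) = (n : ℤ) • y := by
    rw [smul_add, natCast_zsmul, natCast_zsmul, ← AddCircle.coe_nsmul, nsmul_eq_mul,
      mul_div_cancel₀ _ hn]
    have : ((s : ℝ) : UnitAddCircle) = 0 := by
      rw [AddCircle.coe_eq_zero_iff]
      exact ⟨s, by simp⟩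
    rw [this, add_zero]
  rw [h1]

/-- On each arc of length `1/n` the map `y ↦ n y` is uniform. -/
theorem real_arcN_inter {n s : ℕ} (hs : s < n) {B : Set UnitAddCircle}
    (hB : MeasurableSet B) :
    mT.real (arcN n s ∩ (fun y : UnitAddCircle => (n : ℤ) • y) ⁻¹' B) = 1 / n * mT.real B := by
  have hn0 : 0 < n := (Nat.zero_le s).trans_lt hs
  have hn : (0 : ℝ) < n := by exact_mod_cast hn0
  have hz : Measurable fun y : UnitAddCircle => (n : ℤ) • y := (continuous_zsmul _).measurable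
  have hmp : MeasurePreserving (fun y : UnitAddCircle => (n : ℤ) • y) mT mT :=
    Measure.measurePreserving_zsmul mT (by exact_mod_cast hn0.ne')
  have h1 : (fun y : UnitAddCircle => (n : ℤ) • y) ⁻¹' B =
      ⋃ t ∈ Finset.range n, arcN n t ∩ (fun y : UnitAddCircle => (n : ℤ) • y) ⁻¹' B := by
    ext y
    simp only [Set.mem_iUnion, Set.mem_inter_iff, Finset.mem_range, exists_prop]
    constructor
    · intro h
      refine ⟨⌊(n : ℝ) * rep y⌋₊, ?_, rfl, h⟩
      rw [Nat.floor_lt (mul_nonneg hn.le (rep_nonneg' y))]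
      have := rep_lt_one' y
      nlinarith only [hn, this]
    · rintro ⟨t, -, -, h⟩
      exact h
  have h2 : mT.real ((fun y : UnitAddCircle => (n : ℤ) • y) ⁻¹' B) = mT.real B := by
    rw [measureReal_def, measureReal_def, hmp.measure_preimage hB.nullMeasurableSet]
  have h3 : mT.real ((fun y : UnitAddCircle => (n : ℤ) • y) ⁻¹' B) =
      ∑ t ∈ Finset.range n,
        mT.real (arcN n t ∩ (fun y : UnitAddCircle => (n : ℤ) • y) ⁻¹' B) := by
    conv_lhs => rw [h1]
    refine measureReal_biUnion_finset ?_ fun t _ => (measurableSet_arcN n t).inter (hz hB)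
    intro t _ t' _ htt'
    refine Set.disjoint_left.2 fun y hy hy' => htt' ?_
    exact hy.1.symm.trans hy'.1
  have h4 : ∀ t ∈ Finset.range n,
      mT.real (arcN n t ∩ (fun y : UnitAddCircle => (n : ℤ) • y) ⁻¹' B) =
        mT.real (arcN n s ∩ (fun y : UnitAddCircle => (n : ℤ) • y) ⁻¹' B) := by
    intro t ht
    rw [measureReal_def, measureReal_def, measure_arcN_inter (Finset.mem_range.1 ht) hB,
      measure_arcN_inter hs hB]
  rw [Finset.sum_congr rfl h4, Finset.sum_const, Finset.card_range, nsmul_eq_mul, h2] at h3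
  rw [h3]
  field_simp

/-- Residues are equidistributed: counting. -/
theorem card_wI (K b r I : ℕ) (hK : 1 ≤ K) (hr0 : 0 < r) (hr : K ∣ r) {w : ℕ} (hw : w < K) :
    ((Finset.range (r * b)).filter fun s => wI K r s I = w).card = r / K * b := by
  obtain ⟨d, rfl⟩ := hr
  have hd : 0 < d := Nat.pos_of_mul_pos_left hr0 |> fun h => h
  rw [Nat.mul_div_cancel_left _ (by omega)]
  -- the bijection `(a, c) ↦` the number `s` with residue
  have hkey : ∀ s, wI K (K * d) s I = w ↔ (s + I) % (K * d) / d = w := by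
    intro s
    rw [wI, Nat.mul_div_mul_left _ _ (by omega)]
  simp only [hkey]
  induction b with
  | zero => simp
  | succ b ih =>
    rw [Nat.mul_succ, Finset.range_eq_Ico, ← Finset.Ico_union_Ico_eq_Ico (Nat.zero_le (K * d * b))
      (Nat.le_add_right _ _), Finset.filter_union, Finset.card_union_of_disjoint,
      ← Finset.range_eq_Ico, ih, Nat.mul_succ]
    · congr 1
      have hcount : ∀ c : ℕ, ((Finset.Ico c (c + K * d)).filter
          fun s => s % (K * d) / d = w).card = d := by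
        intro c
        have h1 := Nat.filter_Ico_card_eq_of_periodic c (K * d) (fun s => s % (K * d) / d = w)
          (fun s => by simp)
        rw [h1, Nat.count_eq_card_filter_range]
        have h2 : (Finset.range (K * d)).filter (fun s => s % (K * d) / d = w) =
            Finset.Ico (w * d) (w * d + d) := by
          ext s
          rw [Finset.mem_filter, Finset.mem_range, Finset.mem_Ico]
          constructor
          · rintro ⟨h3, h4⟩
            rw [Nat.mod_eq_of_lt h3, Nat.div_eq_iff hd] at h4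
            omega
          · rintro ⟨h3, h4⟩
            have h5 : s < K * d := by
              calc s < w * d + d := h4
                _ = (w + 1) * d := by ring
                _ ≤ K * d := Nat.mul_le_mul_right d hw
            refine ⟨h5, ?_⟩
            rw [Nat.mod_eq_of_lt h5, Nat.div_eq_iff hd]
            omega
        rw [h2, Nat.card_Ico]
        omega
      refine Eq.trans ?_ (hcount (K * d * b + I))
      apply Finset.card_bij (fun s _ => s + I)
      · intro s hs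
        rw [Finset.mem_filter, Finset.mem_Ico] at hs ⊢
        exact ⟨⟨by omega, by omega⟩, hs.2⟩
      · intro s _ s' _ h
        omega
      · intro t ht
        rw [Finset.mem_filter, Finset.mem_Ico] at ht
        refine ⟨t - I, ?_, by omega⟩
        rw [Finset.mem_filter, Finset.mem_Ico, Nat.sub_add_cancel (by omega)]
        exact ⟨⟨by omega, by omega⟩, ht.2⟩
    · refine Finset.disjoint_left.2 fun s hs hs' => ?_
      rw [Finset.mem_filter, Finset.mem_Ico] at hs hs'
      omega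

/-- (P1) measure part of PMP -/
theorem pmp_uniform (K b r q : ℕ) (hK : 1 ≤ K) (hb : 1 ≤ b) (hr0 : 0 < r) (hr : 2 * b * K ∣ r) (I : ℕ) :
    Measurable (fun y => wI K r (sI r b y) I) ∧ Measurable (uI b r q I) ∧
      (∀ y, wI K r (sI r b y) I < K) ∧ (∀ y, sI r b y < r * b) ∧
      (∀ y, ((r * b : ℕ) : ℝ) * rep y - 1 < sI r b y ∧ (sI r b y : ℝ) ≤ ((r * b : ℕ) : ℝ) * rep y) ∧
      ∀ w < K, ∀ A, MeasurableSet A →
        mT.real ({y | wI K r (sI r b y) I = w} ∩ uI b r q I ⁻¹' A) = (1 / (K : ℝ)) * mT.real A := by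
  have hn0 : 0 < r * b := Nat.mul_pos hr0 hb
  have hn : (0 : ℝ) < ((r * b : ℕ) : ℝ) := by exact_mod_cast hn0
  have hsm : Measurable (sI r b) := measurable_floor_rep (r * b)
  have hslt : ∀ y, sI r b y < r * b := by
    intro y
    rw [sI, Nat.floor_lt (mul_nonneg hn.le (rep_nonneg' y))]
    have := rep_lt_one' y
    nlinarith only [hn, this]
  have hum : Measurable (uI b r q I) := by
    have h1 : Measurable fun y : UnitAddCircle => ((r * b : ℕ) : ℤ) • y :=
      (continuous_zsmul _).measurable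
    have h2 : Measurable fun s : ℕ => ((GI b r q s I : ℝ) : UnitAddCircle) :=
      measurable_from_nat
    exact h1.add (h2.comp hsm)
  refine ⟨(measurable_from_nat (f := fun s => wI K r s I)).comp hsm, hum, fun y => ?_, hslt,
    fun y => ⟨?_, ?_⟩, fun w hw A hA => ?_⟩
  · rw [wI]
    apply Nat.div_lt_of_lt_mul
    rw [Nat.mul_comm r K]
    exact Nat.mul_lt_mul_of_pos_left (Nat.mod_lt _ hr0) hK
  · have := Nat.lt_floor_add_one (((r * b : ℕ) : ℝ) * rep y)
    rw [sI]
    linarith only [this]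
  · exact Nat.floor_le (mul_nonneg hn.le (rep_nonneg' y))
  · -- split into arcs
    have h1 : {y | wI K r (sI r b y) I = w} ∩ uI b r q I ⁻¹' A =
        ⋃ s ∈ (Finset.range (r * b)).filter (fun s => wI K r s I = w),
          arcN (r * b) s ∩ (fun y : UnitAddCircle => ((r * b : ℕ) : ℤ) • y) ⁻¹'
            ((fun z : UnitAddCircle => z + ((GI b r q s I : ℝ) : UnitAddCircle)) ⁻¹' A) := by
      ext y
      simp only [Set.mem_iUnion, Set.mem_inter_iff, Finset.mem_filter, Finset.mem_range,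
        exists_prop, Set.mem_preimage]
      constructor
      · rintro ⟨h2, h3⟩
        exact ⟨sI r b y, ⟨hslt y, h2⟩, rfl, h3⟩
      · rintro ⟨s, ⟨_, h2⟩, h3, h4⟩
        have h5 : sI r b y = s := h3
        refine ⟨?_, ?_⟩
        · change wI K r (sI r b y) I = w
          rw [h5]
          exact h2
        · rw [uI, h5]
          exact h4
    have hmA : ∀ s : ℕ, MeasurableSet
        ((fun z : UnitAddCircle => z + ((GI b r q s I : ℝ) : UnitAddCircle)) ⁻¹' A) :=
      fun s => (measurable_add_const _) hA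
    have hz : Measurable fun y : UnitAddCircle => ((r * b : ℕ) : ℤ) • y :=
      (continuous_zsmul _).measurable
    have h2 : ∀ s ∈ (Finset.range (r * b)).filter (fun s => wI K r s I = w),
        mT.real (arcN (r * b) s ∩ (fun y : UnitAddCircle => ((r * b : ℕ) : ℤ) • y) ⁻¹'
            ((fun z : UnitAddCircle => z + ((GI b r q s I : ℝ) : UnitAddCircle)) ⁻¹' A)) =
          1 / ((r * b : ℕ) : ℝ) * mT.real A := by
      intro s hs
      rw [Finset.mem_filter, Finset.mem_range] at hs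
      rw [real_arcN_inter hs.1 (hmA s)]
      congr 1
      rw [measureReal_def, measureReal_def,
        (measurePreserving_add_right mT _).measure_preimage hA.nullMeasurableSet]
    rw [h1, measureReal_biUnion_finset, Finset.sum_congr rfl h2, Finset.sum_const,
      card_wI K b r I hK hr0 ((Dvd.intro_left _ rfl).trans hr) hw, nsmul_eq_mul]
    · obtain ⟨d, hd⟩ := (Dvd.intro_left _ rfl : K ∣ 2 * b * K).trans hr
      have hK0 : (K : ℝ) ≠ 0 := by exact_mod_cast (show K ≠ 0 by omega)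
      have hd0 : (d : ℝ) ≠ 0 := by
        have : d ≠ 0 := by
          rintro rfl
          omega
        exact_mod_cast this
      have hb0 : (b : ℝ) ≠ 0 := by exact_mod_cast (show b ≠ 0 by omega)
      rw [hd, Nat.mul_div_cancel_left _ (by omega)]
      push_cast
      field_simp
    · intro s _ s' _ hss'
      refine Set.disjoint_left.2 fun y hy hy' => hss' ?_
      exact hy.1.symm.trans hy'.1
    · exact fun s _ => (measurableSet_arcN _ s).inter (hz (hmA s))

end Vale.Agent.P130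
end
end

section

section

/-!
# Convergence of projections from a total family

Abstract part of clause 5 of `xside`: if the projections onto the finite orthonormal families
`e k a` (`a ∈ I k`) converge to the projection onto the mean-zero space on a total family of
vectors, they converge everywhere.
-/

open MeasureTheory Filter Topology

namespace Vale.Agent.P130

namespace X2a

variable {X : Type} [MeasurableSpace X] {μ : Measure X}

theorem inner_toLp {f g : X → ℂ} (hf : MemLp f 2 μ) (hg : MemLp g 2 μ) :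
    (inner ℂ (hf.toLp f) (hg.toLp g)) = ∫ x, starRingEnd ℂ (f x) * g x ∂μ := by
  rw [L2.inner_def]
  refine integral_congr_ae ?_
  filter_upwards [hf.coeFn_toLp, hg.coeFn_toLp] with x h1 h2
  rw [h1, h2]
  simp [mul_comm]

theorem norm_sq_toLp {f : X → ℂ} (hf : MemLp f 2 μ) :
    ‖hf.toLp f‖ ^ 2 = ∫ x, ‖f x‖ ^ 2 ∂μ := by
  have h := inner_toLp hf hf
  have h2 : (‖hf.toLp f‖ ^ 2 : ℝ) = RCLike.re (inner ℂ (hf.toLp f) (hf.toLp f)) := by
    rw [inner_self_eq_norm_sq]
  rw [h2, h]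
  have h3 : ∀ x, starRingEnd ℂ (f x) * f x = ((‖f x‖ ^ 2 : ℝ) : ℂ) := by
    intro x
    rw [Complex.conj_mul']
    push_cast
    rfl
  simp only [h3]
  rw [integral_complex_ofReal]
  simp

/-- the operator `v ↦ ∑ ⟨e_a, v⟩ e_a - (v - ⟨1, v⟩ 1)` -/
noncomputable def Tk {H : Type} [NormedAddCommGroup H] [InnerProductSpace ℂ H] {ι : Type}
    (I : Finset ι) (e : ι → H) (one : H) (v : H) : H :=
  ∑ a ∈ I, (inner ℂ (e a) (v)) • e a - (v - (inner ℂ (one) (v)) • one)

theorem Tk_sub {H : Type} [NormedAddCommGroup H] [InnerProductSpace ℂ H] {ι : Type}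
    (I : Finset ι) (e : ι → H) (one : H) (v w : H) :
    Tk I e one (v - w) = Tk I e one v - Tk I e one w := by
  unfold Tk
  simp only [inner_sub_right, sub_smul, Finset.sum_sub_distrib]
  abel

theorem Tk_add {H : Type} [NormedAddCommGroup H] [InnerProductSpace ℂ H] {ι : Type}
    (I : Finset ι) (e : ι → H) (one : H) (v w : H) :
    Tk I e one (v + w) = Tk I e one v + Tk I e one w := by
  unfold Tk
  simp only [inner_add_right, add_smul, Finset.sum_add_distrib]
  abel

theorem Tk_smul {H : Type} [NormedAddCommGroup H] [InnerProductSpace ℂ H] {ι : Type}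
    (I : Finset ι) (e : ι → H) (one : H) (c : ℂ) (v : H) :
    Tk I e one (c • v) = c • Tk I e one v := by
  unfold Tk
  simp only [inner_smul_right, smul_sub, Finset.smul_sum, mul_smul]

theorem norm_Tk_le {H : Type} [NormedAddCommGroup H] [InnerProductSpace ℂ H] {ι : Type}
    [DecidableEq ι] (I : Finset ι) (e : ι → H) (one : H)
    (he : ∀ a ∈ I, ∀ b ∈ I, (inner ℂ (e a) (e b)) = if a = b then 1 else 0) (h1 : ‖one‖ ≤ 1) (v : H) :
    ‖Tk I e one v‖ ≤ 3 * ‖v‖ := by
  have hsum : ‖∑ a ∈ I, (inner ℂ (e a) (v)) • e a‖ ≤ ‖v‖ := by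
    set s : H := ∑ a ∈ I, (inner ℂ (e a) (v)) • e a with hs
    have h2 : ∀ a ∈ I, (inner ℂ (e a) (s)) = (inner ℂ (e a) (v)) := by
      intro a ha
      rw [hs, inner_sum, Finset.sum_eq_single_of_mem a ha]
      · rw [inner_smul_right, he a ha a ha, if_pos rfl, mul_one]
      · intro b hb hne
        rw [inner_smul_right, he a ha b hb, if_neg hne.symm, mul_zero]
    have h3 : (inner ℂ (s) (s)) = (inner ℂ (s) (v)) := by
      conv_lhs => rw [hs, sum_inner]
      conv_rhs => rw [hs, sum_inner]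
      refine Finset.sum_congr rfl fun a ha => ?_
      rw [inner_smul_left, inner_smul_left, ← hs, h2 a ha]
    have h4 : ‖s‖ ^ 2 ≤ ‖s‖ * ‖v‖ := by
      have h5 : (‖s‖ ^ 2 : ℝ) = RCLike.re (inner ℂ (s) (v)) := by
        rw [← h3, inner_self_eq_norm_sq]
      rw [h5]
      exact (RCLike.re_le_norm _).trans (norm_inner_le_norm _ _)
    by_cases h0 : ‖s‖ = 0
    · rw [h0]; exact norm_nonneg _
    · have hpos : 0 < ‖s‖ := lt_of_le_of_ne (norm_nonneg _) (Ne.symm h0)
      have : ‖s‖ * ‖s‖ ≤ ‖s‖ * ‖v‖ := by rw [← sq]; exact h4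
      exact le_of_mul_le_mul_left this hpos
  have hone : ‖(inner ℂ (one) (v)) • one‖ ≤ ‖v‖ := by
    rw [norm_smul]
    calc ‖(inner ℂ (one) (v))‖ * ‖one‖ ≤ (‖one‖ * ‖v‖) * ‖one‖ :=
          mul_le_mul_of_nonneg_right (norm_inner_le_norm _ _) (norm_nonneg _)
      _ = ‖one‖ ^ 2 * ‖v‖ := by ring
      _ ≤ 1 * ‖v‖ := by
          refine mul_le_mul_of_nonneg_right ?_ (norm_nonneg _)
          exact pow_le_one₀ (norm_nonneg _) h1
      _ = ‖v‖ := one_mul _
  unfold Tk
  calc ‖∑ a ∈ I, (inner ℂ (e a) (v)) • e a - (v - (inner ℂ (one) (v)) • one)‖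
      ≤ ‖∑ a ∈ I, (inner ℂ (e a) (v)) • e a‖ + ‖v - (inner ℂ (one) (v)) • one‖ := norm_sub_le _ _
    _ ≤ ‖v‖ + (‖v‖ + ‖v‖) := add_le_add hsum ((norm_sub_le _ _).trans (add_le_add le_rfl hone))
    _ = 3 * ‖v‖ := by ring

theorem dense_extend [IsProbabilityMeasure μ] {ι : Type} [DecidableEq ι] (I : ℕ → Finset ι) (e : ℕ → ι → X → ℂ)
    (he : ∀ k a, MemLp (e k a) 2 μ)
    (horth : ∀ k, ∀ a ∈ I k, ∀ b ∈ I k,
      ∫ x, starRingEnd ℂ (e k a x) * e k b x ∂μ = if a = b then 1 else 0)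
    {κ : Type} (w : κ → X → ℂ) (hw : ∀ i, MemLp (w i) 2 μ)
    (htot : ∀ g : X → ℂ, MemLp g 2 μ →
      (∀ i, ∫ x, starRingEnd ℂ (w i x) * g x ∂μ = 0) → g =ᵐ[μ] 0)
    (hconv : ∀ i, Tendsto (fun k => ∫ x, ‖(∑ a ∈ I k,
      (∫ z, starRingEnd ℂ (e k a z) * w i z ∂μ) * e k a x) - (w i x - ∫ z, w i z ∂μ)‖ ^ 2 ∂μ)
      atTop (𝓝 0))
    (v : X → ℂ) (hv : MemLp v 2 μ) :
    Tendsto (fun k => ∫ x, ‖(∑ a ∈ I k,
      (∫ z, starRingEnd ℂ (e k a z) * v z ∂μ) * e k a x) - (v x - ∫ z, v z ∂μ)‖ ^ 2 ∂μ)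
      atTop (𝓝 0) := by
  have hone : MemLp (fun _ : X => (1 : ℂ)) 2 μ := memLp_const 1
  set one : Lp ℂ 2 μ := hone.toLp _ with hone_def
  set E : ℕ → ι → Lp ℂ 2 μ := fun k a => (he k a).toLp _ with hE
  -- the key identity
  have key : ∀ (v : X → ℂ) (hv : MemLp v 2 μ) (k : ℕ),
      ∫ x, ‖(∑ a ∈ I k, (∫ z, starRingEnd ℂ (e k a z) * v z ∂μ) * e k a x) -
        (v x - ∫ z, v z ∂μ)‖ ^ 2 ∂μ = ‖Tk (I k) (E k) one (hv.toLp v)‖ ^ 2 := by
    intro v hv k
    have h1 : (inner ℂ (one) (hv.toLp v)) = ∫ z, v z ∂μ := by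
      rw [hone_def, inner_toLp]
      simp
    have h2 : ∀ a, (inner ℂ (E k a) (hv.toLp v)) = ∫ z, starRingEnd ℂ (e k a z) * v z ∂μ := by
      intro a
      rw [hE]
      exact inner_toLp _ _
    have hm : MemLp (fun x => (∑ a ∈ I k, (∫ z, starRingEnd ℂ (e k a z) * v z ∂μ) * e k a x) -
        (v x - ∫ z, v z ∂μ)) 2 μ := by
      refine MemLp.sub ?_ (hv.sub (memLp_const _))
      exact memLp_finsetSum _ fun a _ => (he k a).const_mul _
    rw [← norm_sq_toLp hm]
    congr 2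
    unfold Tk
    simp only [h1, h2]
    apply Lp.ext
    refine hm.coeFn_toLp.trans ?_
    have h3 : (((∑ a ∈ I k, (∫ z, starRingEnd ℂ (e k a z) * v z ∂μ) • E k a : Lp ℂ 2 μ)) : X → ℂ)
        =ᵐ[μ] fun x => ∑ a ∈ I k, (∫ z, starRingEnd ℂ (e k a z) * v z ∂μ) * e k a x := by
      have h4 : ∀ J : Finset ι,
          (((∑ a ∈ J, (∫ z, starRingEnd ℂ (e k a z) * v z ∂μ) • E k a : Lp ℂ 2 μ)) : X → ℂ)
          =ᵐ[μ] fun x => ∑ a ∈ J, (∫ z, starRingEnd ℂ (e k a z) * v z ∂μ) * e k a x := by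
        intro J
        induction J using Finset.induction_on with
        | empty =>
          simp only [Finset.sum_empty]
          exact Lp.coeFn_zero _ _ _
        | insert a J ha ih =>
          rw [Finset.sum_insert ha]
          filter_upwards [Lp.coeFn_add ((∫ z, starRingEnd ℂ (e k a z) * v z ∂μ) • E k a)
            (∑ a ∈ J, (∫ z, starRingEnd ℂ (e k a z) * v z ∂μ) • E k a), ih,
            Lp.coeFn_smul (∫ z, starRingEnd ℂ (e k a z) * v z ∂μ) (E k a),
            (he k a).coeFn_toLp] with x g1 g2 g3 g4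
          rw [g1, Pi.add_apply, g2, g3, Pi.smul_apply, Finset.sum_insert ha, smul_eq_mul]
          congr 2
      exact h4 (I k)
    have h5 : ((hv.toLp v - (∫ z, v z ∂μ) • one : Lp ℂ 2 μ) : X → ℂ) =ᵐ[μ]
        fun x => v x - ∫ z, v z ∂μ := by
      filter_upwards [Lp.coeFn_sub (hv.toLp v) ((∫ z, v z ∂μ) • one), hv.coeFn_toLp,
        Lp.coeFn_smul (∫ z, v z ∂μ) one, hone.coeFn_toLp] with x g1 g2 g3 g4
      rw [g1, Pi.sub_apply, g2, g3, Pi.smul_apply, smul_eq_mul]
      congr 1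
      have : (one : X → ℂ) x = 1 := g4
      rw [this, mul_one]
    filter_upwards [Lp.coeFn_sub (∑ a ∈ I k, (∫ z, starRingEnd ℂ (e k a z) * v z ∂μ) • E k a)
      (hv.toLp v - (∫ z, v z ∂μ) • one), h3, h5] with x g1 g2 g3
    rw [g1, Pi.sub_apply, g2, g3]
  have hEorth : ∀ k, ∀ a ∈ I k, ∀ b ∈ I k, (inner ℂ (E k a) (E k b)) = if a = b then 1 else 0 := by
    intro k a ha b hb
    rw [← horth k a ha b hb]
    exact inner_toLp _ _
  have hone1 : ‖one‖ ≤ 1 := by
    have h1 : ‖one‖ ^ 2 = 1 := by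
      rw [hone_def, norm_sq_toLp]
      simp
    nlinarith only [norm_nonneg one, h1]
  -- the closed subspace of convergence
  set V : Submodule ℂ (Lp ℂ 2 μ) :=
    { carrier := {v | Tendsto (fun k => Tk (I k) (E k) one v) atTop (𝓝 0)}
      add_mem' := by
        intro a b ha hb
        have := Tendsto.add ha hb
        simp only [add_zero] at this
        refine this.congr fun k => ?_
        rw [Tk_add]
      zero_mem' := by
        refine tendsto_const_nhds.congr fun k => ?_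
        have := Tk_smul (I k) (E k) one (0 : ℂ) (0 : Lp ℂ 2 μ)
        simp only [zero_smul] at this
        exact this.symm
      smul_mem' := by
        intro c a ha
        have := Tendsto.const_smul ha c
        simp only [smul_zero] at this
        refine this.congr fun k => ?_
        rw [Tk_smul] } with hV
  have hclosed : IsClosed (V : Set (Lp ℂ 2 μ)) := by
    rw [← closure_subset_iff_isClosed]
    intro v hv
    change Tendsto (fun k => Tk (I k) (E k) one v) atTop (𝓝 0)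
    rw [Metric.mem_closure_iff] at hv
    rw [NormedAddGroup.tendsto_nhds_zero]
    intro ε hε
    obtain ⟨w', hw', hvw⟩ := hv (ε / 6) (by positivity)
    have hw'' : Tendsto (fun k => Tk (I k) (E k) one w') atTop (𝓝 0) := hw'
    rw [NormedAddGroup.tendsto_nhds_zero] at hw''
    filter_upwards [hw'' (ε / 2) (by positivity)] with k hk
    have h1 : Tk (I k) (E k) one v = Tk (I k) (E k) one (v - w') + Tk (I k) (E k) one w' := by
      rw [Tk_sub]; abel
    rw [h1]
    refine (norm_add_le _ _).trans_lt ?_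
    have h2 := norm_Tk_le (I k) (E k) one (hEorth k) hone1 (v - w')
    rw [dist_eq_norm] at hvw
    linarith only [hvw, hk, h2]
  have htop : V = ⊤ := by
    have h1 : Vᗮ = ⊥ := by
      rw [Submodule.eq_bot_iff]
      intro g hg
      rw [Submodule.mem_orthogonal] at hg
      have h2 : (g : X → ℂ) =ᵐ[μ] 0 := by
        refine htot g (Lp.memLp g) fun i => ?_
        have hmem : (hw i).toLp (w i) ∈ V := by
          change Tendsto (fun k => Tk (I k) (E k) one ((hw i).toLp (w i))) atTop (𝓝 0)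
          have h3 := hconv i
          simp only [key (w i) (hw i)] at h3
          rw [tendsto_zero_iff_norm_tendsto_zero]
          have h4 := h3.sqrt
          simp only [Real.sqrt_zero, Real.sqrt_sq (norm_nonneg _)] at h4
          exact h4
        have h3 := hg _ hmem
        rw [← h3, L2.inner_def]
        refine integral_congr_ae ?_
        filter_upwards [(hw i).coeFn_toLp] with x h4
        rw [h4]
        simp [mul_comm]
      exact Lp.ext (h2.trans (Lp.coeFn_zero _ _ _).symm)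
    have hcl : V.topologicalClosure = V := hclosed.submodule_topologicalClosure_eq
    have : CompleteSpace V := hclosed.completeSpace_coe
    exact (Submodule.orthogonal_eq_bot_iff).1 h1
  have hvV : hv.toLp v ∈ V := by rw [htop]; exact Submodule.mem_top
  have h1 : Tendsto (fun k => Tk (I k) (E k) one (hv.toLp v)) atTop (𝓝 0) := hvV
  simp only [key v hv]
  have h2 := (tendsto_zero_iff_norm_tendsto_zero.1 h1).pow 2
  simpa using h2

end X2a

end Vale.Agent.P130
end
end

section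

section

/-!
# X-side, clause 5: the projections onto the controlled labels converge
-/

open MeasureTheory Filter Topology

namespace Vale.Agent.P130

namespace X2

open Bridge

variable {W : Tower} (S : Realization W)

/-- The (unnormalized) function on the space given by a family at level `n`. -/
noncomputable def pf (n : ℕ) (F : ℕ → UnitAddCircle → ℂ) (x : S.X) : ℂ :=
  if S.P n x < W.h n then F (S.P n x) (S.Y n x) else 0

/-- pushing a family to the next level does not change the function -/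
theorem pf_lift (n : ℕ) (D : SD) (hN : W.N n = D.m) (hp : W.p n = D.p) (hφ : W.φ n = D.φ)
    (F : ℕ → UnitAddCircle → ℂ) (x : S.X) :
    pf S n F x = pf S (n + 1) (lift (W.h n) D F) x := by
  unfold pf
  by_cases hP : S.P n x < W.h n
  · rw [if_pos hP]
    obtain ⟨κ, hκ, hPκ⟩ := S.down x n hP
    obtain ⟨-, hY⟩ := S.up x n κ (S.P n x) hκ hP hPκ
    have hfit := W.fit n κ (S.Y (n + 1) x) hκ
    rw [if_pos (by omega)]
    unfold lift
    rw [← hN, ← hp, ← hφ]
    rw [Finset.sum_eq_single_of_mem κ (Finset.mem_range.2 hκ)]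
    · rw [Finset.sum_eq_single_of_mem (S.P n x) (Finset.mem_range.2 hP)]
      · rw [if_pos hPκ.symm, ← hY]
      · intro j _ hj
        rw [if_neg]
        omega
    · intro κ' hκ' hne
      rw [Finset.mem_range] at hκ'
      refine Finset.sum_eq_zero fun j hj => ?_
      rw [Finset.mem_range] at hj
      rw [if_neg]
      intro h1
      rcases lt_or_gt_of_ne hne with h | h
      · have := W.disj n κ' κ (S.Y (n + 1) x) h hκ
        omega
      · have := W.disj n κ κ' (S.Y (n + 1) x) h hκ'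
        omega
  · rw [if_neg hP]
    by_cases hP' : S.P (n + 1) x < W.h (n + 1)
    · rw [if_pos hP']
      unfold lift
      rw [← hN, ← hp, ← hφ]
      symm
      refine Finset.sum_eq_zero fun κ hκ => Finset.sum_eq_zero fun j hj => ?_
      rw [Finset.mem_range] at hκ hj
      rw [if_neg]
      intro h1
      have := S.up x n κ j hκ hj h1.symm
      omega
    · rw [if_neg hP']

/-- the level masses sum up to at most one -/
theorem wt_mul_h (n : ℕ) : S.wt n * W.h n = S.μ.real {x | S.P n x < W.h n} := by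
  have h1 : {x | S.P n x < W.h n} = ⋃ j ∈ Finset.range (W.h n), {x | S.P n x = j} := by
    ext x
    simp
  rw [h1, measureReal_biUnion_finset]
  · have h2 : ∀ j ∈ Finset.range (W.h n), S.μ.real {x | S.P n x = j} = S.wt n := by
      intro j hj
      have h := S.dist n j (Finset.mem_range.1 hj) Set.univ MeasurableSet.univ
      simp only [Set.mem_univ, and_true] at h
      have h3 : (haar : Measure UnitAddCircle).real Set.univ = 1 := by simp
      rw [h3, mul_one] at h
      exact h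
    rw [Finset.sum_congr rfl h2, Finset.sum_const, Finset.card_range, nsmul_eq_mul, mul_comm]
  · intro i _ j _ hij
    rw [Function.onFun, Set.disjoint_left]
    intro x hx hx'
    exact hij (hx.symm.trans hx')
  · intro j _
    exact S.P_meas n (measurableSet_singleton j)

theorem wt_mul_h_le (n : ℕ) : S.wt n * W.h n ≤ 1 := by
  rw [wt_mul_h]
  exact measureReal_le_one

theorem wt_le_one (n : ℕ) : S.wt n ≤ 1 := by
  have h1 := wt_mul_h_le S n
  have h2 : (1 : ℝ) ≤ W.h n := by exact_mod_cast W.h_pos n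
  have h3 := wt_pos S n
  nlinarith

theorem tendsto_wt_mul_h : Tendsto (fun n => S.wt n * W.h n) atTop (𝓝 1) := by
  simp only [wt_mul_h]
  exact S.exh

/-- the squared norm of a function given by a family -/
theorem integral_norm_sq_pf (n : ℕ) {F : ℕ → UnitAddCircle → ℂ} (hF : ∀ j, Measurable (F j))
    {C : ℝ} (hC : ∀ j y, ‖F j y‖ ≤ C) :
    ∫ x, ‖pf S n F x‖ ^ 2 ∂S.μ =
      S.wt n * ∑ j ∈ Finset.range (W.h n), ∫ y, ‖F j y‖ ^ 2 ∂haar := by
  have h := integral_level S n (u := fun j y => ((‖F j y‖ ^ 2 : ℝ) : ℂ))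
    (fun j => Complex.measurable_ofReal.comp ((hF j).norm.pow_const 2)) (C := C ^ 2) (by
      intro j y
      rw [Complex.norm_real, Real.norm_of_nonneg (by positivity)]
      exact pow_le_pow_left₀ (norm_nonneg _) (hC j y) 2)
  have h1 : ∀ x, (if S.P n x < W.h n then
      (fun j y => ((‖F j y‖ ^ 2 : ℝ) : ℂ)) (S.P n x) (S.Y n x) else 0) =
      ((‖pf S n F x‖ ^ 2 : ℝ) : ℂ) := by
    intro x
    unfold pf
    split_ifs <;> simp
  simp only [h1, integral_complex_ofReal] at h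
  exact_mod_cast h

theorem measurable_pf (n : ℕ) {F : ℕ → UnitAddCircle → ℂ} (hF : ∀ j, Measurable (F j)) :
    Measurable (pf S n F) := by
  unfold pf
  refine Measurable.ite (measurableSet_lt (S.P_meas n) measurable_const) ?_ measurable_const
  have h1 : Measurable (fun z : ℕ × UnitAddCircle => F z.1 z.2) :=
    measurable_from_prod_countable_right hF
  exact h1.comp ((S.P_meas n).prodMk (S.Y_meas n))

/-! ### Families under one lift -/

theorem measurable_lift (h : ℕ) {D : SD} (hp : ∀ i, Measurable (D.p i))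
    (hφ : ∀ i, Measurable (D.φ i)) {F : ℕ → UnitAddCircle → ℂ} (hF : ∀ j, Measurable (F j))
    (r : ℕ) : Measurable (lift h D F r) := by
  unfold lift
  refine Finset.measurable_sum _ fun i _ => Finset.measurable_sum _ fun j _ => ?_
  refine Measurable.ite ?_ ((hF j).comp (hφ i)) measurable_const
  exact (hp i) (t := {m : ℕ | m + j = r}) trivial

theorem norm_lift_le {h : ℕ} {D : SD}
    (hd : ∀ i i' y, i < i' → i' < D.m → D.p i y + h ≤ D.p i' y)
    {F : ℕ → UnitAddCircle → ℂ} (hF : ∀ j y, ‖F j y‖ ≤ 1) (r : ℕ) (y : UnitAddCircle) :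
    ‖lift h D F r y‖ ≤ 1 := by
  unfold lift
  by_cases hex : ∃ i < D.m, ∃ j < h, D.p i y + j = r
  · obtain ⟨i, hi, j, hj, hij⟩ := hex
    rw [Finset.sum_eq_single_of_mem i (Finset.mem_range.2 hi)]
    · rw [Finset.sum_eq_single_of_mem j (Finset.mem_range.2 hj)]
      · rw [if_pos hij]
        exact hF _ _
      · intro j' _ hne
        rw [if_neg]
        omega
    · intro i' hi' hne
      rw [Finset.mem_range] at hi'
      refine Finset.sum_eq_zero fun j' hj' => ?_
      rw [Finset.mem_range] at hj'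
      rw [if_neg]
      intro h1
      rcases lt_or_gt_of_ne hne with h2 | h2
      · have := hd i' i y h2 hi
        omega
      · have := hd i i' y h2 hi'
        omega
  · rw [Finset.sum_eq_zero, norm_zero]
    · exact zero_le_one
    · intro i hi
      rw [Finset.mem_range] at hi
      refine Finset.sum_eq_zero fun j hj => ?_
      rw [Finset.mem_range] at hj
      rw [if_neg]
      intro h1
      exact hex ⟨i, hi, j, hj, h1⟩

theorem map_ind {D : SD} {i : ℕ} (hp : Measurable (D.p i))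
    (hφ : Measurable (D.φ i)) (r : ℕ)
    (hind : ∀ A : Set UnitAddCircle, MeasurableSet A →
      mT.real ({y | D.p i y = r} ∩ D.φ i ⁻¹' A) = mT.real {y | D.p i y = r} * mT.real A) :
    (mT.restrict {y | D.p i y = r}).map (D.φ i) =
      ENNReal.ofReal (mT.real {y | D.p i y = r}) • mT := by
  ext A hA
  have hmeas : MeasurableSet {y | D.p i y = r} := hp (measurableSet_singleton r)
  rw [Measure.map_apply hφ hA, Measure.restrict_apply (hφ hA),
    Measure.smul_apply, smul_eq_mul, Set.inter_comm]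
  have h := hind A hA
  rw [← ofReal_measureReal (measure_ne_top _ _), h, ENNReal.ofReal_mul measureReal_nonneg,
    ofReal_measureReal (measure_ne_top mT A)]

theorem integral_ind {D : SD} {i : ℕ} (hp : Measurable (D.p i))
    (hφ : Measurable (D.φ i)) (r : ℕ)
    (hind : ∀ A : Set UnitAddCircle, MeasurableSet A →
      mT.real ({y | D.p i y = r} ∩ D.φ i ⁻¹' A) = mT.real {y | D.p i y = r} * mT.real A)
    {u : UnitAddCircle → ℂ} (hu : Measurable u) :
    ∫ y, (if D.p i y = r then u (D.φ i y) else 0) ∂mT =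
      (mT.real {y | D.p i y = r} : ℂ) * ∫ y, u y ∂mT := by
  have hmeas : MeasurableSet {y | D.p i y = r} := hp (measurableSet_singleton r)
  have h1 : ∫ y, (if D.p i y = r then u (D.φ i y) else 0) ∂mT =
      ∫ y in {y | D.p i y = r}, u (D.φ i y) ∂mT := by
    rw [← integral_indicator hmeas]
    refine integral_congr_ae (Eventually.of_forall fun x => ?_)
    by_cases h : D.p i x = r <;> simp [h]
  rw [h1, ← integral_map hφ.aemeasurable hu.aestronglyMeasurable, map_ind hp hφ r hind,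
    integral_smul_measure, ENNReal.toReal_ofReal measureReal_nonneg]
  simp

/-- the mean of a lifted family -/
theorem integral_lift {h n : ℕ} {ε : ℝ} {D : SD} (hD : GoodStage h n ε D)
    {F : ℕ → UnitAddCircle → ℂ} (hF : ∀ j, Measurable (F j)) (hF1 : ∀ j y, ‖F j y‖ ≤ 1)
    (r : ℕ) :
    ∫ y, lift h D F r y ∂mT = ∑ j ∈ Finset.range h,
      ((∑ i ∈ Finset.range D.m, mT.real {y | D.p i y + j = r} : ℝ) : ℂ) * ∫ y, F j y ∂mT := by
  have hmφ : ∀ i, Measurable (D.φ i) := fun i => (hD.mp_φ i).measurable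
  have hint : ∀ i j, Integrable (fun y => if D.p i y + j = r then F j (D.φ i y) else 0) mT := by
    intro i j
    have hm : Measurable (fun y => if D.p i y + j = r then F j (D.φ i y) else 0) :=
      Measurable.ite ((hD.meas_p i) (t := {m : ℕ | m + j = r}) trivial)
        ((hF j).comp (hmφ i)) measurable_const
    refine Integrable.of_bound hm.aestronglyMeasurable 1 (Eventually.of_forall fun y => ?_)
    split_ifs
    · exact hF1 _ _
    · simp
  unfold lift
  rw [integral_finsetSum _ fun i _ => integrable_finsetSum _ fun j _ => hint i j]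
  simp only [integral_finsetSum _ fun j _ => hint _ j]
  rw [Finset.sum_comm]
  refine Finset.sum_congr rfl fun j _ => ?_
  rw [Complex.ofReal_sum, Finset.sum_mul]
  refine Finset.sum_congr rfl fun i hi => ?_
  rw [Finset.mem_range] at hi
  by_cases hjr : j ≤ r
  · have h1 : ∀ y, (D.p i y + j = r) ↔ D.p i y = r - j := by
      intro y
      omega
    simp only [h1]
    exact integral_ind (hD.meas_p i) (hmφ i) (r - j) (fun A hA => hD.ind i hi (r - j) A hA) (hF j)
  · have h1 : ∀ y, ¬ (D.p i y + j = r) := by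
      intro y
      omega
    simp [h1]

/-! ### Iterated lifts -/

section Iter

variable (τ : Plan)

theorem measurable_unitFam (j : ℕ) (l : ℤ) (r : ℕ) : Measurable (unitFam j l r) := by
  unfold unitFam
  by_cases h : r = j
  · simp only [h, if_true]
    exact (fourier l).continuous.measurable
  · simp only [h, if_false]
    exact measurable_const

theorem norm_unitFam_le (j : ℕ) (l : ℤ) (r : ℕ) (y : UnitAddCircle) : ‖unitFam j l r y‖ ≤ 1 := by
  unfold unitFam
  split_ifs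
  · simp only [fourier_apply, Circle.norm_coe, le_refl]
  · simp

theorem measurable_liftN (k : ℕ) {g : ℕ → UnitAddCircle → ℂ} (hg : ∀ r, Measurable (g r))
    (d : ℕ) : ∀ r, Measurable (liftN τ.h τ.D k g d r) := by
  induction d with
  | zero => exact hg
  | succ d ih =>
    exact measurable_lift _ (τ.good (k + d)).meas_p
      (fun i => ((τ.good (k + d)).mp_φ i).measurable) ih

theorem norm_liftN_le (k : ℕ) {g : ℕ → UnitAddCircle → ℂ} (hg : ∀ r y, ‖g r y‖ ≤ 1)
    (d : ℕ) : ∀ r y, ‖liftN τ.h τ.D k g d r y‖ ≤ 1 := by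
  induction d with
  | zero => exact hg
  | succ d ih => exact norm_lift_le (τ.good (k + d)).disj ih

theorem pf_liftN (hh : W.h = τ.h) (hN : W.N = fun k => (τ.D k).m)
    (hp : W.p = fun k => (τ.D k).p) (hφ : W.φ = fun k => (τ.D k).φ)
    (k : ℕ) (g : ℕ → UnitAddCircle → ℂ) (d : ℕ) (x : S.X) :
    pf S k g x = pf S (k + d) (liftN τ.h τ.D k g d) x := by
  induction d with
  | zero => rfl
  | succ d ih =>
    rw [ih, pf_lift S (k + d) (τ.D (k + d)) (by rw [hN]) (by rw [hp]) (by rw [hφ]), hh]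
    rfl

/-- the means of the iterated lifts -/
noncomputable def gm (k j : ℕ) (l : ℤ) (d r : ℕ) : ℂ :=
  ∫ y, liftN τ.h τ.D k (unitFam j l) d r y ∂mT

theorem norm_gm_le (k j : ℕ) (l : ℤ) (d r : ℕ) : ‖gm τ k j l d r‖ ≤ 1 := by
  unfold gm
  refine (norm_integral_le_of_norm_le_const (C := 1) (Eventually.of_forall fun y => ?_)).trans ?_
  · exact norm_liftN_le τ k (norm_unitFam_le j l) d r y
  · simp

/-- Kronecker delta of the label -/
noncomputable def dl (l : ℤ) : ℂ := if l = 0 then 1 else 0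

theorem norm_dl_le (l : ℤ) : ‖dl l‖ ≤ 1 := by
  unfold dl
  split_ifs <;> simp

theorem integral_fourier_eq (l : ℤ) : ∫ y, fourier l y ∂haar = dl l := by
  have h := integral_conj_fourier_mul 0 l
  simp only [fourier_zero, map_one, one_mul] at h
  rw [h]
  unfold dl
  by_cases hl : l = 0
  · simp [hl]
  · simp [hl, Ne.symm hl]

theorem integral_pf (n : ℕ) {F : ℕ → UnitAddCircle → ℂ} (hF : ∀ j, Measurable (F j))
    {C : ℝ} (hC : ∀ j y, ‖F j y‖ ≤ C) :
    ∫ x, pf S n F x ∂S.μ = S.wt n * ∑ j ∈ Finset.range (W.h n), ∫ y, F j y ∂haar :=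
  integral_level S n hF hC

theorem integral_pf_unitFam (k j : ℕ) (l : ℤ) (hj : j < W.h k) :
    ∫ x, pf S k (unitFam j l) x ∂S.μ = S.wt k * dl l := by
  rw [integral_pf S k (measurable_unitFam j l) (norm_unitFam_le j l)]
  congr 1
  rw [Finset.sum_eq_single_of_mem j (Finset.mem_range.2 hj)]
  · unfold unitFam
    simp only [if_true]
    exact integral_fourier_eq l
  · intro r _ hr
    unfold unitFam
    simp [hr]

theorem sum_gm (hh : W.h = τ.h) (hN : W.N = fun k => (τ.D k).m)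
    (hp : W.p = fun k => (τ.D k).p) (hφ : W.φ = fun k => (τ.D k).φ)
    (k j : ℕ) (l : ℤ) (hj : j < W.h k) (d : ℕ) :
    (S.wt (k + d) : ℂ) * ∑ r ∈ Finset.range (W.h (k + d)), gm τ k j l d r = S.wt k * dl l := by
  rw [← integral_pf_unitFam S k j l hj]
  simp only [pf_liftN S τ hh hN hp hφ k (unitFam j l) d]
  rw [integral_pf S (k + d) (measurable_liftN τ k (measurable_unitFam j l) d)
    (norm_liftN_le τ k (norm_unitFam_le j l) d)]
  rfl

/-- distance of the means to their limit -/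
noncomputable def Bd (k j : ℕ) (l : ℤ) (d : ℕ) : ℝ :=
  S.wt (k + d) * ∑ r ∈ Finset.range (W.h (k + d)), ‖gm τ k j l d r - S.wt k * dl l‖ ^ 2

theorem Bd_nonneg (k j : ℕ) (l : ℤ) (d : ℕ) : 0 ≤ Bd S τ k j l d :=
  mul_nonneg (wt_pos S _).le (Finset.sum_nonneg fun _ _ => by positivity)

theorem Bd_succ (hh : W.h = τ.h) (hN : W.N = fun k => (τ.D k).m)
    (hp : W.p = fun k => (τ.D k).p) (hφ : W.φ = fun k => (τ.D k).φ)
    (k j : ℕ) (l : ℤ) (hj : j < W.h k) (d : ℕ) :
    Bd S τ k j l (d + 1) ≤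
      2 * τ.ε (k + d) + 2 * (1 / (S.wt (k + d) * W.h (k + d)) - 1) ^ 2 := by
  set M := k + d with hM
  have hG := τ.good M
  set H : ℝ := (W.h M : ℝ) with hH
  have hHpos : 0 < H := by
    rw [hH]; exact_mod_cast W.h_pos M
  have hw := wt_pos S M
  have hwk := wt_pos S k
  set a : ℕ → ℕ → ℝ := fun r j => ∑ i ∈ Finset.range (τ.D M).m,
    mT.real {y | (τ.D M).p i y + j = r} with ha
  -- the recursion for the means
  have hrec : ∀ r, gm τ k j l (d + 1) r - S.wt k * dl l =
      ∑ s ∈ Finset.range (W.h M), ((a r s - 1 / H : ℝ) : ℂ) * gm τ k j l d s +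
        S.wt k * dl l * ((1 / (S.wt M * H) - 1 : ℝ) : ℂ) := by
    intro r
    have h1 : gm τ k j l (d + 1) r =
        ∑ s ∈ Finset.range (W.h M), ((a r s : ℝ) : ℂ) * gm τ k j l d s := by
      rw [hh]
      exact integral_lift hG (measurable_liftN τ k (measurable_unitFam j l) d)
        (norm_liftN_le τ k (norm_unitFam_le j l) d) r
    have h2 := sum_gm S τ hh hN hp hφ k j l hj d
    have h3 : ∑ s ∈ Finset.range (W.h M), gm τ k j l d s = S.wt k * dl l / S.wt M := by
      rw [eq_div_iff (by exact_mod_cast hw.ne'), mul_comm]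
      exact h2
    rw [h1]
    simp only [Complex.ofReal_sub, sub_mul, Finset.sum_sub_distrib]
    rw [← Finset.mul_sum, h3]
    have hw' : (S.wt M : ℂ) ≠ 0 := by exact_mod_cast hw.ne'
    have hH' : (H : ℂ) ≠ 0 := by exact_mod_cast hHpos.ne'
    push_cast
    field_simp
    ring
  have hnorm : ∀ r, ‖gm τ k j l (d + 1) r - S.wt k * dl l‖ ^ 2 ≤
      2 * (∑ s ∈ Finset.range (W.h M), |a r s - 1 / H|) ^ 2 + 2 * (1 / (S.wt M * H) - 1) ^ 2 := by
    intro r
    have h1 : ‖gm τ k j l (d + 1) r - S.wt k * dl l‖ ≤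
        ∑ s ∈ Finset.range (W.h M), |a r s - 1 / H| + |1 / (S.wt M * H) - 1| := by
      rw [hrec r]
      refine (norm_add_le _ _).trans (add_le_add ?_ ?_)
      · refine (norm_sum_le _ _).trans (Finset.sum_le_sum fun s _ => ?_)
        rw [norm_mul, Complex.norm_real, Real.norm_eq_abs]
        exact mul_le_of_le_one_right (abs_nonneg _) (norm_gm_le τ k j l d s)
      · rw [norm_mul, norm_mul, Complex.norm_real, Complex.norm_real, Real.norm_eq_abs,
          Real.norm_eq_abs, abs_of_pos hwk]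
        refine mul_le_of_le_one_left (abs_nonneg _) ?_
        exact mul_le_one₀ (wt_le_one S k) (norm_nonneg _) (norm_dl_le l)
    have h2 : 0 ≤ ‖gm τ k j l (d + 1) r - S.wt k * dl l‖ := norm_nonneg _
    calc ‖gm τ k j l (d + 1) r - S.wt k * dl l‖ ^ 2
        ≤ (∑ s ∈ Finset.range (W.h M), |a r s - 1 / H| + |1 / (S.wt M * H) - 1|) ^ 2 :=
          pow_le_pow_left₀ h2 h1 2
      _ ≤ 2 * (∑ s ∈ Finset.range (W.h M), |a r s - 1 / H|) ^ 2 +
            2 * |1 / (S.wt M * H) - 1| ^ 2 := by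
          linarith only [sq_nonneg (∑ s ∈ Finset.range (W.h M), |a r s - 1 / H| -
            |1 / (S.wt M * H) - 1|)]
      _ = _ := by rw [sq_abs]
  unfold Bd
  have hsucc : k + (d + 1) = M + 1 := by omega
  rw [hsucc]
  have hw1 := wt_pos S (M + 1)
  have hwh := wt_mul_h_le S (M + 1)
  have hrnd : ∑ r ∈ Finset.range (W.h (M + 1)),
      (∑ s ∈ Finset.range (W.h M), |a r s - 1 / H|) ^ 2 ≤ τ.ε M * W.h (M + 1) := by
    have h1 := hG.rnd
    have h2 : (τ.D M).h' = W.h (M + 1) := by rw [hh, τ.h_succ]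
    have h3 : τ.h M = W.h M := by rw [hh]
    rw [h2, h3] at h1
    exact h1
  have hε := τ.ε_pos M
  have hh1 : (0 : ℝ) ≤ W.h (M + 1) := by positivity
  calc S.wt (M + 1) * ∑ r ∈ Finset.range (W.h (M + 1)),
        ‖gm τ k j l (d + 1) r - S.wt k * dl l‖ ^ 2
      ≤ S.wt (M + 1) * ∑ r ∈ Finset.range (W.h (M + 1)),
        (2 * (∑ s ∈ Finset.range (W.h M), |a r s - 1 / H|) ^ 2 +
          2 * (1 / (S.wt M * H) - 1) ^ 2) := by
        refine mul_le_mul_of_nonneg_left (Finset.sum_le_sum fun r _ => hnorm r) hw1.le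
    _ = 2 * (S.wt (M + 1) * ∑ r ∈ Finset.range (W.h (M + 1)),
        (∑ s ∈ Finset.range (W.h M), |a r s - 1 / H|) ^ 2) +
          2 * (S.wt (M + 1) * W.h (M + 1)) * (1 / (S.wt M * H) - 1) ^ 2 := by
        rw [Finset.sum_add_distrib, ← Finset.mul_sum, Finset.sum_const, Finset.card_range,
          nsmul_eq_mul]
        ring
    _ ≤ 2 * (S.wt (M + 1) * (τ.ε M * W.h (M + 1))) + 2 * 1 * (1 / (S.wt M * H) - 1) ^ 2 := by
        refine add_le_add ?_ ?_
        · exact mul_le_mul_of_nonneg_left (mul_le_mul_of_nonneg_left hrnd hw1.le) (by norm_num)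
        · refine mul_le_mul_of_nonneg_right ?_ (sq_nonneg _)
          exact mul_le_mul_of_nonneg_left hwh (by norm_num)
    _ ≤ 2 * τ.ε M + 2 * (1 / (S.wt M * H) - 1) ^ 2 := by
        have : S.wt (M + 1) * (τ.ε M * W.h (M + 1)) ≤ τ.ε M := by
          calc S.wt (M + 1) * (τ.ε M * W.h (M + 1)) = τ.ε M * (S.wt (M + 1) * W.h (M + 1)) := by
                ring
            _ ≤ τ.ε M * 1 := mul_le_mul_of_nonneg_left hwh hε.le
            _ = τ.ε M := mul_one _
        linarith only [this]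

theorem ε_le_pow (k : ℕ) : τ.ε k ≤ (1 / 2) ^ k := by
  have h1 := τ.ε_le k
  have h2 : (1 : ℝ) ≤ τ.n k := by
    have := τ.n_ge k
    exact_mod_cast (by omega : 1 ≤ τ.n k)
  have h3 := τ.ε_pos k
  have h4 : tol τ.h τ.n k ≤ (1 / 2) ^ k := by
    unfold tol
    by_cases h0 : τ.h k * (2 * τ.n k) = 0
    · rw [h0]
      simp
    · refine div_le_self (by positivity) ?_
      refine one_le_pow₀ ?_
      exact_mod_cast Nat.one_le_iff_ne_zero.2 h0
  nlinarith

theorem tendsto_Bd (hh : W.h = τ.h) (hN : W.N = fun k => (τ.D k).m)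
    (hp : W.p = fun k => (τ.D k).p) (hφ : W.φ = fun k => (τ.D k).φ)
    (k j : ℕ) (l : ℤ) (hj : j < W.h k) : Tendsto (Bd S τ k j l) atTop (𝓝 0) := by
  rw [← tendsto_add_atTop_iff_nat 1]
  have h1 : Tendsto (fun d => 2 * τ.ε (k + d) +
      2 * (1 / (S.wt (k + d) * W.h (k + d)) - 1) ^ 2) atTop (𝓝 0) := by
    have h2 : Tendsto τ.ε atTop (𝓝 0) := by
      refine squeeze_zero (fun n => (τ.ε_pos n).le) (ε_le_pow τ) ?_
      exact tendsto_pow_atTop_nhds_zero_of_lt_one (by norm_num) (by norm_num)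
    have h3 : Tendsto (fun d => k + d) atTop atTop := tendsto_atTop_mono (fun d => Nat.le_add_left d k) tendsto_id
    have h4 := h2.comp h3
    have h5 := (tendsto_wt_mul_h S).comp h3
    have h6 := ((((tendsto_const_nhds (x := (1 : ℝ))).div h5 one_ne_zero).sub_const 1).pow 2).const_mul 2
    have h7 := (h4.const_mul 2).add h6
    simpa using h7
  exact squeeze_zero (fun d => Bd_nonneg S τ k j l (d + 1))
    (fun d => Bd_succ S τ hh hN hp hφ k j l hj d) h1

end Iter

/-! ### The basic vectors -/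

section Basic

variable (τ : Plan)

theorem memLp_Ef (k j : ℕ) (l : ℤ) : MemLp (Plan.Ef S k j l) 2 S.μ := by
  have hm : Measurable (Plan.Ef S k j l) := by
    unfold Plan.Ef
    refine Measurable.const_mul ?_ _
    exact Measurable.ite (S.P_meas k (measurableSet_singleton j))
      ((fourier l).continuous.measurable.comp (S.Y_meas k)) measurable_const
  refine MemLp.of_bound hm.aestronglyMeasurable
    ‖((Real.sqrt (S.wt k) : ℝ) : ℂ)⁻¹‖ (Eventually.of_forall fun x => ?_)
  unfold Plan.Ef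
  rw [norm_mul]
  refine mul_le_of_le_one_right (norm_nonneg _) ?_
  split_ifs
  · simp only [fourier_apply, Circle.norm_coe, le_refl]
  · simp

theorem Ef_eq (k j : ℕ) (l : ℤ) (hj : j < W.h k) (x : S.X) :
    Plan.Ef S k j l x = ((Real.sqrt (S.wt k) : ℝ) : ℂ)⁻¹ * pf S k (unitFam j l) x := by
  unfold Plan.Ef pf unitFam Realization.wt
  congr 1
  by_cases h : S.P k x < W.h k
  · rw [if_pos h]
  · rw [if_neg h, if_neg (by omega)]

/-- inner product of a basic vector with the function of a family at the same level -/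
theorem integral_Ef_mul_pf (M r : ℕ) (ν : ℤ) (hr : r < W.h M) {F : ℕ → UnitAddCircle → ℂ}
    (hF : ∀ j, Measurable (F j)) (a : ℂ) :
    ∫ z, starRingEnd ℂ (Plan.Ef S M r ν z) * (a * pf S M F z) ∂S.μ =
      ((Real.sqrt (S.wt M) : ℝ) : ℂ)⁻¹ * a * (S.wt M * fourierCoeff (F r) ν) := by
  have h1 : ∀ z, starRingEnd ℂ (Plan.Ef S M r ν z) * (a * pf S M F z) =
      (((Real.sqrt (S.wt M) : ℝ) : ℂ)⁻¹ * a) *
        (if S.P M z = r then (fun y => fourier (-ν) y * F r y) (S.Y M z) else 0) := by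
    intro z
    rw [Ef_eq S M r ν hr]
    unfold pf unitFam
    by_cases h : S.P M z = r
    · subst h
      rw [if_pos rfl, if_pos hr, if_pos hr, if_pos rfl]
      simp only [fourier_neg, map_mul, map_inv₀, Complex.conj_ofReal]
      ring
    · rw [if_neg h, if_neg h]
      simp
  simp only [h1]
  rw [integral_const_mul]
  congr 1
  rw [integral_floor S M hr (u := fun y => fourier (-ν) y * F r y)
    ((fourier (-ν)).continuous.measurable.mul (hF r))]
  congr 1

theorem inv_sqrt_mul_self (n : ℕ) : ((Real.sqrt (S.wt n) : ℝ) : ℂ)⁻¹ *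
    ((Real.sqrt (S.wt n) : ℝ) : ℂ)⁻¹ * S.wt n = 1 := by
  have hw := wt_pos S n
  rw [← mul_inv, ← Complex.ofReal_mul, Real.mul_self_sqrt hw.le, inv_mul_cancel₀]
  exact_mod_cast hw.ne'

/-- orthonormality of the level vectors -/
theorem orth_Ef (M j j' : ℕ) (l l' : ℤ) (hj : j < W.h M) (hj' : j' < W.h M) :
    ∫ x, starRingEnd ℂ (Plan.Ef S M j l x) * Plan.Ef S M j' l' x ∂S.μ =
      if j = j' ∧ l = l' then 1 else 0 := by
  simp only [Ef_eq S M j' l' hj']
  rw [integral_Ef_mul_pf S M j l hj (measurable_unitFam j' l')]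
  by_cases h : j = j'
  · subst h
    have h1 : fourierCoeff (unitFam j l' j) l = if l = l' then 1 else 0 := by
      have h2 : unitFam j l' j = fun y => fourier l' y := by
        ext y
        simp [unitFam]
      rw [h2, ← integral_conj_fourier_mul l l']
      unfold fourierCoeff
      refine integral_congr_ae (Eventually.of_forall fun y => ?_)
      simp
    rw [h1]
    by_cases h3 : l = l'
    · rw [if_pos h3, if_pos ⟨rfl, h3⟩, mul_one, inv_sqrt_mul_self]
    · rw [if_neg h3, if_neg (fun h4 => h3 h4.2)]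
      simp
  · have h1 : fourierCoeff (unitFam j' l' j) l = 0 := by
      have h2 : unitFam j' l' j = fun y => 0 := by
        ext y
        simp [unitFam, h]
      rw [h2]
      unfold fourierCoeff
      simp
    rw [h1, if_neg (fun h4 => h h4.1)]
    simp

/-- the controlled part of a family -/
noncomputable def ctl (n : ℕ) (F : ℕ → UnitAddCircle → ℂ) (r : ℕ) (y : UnitAddCircle) : ℂ :=
  ∑ ν ∈ labs n, fourierCoeff (F r) ν * fourier ν y

/-- the projection of the function of a family at the same level -/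
theorem proj_pf (M n : ℕ) {F : ℕ → UnitAddCircle → ℂ} (hF : ∀ j, Measurable (F j)) (a : ℂ)
    (x : S.X) :
    ∑ b ∈ idx2 (W.h M) n, (∫ z, starRingEnd ℂ (Plan.Ef S M b.1 b.2 z) * (a * pf S M F z) ∂S.μ) *
      Plan.Ef S M b.1 b.2 x = a * pf S M (ctl n F) x := by
  unfold idx2
  rw [Finset.sum_product]
  have h1 : ∀ r ∈ Finset.range (W.h M), ∑ ν ∈ labs n,
      (∫ z, starRingEnd ℂ (Plan.Ef S M r ν z) * (a * pf S M F z) ∂S.μ) * Plan.Ef S M r ν x =
      a * (if S.P M x = r then ctl n F r (S.Y M x) else 0) := by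
    intro r hr
    rw [Finset.mem_range] at hr
    have h2 : ∀ ν, (∫ z, starRingEnd ℂ (Plan.Ef S M r ν z) * (a * pf S M F z) ∂S.μ) *
        Plan.Ef S M r ν x =
        a * (if S.P M x = r then fourierCoeff (F r) ν * fourier ν (S.Y M x) else 0) := by
      intro ν
      rw [integral_Ef_mul_pf S M r ν hr hF]
      have h3 : Plan.Ef S M r ν x = ((Real.sqrt (S.wt M) : ℝ) : ℂ)⁻¹ *
          (if S.P M x = r then fourier ν (S.Y M x) else 0) := rfl
      rw [h3]
      have h4 := inv_sqrt_mul_self S M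
      calc ((Real.sqrt (S.wt M) : ℝ) : ℂ)⁻¹ * a * (S.wt M * fourierCoeff (F r) ν) *
            (((Real.sqrt (S.wt M) : ℝ) : ℂ)⁻¹ *
              (if S.P M x = r then fourier ν (S.Y M x) else 0))
          = (((Real.sqrt (S.wt M) : ℝ) : ℂ)⁻¹ * ((Real.sqrt (S.wt M) : ℝ) : ℂ)⁻¹ * S.wt M) *
            (a * (fourierCoeff (F r) ν * (if S.P M x = r then fourier ν (S.Y M x) else 0))) := by
            ring
        _ = _ := by
            rw [h4, one_mul]
            congr 1
            split_ifs <;> simp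
    simp only [h2]
    rw [← Finset.mul_sum]
    congr 1
    split_ifs
    · rfl
    · simp
  rw [Finset.sum_congr rfl h1, ← Finset.mul_sum]
  congr 1
  unfold pf
  split_ifs with h
  · rw [Finset.sum_eq_single_of_mem _ (Finset.mem_range.2 h)]
    · rw [if_pos rfl]
    · intro r _ hr
      rw [if_neg (Ne.symm hr)]
  · refine Finset.sum_eq_zero fun r hr => ?_
    rw [Finset.mem_range] at hr
    rw [if_neg]
    omega

theorem sum_Icc_eq (n : ℕ) (f : ℤ → ℂ) :
    ∑ ν ∈ Finset.Icc (-(n : ℤ)) (n : ℤ), f ν = ∑ ν ∈ labs n, f ν + f 0 := by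
  unfold labs
  rw [Finset.sum_erase_add]
  simp

theorem norm_fourierCoeff_le {f : UnitAddCircle → ℂ} (hf : ∀ y, ‖f y‖ ≤ 1) (ν : ℤ) :
    ‖fourierCoeff f ν‖ ≤ 1 := by
  unfold fourierCoeff
  refine (norm_integral_le_of_norm_le_const (C := 1) (Eventually.of_forall fun y => ?_)).trans ?_
  · rw [norm_smul]
    simp only [fourier_apply, Circle.norm_coe, one_mul]
    exact hf y
  · simp

theorem fourierCoeff_zero_eq (f : UnitAddCircle → ℂ) : fourierCoeff f 0 = ∫ y, f y ∂mT := by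
  unfold fourierCoeff
  simp

/-- the error of the projections on a basic vector -/
theorem err_le (hh : W.h = τ.h) (hN : W.N = fun k => (τ.D k).m)
    (hp : W.p = fun k => (τ.D k).p) (hφ : W.φ = fun k => (τ.D k).φ)
    (k j : ℕ) (l : ℤ) (hj : j < W.h k) (d : ℕ) (hd : |l| ≤ ((k + d : ℕ) : ℤ)) :
    ∫ x, ‖(∑ a ∈ idx2 (W.h (k + d)) (τ.n (k + d)),
        (∫ z, starRingEnd ℂ (Plan.Ef S (k + d) a.1 a.2 z) * Plan.Ef S k j l z ∂S.μ) *
          Plan.Ef S (k + d) a.1 a.2 x) - (Plan.Ef S k j l x - ∫ z, Plan.Ef S k j l z ∂S.μ)‖ ^ 2 ∂S.μ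
      ≤ 3 * (S.wt k)⁻¹ * ((1 / 2) ^ (k + d) + Bd S τ k j l d +
        (1 - S.wt (k + d) * W.h (k + d))) := by
  set M := k + d with hM
  set a : ℂ := ((Real.sqrt (S.wt k) : ℝ) : ℂ)⁻¹ with ha
  set G : ℕ → UnitAddCircle → ℂ := liftN τ.h τ.D k (unitFam j l) d with hG
  have hGm : ∀ r, Measurable (G r) := measurable_liftN τ k (measurable_unitFam j l) d
  have hG1 : ∀ r y, ‖G r y‖ ≤ 1 := norm_liftN_le τ k (norm_unitFam_le j l) d
  have hv : ∀ x, Plan.Ef S k j l x = a * pf S M G x := by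
    intro x
    rw [Ef_eq S k j l hj, pf_liftN S τ hh hN hp hφ k (unitFam j l) d x]
  have hvint : ∫ z, Plan.Ef S k j l z ∂S.μ = a * (S.wt k * dl l) := by
    simp only [Ef_eq S k j l hj]
    rw [integral_const_mul, integral_pf_unitFam S k j l hj]
  rw [hvint]
  simp only [hv]
  simp only [proj_pf S M (τ.n M) hGm a]
  set c : ℂ := S.wt k * dl l with hc
  have hcn : ‖c‖ ≤ 1 := by
    rw [hc, norm_mul, Complex.norm_real, Real.norm_eq_abs, abs_of_pos (wt_pos S k)]
    exact mul_le_one₀ (wt_le_one S k) (norm_nonneg _) (norm_dl_le l)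
  set A : ℕ → UnitAddCircle → ℂ := fun r y =>
    G r y - ∑ ν ∈ Finset.Icc (-(τ.n M : ℤ)) (τ.n M : ℤ), fourierCoeff (G r) ν * fourier ν y with hA
  set B : ℕ → UnitAddCircle → ℂ := fun r _ => gm τ k j l d r - c with hB
  set Cc : S.X → ℂ := fun x => if S.P M x < W.h M then 0 else c with hCc
  have hAm : ∀ r, Measurable (A r) := by
    intro r
    refine (hGm r).sub (Finset.measurable_sum _ fun ν _ => ?_)
    exact measurable_const.mul (fourier ν).continuous.measurable
  have hAb : ∀ r y, ‖A r y‖ ≤ 1 + (Finset.Icc (-(τ.n M : ℤ)) (τ.n M : ℤ)).card := by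
    intro r y
    refine (norm_sub_le _ _).trans (add_le_add (hG1 r y) ?_)
    refine (norm_sum_le _ _).trans ?_
    refine (Finset.sum_le_card_nsmul _ _ 1 fun ν _ => ?_).trans (by simp)
    rw [norm_mul]
    simp only [fourier_apply, Circle.norm_coe, mul_one]
    exact norm_fourierCoeff_le (hG1 r) ν
  have hBm : ∀ r, Measurable (B r) := fun r => measurable_const
  have hBb : ∀ r y, ‖B r y‖ ≤ 2 := by
    intro r y
    refine (norm_sub_le _ _).trans ?_
    have := norm_gm_le τ k j l d r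
    linarith only [hcn, this]
  have hCm : Measurable Cc :=
    Measurable.ite (measurableSet_lt (S.P_meas M) measurable_const) measurable_const
      measurable_const
  -- pointwise identity
  have hid : ∀ x, a * pf S M (ctl (τ.n M) G) x - (a * pf S M G x - a * c) =
      a * (Cc x - pf S M A x - pf S M B x) := by
    intro x
    rw [hCc, hA, hB]
    unfold pf
    by_cases h : S.P M x < W.h M
    · simp only [if_pos h]
      rw [sum_Icc_eq]
      have h1 : gm τ k j l d (S.P M x) = fourierCoeff (G (S.P M x)) 0 := by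
        rw [fourierCoeff_zero_eq]
        rfl
      rw [h1, fourier_zero]
      unfold ctl
      ring
    · simp only [if_neg h]
      ring
  simp only [hid]
  have ha2 : ‖a‖ ^ 2 = (S.wt k)⁻¹ := by
    rw [ha, norm_inv, Complex.norm_real, Real.norm_eq_abs, inv_pow, sq_abs,
      Real.sq_sqrt (wt_pos S k).le]
  have hbd : ∀ x, ‖a * (Cc x - pf S M A x - pf S M B x)‖ ^ 2 ≤
      3 * (S.wt k)⁻¹ * (‖pf S M A x‖ ^ 2 + ‖pf S M B x‖ ^ 2 + ‖Cc x‖ ^ 2) := by
    intro x
    rw [norm_mul, mul_pow, ha2]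
    have h1 : ‖Cc x - pf S M A x - pf S M B x‖ ≤ ‖Cc x‖ + ‖pf S M A x‖ + ‖pf S M B x‖ :=
      (norm_sub_le _ _).trans (add_le_add (norm_sub_le _ _) le_rfl)
    have h2 : ‖Cc x - pf S M A x - pf S M B x‖ ^ 2 ≤
        3 * (‖pf S M A x‖ ^ 2 + ‖pf S M B x‖ ^ 2 + ‖Cc x‖ ^ 2) := by
      refine (pow_le_pow_left₀ (norm_nonneg _) h1 2).trans ?_
      linarith only [sq_nonneg (‖Cc x‖ - ‖pf S M A x‖), sq_nonneg (‖Cc x‖ - ‖pf S M B x‖),
        sq_nonneg (‖pf S M A x‖ - ‖pf S M B x‖)]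
    have h3 : 0 ≤ (S.wt k)⁻¹ := inv_nonneg.2 (wt_pos S k).le
    calc (S.wt k)⁻¹ * ‖Cc x - pf S M A x - pf S M B x‖ ^ 2
        ≤ (S.wt k)⁻¹ * (3 * (‖pf S M A x‖ ^ 2 + ‖pf S M B x‖ ^ 2 + ‖Cc x‖ ^ 2)) :=
          mul_le_mul_of_nonneg_left h2 h3
      _ = _ := by ring
  -- boundedness and integrability
  have hpfb : ∀ {F : ℕ → UnitAddCircle → ℂ} {K : ℝ}, (∀ r y, ‖F r y‖ ≤ K) →
      ∀ x, ‖pf S M F x‖ ≤ K := by
    intro F K hF x
    unfold pf
    split_ifs
    · exact hF _ _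
    · rw [norm_zero]
      exact (norm_nonneg _).trans (hF 0 0)
  have hintsq : ∀ {f : S.X → ℂ} {K : ℝ}, Measurable f → (∀ x, ‖f x‖ ≤ K) →
      Integrable (fun x => ‖f x‖ ^ 2) S.μ := by
    intro f K hf hK
    refine Integrable.of_bound ((hf.norm.pow_const 2).aestronglyMeasurable) (K ^ 2)
      (Eventually.of_forall fun x => ?_)
    rw [Real.norm_of_nonneg (by positivity)]
    exact pow_le_pow_left₀ (norm_nonneg _) (hK x) 2
  have hCb : ∀ x, ‖Cc x‖ ≤ 1 := by
    intro x
    rw [hCc]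
    dsimp only
    split_ifs
    · simp
    · exact hcn
  have hiA := hintsq (measurable_pf S M hAm) (hpfb hAb)
  have hiB := hintsq (measurable_pf S M hBm) (hpfb hBb)
  have hiC := hintsq hCm hCb
  have hmono : ∫ x, ‖a * (Cc x - pf S M A x - pf S M B x)‖ ^ 2 ∂S.μ ≤
      ∫ x, 3 * (S.wt k)⁻¹ * (‖pf S M A x‖ ^ 2 + ‖pf S M B x‖ ^ 2 + ‖Cc x‖ ^ 2) ∂S.μ := by
    refine integral_mono_of_nonneg (Eventually.of_forall fun x => by positivity)
      (((hiA.add hiB).add hiC).const_mul _) (Eventually.of_forall hbd)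
  refine hmono.trans ?_
  rw [integral_const_mul]
  refine mul_le_mul_of_nonneg_left ?_
    (mul_nonneg (by norm_num) (inv_nonneg.2 (wt_pos S k).le))
  have hsplit : ∫ x, (‖pf S M A x‖ ^ 2 + ‖pf S M B x‖ ^ 2 + ‖Cc x‖ ^ 2) ∂S.μ =
      ∫ x, ‖pf S M A x‖ ^ 2 ∂S.μ + ∫ x, ‖pf S M B x‖ ^ 2 ∂S.μ + ∫ x, ‖Cc x‖ ^ 2 ∂S.μ := by
    rw [integral_add (f := fun x => ‖pf S M A x‖ ^ 2 + ‖pf S M B x‖ ^ 2) (hiA.add hiB) hiC,
      integral_add hiA hiB]
  rw [hsplit]
  refine add_le_add (add_le_add ?_ ?_) ?_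
  · -- tails
    rw [integral_norm_sq_pf S M hAm hAb]
    have h1 : ∀ r ∈ Finset.range (W.h M), ∫ y, ‖A r y‖ ^ 2 ∂haar ≤ (1 / 2) ^ M := by
      intro r hr
      rw [Finset.mem_range] at hr
      refine τ.tails k d j l r ?_ hd ?_
      · rw [← hh]; exact hj
      · rw [← hh]; exact hr
    calc S.wt M * ∑ r ∈ Finset.range (W.h M), ∫ y, ‖A r y‖ ^ 2 ∂haar
        ≤ S.wt M * ∑ r ∈ Finset.range (W.h M), (1 / 2 : ℝ) ^ M :=
          mul_le_mul_of_nonneg_left (Finset.sum_le_sum h1) (wt_pos S M).le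
      _ = (S.wt M * W.h M) * (1 / 2) ^ M := by
          rw [Finset.sum_const, Finset.card_range, nsmul_eq_mul]
          ring
      _ ≤ 1 * (1 / 2) ^ M :=
          mul_le_mul_of_nonneg_right (wt_mul_h_le S M) (by positivity)
      _ = (1 / 2) ^ M := one_mul _
  · rw [integral_norm_sq_pf S M hBm hBb]
    unfold Bd
    simp [hB, hM, hc]
  · have hms : MeasurableSet {x | S.P M x < W.h M} := measurableSet_lt (S.P_meas M) measurable_const
    have h1 : ∀ x, ‖Cc x‖ ^ 2 ≤ ({x | S.P M x < W.h M}ᶜ : Set S.X).indicator (fun _ => (1 : ℝ)) x := by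
      intro x
      rw [hCc]
      dsimp only
      by_cases h : S.P M x < W.h M
      · rw [if_pos h]
        simp [h]
      · rw [if_neg h, Set.indicator_of_mem (by simpa using h)]
        exact pow_le_one₀ (norm_nonneg _) hcn
    calc ∫ x, ‖Cc x‖ ^ 2 ∂S.μ
        ≤ ∫ x, ({x | S.P M x < W.h M}ᶜ : Set S.X).indicator (fun _ => (1 : ℝ)) x ∂S.μ :=
          integral_mono_of_nonneg (Eventually.of_forall fun x => by positivity)
            ((integrable_const (1 : ℝ)).indicator hms.compl) (Eventually.of_forall h1)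
      _ = 1 - S.wt M * W.h M := by
          rw [integral_indicator hms.compl, setIntegral_const, smul_eq_mul, mul_one,
            wt_mul_h, probReal_compl_eq_one_sub hms]

/-- convergence for the basic vectors -/
theorem tendsto_basic (hh : W.h = τ.h) (hN : W.N = fun k => (τ.D k).m)
    (hp : W.p = fun k => (τ.D k).p) (hφ : W.φ = fun k => (τ.D k).φ)
    (k j : ℕ) (l : ℤ) (hj : j < W.h k) :
    Tendsto (fun M => ∫ x, ‖(∑ a ∈ idx2 (W.h M) (τ.n M),
        (∫ z, starRingEnd ℂ (Plan.Ef S M a.1 a.2 z) * Plan.Ef S k j l z ∂S.μ) *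
          Plan.Ef S M a.1 a.2 x) - (Plan.Ef S k j l x - ∫ z, Plan.Ef S k j l z ∂S.μ)‖ ^ 2 ∂S.μ)
      atTop (𝓝 0) := by
  rw [← tendsto_add_atTop_iff_nat k]
  have h1 : Tendsto (fun d => 3 * (S.wt k)⁻¹ * ((1 / 2 : ℝ) ^ (k + d) + Bd S τ k j l d +
        (1 - S.wt (k + d) * W.h (k + d)))) atTop (𝓝 0) := by
    have h3 : Tendsto (fun d => k + d) atTop atTop :=
      tendsto_atTop_mono (fun d => Nat.le_add_left d k) tendsto_id
    have h4 : Tendsto (fun d => (1 / 2 : ℝ) ^ (k + d)) atTop (𝓝 0) :=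
      (tendsto_pow_atTop_nhds_zero_of_lt_one (by norm_num) (by norm_num)).comp h3
    have h5 := tendsto_Bd S τ hh hN hp hφ k j l hj
    have h6 := (tendsto_const_nhds (x := (1 : ℝ))).sub ((tendsto_wt_mul_h S).comp h3)
    have h7 := ((h4.add h5).add h6).const_mul (3 * (S.wt k)⁻¹)
    simpa using h7
  refine squeeze_zero' (Eventually.of_forall fun d => integral_nonneg fun x => by positivity)
    ?_ h1
  filter_upwards [eventually_ge_atTop l.natAbs] with d hd
  rw [Nat.add_comm d k]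
  refine err_le S τ hh hN hp hφ k j l hj d ?_
  rw [Int.abs_eq_natAbs]
  exact_mod_cast (by omega : l.natAbs ≤ k + d)

/-- clause 5 of `xside` -/
theorem clause5 (hh : W.h = τ.h) (hN : W.N = fun k => (τ.D k).m)
    (hp : W.p = fun k => (τ.D k).p) (hφ : W.φ = fun k => (τ.D k).φ)
    (v : S.X → ℂ) (hv : MemLp v 2 S.μ) :
    Tendsto (fun k => ∫ x, ‖(∑ a ∈ idx2 (τ.h k) (τ.n k),
        (∫ z, starRingEnd ℂ (Plan.Ef S k a.1 a.2 z) * v z ∂(S.μ)) * Plan.Ef S k a.1 a.2 x)
          - (v x - ∫ z, v z ∂(S.μ))‖ ^ 2 ∂(S.μ)) atTop (𝓝 0) := by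
  refine X2a.dense_extend (μ := S.μ) (fun k => idx2 (τ.h k) (τ.n k))
    (fun k a => Plan.Ef S k a.1 a.2) (fun k a => memLp_Ef S k a.1 a.2) ?_
    (κ := {q : ℕ × ℕ × ℤ // q.2.1 < W.h q.1}) (fun q => Plan.Ef S q.1.1 q.1.2.1 q.1.2.2)
    (fun q => memLp_Ef S _ _ _) ?_ ?_ v hv
  · intro k a ha b hb
    unfold idx2 at ha hb
    rw [Finset.mem_product, Finset.mem_range, ← hh] at ha hb
    rw [orth_Ef S k a.1 b.1 a.2 b.2 ha.1 hb.1]
    simp only [Prod.ext_iff]
  · intro g hg h0
    refine S.total g hg fun n j hj l => ?_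
    have h1 := h0 ⟨(n, j, l), hj⟩
    dsimp only at h1
    have h2 : ∀ x, starRingEnd ℂ (Plan.Ef S n j l x) * g x =
        ((Real.sqrt (S.wt n) : ℝ) : ℂ)⁻¹ *
          ((if S.P n x = j then starRingEnd ℂ (fourier l (S.Y n x)) else 0) * g x) := by
      intro x
      have h3 : Plan.Ef S n j l x = ((Real.sqrt (S.wt n) : ℝ) : ℂ)⁻¹ *
          (if S.P n x = j then fourier l (S.Y n x) else 0) := rfl
      rw [h3]
      split_ifs
      · simp only [map_mul, map_inv₀, Complex.conj_ofReal]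
        ring
      · simp
    simp only [h2] at h1
    rw [integral_const_mul] at h1
    refine (mul_eq_zero.1 h1).resolve_left ?_
    refine inv_ne_zero ?_
    exact_mod_cast (Real.sqrt_pos.2 (wt_pos S n)).ne'
  · rintro ⟨⟨k0, j0, l0⟩, hq⟩
    have h1 := tendsto_basic S τ hh hN hp hφ k0 j0 l0 hq
    simp only [hh] at h1
    exact h1

end Basic

end X2

end Vale.Agent.P130
end
end

section

section

open MeasureTheory Filter Topology

namespace Vale.Agent.P130

namespace Plan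

section X3

variable {W : Tower} (R : Realization W)

/-- The measure of one level of the `k`-th tower. -/
noncomputable def x3c (k : ℕ) : ℝ := R.w0 / (∏ i ∈ Finset.range k, (W.N i : ℝ))

lemma x3_prod_ge (W : Tower) (k : ℕ) : (2 : ℝ) ^ k ≤ ∏ i ∈ Finset.range k, (W.N i : ℝ) := by
  calc (2 : ℝ) ^ k = ∏ _i ∈ Finset.range k, (2 : ℝ) := by simp
    _ ≤ _ := Finset.prod_le_prod (fun _ _ => by norm_num) fun i _ => by
        exact_mod_cast W.N_two i

lemma x3c_pos (k : ℕ) : 0 < x3c R k :=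
  div_pos R.w0_pos (lt_of_lt_of_le (by positivity) (x3_prod_ge W k))

lemma x3c_tendsto : Tendsto (x3c R) atTop (𝓝 0) := by
  have h1 : Tendsto (fun k : ℕ => R.w0 * (1 / 2 : ℝ) ^ k) atTop (𝓝 (R.w0 * 0)) :=
    (tendsto_pow_atTop_nhds_zero_of_lt_one (by norm_num) (by norm_num)).const_mul _
  rw [mul_zero] at h1
  refine squeeze_zero (fun k => (x3c_pos R k).le) (fun k => ?_) h1
  have h2 := x3_prod_ge W k
  rw [x3c, div_le_iff₀ (lt_of_lt_of_le (by positivity) h2), mul_assoc]
  have h3 : (1 : ℝ) ≤ (1 / 2 : ℝ) ^ k * ∏ i ∈ Finset.range k, (W.N i : ℝ) := by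
    calc (1 : ℝ) = (1 / 2 : ℝ) ^ k * 2 ^ k := by rw [← mul_pow]; norm_num
      _ ≤ _ := mul_le_mul_of_nonneg_left h2 (by positivity)
  nlinarith [R.w0_pos]

lemma x3_measurableSet (k j : ℕ) : @MeasurableSet R.X R.ms {x | R.P k x = j} := by
  let _ := R.ms
  exact R.P_meas k (measurableSet_singleton j)

/-- The law of the fibre coordinate on a level. -/
lemma x3_map (k : ℕ) {j : ℕ} (hj : j < W.h k) :
    letI := R.ms
    (R.μ.restrict {x | R.P k x = j}).map (R.Y k) = ENNReal.ofReal (x3c R k) • haar := by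
  let _ := R.ms
  have := R.pm
  refine Measure.ext fun A hA => ?_
  rw [Measure.map_apply (R.Y_meas k) hA, Measure.restrict_apply (R.Y_meas k hA),
    Measure.smul_apply, smul_eq_mul]
  have h1 := R.dist k j hj A hA
  have h2 : (R.Y k ⁻¹' A) ∩ {x | R.P k x = j} = {x | R.P k x = j ∧ R.Y k x ∈ A} := by
    ext x; simp [and_comm]
  rw [h2, ← ENNReal.ofReal_toReal (measure_ne_top R.μ _), ← measureReal_def, h1]
  change ENNReal.ofReal (x3c R k * haar.real A) = _
  rw [ENNReal.ofReal_mul (x3c_pos R k).le, measureReal_def, ENNReal.ofReal_toReal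
    (measure_ne_top haar _)]

lemma x3_integral (k : ℕ) {j : ℕ} (hj : j < W.h k) {G : UnitAddCircle → ℂ} (hG : Continuous G) :
    ∫ x, (if R.P k x = j then G (R.Y k x) else 0) ∂(R.μ) = x3c R k * ∫ y, G y ∂haar := by
  let _ := R.ms
  have := R.pm
  have h1 : (fun x => if R.P k x = j then G (R.Y k x) else 0) =
      Set.indicator {x | R.P k x = j} (fun x => G (R.Y k x)) := by
    funext x
    by_cases h : R.P k x = j <;> simp [h]
  rw [h1, integral_indicator (x3_measurableSet R k j)]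
  have h2 : ∫ x in {x | R.P k x = j}, G (R.Y k x) ∂(R.μ) =
      ∫ y, G y ∂((R.μ.restrict {x | R.P k x = j}).map (R.Y k)) := by
    rw [integral_map (R.Y_meas k).aemeasurable hG.aestronglyMeasurable]
  rw [h2, x3_map R k hj, integral_smul_measure, ENNReal.toReal_ofReal (x3c_pos R k).le]
  rw [Complex.real_smul]

lemma x3_fourier (n : ℤ) : ∫ y : UnitAddCircle, (fourier n y : ℂ) ∂haar = if n = 0 then 1 else 0 := by
  split_ifs with h
  · subst h
    have : (⇑(fourier (T := 1) 0) : UnitAddCircle → ℂ) = fun _ => 1 := by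
      ext1; exact fourier_zero
    rw [this]
    simp
  · exact integral_eq_zero_of_add_right_eq_neg (μ := haar)
      (fourier_add_half_inv_index h one_pos)

lemma x3_measurable (k j : ℕ) (l : ℤ) : @Measurable R.X ℂ R.ms _ (Ef R k j l) := by
  let _ := R.ms
  unfold Ef
  refine Measurable.const_mul ?_ _
  refine Measurable.ite (x3_measurableSet R k j) ?_ measurable_const
  exact (fourier l).continuous.measurable.comp (R.Y_meas k)

lemma x3_memLp (k j : ℕ) (l : ℤ) : MemLp (Ef R k j l) 2 R.μ := by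
  let _ := R.ms
  have := R.pm
  refine MemLp.of_bound (x3_measurable R k j l).aestronglyMeasurable
    (‖((Real.sqrt (x3c R k) : ℝ) : ℂ)⁻¹‖) ?_
  refine Filter.Eventually.of_forall fun x => ?_
  unfold Ef x3c
  rw [norm_mul]
  refine mul_le_of_le_one_right (norm_nonneg _) ?_
  split_ifs
  · rw [fourier_apply]
    exact (Circle.norm_coe _).le
  · simp

lemma x3_orth (k : ℕ) {j : ℕ} (hj : j < W.h k) (l l' : ℤ) :
    ∫ x, starRingEnd ℂ (Ef R k j l x) * Ef R k j l' x ∂(R.μ) = if l = l' then 1 else 0 := by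
  have h1 : ∀ x, starRingEnd ℂ (Ef R k j l x) * Ef R k j l' x =
      ((x3c R k : ℝ) : ℂ)⁻¹ * (if R.P k x = j then (fourier (l' - l) (R.Y k x) : ℂ) else 0) := by
    intro x
    have hc : (((Real.sqrt (x3c R k) : ℝ) : ℂ)⁻¹) * (((Real.sqrt (x3c R k) : ℝ) : ℂ)⁻¹) =
        ((x3c R k : ℝ) : ℂ)⁻¹ := by
      rw [← mul_inv, ← Complex.ofReal_mul, Real.mul_self_sqrt (x3c_pos R k).le]
    unfold Ef
    change starRingEnd ℂ (((Real.sqrt (x3c R k) : ℝ) : ℂ)⁻¹ * _) *
      (((Real.sqrt (x3c R k) : ℝ) : ℂ)⁻¹ * _) = _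
    rw [← hc]
    by_cases h : R.P k x = j
    · simp only [h, if_true, map_mul, map_inv₀, Complex.conj_ofReal]
      rw [sub_eq_add_neg, fourier_add, fourier_neg]
      ring
    · simp [h]
  simp only [h1]
  rw [integral_const_mul, x3_integral R k hj (fourier (l' - l)).continuous, x3_fourier]
  have hc0 : ((x3c R k : ℝ) : ℂ) ≠ 0 := by
    exact_mod_cast (x3c_pos R k).ne'
  rw [← mul_assoc, inv_mul_cancel₀ hc0, one_mul]
  by_cases h : l = l'
  · subst h; simp
  · rw [if_neg h, if_neg]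
    omega

lemma x3_bessel (k : ℕ) {j : ℕ} (hj : j < W.h k) (s : Finset ℤ) {v : R.X → ℂ}
    (hv : MemLp v 2 R.μ) :
    ∑ l ∈ s, ‖∫ z, starRingEnd ℂ (Ef R k j l z) * v z ∂(R.μ)‖ ^ 2 ≤
      ∫ z in {x | R.P k x = j}, ‖v z‖ ^ 2 ∂(R.μ) := by
  let _ := R.ms
  have := R.pm
  have hS := x3_measurableSet R k j
  have hw : MemLp (Set.indicator {x | R.P k x = j} v) 2 R.μ := hv.indicator hS
  set e : ℤ → Lp ℂ 2 R.μ := fun l => (x3_memLp R k j l).toLp _ with he
  have hinner : ∀ (l : ℤ) (g : R.X → ℂ) (hg : MemLp g 2 R.μ),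
      inner ℂ (e l) (hg.toLp g) = ∫ z, starRingEnd ℂ (Ef R k j l z) * g z ∂(R.μ) := by
    intro l g hg
    rw [L2.inner_def]
    refine integral_congr_ae ?_
    filter_upwards [(x3_memLp R k j l).coeFn_toLp, hg.coeFn_toLp] with z h1 h2
    rw [he]
    simp only
    rw [h1, h2, RCLike.inner_apply, mul_comm]
  have horth : Orthonormal ℂ e := by
    rw [orthonormal_iff_ite]
    intro l l'
    rw [he]
    simp only
    rw [hinner l _ (x3_memLp R k j l'), x3_orth R k hj]
  have hB := horth.sum_inner_products_le (hw.toLp _) (s := s)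
  have hn : ‖hw.toLp _‖ ^ 2 = ∫ z in {x | R.P k x = j}, ‖v z‖ ^ 2 ∂(R.μ) := by
    have h1 : (‖hw.toLp _‖ ^ 2 : ℝ) = RCLike.re (inner ℂ (hw.toLp _) (hw.toLp _)) :=
      norm_sq_eq_re_inner _
    rw [h1, L2.inner_def, ← integral_indicator hS, ← integral_re (L2.integrable_inner _ _)]
    refine integral_congr_ae ?_
    filter_upwards [hw.coeFn_toLp] with z h2
    rw [h2, inner_self_eq_norm_sq_to_K]
    by_cases h : R.P k z = j
    · simp [Set.indicator, h]
      norm_cast
    · simp [Set.indicator, h]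
  rw [hn] at hB
  refine le_trans (le_of_eq ?_) hB
  refine Finset.sum_congr rfl fun l _ => ?_
  rw [hinner l _ hw]
  congr 2
  refine integral_congr_ae (Filter.Eventually.of_forall fun z => ?_)
  by_cases h : R.P k z = j
  · simp [Set.indicator, h]
  · simp [Set.indicator, h, Ef]

lemma x3_tendsto {jj : ℕ → ℕ} (hjj : ∀ k, jj k < W.h k) (s : ℕ → Finset ℤ) {v : R.X → ℂ}
    (hv : MemLp v 2 R.μ) :
    Tendsto (fun k => ∑ l ∈ s k, ‖∫ z, starRingEnd ℂ (Ef R k (jj k) l z) * v z ∂(R.μ)‖ ^ 2)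
      atTop (𝓝 0) := by
  let _ := R.ms
  have := R.pm
  have hint : Integrable (fun z => ‖v z‖ ^ 2) R.μ := hv.integrable_norm_pow (by norm_num)
  have hmeas : Tendsto (R.μ ∘ fun k => {x | R.P k x = jj k}) atTop (𝓝 0) := by
    have h1 : (R.μ ∘ fun k => {x | R.P k x = jj k}) = fun k => ENNReal.ofReal (x3c R k) := by
      funext k
      have := congrArg (fun m => m Set.univ) (x3_map R k (hjj k))
      simp only [Measure.smul_apply, measure_univ, smul_eq_mul, mul_one] at this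
      rw [Measure.map_apply (R.Y_meas k) MeasurableSet.univ] at this
      simpa using this
    rw [h1, ← ENNReal.ofReal_zero]
    exact ENNReal.tendsto_ofReal (x3c_tendsto R)
  have hlim := hint.tendsto_setIntegral_nhds_zero hmeas
  refine squeeze_zero (fun k => Finset.sum_nonneg fun l _ => by positivity)
    (fun k => x3_bessel R k (hjj k) (s k) hv) hlim

end X3

variable (τ : Plan)

/-- Clause 6 of `xside`. -/
theorem xside6 (W : Tower) (hh : W.h = τ.h) (R : Realization W) (v : R.X → ℂ)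
    (hv : MemLp v 2 R.μ) : Tendsto (fun k => ∑ l ∈ labs (τ.n k),
        ‖∫ z, starRingEnd ℂ (Ef R k (τ.h k - 1) l z) * v z ∂(R.μ)‖ ^ 2) atTop (𝓝 0) := by
  refine x3_tendsto R (jj := fun k => τ.h k - 1) (fun k => ?_) (fun k => labs (τ.n k)) hv
  have := W.h_pos k
  rw [hh] at this ⊢
  omega

/-- Clause 7 of `xside`. -/
theorem xside7 (W : Tower) (hh : W.h = τ.h) (R : Realization W) (v : R.X → ℂ)
    (hv : MemLp v 2 R.μ) : Tendsto (fun k => ∑ l ∈ labs (τ.n k),
        ‖∫ z, starRingEnd ℂ (Ef R k 0 l z) * v z ∂(R.μ)‖ ^ 2) atTop (𝓝 0) := by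
  have _ := hh
  exact x3_tendsto R (jj := fun _ => 0) (fun k => W.h_pos k) (fun k => labs (τ.n k)) hv

end Plan

end Vale.Agent.P130
end
end

section

section

/-!
# The X-side theorem, assembled
-/

open MeasureTheory Filter Topology

namespace Vale.Agent.P130

namespace Plan

variable (τ : Plan)

/-- X-side: properties of the level vectors -/
theorem xside (W : Tower) (hh : W.h = τ.h) (hN : W.N = fun k => (τ.D k).m)
    (hp : W.p = fun k => (τ.D k).p) (hφ : W.φ = fun k => (τ.D k).φ) (R : Realization W) :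
    (∀ k j l, MemLp (Ef R k j l) 2 R.μ) ∧
    (∀ k, ∀ j < τ.h k, ∀ j' < τ.h k, ∀ l l' : ℤ,
      ∫ x, starRingEnd ℂ (Ef R k j l x) * Ef R k j' l' x ∂(R.μ) = if j = j' ∧ l = l' then 1 else 0) ∧
    (∀ k, ∀ j < τ.h k, ∀ r < τ.h (k+1), ∀ l lam : ℤ,
      ∫ x, starRingEnd ℂ (Ef R (k+1) r lam x) * Ef R k j l x ∂(R.μ) =
        coef (τ.h k) (τ.D k) j l r lam) ∧
    (∀ k j (l : ℤ), j + 1 < τ.h k → ∀ᵐ x ∂(R.μ), Ef R k (j+1) l (R.T x) = Ef R k j l x) ∧
    (∀ v : R.X → ℂ, MemLp v 2 R.μ → Tendsto (fun k => ∫ x, ‖(∑ a ∈ idx2 (τ.h k) (τ.n k),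
        (∫ z, starRingEnd ℂ (Ef R k a.1 a.2 z) * v z ∂(R.μ)) * Ef R k a.1 a.2 x)
          - (v x - ∫ z, v z ∂(R.μ))‖ ^ 2 ∂(R.μ)) atTop (𝓝 0)) ∧
    (∀ v : R.X → ℂ, MemLp v 2 R.μ → Tendsto (fun k => ∑ l ∈ labs (τ.n k),
        ‖∫ z, starRingEnd ℂ (Ef R k (τ.h k - 1) l z) * v z ∂(R.μ)‖ ^ 2) atTop (𝓝 0)) ∧
    (∀ v : R.X → ℂ, MemLp v 2 R.μ → Tendsto (fun k => ∑ l ∈ labs (τ.n k),
        ‖∫ z, starRingEnd ℂ (Ef R k 0 l z) * v z ∂(R.μ)‖ ^ 2) atTop (𝓝 0)) := by
  have hh' : ∀ k, W.h k = τ.h k := fun k => by rw [hh]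
  refine ⟨fun k j l => memLp_Ef R k j l, fun k j hj j' hj' l l' => ?_,
    fun k j hj r hr l lam => ?_, fun k j l hj => ?_, fun v hv => ?_, fun v hv => ?_,
    fun v hv => ?_⟩
  · exact ortho_Ef R k (by rw [hh']; exact hj) (by rw [hh']; exact hj') l l'
  · exact coef_Ef hh hN hp hφ R k hj hr l lam
  · exact shift_Ef R k j l (by rw [hh']; exact hj)
  · exact X2.clause5 R τ hh hN hp hφ v hv
  · exact xside6 τ W hh R v hv
  · exact xside7 τ W hh R v hv

end Plan

end Vale.Agent.P130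
end
end

section

section

/-!
# The cutting-and-stacking system: the shift
-/

open MeasureTheory Filter Topology

namespace Vale.Agent.P130

namespace Tower

variable (W : Tower)

/-- Iterated projection from level `n + k` to level `n`. -/
noncomputable def prI (n : ℕ) : ℕ → St → St
  | 0, z => z
  | k + 1, z => prI n k (W.pr (n + k) z)

theorem measurable_prI (n k : ℕ) : Measurable (W.prI n k) := by
  induction k with
  | zero => exact measurable_id
  | succ k ih => exact ih.comp (W.measurable_pr (n + k))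

theorem prI_consistent {z : ℕ → St} (hz : ∀ n, W.pr n (z (n + 1)) = z n) (n k : ℕ) :
    W.prI n k (z (n + k)) = z n := by
  induction k with
  | zero => rfl
  | succ k ih =>
    change W.prI n k (W.pr (n + k) (z (n + k + 1))) = z n
    rw [hz, ih]

theorem prI_succ_left (n k : ℕ) (w : St) : W.prI n (k + 1) w = W.pr n (W.prI (n + 1) k w) := by
  induction k generalizing w with
  | zero => rfl
  | succ k ih =>
    change W.prI n (k + 1) (W.pr (n + (k + 1)) w) = W.pr n (W.prI (n + 1) k (W.pr (n + 1 + k) w))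
    rw [ih, show n + (k + 1) = n + 1 + k by omega]

/-- A partial move of the levels which commutes with the projections on a window. -/
structure Mv where
  σ : St → St
  win : ℕ → St → Prop
  σ_meas : Measurable σ
  win_meas : ∀ n, MeasurableSet {p | win n p}
  step : ∀ n z, win n (W.pr n z) → W.pr n (σ z) = σ (W.pr n z) ∧ win (n + 1) z
  far : ∀ M : ℕ, ∃ M' : ℕ, ∀ (n : ℕ) (p : St), M' ≤ p.1 → p.1 + M' < W.h n →
    win n p ∧ M ≤ (σ p).1 ∧ (σ p).1 + M < W.h n

namespace Mv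

variable {W} (m : Mv W)

theorem exists_win (z : W.good) : ∃ k, m.win k (z.1 k) := by
  obtain ⟨M', hM'⟩ := m.far 0
  obtain ⟨n, hn1, hn2⟩ := z.2.2 M'
  exact ⟨n, (hM' n _ hn1 hn2).1⟩

theorem win_persist (z : W.good) {n : ℕ} (h : m.win n (z.1 n)) (k : ℕ) :
    m.win (n + k) (z.1 (n + k)) := by
  induction k with
  | zero => exact h
  | succ k ih =>
    refine (m.step (n + k) (z.1 (n + k + 1)) ?_).2
    rw [z.2.1 (n + k)]
    exact ih

theorem stable_one (z : W.good) {n k : ℕ} (h : m.win (n + k) (z.1 (n + k))) :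
    W.prI n (k + 1) (m.σ (z.1 (n + k + 1))) = W.prI n k (m.σ (z.1 (n + k))) := by
  change W.prI n k (W.pr (n + k) (m.σ (z.1 (n + k + 1)))) = _
  rw [(m.step (n + k) (z.1 (n + k + 1)) (by rw [z.2.1 (n + k)]; exact h)).1, z.2.1 (n + k)]

theorem stable (z : W.good) {n k : ℕ} (h : m.win (n + k) (z.1 (n + k))) (j : ℕ) :
    W.prI n (k + j) (m.σ (z.1 (n + (k + j)))) = W.prI n k (m.σ (z.1 (n + k))) := by
  induction j with
  | zero => rfl
  | succ j ih =>
    rw [← ih]
    exact m.stable_one z (by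
      have := m.win_persist z h j
      rwa [add_assoc] at this)

open Classical in
/-- A level at which the move is defined. -/
noncomputable def lv (z : W.good) : ℕ := Nat.find (m.exists_win z)

theorem lv_spec (z : W.good) : m.win (m.lv z) (z.1 (m.lv z)) := by
  classical
  unfold lv
  exact Nat.find_spec (m.exists_win z)

/-- The coordinates of the moved point. -/
noncomputable def mvf (z : W.good) (n : ℕ) : St :=
  W.prI n (m.lv z) (m.σ (z.1 (n + m.lv z)))

theorem win_add_lv (z : W.good) (n : ℕ) : m.win (n + m.lv z) (z.1 (n + m.lv z)) := by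
  have := m.win_persist z (m.lv_spec z) n
  rwa [add_comm] at this

theorem mvf_eq (z : W.good) {n k : ℕ} (h : m.win (n + k) (z.1 (n + k))) :
    m.mvf z n = W.prI n k (m.σ (z.1 (n + k))) := by
  have h1 := m.stable z h (m.lv z)
  have h2 := m.stable z (m.win_add_lv z n) k
  unfold mvf
  rw [← h1, ← h2, add_comm k (m.lv z)]

theorem mvf_win (z : W.good) {n : ℕ} (h : m.win n (z.1 n)) : m.mvf z n = m.σ (z.1 n) :=
  m.mvf_eq z (k := 0) h

theorem mvf_consistent (z : W.good) (n : ℕ) : W.pr n (m.mvf z (n + 1)) = m.mvf z n := by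
  have h1 : m.win (n + (m.lv z + 1)) (z.1 (n + (m.lv z + 1))) := by
    have := m.win_add_lv z (n + 1)
    rwa [show n + 1 + m.lv z = n + (m.lv z + 1) by omega] at this
  rw [m.mvf_eq z h1, prI_succ_left]
  unfold mvf
  rw [show n + 1 + m.lv z = n + (m.lv z + 1) by omega]

theorem mvf_good (z : W.good) : m.mvf z ∈ W.good := by
  refine ⟨m.mvf_consistent z, fun M => ?_⟩
  obtain ⟨M', hM'⟩ := m.far M
  obtain ⟨n, hn1, hn2⟩ := z.2.2 M'
  obtain ⟨h1, h2, h3⟩ := hM' n _ hn1 hn2
  exact ⟨n, by rw [m.mvf_win z h1]; exact h2, by rw [m.mvf_win z h1]; exact h3⟩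

/-- The move of the good sequences. -/
noncomputable def mv (z : W.good) : W.good := ⟨m.mvf z, m.mvf_good z⟩

theorem mv_win (z : W.good) {n : ℕ} (h : m.win n (z.1 n)) : (m.mv z).1 n = m.σ (z.1 n) :=
  m.mvf_win z h

theorem mv_eq (z : W.good) {n k : ℕ} (h : m.win (n + k) (z.1 (n + k))) :
    (m.mv z).1 n = W.prI n k (m.σ (z.1 (n + k))) := m.mvf_eq z h

theorem measurable_eval (n : ℕ) : Measurable (fun z : W.good => z.1 n) :=
  (measurable_pi_apply n).comp measurable_subtype_coe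

theorem measurableSet_win (n : ℕ) : MeasurableSet {z : W.good | m.win n (z.1 n)} :=
  measurable_eval n (m.win_meas n)

theorem measurable_lv : Measurable m.lv := by
  classical
  refine measurable_find (p := fun (z : W.good) k => m.win k (z.1 k)) m.exists_win ?_
  intro k
  exact m.measurableSet_win k

theorem measurable_mv : Measurable m.mv := by
  refine Measurable.subtype_mk (measurable_pi_lambda _ fun n => ?_)
  have h1 : Measurable (fun q : ℕ × W.good => W.prI n q.1 (m.σ (q.2.1 (n + q.1)))) :=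
    measurable_from_prod_countable_right fun k =>
      (W.measurable_prI n k).comp (m.σ_meas.comp (measurable_eval (n + k)))
  exact h1.comp (m.measurable_lv.prodMk measurable_id)

theorem mv_inv (m' : Mv W) (hw : ∀ n p, m.win n p → m'.win n (m.σ p) ∧ m'.σ (m.σ p) = p)
    (z : W.good) : m'.mv (m.mv z) = z := by
  refine Subtype.ext (funext fun n => ?_)
  set k := m.lv z with hk
  have h1 : m.win (n + k) (z.1 (n + k)) := m.win_add_lv z n
  have h2 : (m.mv z).1 (n + k) = m.σ (z.1 (n + k)) := m.mv_win z h1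
  have h3 : m'.win (n + k) ((m.mv z).1 (n + k)) := by rw [h2]; exact (hw _ _ h1).1
  rw [m'.mv_eq (m.mv z) h3, h2, (hw _ _ h1).2]
  exact W.prI_consistent z.2.1 n k

end Mv

/-- Moving up by one floor. -/
noncomputable def mvUp : Mv W where
  σ p := (p.1 + 1, p.2)
  win n p := p.1 + 1 < W.h n
  σ_meas := ((measurable_of_countable (fun a : ℕ => a + 1)).comp measurable_fst).prodMk
    measurable_snd
  win_meas n := (measurable_fst (MeasurableSet.of_discrete (s := {a : ℕ | a + 1 < W.h n})))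
  step n z h := by
    obtain ⟨κ, hκ, h1, h2⟩ := W.exists_block (n := n) (z := z) (by omega)
    constructor
    · have h3 := W.pr_of_block z.2 hκ h
      rw [show (z.1 + 1, z.2) = (W.p n κ z.2 + ((W.pr n z).1 + 1), z.2) by
        rw [Prod.mk.injEq]; exact ⟨by omega, rfl⟩, h3, h2]
    · have := W.fit n κ z.2 hκ
      omega
  far M := ⟨M + 1, fun n p h1 h2 => ⟨by omega, by show M ≤ p.1 + 1; omega,
    by show p.1 + 1 + M < _; omega⟩⟩

/-- Moving down by one floor. -/
noncomputable def mvDn : Mv W where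
  σ p := (p.1 - 1, p.2)
  win n p := 1 ≤ p.1 ∧ p.1 < W.h n
  σ_meas := ((measurable_of_countable (fun a : ℕ => a - 1)).comp measurable_fst).prodMk
    measurable_snd
  win_meas n := (measurable_fst (MeasurableSet.of_discrete (s := {a : ℕ | 1 ≤ a ∧ a < W.h n})))
  step n z h := by
    obtain ⟨κ, hκ, h1, h2⟩ := W.exists_block (n := n) (z := z) h.2
    constructor
    · have h3 := W.pr_of_block z.2 hκ (show (W.pr n z).1 - 1 < W.h n by omega)
      rw [show (z.1 - 1, z.2) = (W.p n κ z.2 + ((W.pr n z).1 - 1), z.2) by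
        rw [Prod.mk.injEq]; exact ⟨by omega, rfl⟩, h3, h2]
    · have := W.fit n κ z.2 hκ
      constructor <;> omega
  far M := ⟨M + 1, fun n p h1 h2 => ⟨⟨by omega, by omega⟩, by show M ≤ p.1 - 1; omega,
    by show p.1 - 1 + M < _; omega⟩⟩

/-- The shift as an automorphism. -/
noncomputable def shiftEquiv : W.good ≃ᵐ W.good where
  toFun := W.mvUp.mv
  invFun := W.mvDn.mv
  left_inv := W.mvUp.mv_inv W.mvDn (fun n p h => ⟨⟨by show 1 ≤ p.1 + 1; omega, h⟩, by
    show (p.1 + 1 - 1, p.2) = p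
    simp⟩)
  right_inv := W.mvDn.mv_inv W.mvUp (fun n p h => by
    have h1 : 1 ≤ p.1 := h.1
    have h2 : p.1 < W.h n := h.2
    refine ⟨by show p.1 - 1 + 1 < W.h n; omega, ?_⟩
    show (p.1 - 1 + 1, p.2) = p
    rw [Nat.sub_add_cancel h1])
  measurable_toFun := W.mvUp.measurable_mv
  measurable_invFun := W.mvDn.measurable_mv

theorem mvUp_σ (p : St) : W.mvUp.σ p = (p.1 + 1, p.2) := rfl

/-- The measure of a set inside the tower. -/
theorem lev_inside (n : ℕ) {B : Set St} (hB : MeasurableSet B) (hn : (W.h n, 0) ∉ B) :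
    W.lev n B = ENNReal.ofReal (W.wt n) *
      ∑ j ∈ Finset.range (W.h n), hc {y | (j, y) ∈ B} := by
  have h1 := W.lintegral_lev n (f := B.indicator 1) (measurable_one.indicator hB)
  rw [lintegral_indicator_one hB, Set.indicator_of_notMem hn, mul_zero, add_zero] at h1
  rw [h1]
  congr 1
  refine Finset.sum_congr rfl fun j _ => ?_
  have h2 : (fun y : UnitAddCircle => B.indicator (1 : St → ENNReal) (j, y)) =
      {y | (j, y) ∈ B}.indicator 1 := by
    funext y
    by_cases h : (j, y) ∈ B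
    · rw [Set.indicator_of_mem h, Set.indicator_of_mem (show y ∈ {y | (j, y) ∈ B} from h)]
      rfl
    · rw [Set.indicator_of_notMem h, Set.indicator_of_notMem (show y ∉ {y | (j, y) ∈ B} from h)]
  rw [h2]
  exact lintegral_indicator_one (measurable_prodMk_left hB)

/-- Moving up by one floor preserves the measure of the parts of the towers. -/
theorem lev_shift (n : ℕ) {E : Set St} (hE : MeasurableSet E) :
    W.lev n {p | p.1 + 1 < W.h n ∧ (p.1 + 1, p.2) ∈ E} =
      W.lev n {p | (1 ≤ p.1 ∧ p.1 < W.h n) ∧ p ∈ E} := by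
  have hup : Measurable (fun p : St => (p.1 + 1, p.2)) := W.mvUp.σ_meas
  have m1 : MeasurableSet {p : St | p.1 + 1 < W.h n ∧ (p.1 + 1, p.2) ∈ E} :=
    (W.mvUp.win_meas n).inter (hup hE)
  have m2 : MeasurableSet {p : St | (1 ≤ p.1 ∧ p.1 < W.h n) ∧ p ∈ E} :=
    (W.mvDn.win_meas n).inter hE
  rw [W.lev_inside n m1 (by simp), W.lev_inside n m2 (by simp)]
  congr 1
  obtain ⟨h', hh⟩ : ∃ h', W.h n = h' + 1 := ⟨W.h n - 1, by have := W.h_pos n; omega⟩
  rw [hh, Finset.sum_range_succ, Finset.sum_range_succ']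
  have e1 : ({y | (h', y) ∈ {p : St | p.1 + 1 < h' + 1 ∧ (p.1 + 1, p.2) ∈ E}} :
      Set UnitAddCircle) = ∅ := by
    ext y; simp
  have e2 : ({y | (0, y) ∈ {p : St | (1 ≤ p.1 ∧ p.1 < h' + 1) ∧ p ∈ E}} :
      Set UnitAddCircle) = ∅ := by
    ext y; simp
  rw [e1, e2, measure_empty, add_zero, add_zero]
  refine Finset.sum_congr rfl fun j hj => ?_
  have hj' : j < h' := Finset.mem_range.1 hj
  congr 1
  ext y
  simp only [Set.mem_ofPred_eq]
  constructor
  · rintro ⟨_, h⟩
    exact ⟨⟨by omega, by omega⟩, h⟩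
  · rintro ⟨_, h⟩
    exact ⟨by omega, h⟩

/-- The windows exhaust the space. -/
theorem tendsto_win (m : Mv W) (ν : Measure W.good) (A : Set W.good) :
    Tendsto (fun k : ℕ => ν (A ∩ {z | m.win k (z.1 k)})) atTop (𝓝 (ν A)) := by
  have hmono : Monotone (fun k : ℕ => A ∩ {z : W.good | m.win k (z.1 k)}) := by
    refine monotone_nat_of_le_succ fun k => ?_
    rintro z ⟨hz, hw⟩
    exact ⟨hz, m.win_persist z hw 1⟩
  have hU : (⋃ k : ℕ, A ∩ {z : W.good | m.win k (z.1 k)}) = A := by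
    rw [← Set.inter_iUnion]
    refine Set.inter_eq_left.2 fun z _ => ?_
    obtain ⟨k, hk⟩ := m.exists_win z
    exact Set.mem_iUnion.2 ⟨k, hk⟩
  have := tendsto_measure_iUnion_atTop (μ := ν) hmono
  rwa [hU] at this

theorem shift_eval_eq (ν : Measure W.good) (hν : W.Lim ν) (n : ℕ) {B : Set St}
    (hB : MeasurableSet B) :
    ν {z : W.good | (W.mvUp.mv z).1 n ∈ B} = ν {z : W.good | z.1 n ∈ B} := by
  have h1 := (W.tendsto_win W.mvUp ν {z : W.good | (W.mvUp.mv z).1 n ∈ B}).comp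
    (tendsto_add_atTop_nat n)
  have h2 := (W.tendsto_win W.mvDn ν {z : W.good | z.1 n ∈ B}).comp
    (tendsto_add_atTop_nat n)
  refine tendsto_nhds_unique h1 (h2.congr fun k => ?_)
  simp only [Function.comp_apply]
  set E : Set St := {p | W.prI n k p ∈ B} with hE
  have mE : MeasurableSet E := W.measurable_prI n k hB
  have hup : Measurable (fun p : St => (p.1 + 1, p.2)) := W.mvUp.σ_meas
  have m1 : MeasurableSet {p : St | p.1 + 1 < W.h (k + n) ∧ (p.1 + 1, p.2) ∈ E} :=
    (W.mvUp.win_meas (k + n)).inter (hup mE)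
  have m2 : MeasurableSet {p : St | (1 ≤ p.1 ∧ p.1 < W.h (k + n)) ∧ p ∈ E} :=
    (W.mvDn.win_meas (k + n)).inter mE
  have e1 : {z : W.good | (W.mvUp.mv z).1 n ∈ B} ∩ {z | W.mvUp.win (k + n) (z.1 (k + n))} =
      (fun z : W.good => z.1 (k + n)) ⁻¹'
        {p : St | p.1 + 1 < W.h (k + n) ∧ (p.1 + 1, p.2) ∈ E} := by
    ext z
    constructor
    · rintro ⟨ha, hb⟩
      have hb' : W.mvUp.win (n + k) (z.1 (n + k)) := by rw [add_comm n k]; exact hb
      have h3 := W.mvUp.mv_eq z hb'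
      rw [add_comm n k, mvUp_σ] at h3
      refine ⟨hb, ?_⟩
      show W.prI n k ((z.1 (k + n)).1 + 1, (z.1 (k + n)).2) ∈ B
      rw [← h3]
      exact ha
    · rintro ⟨hb, ha⟩
      have hb' : W.mvUp.win (n + k) (z.1 (n + k)) := by rw [add_comm n k]; exact hb
      have h3 := W.mvUp.mv_eq z hb'
      rw [add_comm n k, mvUp_σ] at h3
      refine ⟨?_, hb⟩
      show (W.mvUp.mv z).1 n ∈ B
      rw [h3]
      exact ha
  have e2 : {z : W.good | z.1 n ∈ B} ∩ {z | W.mvDn.win (k + n) (z.1 (k + n))} =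
      (fun z : W.good => z.1 (k + n)) ⁻¹'
        {p : St | (1 ≤ p.1 ∧ p.1 < W.h (k + n)) ∧ p ∈ E} := by
    ext z
    have h3 := W.prI_consistent z.2.1 n k
    rw [add_comm n k] at h3
    constructor
    · rintro ⟨ha, hb⟩
      refine ⟨hb, ?_⟩
      show W.prI n k (z.1 (k + n)) ∈ B
      rw [h3]
      exact ha
    · rintro ⟨hb, ha⟩
      refine ⟨?_, hb⟩
      show z.1 n ∈ B
      rw [← h3]
      exact ha
  rw [e1, e2, (hν.ev (k + n)).measure_preimage m1.nullMeasurableSet,
    (hν.ev (k + n)).measure_preimage m2.nullMeasurableSet, W.lev_shift (k + n) mE]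

/-- The basic sets. -/
def cylG : Set (Set W.good) :=
  {s | ∃ (n : ℕ) (B : Set St), MeasurableSet B ∧ s = {z : W.good | z.1 n ∈ B}}

theorem isPiSystem_cylG : IsPiSystem W.cylG := by
  rintro s ⟨n, B, hB, rfl⟩ t ⟨n', B', hB', rfl⟩ _
  refine ⟨n + n', (W.prI n n') ⁻¹' B ∩ (W.prI n' n) ⁻¹' B',
    (W.measurable_prI n n' hB).inter (W.measurable_prI n' n hB'), ?_⟩
  ext z
  have h1 := W.prI_consistent z.2.1 n n'
  have h2 := W.prI_consistent z.2.1 n' n
  rw [add_comm n' n] at h2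
  constructor
  · rintro ⟨ha, hb⟩
    refine ⟨?_, ?_⟩
    · show W.prI n n' (z.1 (n + n')) ∈ B
      rw [h1]; exact ha
    · show W.prI n' n (z.1 (n + n')) ∈ B'
      rw [h2]; exact hb
  · rintro ⟨ha, hb⟩
    have ha' : W.prI n n' (z.1 (n + n')) ∈ B := ha
    have hb' : W.prI n' n (z.1 (n + n')) ∈ B' := hb
    rw [h1] at ha'
    rw [h2] at hb'
    exact ⟨ha', hb'⟩

theorem generateFrom_cylG :
    (inferInstance : MeasurableSpace W.good) = MeasurableSpace.generateFrom W.cylG := by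
  refine le_antisymm ?_ (MeasurableSpace.generateFrom_le ?_)
  · rintro s ⟨t, ht, rfl⟩
    have h1 : @Measurable W.good (ℕ → St) (MeasurableSpace.generateFrom W.cylG)
        MeasurableSpace.pi Subtype.val := by
      refine @measurable_pi_lambda _ _ _ (MeasurableSpace.generateFrom W.cylG) _ _ fun n => ?_
      intro B hB
      exact MeasurableSpace.measurableSet_generateFrom ⟨n, B, hB, rfl⟩
    exact h1 ht
  · rintro s ⟨n, B, hB, rfl⟩
    exact Mv.measurable_eval n hB

/-- The shift exists: an automorphism of the good sequences which moves up by one floor, and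
preserves every limit measure. -/
theorem exists_shift : ∃ T : W.good ≃ᵐ W.good,
    (∀ (z : W.good) (n : ℕ), (z.1 n).1 + 1 < W.h n →
      (T z).1 n = ((z.1 n).1 + 1, (z.1 n).2)) ∧
    ∀ ν : Measure W.good, W.Lim ν → MeasurePreserving T ν ν := by
  refine ⟨W.shiftEquiv, fun z n h => W.mvUp.mv_win z h, fun ν hν => ⟨W.shiftEquiv.measurable, ?_⟩⟩
  have := hν.prob
  have : IsProbabilityMeasure (ν.map W.shiftEquiv) :=
    Measure.isProbabilityMeasure_map W.shiftEquiv.measurable.aemeasurable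
  refine ext_of_generate_finite W.cylG W.generateFrom_cylG W.isPiSystem_cylG ?_ (by simp)
  rintro s ⟨n, B, hB, rfl⟩
  have h1 : (ν.map W.shiftEquiv) {z : W.good | z.1 n ∈ B} =
      ν (W.shiftEquiv ⁻¹' {z : W.good | z.1 n ∈ B}) :=
    Measure.map_apply W.shiftEquiv.measurable (Mv.measurable_eval n hB)
  rw [h1]
  exact W.shift_eval_eq ν hν n hB

end Tower

end Vale.Agent.P130
end
end

section

section

/-!
# The cutting-and-stacking system with fibre-dependent spacers
-/

open MeasureTheory Filter Topology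

namespace Vale.Agent.P130

/-- Haar measure of the circle has no atoms. -/
theorem hc_singleton (y : UnitAddCircle) : hc {y} = 0 := by
  have h : (volume : Measure UnitAddCircle) = ENNReal.ofReal 1 • hc :=
    AddCircle.volume_eq_smul_haarAddCircle
  rw [ENNReal.ofReal_one, one_smul] at h
  have h2 := AddCircle.volume_closedBall (T := 1) (x := y) 0
  rw [Metric.closedBall_zero, mul_zero, min_eq_right zero_le_one, ENNReal.ofReal_zero] at h2
  rw [← h]
  exact h2

namespace Tower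

variable (W : Tower)

/-- The measure of the `n`-th tower. -/
theorem lev_tower (n : ℕ) :
    W.lev n {z : St | z.1 < W.h n} = ENNReal.ofReal (W.wt n * W.h n) := by
  have hm : MeasurableSet {z : St | z.1 < W.h n} :=
    measurableSet_lt measurable_fst measurable_const
  rw [← lintegral_indicator_one hm, W.lintegral_lev _ (measurable_one.indicator hm)]
  have h1 : ({z : St | z.1 < W.h n}.indicator 1 (W.h n, 0) : ENNReal) = 0 := by
    apply Set.indicator_of_notMem
    intro h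
    exact lt_irrefl (W.h n) h
  have h2 : ∀ j ∈ Finset.range (W.h n),
      ∫⁻ y, {z : St | z.1 < W.h n}.indicator 1 (j, y) ∂hc = 1 := by
    intro j hj
    have : ∀ y : UnitAddCircle,
        ({z : St | z.1 < W.h n}.indicator 1 (j, y) : ENNReal) = 1 := by
      intro y
      rw [Set.indicator_of_mem]
      · rfl
      · exact Finset.mem_range.1 hj
    simp only [this, lintegral_one, measure_univ]
  rw [h1, mul_zero, add_zero, Finset.sum_congr rfl h2, Finset.sum_const, Finset.card_range,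
    nsmul_eq_mul, mul_one, ENNReal.ofReal_mul (W.wt_pos n).le, ENNReal.ofReal_natCast]

variable {W}

theorem Lim.floor {ν : Measure W.good} (hν : W.Lim ν) (n : ℕ) {j : ℕ} (hj : j < W.h n)
    {A : Set UnitAddCircle} (hA : MeasurableSet A) :
    ν {x | (x.1 n).1 = j ∧ (x.1 n).2 ∈ A} = ENNReal.ofReal (W.wt n) * hc A := by
  have hm : MeasurableSet {z : St | z.1 = j ∧ z.2 ∈ A} :=
    (measurable_fst (measurableSet_singleton j)).inter (measurable_snd hA)
  rw [← W.lev_floor n hj hA, ← (hν.ev n).measure_preimage hm.nullMeasurableSet]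
  rfl

end Tower

theorem realization_exists (W : Tower) : Nonempty (Realization W) := by
  obtain ⟨ν, hν⟩ := W.exists_lim
  obtain ⟨T, hT1, hT2⟩ := W.exists_shift
  have hprob := hν.prob
  refine ⟨{
    X := W.good
    ms := inferInstance
    sb := W.measurableSet_good.standardBorel
    μ := ν
    pm := hν.prob
    na := ?_
    T := T
    hT := hT2 ν hν
    w0 := W.w0
    w0_pos := W.w0_pos
    P := fun n x => (x.1 n).1
    Y := fun n x => (x.1 n).2
    P_meas := fun n => measurable_fst.comp (hν.ev n).measurable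
    Y_meas := fun n => measurable_snd.comp (hν.ev n).measurable
    dist := ?_
    up := ?_
    down := ?_
    shift := ?_
    exh := ?_
    total := ?_ }⟩
  · refine ⟨fun z => ?_⟩
    obtain ⟨n, -, hn⟩ := z.2.2 0
    rw [Nat.add_zero] at hn
    have h1 : ({z} : Set W.good) ⊆
        {x | (x.1 n).1 = (z.1 n).1 ∧ (x.1 n).2 ∈ ({(z.1 n).2} : Set UnitAddCircle)} := by
      intro x hx
      rw [Set.mem_singleton_iff] at hx
      subst hx
      exact ⟨rfl, rfl⟩
    refine measure_mono_null h1 ?_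
    rw [hν.floor n hn (measurableSet_singleton _), hc_singleton, mul_zero]
  · intro n j hj A hA
    rw [measureReal_def, hν.floor n hj hA, ENNReal.toReal_mul,
      ENNReal.toReal_ofReal (W.wt_pos n).le]
    rfl
  · intro x n κ j hκ hj h
    have h1 : x.1 (n + 1) = (W.p n κ (x.1 (n + 1)).2 + j, (x.1 (n + 1)).2) :=
      Prod.ext h rfl
    have h2 : x.1 n = (j, W.φ n κ (x.1 (n + 1)).2) := by
      rw [← x.2.1 n, h1, W.pr_of_block _ hκ hj]
    exact ⟨congrArg Prod.fst h2, congrArg Prod.snd h2⟩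
  · intro x n h
    have h1 : (W.pr n (x.1 (n + 1))).1 < W.h n := by
      rw [x.2.1 n]
      exact h
    obtain ⟨κ, hκ, h2, -⟩ := W.exists_block h1
    rw [x.2.1 n] at h2
    exact ⟨κ, hκ, h2⟩
  · intro x n h
    have h1 : (T x).1 n = ((x.1 n).1 + 1, (x.1 n).2) := hT1 x n h
    constructor
    · change ((T x).1 n).1 = (x.1 n).1 + 1
      rw [h1]
    · change ((T x).1 n).2 = (x.1 n).2
      rw [h1]
  · have h1 : ∀ n, ν.real {x | (x.1 n).1 < W.h n} = W.wt n * W.h n := by
      intro n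
      have hm : MeasurableSet {z : St | z.1 < W.h n} :=
        measurableSet_lt measurable_fst measurable_const
      have h2 : ν {x | (x.1 n).1 < W.h n} = ENNReal.ofReal (W.wt n * W.h n) := by
        rw [← W.lev_tower n, ← (hν.ev n).measure_preimage hm.nullMeasurableSet]
        rfl
      rw [measureReal_def, h2, ENNReal.toReal_ofReal]
      exact mul_nonneg (W.wt_pos n).le (Nat.cast_nonneg _)
    have h2 := W.tendsto_wt_mul_h
    simp only [← h1] at h2
    exact h2
  · intro g hg h0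
    exact W.total_good hν g hg h0

end Vale.Agent.P130
end
end

section

section

open MeasureTheory Filter Topology

namespace Vale.Agent.P130


lemma norm_sq_sum_range (z : ℕ → ℂ) (hz : ∀ i, ‖z i‖ = 1) (q : ℕ) :
    ‖∑ i ∈ Finset.range q, z i‖ ^ 2 = q +
      2 * (∑ i ∈ Finset.range q, ∑ j ∈ Finset.range i, z i * starRingEnd ℂ (z j)).re := by
  induction q with
  | zero => simp
  | succ q ih =>
    rw [Finset.sum_range_succ, Finset.sum_range_succ, ← Finset.mul_sum, ← map_sum]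
    have h1 : ‖(∑ i ∈ Finset.range q, z i) + z q‖ ^ 2 = ‖∑ i ∈ Finset.range q, z i‖ ^ 2 + 1 +
        2 * (z q * starRingEnd ℂ (∑ i ∈ Finset.range q, z i)).re := by
      have h2 := Complex.normSq_add (∑ i ∈ Finset.range q, z i) (z q)
      rw [Complex.normSq_eq_norm_sq, Complex.normSq_eq_norm_sq, Complex.normSq_eq_norm_sq] at h2
      rw [h2, hz q]
      have : ((∑ i ∈ Finset.range q, z i) * starRingEnd ℂ (z q)).re =
          (z q * starRingEnd ℂ (∑ i ∈ Finset.range q, z i)).re := by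
        rw [← Complex.conj_re]
        simp [mul_comm]
      rw [this]
      ring
    rw [h1, ih, Complex.add_re]
    push_cast
    ring

lemma sum_triangle (f : ℕ → ℕ → ℂ) (q : ℕ) :
    ∑ i ∈ Finset.range q, ∑ j ∈ Finset.range i, f i j =
      ∑ n ∈ Finset.Ico 1 q, ∑ j ∈ Finset.range (q - n), f (j + n) j := by
  rw [Finset.sum_sigma', Finset.sum_sigma']
  refine Finset.sum_nbij' (fun p => ⟨p.1 - p.2, p.2⟩) (fun p => ⟨p.2 + p.1, p.2⟩) ?_ ?_ ?_ ?_ ?_
  · rintro ⟨i, j⟩ h
    simp only [Finset.mem_sigma, Finset.mem_range, Finset.mem_Ico] at h ⊢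
    omega
  · rintro ⟨n, j⟩ h
    simp only [Finset.mem_sigma, Finset.mem_range, Finset.mem_Ico] at h ⊢
    omega
  · rintro ⟨i, j⟩ h
    simp only [Finset.mem_sigma, Finset.mem_range] at h
    simp only [Sigma.mk.injEq, heq_eq_eq, and_true]
    omega
  · rintro ⟨n, j⟩ h
    simp
  · rintro ⟨i, j⟩ h
    simp only [Finset.mem_sigma, Finset.mem_range] at h
    simp only
    congr 1
    omega

lemma trig_sq (c : ℕ → ℂ) (hc : ∀ i, ‖c i‖ = 1) (q : ℕ) (hq : 0 < q) (x : UnitAddCircle) :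
    ‖((Real.sqrt q : ℝ) : ℂ)⁻¹ * ∑ i ∈ Finset.range q, c i * fourier (i : ℤ) x‖ ^ 2 - 1 =
      2 / q * (∑ n ∈ Finset.Ico 1 q,
        (∑ j ∈ Finset.range (q - n), c (j + n) * starRingEnd ℂ (c j)) * fourier (n : ℤ) x).re := by
  have hq' : (0 : ℝ) < q := by exact_mod_cast hq
  rw [norm_mul, mul_pow, norm_inv, Complex.norm_real, Real.norm_eq_abs,
    abs_of_nonneg (Real.sqrt_nonneg _), inv_pow, Real.sq_sqrt hq'.le,
    norm_sq_sum_range _ (fun i => by rw [norm_mul, hc, norm_fourier_apply, one_mul]),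
    sum_triangle]
  have h1 : ∑ n ∈ Finset.Ico 1 q, ∑ j ∈ Finset.range (q - n),
      c (j + n) * fourier ((j + n : ℕ) : ℤ) x * starRingEnd ℂ (c j * fourier (j : ℤ) x) =
      ∑ n ∈ Finset.Ico 1 q,
        (∑ j ∈ Finset.range (q - n), c (j + n) * starRingEnd ℂ (c j)) * fourier (n : ℤ) x := by
    apply Finset.sum_congr rfl
    intro n _
    rw [Finset.sum_mul]
    apply Finset.sum_congr rfl
    intro j _
    have h2 : fourier ((j + n : ℕ) : ℤ) x * starRingEnd ℂ (fourier (j : ℤ) x) =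
        fourier (n : ℤ) x := by
      rw [← fourier_neg, ← fourier_add]
      congr 2
      push_cast
      ring
    rw [← h2, map_mul]
    ring
  rw [h1]
  field_simp
  ring

lemma integral_trig_sq_le (c : ℕ → ℂ) (hc : ∀ i, ‖c i‖ = 1) (q : ℕ) (hq : 0 < q) :
    ∫ x, (‖((Real.sqrt q : ℝ) : ℂ)⁻¹ * ∑ i ∈ Finset.range q, c i * fourier (i : ℤ) x‖ ^ 2 - 1) ^ 2
      ∂haar ≤ 4 / (q : ℝ) ^ 2 * ∑ n ∈ Finset.Ico 1 q,
        ‖∑ j ∈ Finset.range (q - n), c (j + n) * starRingEnd ℂ (c j)‖ ^ 2 := by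
  rw [← integral_norm_sq_trig (Finset.Ico 1 q) (fun n => (n : ℤ))
    (fun a _ b _ h => by simpa using h)]
  rw [← integral_const_mul]
  apply integral_mono
  · apply integrable_of_continuous
    apply Continuous.pow
    apply Continuous.sub _ continuous_const
    apply Continuous.pow
    apply Continuous.norm
    apply Continuous.mul continuous_const
    apply continuous_finsetSum
    intro i _
    exact continuous_const.mul (fourier (i : ℤ)).continuous
  · apply integrable_of_continuous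
    apply Continuous.mul continuous_const
    apply Continuous.pow
    apply Continuous.norm
    apply continuous_finsetSum
    intro i _
    exact continuous_const.mul (fourier (i : ℤ)).continuous
  · intro x
    simp only
    have h4 : (2 : ℝ) ^ 2 = 4 := by norm_num
    rw [trig_sq c hc q hq x, mul_pow, div_pow, h4]
    apply mul_le_mul_of_nonneg_left _ (by positivity)
    apply sq_le_sq'
    · exact neg_le_of_abs_le (Complex.abs_re_le_norm _)
    · exact (le_abs_self _).trans (Complex.abs_re_le_norm _)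

lemma corr_norm (a : ℝ) (n M : ℕ) :
    ‖∑ j ∈ Finset.range M, ee (a * ((j + n : ℕ) : ℝ) ^ 2 / 2) *
      starRingEnd ℂ (ee (a * (j : ℝ) ^ 2 / 2))‖ = ‖∑ j ∈ Finset.range M, ee (a * n) ^ j‖ := by
  have h1 : ∀ j : ℕ, ee (a * ((j + n : ℕ) : ℝ) ^ 2 / 2) *
      starRingEnd ℂ (ee (a * (j : ℝ) ^ 2 / 2)) = ee (a * (n : ℝ) ^ 2 / 2) * ee (a * n) ^ j := by
    intro j
    rw [conj_ee, ← ee_natCast_mul, ← ee_add, ← ee_add]
    congr 1
    push_cast
    ring
  rw [Finset.sum_congr rfl (fun j _ => h1 j), ← Finset.mul_sum, norm_mul, norm_ee, one_mul]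

lemma dist_case1 (β : ℤ) (hβ : β ≠ 0) (q n : ℕ) (hnq : n < q) (hdvd : ¬ β ∣ (n : ℤ)) (k : ℤ) :
    ((q - n : ℕ) : ℝ) / (|(β : ℝ)| * q) ≤ |((q : ℝ) + 1) / (β * q) * n - k| := by
  have hq : (0 : ℝ) < q := by
    have : 0 < q := by omega
    exact_mod_cast this
  have hβ' : (β : ℝ) ≠ 0 := by exact_mod_cast hβ
  have h1 : ((q : ℝ) + 1) / (β * q) * n - k = ((n * (q + 1) - k * β * q : ℤ) : ℝ) / (β * q) := by
    push_cast
    field_simp
  rw [h1, abs_div, abs_mul, abs_of_pos hq]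
  apply div_le_div_of_nonneg_right _ (by positivity)
  have h2 : ((q - n : ℕ) : ℤ) ≤ |(n : ℤ) * (q + 1) - k * β * q| := by
    have h3 : (n : ℤ) - k * β ≠ 0 := by
      intro h
      apply hdvd
      exact ⟨k, by linarith only [mul_comm k β, h]⟩
    have h4 : (n : ℤ) * (q + 1) - k * β * q = n + q * (n - k * β) := by ring
    rw [h4, Nat.cast_sub hnq.le]
    have hnq' : (n : ℤ) < q := by exact_mod_cast hnq
    have hn0 : (0 : ℤ) ≤ n := by positivity
    rcases lt_or_gt_of_ne h3 with h5 | h5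
    · have h6 : (n : ℤ) - k * β ≤ -1 := by omega
      have h7 : (q : ℤ) * (n - k * β) ≤ q * (-1) := by
        apply mul_le_mul_of_nonneg_left h6 (by positivity)
      calc ((q : ℤ) - n) ≤ -(n + q * (n - k * β)) := by linarith only [h7]
        _ ≤ _ := neg_le_abs _
    · have h6 : 1 ≤ (n : ℤ) - k * β := by omega
      have h7 : (q : ℤ) * 1 ≤ q * (n - k * β) := by
        apply mul_le_mul_of_nonneg_left h6 (by positivity)
      calc ((q : ℤ) - n) ≤ (n + q * (n - k * β)) := by linarith only [h7]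
        _ ≤ _ := le_abs_self _
  have h3 : (((q - n : ℕ) : ℤ) : ℝ) ≤ ((|(n : ℤ) * (q + 1) - k * β * q| : ℤ) : ℝ) := by
    exact_mod_cast h2
  rw [Int.cast_abs] at h3
  exact_mod_cast h3

lemma dist_case2 (β : ℤ) (hβ : β ≠ 0) (q n : ℕ) (hnq : n < q) (k : ℤ) :
    ((min n (q - n) : ℕ) : ℝ) / (|(β : ℝ)| * q) ≤ |((q : ℝ) + 1) / (β * q) * n - k| := by
  have hq : (0 : ℝ) < q := by
    have : 0 < q := by omega
    exact_mod_cast this
  have hβ' : (β : ℝ) ≠ 0 := by exact_mod_cast hβ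
  have h1 : ((q : ℝ) + 1) / (β * q) * n - k = ((n * (q + 1) - k * β * q : ℤ) : ℝ) / (β * q) := by
    push_cast
    field_simp
  rw [h1, abs_div, abs_mul, abs_of_pos hq]
  apply div_le_div_of_nonneg_right _ (by positivity)
  have h2 : ((min n (q - n) : ℕ) : ℤ) ≤ |(n : ℤ) * (q + 1) - k * β * q| := by
    have h4 : (n : ℤ) * (q + 1) - k * β * q = n + q * (n - k * β) := by ring
    rw [h4]
    have hnq' : (n : ℤ) < q := by exact_mod_cast hnq
    have hn0 : (0 : ℤ) ≤ n := by positivity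
    have hm1 : ((min n (q - n) : ℕ) : ℤ) ≤ n := by
      exact_mod_cast min_le_left _ _
    have hm2 : ((min n (q - n) : ℕ) : ℤ) ≤ (q : ℤ) - n := by
      rw [← Nat.cast_sub hnq.le]
      exact_mod_cast min_le_right _ _
    rcases lt_trichotomy ((n : ℤ) - k * β) 0 with h5 | h5 | h5
    · have h6 : (n : ℤ) - k * β ≤ -1 := by omega
      have h7 : (q : ℤ) * (n - k * β) ≤ q * (-1) := by
        apply mul_le_mul_of_nonneg_left h6 (by positivity)
      calc _ ≤ -(n + q * (n - k * β)) := by linarith only [hm2, h7]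
        _ ≤ _ := neg_le_abs _
    · rw [h5, mul_zero, add_zero, abs_of_nonneg hn0]
      exact hm1
    · have h6 : 1 ≤ (n : ℤ) - k * β := by omega
      have h7 : (q : ℤ) * 1 ≤ q * (n - k * β) := by
        apply mul_le_mul_of_nonneg_left h6 (by positivity)
      calc _ ≤ (n + q * (n - k * β)) := by linarith only [hnq, hm1, h7]
        _ ≤ _ := le_abs_self _
  have h3 : (((min n (q - n) : ℕ) : ℤ) : ℝ) ≤ ((|(n : ℤ) * (q + 1) - k * β * q| : ℤ) : ℝ) := by
    exact_mod_cast h2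
  rw [Int.cast_abs] at h3
  exact_mod_cast h3

/-- The majorant of the squares of the correlations. -/
noncomputable def gmaj (β : ℝ) (q u : ℕ) : ℝ := (min (u : ℝ) (β * q / (2 * u))) ^ 2

lemma norm_pow_sum_le (w : ℂ) (hw : ‖w‖ = 1) (M : ℕ) :
    ‖∑ j ∈ Finset.range M, w ^ j‖ ≤ M := by
  calc ‖∑ j ∈ Finset.range M, w ^ j‖ ≤ ∑ j ∈ Finset.range M, ‖w ^ j‖ := norm_sum_le _ _
    _ = M := by simp [norm_pow, hw]

lemma corr_bound (β : ℤ) (hβ : β ≠ 0) (q n : ℕ) (hn : 0 < n) (hnq : n < q) :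
    ‖∑ j ∈ Finset.range (q - n), ee (((q : ℝ) + 1) / (β * q) * n) ^ j‖ ^ 2 ≤
      gmaj |(β : ℝ)| q n + gmaj |(β : ℝ)| q (q - n) := by
  have hq : (0 : ℝ) < q := by
    have : 0 < q := by omega
    exact_mod_cast this
  have hβ' : (β : ℝ) ≠ 0 := by exact_mod_cast hβ
  have hβ'' : 0 < |(β : ℝ)| := abs_pos.2 hβ'
  set w := ee (((q : ℝ) + 1) / (β * q) * n) with hw
  have hw1 : ‖w‖ = 1 := norm_ee _
  set S := ∑ j ∈ Finset.range (q - n), w ^ j with hS
  have hS1 : ‖S‖ ≤ ((q - n : ℕ) : ℝ) := norm_pow_sum_le w hw1 _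
  have key : ∀ u : ℕ, 0 < u → (∀ k : ℤ, (u : ℝ) / (|(β : ℝ)| * q) ≤
      |((q : ℝ) + 1) / (β * q) * n - k|) → ‖S‖ ≤ |(β : ℝ)| * q / (2 * u) := by
    intro u hu h
    have hu' : (0 : ℝ) < u := by exact_mod_cast hu
    have h1 := norm_ee_sub_one_ge _ _ h
    have h2 := norm_geom_le w hw1 _ (by positivity) h1 (q - n)
    calc ‖S‖ ≤ _ := h2
      _ = |(β : ℝ)| * q / (2 * u) := by field_simp
  have fin : ∀ u : ℕ, ‖S‖ ≤ u → ‖S‖ ≤ |(β : ℝ)| * q / (2 * u) → ‖S‖ ^ 2 ≤ gmaj |(β : ℝ)| q u := by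
    intro u h1 h2
    unfold gmaj
    exact pow_le_pow_left₀ (norm_nonneg _) (le_min h1 h2) 2
  have g0 : ∀ u : ℕ, 0 ≤ gmaj |(β : ℝ)| q u := fun u => by unfold gmaj; positivity
  by_cases hdvd : β ∣ (n : ℤ)
  · have hmin : 0 < min n (q - n) := by
      rw [lt_min_iff]; omega
    have h1 := key (min n (q - n)) hmin (dist_case2 β hβ q n hnq)
    rcases le_total n (q - n) with h2 | h2
    · rw [min_eq_left h2] at h1
      have h3 : ‖S‖ ≤ n := by
        have hw2 : w ≠ 1 := by
          intro h4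
          have h5 := norm_ee_sub_one_ge _ _ (dist_case2 β hβ q n hnq)
          rw [← hw, h4, sub_self, norm_zero, min_eq_left h2] at h5
          have : (0 : ℝ) < (n : ℝ) / (|(β : ℝ)| * q) := by
            have : (0 : ℝ) < n := by exact_mod_cast hn
            positivity
          linarith only [h5, this]
        have hwq : w ^ q = 1 := by
          rw [hw, ← ee_natCast_mul]
          obtain ⟨t, ht⟩ := hdvd
          have : (q : ℝ) * (((q : ℝ) + 1) / (β * q) * n) = (((q : ℤ) + 1) * t : ℤ) := by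
            have h6 : (n : ℝ) = β * t := by exact_mod_cast ht
            rw [h6]
            push_cast
            field_simp
          rw [this]
          exact ee_intCast _
        have h4 : ∑ j ∈ Finset.range q, w ^ j = 0 := by
          rw [geom_sum_eq hw2, hwq, sub_self, zero_div]
        have h5 : ∑ j ∈ Finset.range q, w ^ j = S + w ^ (q - n) * ∑ j ∈ Finset.range n, w ^ j := by
          have h6 : q = (q - n) + n := by omega
          conv_lhs => rw [h6, Finset.sum_range_add]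
          rw [Finset.mul_sum]
          congr 1
          apply Finset.sum_congr rfl
          intro j _
          rw [pow_add]
        have h7 : S = -(w ^ (q - n) * ∑ j ∈ Finset.range n, w ^ j) := by
          rw [h4] at h5
          exact eq_neg_of_add_eq_zero_left h5.symm
        rw [h7, norm_neg, norm_mul, norm_pow, hw1, one_pow, one_mul]
        exact norm_pow_sum_le w hw1 n
      have := fin n h3 h1
      linarith only [g0 (q - n), this]
    · rw [min_eq_right h2] at h1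
      have := fin (q - n) hS1 h1
      linarith only [g0 n, this]
  · have h1 := key (q - n) (by omega) (dist_case1 β hβ q n hnq hdvd)
    have := fin (q - n) hS1 h1
    linarith only [g0 n, this]

lemma gmaj_div_le (β : ℝ) (hβ : 0 ≤ β) (q : ℕ) (hq : 0 < q) (u : ℕ) :
    gmaj β q u / (q : ℝ) ^ 2 ≤ β ^ 2 / 4 * (1 / (u : ℝ) ^ 2) := by
  have hq' : (0 : ℝ) < q := by exact_mod_cast hq
  unfold gmaj
  rcases Nat.eq_zero_or_pos u with rfl | hu
  · simp
  · have hu' : (0 : ℝ) < u := by exact_mod_cast hu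
    have h1 : (min (u : ℝ) (β * q / (2 * u))) ^ 2 ≤ (β * q / (2 * u)) ^ 2 :=
      pow_le_pow_left₀ (by positivity) (min_le_right _ _) 2
    calc _ ≤ (β * q / (2 * u)) ^ 2 / (q : ℝ) ^ 2 := by gcongr
      _ = _ := by field_simp; ring

lemma tendsto_gmaj (β : ℝ) (hβ : 0 ≤ β) (u : ℕ) :
    Tendsto (fun q : ℕ => gmaj β q u / (q : ℝ) ^ 2) atTop (𝓝 0) := by
  have h1 : Tendsto (fun q : ℕ => (u : ℝ) ^ 2 / (q : ℝ) ^ 2) atTop (𝓝 0) := by
    apply Tendsto.const_div_atTop
    exact (tendsto_pow_atTop (by norm_num)).comp tendsto_natCast_atTop_atTop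
  apply squeeze_zero (fun q => by unfold gmaj; positivity) _ h1
  intro q
  unfold gmaj
  apply div_le_div_of_nonneg_right _ (by positivity)
  exact pow_le_pow_left₀ (by positivity) (min_le_left _ _) 2

lemma tendsto_tsum_gmaj (β : ℝ) (hβ : 0 ≤ β) :
    Tendsto (fun q : ℕ => ∑' u : ℕ, gmaj β q u / (q : ℝ) ^ 2) atTop (𝓝 0) := by
  have h := tendsto_tsum_of_dominated_convergence (𝓕 := atTop)
    (f := fun (q : ℕ) (u : ℕ) => gmaj β q u / (q : ℝ) ^ 2) (g := fun _ => (0 : ℝ))
    (bound := fun u : ℕ => β ^ 2 / 4 * (1 / (u : ℝ) ^ 2))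
    ((Real.summable_one_div_nat_pow.2 (by norm_num)).mul_left _)
    (fun u => tendsto_gmaj β hβ u)
    (by
      filter_upwards [eventually_gt_atTop 0] with q hq u
      rw [Real.norm_of_nonneg (by unfold gmaj; positivity)]
      exact gmaj_div_le β hβ q hq u)
  simpa using h

theorem flatness (b : ℕ) (hb : 0 < b) (l : ℤ) (hl : l ≠ 0) (hlb : l ∣ (b : ℤ)) :
    Tendsto (fun q : ℕ => ∫ x, (‖Pl b l q x‖ ^ 2 - 1) ^ 2 ∂(AddCircle.haarAddCircle (T := 1)))
      atTop (𝓝 0) := by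
  obtain ⟨β, hβ⟩ := hlb
  have hβ0 : β ≠ 0 := by
    rintro rfl
    simp at hβ
    omega
  have hβ' : (β : ℝ) ≠ 0 := by exact_mod_cast hβ0
  have hl' : (l : ℝ) ≠ 0 := by exact_mod_cast hl
  have hbr : (b : ℝ) = l * β := by exact_mod_cast hβ
  have h1 := (tendsto_tsum_gmaj |(β : ℝ)| (abs_nonneg _)).const_mul (8 : ℝ)
  rw [mul_zero] at h1
  refine squeeze_zero' ?_ ?_ h1
  · exact Eventually.of_forall (fun q => integral_nonneg (fun x => by positivity))
  · filter_upwards [eventually_gt_atTop 0] with q hq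
    have hq' : (0 : ℝ) < q := by exact_mod_cast hq
    set a : ℝ := ((q : ℝ) + 1) / (β * q) with ha
    have hc : ∀ i : ℕ, ee (l * chirp b q i) = ee (a * (i : ℝ) ^ 2 / 2) := by
      intro i
      congr 1
      unfold chirp
      rw [hbr, ha]
      field_simp
    have h2 : ∫ x, (‖Pl b l q x‖ ^ 2 - 1) ^ 2 ∂haar ≤ 4 / (q : ℝ) ^ 2 * ∑ n ∈ Finset.Ico 1 q,
        ‖∑ j ∈ Finset.range (q - n), ee (a * ((j + n : ℕ) : ℝ) ^ 2 / 2) *
          starRingEnd ℂ (ee (a * (j : ℝ) ^ 2 / 2))‖ ^ 2 := by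
      have h3 := integral_trig_sq_le (fun i : ℕ => ee (a * (i : ℝ) ^ 2 / 2))
        (fun i => norm_ee _) q hq
      unfold Pl
      simp only [hc]
      exact h3
    have hsummable : Summable (fun u : ℕ => gmaj |(β : ℝ)| q u / (q : ℝ) ^ 2) := by
      apply Summable.of_nonneg_of_le (fun u => by unfold gmaj; positivity)
        (fun u => gmaj_div_le |(β : ℝ)| (abs_nonneg _) q hq u)
      exact (Real.summable_one_div_nat_pow.2 (by norm_num)).mul_left _
    have h4 : ∑ n ∈ Finset.Ico 1 q,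
        ‖∑ j ∈ Finset.range (q - n), ee (a * ((j + n : ℕ) : ℝ) ^ 2 / 2) *
          starRingEnd ℂ (ee (a * (j : ℝ) ^ 2 / 2))‖ ^ 2 ≤
        ∑ n ∈ Finset.Ico 1 q, (gmaj |(β : ℝ)| q n + gmaj |(β : ℝ)| q (q - n)) := by
      apply Finset.sum_le_sum
      intro n hn
      rw [Finset.mem_Ico] at hn
      rw [corr_norm]
      exact corr_bound β hβ0 q n (by omega) hn.2
    have h5 : ∑ n ∈ Finset.Ico 1 q, gmaj |(β : ℝ)| q (q - n) =
        ∑ n ∈ Finset.Ico 1 q, gmaj |(β : ℝ)| q n := by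
      refine Finset.sum_nbij' (fun n => q - n) (fun n => q - n) ?_ ?_ ?_ ?_ ?_
      · intro n hn; rw [Finset.mem_Ico] at hn ⊢; omega
      · intro n hn; rw [Finset.mem_Ico] at hn ⊢; omega
      · intro n hn; rw [Finset.mem_Ico] at hn; omega
      · intro n hn; rw [Finset.mem_Ico] at hn; omega
      · intro n hn; rfl
    have h6 : ∑ n ∈ Finset.Ico 1 q, gmaj |(β : ℝ)| q n / (q : ℝ) ^ 2 ≤
        ∑' u : ℕ, gmaj |(β : ℝ)| q u / (q : ℝ) ^ 2 :=
      hsummable.sum_le_tsum _ (fun u _ => by unfold gmaj; positivity)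
    rw [← Finset.sum_div] at h6
    rw [Finset.sum_add_distrib, h5] at h4
    calc _ ≤ _ := h2
      _ ≤ 4 / (q : ℝ) ^ 2 * (∑ n ∈ Finset.Ico 1 q, gmaj |(β : ℝ)| q n +
          ∑ n ∈ Finset.Ico 1 q, gmaj |(β : ℝ)| q n) := by gcongr
      _ = 8 * ((∑ n ∈ Finset.Ico 1 q, gmaj |(β : ℝ)| q n) / (q : ℝ) ^ 2) := by ring
      _ ≤ _ := by gcongr

end Vale.Agent.P130
end
end

section

section

open MeasureTheory Filter Topology

namespace Vale.Agent.P130


/-- The point `i / q` of the circle. -/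
noncomputable def pt (q i : ℕ) : UnitAddCircle := (((i : ℝ) / q : ℝ) : UnitAddCircle)

lemma fourier_pt (p : ℤ) (q i : ℕ) : fourier p (pt q i) = ee ((p : ℝ) / q) ^ i := by
  unfold pt
  rw [fourier_coe_eq_ee, ← ee_natCast_mul]
  congr 1
  ring

lemma riemann_fourier (p : ℤ) :
    Tendsto (fun q : ℕ => (q : ℂ)⁻¹ * ∑ i ∈ Finset.range q, fourier p (pt q i)) atTop
      (𝓝 (if p = 0 then 1 else 0)) := by
  apply tendsto_const_nhds.congr'
  filter_upwards [eventually_gt_atTop p.natAbs] with q hq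
  have hq0 : 0 < q := by omega
  have hq' : (0 : ℝ) < q := by exact_mod_cast hq0
  simp only [fourier_pt]
  by_cases hp : p = 0
  · subst hp
    have : (q : ℂ) ≠ 0 := by exact_mod_cast hq0.ne'
    simp [ee_zero, this]
  · rw [if_neg hp]
    have h1 : ∀ k : ℤ, 1 / (q : ℝ) ≤ |(p : ℝ) / q - k| := by
      intro k
      have h2 : (p : ℝ) / q - k = ((p - k * q : ℤ) : ℝ) / q := by
        push_cast
        field_simp
      rw [h2, abs_div, abs_of_pos hq']
      apply div_le_div_of_nonneg_right _ hq'.le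
      have h3 : p - k * q ≠ 0 := by
        intro h
        have h4 : p = k * q := by linarith only [h]
        have h5 : k ≠ 0 := by
          rintro rfl
          simp at h4
          exact hp h4
        have h6 : p.natAbs = k.natAbs * q := by rw [h4, Int.natAbs_mul, Int.natAbs_natCast]
        have h7 : 1 ≤ k.natAbs := by omega
        have h8 : 1 * q ≤ k.natAbs * q := Nat.mul_le_mul_right _ h7
        omega
      have h4 : 1 ≤ |p - k * q| := Int.one_le_abs h3
      have h5 : ((1 : ℤ) : ℝ) ≤ ((|p - k * q| : ℤ) : ℝ) := by exact_mod_cast h4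
      rw [Int.cast_abs] at h5
      exact_mod_cast h5
    have h2 := norm_ee_sub_one_ge _ _ h1
    have h3 : ee ((p : ℝ) / q) ≠ 1 := by
      intro h
      rw [h, sub_self, norm_zero] at h2
      have : 0 < 4 * (1 / (q : ℝ)) := by positivity
      linarith only [h2, this]
    rw [geom_sum_eq h3, ← ee_natCast_mul]
    have h4 : (q : ℝ) * ((p : ℝ) / q) = (p : ℤ) := by field_simp
    rw [h4, ee_intCast, sub_self, zero_div, mul_zero]

lemma riemann_cont (h : C(UnitAddCircle, ℂ)) :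
    Tendsto (fun q : ℕ => (q : ℂ)⁻¹ * ∑ i ∈ Finset.range q, h (pt q i)) atTop
      (𝓝 (∫ x, h x ∂haar)) := by
  have hspan : ∀ F ∈ Submodule.span ℂ (Set.range (@fourier 1)),
      Tendsto (fun q : ℕ => (q : ℂ)⁻¹ * ∑ i ∈ Finset.range q, F (pt q i)) atTop
      (𝓝 (∫ x, F x ∂haar)) := by
    intro F hF
    induction hF using Submodule.span_induction with
    | mem F hF =>
      obtain ⟨p, rfl⟩ := hF
      rw [integral_fourier]
      exact riemann_fourier p
    | zero => simp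
    | add F G _ _ hF hG =>
      have h1 := hF.add hG
      have h2 : ∫ x, (F + G) x ∂haar = (∫ x, F x ∂haar) + ∫ x, G x ∂haar :=
        integral_add (integrable_of_continuous F.continuous) (integrable_of_continuous G.continuous)
      rw [h2]
      refine h1.congr (fun q => ?_)
      simp only [ContinuousMap.add_apply, Finset.sum_add_distrib]
      ring
    | smul a F _ hF =>
      have h1 := hF.const_mul a
      have h2 : ∫ x, (a • F) x ∂haar = a * ∫ x, F x ∂haar := integral_const_mul _ _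
      rw [h2]
      refine h1.congr (fun q => ?_)
      simp only [ContinuousMap.smul_apply, smul_eq_mul, ← Finset.mul_sum]
      ring
  have hcl : h ∈ closure (Submodule.span ℂ (Set.range (@fourier 1)) : Set C(UnitAddCircle, ℂ)) := by
    have h1 := span_fourier_closure_eq_top (T := 1)
    have h2 : h ∈ (Submodule.span ℂ (Set.range (@fourier 1))).topologicalClosure := by
      rw [h1]; trivial
    exact h2
  rw [Metric.tendsto_atTop]
  intro ε hε
  rw [Metric.mem_closure_iff] at hcl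
  obtain ⟨F, hF, hFd⟩ := hcl (ε / 4) (by positivity)
  rw [dist_eq_norm] at hFd
  have hpt : ∀ x, ‖h x - F x‖ ≤ ε / 4 := fun x =>
    ((h - F).norm_coe_le_norm x).trans hFd.le
  have h1 := hspan F hF
  rw [Metric.tendsto_atTop] at h1
  obtain ⟨N, hN⟩ := h1 (ε / 4) (by positivity)
  refine ⟨max N 1, fun q hq => ?_⟩
  have hq0 : 0 < q := by omega
  have hq' : (0 : ℝ) < q := by exact_mod_cast hq0
  have h2 := hN q (by omega)
  rw [dist_eq_norm] at h2 ⊢
  have h3 : ‖(q : ℂ)⁻¹ * ∑ i ∈ Finset.range q, h (pt q i) -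
      (q : ℂ)⁻¹ * ∑ i ∈ Finset.range q, F (pt q i)‖ ≤ ε / 4 := by
    rw [← mul_sub, ← Finset.sum_sub_distrib, norm_mul, norm_inv, Complex.norm_natCast]
    calc (q : ℝ)⁻¹ * ‖∑ i ∈ Finset.range q, (h (pt q i) - F (pt q i))‖ ≤
          (q : ℝ)⁻¹ * ∑ i ∈ Finset.range q, ε / 4 := by
          gcongr
          exact (norm_sum_le _ _).trans (Finset.sum_le_sum (fun i _ => hpt _))
      _ = ε / 4 := by
          rw [Finset.sum_const, Finset.card_range, nsmul_eq_mul]
          field_simp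
  have h4 : ‖(∫ x, h x ∂haar) - ∫ x, F x ∂haar‖ ≤ ε / 4 := by
    rw [← integral_sub (integrable_of_continuous h.continuous)
      (integrable_of_continuous F.continuous)]
    calc ‖∫ x, (h x - F x) ∂haar‖ ≤ ε / 4 * (haar).real Set.univ :=
          norm_integral_le_of_norm_le_const (Eventually.of_forall hpt)
      _ = ε / 4 := by simp
  set a := (q : ℂ)⁻¹ * ∑ i ∈ Finset.range q, h (pt q i)
  set b := (q : ℂ)⁻¹ * ∑ i ∈ Finset.range q, F (pt q i)
  set c := ∫ x, h x ∂haar
  set d := ∫ x, F x ∂haar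
  calc ‖a - c‖ = ‖(a - b) + (b - d) - (c - d)‖ := by congr 1; ring
    _ ≤ ‖(a - b) + (b - d)‖ + ‖c - d‖ := norm_sub_le _ _
    _ ≤ ‖a - b‖ + ‖b - d‖ + ‖c - d‖ := by gcongr; exact norm_add_le _ _
    _ < ε := by linarith only [hε, h3, h2, h4]

lemma riemann_real (h : C(UnitAddCircle, ℝ)) :
    Tendsto (fun q : ℕ => (q : ℝ)⁻¹ * ∑ i ∈ Finset.range q, h (pt q i)) atTop
      (𝓝 (∫ x, h x ∂haar)) := by
  have h1 := riemann_cont ⟨fun x => ((h x : ℝ) : ℂ), Complex.continuous_ofReal.comp h.continuous⟩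
  simp only [ContinuousMap.coe_mk] at h1
  have h2 : ∫ x, ((h x : ℝ) : ℂ) ∂haar = ((∫ x, h x ∂haar : ℝ) : ℂ) := integral_complex_ofReal
  rw [h2] at h1
  have h3 := (Complex.continuous_re.tendsto _).comp h1
  simp only [Complex.ofReal_re] at h3
  refine h3.congr (fun q => ?_)
  simp only [Function.comp_apply]
  have h4 : (q : ℂ)⁻¹ * ∑ i ∈ Finset.range q, ((h (pt q i) : ℝ) : ℂ) =
      (((q : ℝ)⁻¹ * ∑ i ∈ Finset.range q, h (pt q i) : ℝ) : ℂ) := by
    push_cast
    rfl
  rw [h4, Complex.ofReal_re]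

end Vale.Agent.P130
end
end

section

section

open MeasureTheory Filter Topology

namespace Vale.Agent.P130


/-- Sandwich of a set with null boundary between continuous functions. -/
lemma sandwich (A : Set UnitAddCircle) (hfr : haar (frontier A) = 0) (η : ℝ) (hη : 0 < η) :
    ∃ φ ψ : C(UnitAddCircle, ℝ), (∀ x, 0 ≤ ψ x) ∧ (∀ x, φ x ≤ 1) ∧ (∀ x ∈ A, φ x = 1) ∧
      (∀ x, x ∉ A → ψ x = 0) ∧ (∀ x, ψ x ≤ φ x) ∧ ∫ x, (φ x - ψ x) ∂haar ≤ η := by
  classical
  have hA1 : IsClosed (closure A) := isClosed_closure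
  have hA2 : IsClosed (closure Aᶜ) := isClosed_closure
  have t1 := HasOuterApproxClosed.tendsto_lintegral_apprSeq hA1 haar
  have t2 := HasOuterApproxClosed.tendsto_lintegral_apprSeq hA2 haar
  have t3 := t1.add t2
  have hsum : haar (closure A) + haar (closure Aᶜ) = 1 := by
    have h1 : closure A = interior A ∪ frontier A := closure_eq_interior_union_frontier A
    have h2 : haar (closure A) = haar (interior A) := by
      apply le_antisymm
      · rw [h1]
        calc haar (interior A ∪ frontier A) ≤ haar (interior A) + haar (frontier A) :=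
              measure_union_le _ _
          _ = haar (interior A) := by rw [hfr, add_zero]
      · exact measure_mono interior_subset_closure
    have h3 : closure Aᶜ = (interior A)ᶜ := closure_compl
    rw [h2, h3]
    have := measure_add_measure_compl (μ := haar) (isOpen_interior (s := A)).measurableSet
    rw [this]
    exact measure_univ
  rw [hsum] at t3
  have key : ∀ n, ∃ φ ψ : C(UnitAddCircle, ℝ), (∀ x, 0 ≤ ψ x) ∧ (∀ x, φ x ≤ 1) ∧
      (∀ x ∈ A, φ x = 1) ∧ (∀ x, x ∉ A → ψ x = 0) ∧ (∀ x, ψ x ≤ φ x) ∧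
      ∫ x, (φ x - ψ x) ∂haar = ((∫⁻ x, (hA1.apprSeq n x : ENNReal) ∂haar) +
        (∫⁻ x, (hA2.apprSeq n x : ENNReal) ∂haar)).toReal - 1 := by
    intro n
    have c1 : Continuous (fun x => ((hA1.apprSeq n x : NNReal) : ℝ)) :=
      NNReal.continuous_coe.comp (hA1.apprSeq n).continuous
    have c2 : Continuous (fun x => ((hA2.apprSeq n x : NNReal) : ℝ)) :=
      NNReal.continuous_coe.comp (hA2.apprSeq n).continuous
    have b1 : ∀ x, ((hA1.apprSeq n x : NNReal) : ℝ) ≤ 1 := fun x => by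
      exact_mod_cast HasOuterApproxClosed.apprSeq_apply_le_one hA1 n x
    have b2 : ∀ x, ((hA2.apprSeq n x : NNReal) : ℝ) ≤ 1 := fun x => by
      exact_mod_cast HasOuterApproxClosed.apprSeq_apply_le_one hA2 n x
    have e1 : ∀ x ∈ closure A, ((hA1.apprSeq n x : NNReal) : ℝ) = 1 := fun x hx => by
      exact_mod_cast HasOuterApproxClosed.apprSeq_apply_eq_one hA1 n hx
    have e2 : ∀ x ∈ closure Aᶜ, ((hA2.apprSeq n x : NNReal) : ℝ) = 1 := fun x hx => by
      exact_mod_cast HasOuterApproxClosed.apprSeq_apply_eq_one hA2 n hx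
    refine ⟨⟨_, c1⟩, ⟨fun x => 1 - ((hA2.apprSeq n x : NNReal) : ℝ), continuous_const.sub c2⟩,
      fun x => sub_nonneg.2 (b2 x), b1, fun x hx => e1 x (subset_closure hx),
      fun x hx => ?_, fun x => ?_, ?_⟩
    · simp only [ContinuousMap.coe_mk]
      rw [e2 x (subset_closure hx), sub_self]
    · simp only [ContinuousMap.coe_mk]
      by_cases hx : x ∈ A
      · rw [e1 x (subset_closure hx)]
        linarith [(hA2.apprSeq n x).2]
      · rw [e2 x (subset_closure hx), sub_self]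
        exact (hA1.apprSeq n x).2
    · simp only [ContinuousMap.coe_mk]
      have i1 : Integrable (fun x => ((hA1.apprSeq n x : NNReal) : ℝ)) haar :=
        integrable_of_continuous c1
      have i2 : Integrable (fun x => ((hA2.apprSeq n x : NNReal) : ℝ)) haar :=
        integrable_of_continuous c2
      have h1 : ∫ x, ((hA1.apprSeq n x : NNReal) : ℝ) ∂haar =
          (∫⁻ x, (hA1.apprSeq n x : ENNReal) ∂haar).toReal := by
        rw [integral_eq_lintegral_of_nonneg_ae (Eventually.of_forall fun x => NNReal.coe_nonneg _)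
          c1.aestronglyMeasurable]
        congr 1
        apply lintegral_congr
        intro x
        simp
      have h2 : ∫ x, ((hA2.apprSeq n x : NNReal) : ℝ) ∂haar =
          (∫⁻ x, (hA2.apprSeq n x : ENNReal) ∂haar).toReal := by
        rw [integral_eq_lintegral_of_nonneg_ae (Eventually.of_forall fun x => NNReal.coe_nonneg _)
          c2.aestronglyMeasurable]
        congr 1
        apply lintegral_congr
        intro x
        simp
      have f1 : (∫⁻ x, (hA1.apprSeq n x : ENNReal) ∂haar) ≠ ⊤ := by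
        apply ne_of_lt
        calc (∫⁻ x, (hA1.apprSeq n x : ENNReal) ∂haar) ≤ ∫⁻ _, 1 ∂haar := by
              apply lintegral_mono
              intro x
              simp only
              exact_mod_cast HasOuterApproxClosed.apprSeq_apply_le_one hA1 n x
          _ < ⊤ := by simp
      have f2 : (∫⁻ x, (hA2.apprSeq n x : ENNReal) ∂haar) ≠ ⊤ := by
        apply ne_of_lt
        calc (∫⁻ x, (hA2.apprSeq n x : ENNReal) ∂haar) ≤ ∫⁻ _, 1 ∂haar := by
              apply lintegral_mono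
              intro x
              simp only
              exact_mod_cast HasOuterApproxClosed.apprSeq_apply_le_one hA2 n x
          _ < ⊤ := by simp
      rw [ENNReal.toReal_add f1 f2, ← h1, ← h2]
      have h3 : ∀ x, ((hA1.apprSeq n x : NNReal) : ℝ) - (1 - ((hA2.apprSeq n x : NNReal) : ℝ)) =
          ((hA1.apprSeq n x : NNReal) : ℝ) + ((hA2.apprSeq n x : NNReal) : ℝ) - 1 := by
        intro x; ring
      simp_rw [h3]
      have h4 := integral_sub (i1.add i2) (integrable_const (1 : ℝ))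
      have h5 := integral_add i1 i2
      simp only [Pi.add_apply] at h4
      rw [h4, h5]
      simp
  have t4 : Tendsto (fun n => ((∫⁻ x, (hA1.apprSeq n x : ENNReal) ∂haar) +
        (∫⁻ x, (hA2.apprSeq n x : ENNReal) ∂haar)).toReal - 1) atTop (𝓝 0) := by
    have h1 := (ENNReal.tendsto_toReal (ENNReal.one_ne_top)).comp t3
    have h2 := h1.sub_const 1
    simpa using h2
  obtain ⟨n, hn⟩ := (t4.eventually (gt_mem_nhds hη)).exists
  obtain ⟨φ, ψ, h1, h2, h3, h4, h5, h6⟩ := key n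
  exact ⟨φ, ψ, h1, h2, h3, h4, h5, by rw [h6]; exact hn.le⟩

lemma continuous_vres (b : ℕ) (l : ℤ) : Continuous (vres b l) := by
  unfold vres
  exact (continuous_zsmul _).sub continuous_const

lemma measurePreserving_vres (b : ℕ) (l : ℤ) (h : (b : ℤ) / l ≠ 0) :
    MeasurePreserving (vres b l) haar haar := by
  have h1 : MeasurePreserving (fun x : UnitAddCircle => (-((b : ℤ) / l)) • x) haar haar :=
    Measure.measurePreserving_zsmul _ (neg_ne_zero.2 h)
  have h2 : MeasurePreserving (fun x : UnitAddCircle =>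
      x - (((((b : ℤ) / l).natAbs : ℝ) / 2 : ℝ) : UnitAddCircle)) haar haar := by
    simp_rw [sub_eq_add_neg]
    exact measurePreserving_add_right _ _
  exact h2.comp h1

lemma fourier_vres (b : ℕ) (l β p : ℤ) (hβ : (b : ℤ) / l = β) (x : UnitAddCircle) :
    fourier p (vres b l x) = ee (-(p * |(β : ℝ)| / 2)) * fourier (-(p * β)) x := by
  unfold vres
  rw [hβ]
  induction x using QuotientAddGroup.induction_on with
  | H t =>
    have h1 : (-β • ((t : ℝ) : UnitAddCircle) -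
        ((((β.natAbs : ℕ) : ℝ) / 2 : ℝ) : UnitAddCircle)) =
        (((-β : ℤ) * t - ((β.natAbs : ℕ) : ℝ) / 2 : ℝ) : UnitAddCircle) := by
      rw [AddCircle.coe_sub]
      congr 1
      rw [← zsmul_eq_mul, AddCircle.coe_zsmul]
    have h2 : fourier p (-β • ((t : ℝ) : UnitAddCircle) -
        ((((β.natAbs : ℕ) : ℝ) / 2 : ℝ) : UnitAddCircle)) =
        ee (-(p * |(β : ℝ)| / 2)) * fourier (-(p * β)) ((t : ℝ) : UnitAddCircle) := by
      rw [h1, fourier_coe_eq_ee, fourier_coe_eq_ee, ← ee_add]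
      congr 1
      have h3 : ((β.natAbs : ℕ) : ℝ) = |(β : ℝ)| := by
        rw [Nat.cast_natAbs]
        push_cast
        rfl
      rw [h3]
      push_cast
      ring
    exact h2

/-- The chirp with integer index. -/
noncomputable def cz (β : ℤ) (q : ℕ) (j : ℤ) : ℂ := ee (((q : ℝ) + 1) / (β * q) * (j : ℝ) ^ 2 / 2)

lemma cz_shift (β : ℤ) (hβ : β ≠ 0) (q : ℕ) (hq : 0 < q) (p j : ℤ) :
    ee (-(p * |(β : ℝ)| / 2)) * cz β q (j + p * β) =
      ee ((p : ℝ) * j / q) * cz β q j * ee ((p : ℝ) ^ 2 * β / (2 * q)) := by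
  have hq' : (q : ℝ) ≠ 0 := by exact_mod_cast hq.ne'
  have hβ' : (β : ℝ) ≠ 0 := by exact_mod_cast hβ
  have hev : Even (p ^ 2 * β - p * |β|) := by
    have : Even (p ^ 2 * β) ↔ Even (p * |β|) := by
      rw [Int.even_mul, Int.even_mul, Int.even_pow, even_abs]
      simp
    exact Int.even_sub.2 this
  obtain ⟨N, hN⟩ := hev
  have hN' : ((p : ℝ) ^ 2 * β - p * |(β : ℝ)|) / 2 = (N : ℝ) := by
    have h1 : ((p ^ 2 * β - p * |β| : ℤ) : ℝ) = ((N + N : ℤ) : ℝ) := by rw [hN]
    push_cast at h1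
    rw [h1]
    ring
  unfold cz
  rw [← ee_add, ← ee_add, ← ee_add]
  have h2 : -(p * |(β : ℝ)| / 2) + ((q : ℝ) + 1) / (β * q) * ((j + p * β : ℤ) : ℝ) ^ 2 / 2 =
      ((p : ℝ) * j / q + ((q : ℝ) + 1) / (β * q) * (j : ℝ) ^ 2 / 2 +
        (p : ℝ) ^ 2 * β / (2 * q)) + ((N + p * j : ℤ) : ℝ) := by
    push_cast
    rw [← hN']
    field_simp
    ring
  rw [h2, ee_add_int]

lemma card_sdiff_shift (q : ℕ) (m : ℤ) :
    ((Finset.Ico (0 : ℤ) q) \ (Finset.Ico (-m) (q - m))).card ≤ m.natAbs := by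
  have h1 : (Finset.Ico (0 : ℤ) q) \ (Finset.Ico (-m) (q - m)) ⊆
      Finset.Ico ((q : ℤ) - m) q ∪ Finset.Ico 0 (-m) := by
    intro j hj
    simp only [Finset.mem_sdiff, Finset.mem_Ico, Finset.mem_union] at hj ⊢
    omega
  calc _ ≤ _ := Finset.card_le_card h1
    _ ≤ _ := Finset.card_union_le _ _
    _ = m.natAbs := by
      rw [Int.card_Ico, Int.card_Ico]
      omega

lemma card_sdiff_shift' (q : ℕ) (m : ℤ) :
    ((Finset.Ico (-m) ((q : ℤ) - m)) \ (Finset.Ico (0 : ℤ) q)).card ≤ m.natAbs := by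
  have h1 : (Finset.Ico (-m) ((q : ℤ) - m)) \ (Finset.Ico (0 : ℤ) q) ⊆
      Finset.Ico (q : ℤ) (q - m) ∪ Finset.Ico (-m) 0 := by
    intro j hj
    simp only [Finset.mem_sdiff, Finset.mem_Ico, Finset.mem_union] at hj ⊢
    omega
  calc _ ≤ _ := Finset.card_le_card h1
    _ ≤ _ := Finset.card_union_le _ _
    _ = m.natAbs := by
      rw [Int.card_Ico, Int.card_Ico]
      omega

lemma sum_range_eq_sum_Ico (g : ℤ → ℂ) (q : ℕ) :
    ∑ i ∈ Finset.range q, g i = ∑ j ∈ Finset.Ico (0 : ℤ) q, g j := by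
  have h1 : Finset.Ico (0 : ℤ) q = (Finset.range q).image (fun i : ℕ => (i : ℤ)) := by
    ext j
    simp only [Finset.mem_Ico, Finset.mem_image, Finset.mem_range]
    constructor
    · rintro ⟨h1, h2⟩
      exact ⟨j.toNat, by omega, by omega⟩
    · rintro ⟨i, h1, rfl⟩
      omega
  rw [h1, Finset.sum_image (fun a _ b _ h => by exact_mod_cast h)]

lemma localization_fourier_bound (b : ℕ) (l β : ℤ) (hβ0 : β ≠ 0) (hl : l ≠ 0)
    (hb : (b : ℤ) = l * β) (p : ℤ) (q : ℕ) (hq : 0 < q) :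
    ∫ x, ‖((Real.sqrt q : ℝ) : ℂ)⁻¹ * ∑ i ∈ Finset.range q,
        fourier p (pt q i) * (ee (l * chirp b q i) * fourier (i : ℤ) x)
        - fourier p (vres b l x) * Pl b l q x‖ ^ 2 ∂haar ≤
      ‖1 - ee ((p : ℝ) ^ 2 * β / (2 * q))‖ ^ 2 + 2 * ((p * β).natAbs : ℝ) / q := by
  classical
  have hq' : (0 : ℝ) < q := by exact_mod_cast hq
  have hβ' : (β : ℝ) ≠ 0 := by exact_mod_cast hβ0
  have hl' : (l : ℝ) ≠ 0 := by exact_mod_cast hl
  have hbr : (b : ℝ) = l * β := by exact_mod_cast hb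
  have hdiv : (b : ℤ) / l = β := by rw [hb]; exact Int.mul_ediv_cancel_left β hl
  have hc : ∀ i : ℕ, ee (l * chirp b q i) = cz β q i := by
    intro i
    unfold cz
    congr 1
    unfold chirp
    rw [hbr]
    push_cast
    field_simp
  set s : ℂ := ((Real.sqrt q : ℝ) : ℂ)⁻¹ with hs
  have hs2 : ‖s‖ ^ 2 = 1 / q := by
    rw [hs, norm_inv, Complex.norm_real, Real.norm_eq_abs, abs_of_nonneg (Real.sqrt_nonneg _),
      inv_pow, Real.sq_sqrt hq'.le, one_div]
  set I0 := Finset.Ico (0 : ℤ) q with hI0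
  set I1 := Finset.Ico (-(p * β)) ((q : ℤ) - p * β) with hI1
  set u : ℤ → ℂ := fun j => s * (ee ((p : ℝ) * j / q) * cz β q j) with hu
  set κ : ℂ := ee ((p : ℝ) ^ 2 * β / (2 * q)) with hκ
  have hL : ∀ x : UnitAddCircle, s * ∑ i ∈ Finset.range q,
        fourier p (pt q i) * (ee (l * chirp b q i) * fourier (i : ℤ) x) =
        ∑ j ∈ I0, u j * fourier j x := by
    intro x
    rw [← sum_range_eq_sum_Ico (fun j => u j * fourier j x), Finset.mul_sum]
    apply Finset.sum_congr rfl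
    intro i _
    rw [hc, fourier_pt, ← ee_natCast_mul]
    simp only [hu]
    have : (i : ℝ) * ((p : ℝ) / q) = (p : ℝ) * ((i : ℤ) : ℝ) / q := by push_cast; ring
    rw [this]
    ring
  have hR : ∀ x : UnitAddCircle, fourier p (vres b l x) * Pl b l q x =
        ∑ j ∈ I1, (u j * κ) * fourier j x := by
    intro x
    unfold Pl
    rw [fourier_vres b l β p hdiv, ← hs]
    simp only [hc]
    rw [sum_range_eq_sum_Ico (fun j => cz β q j * fourier j x) q, Finset.mul_sum, Finset.mul_sum]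
    refine Finset.sum_nbij' (fun j => j - p * β) (fun j => j + p * β) ?_ ?_ ?_ ?_ ?_
    · intro j hj
      simp only [hI1, Finset.mem_Ico] at hj ⊢
      omega
    · intro j hj
      simp only [hI1, Finset.mem_Ico] at hj ⊢
      omega
    · intro j _; ring
    · intro j _; ring
    · intro j _
      have h1 := cz_shift β hβ0 q hq p (j - p * β)
      rw [sub_add_cancel] at h1
      simp only [hu]
      rw [mul_assoc s _ κ, hκ, ← h1, sub_eq_add_neg j, fourier_add]
      ring
  set d : ℤ → ℂ := fun j => (if j ∈ I0 then u j else 0) - (if j ∈ I1 then u j * κ else 0) with hd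
  have hLR : ∀ x : UnitAddCircle, s * ∑ i ∈ Finset.range q,
        fourier p (pt q i) * (ee (l * chirp b q i) * fourier (i : ℤ) x)
        - fourier p (vres b l x) * Pl b l q x = ∑ j ∈ I0 ∪ I1, d j * fourier j x := by
    intro x
    rw [hL, hR]
    simp only [hd, sub_mul, Finset.sum_sub_distrib, ite_mul, zero_mul]
    congr 1
    · rw [Finset.sum_ite_mem, Finset.inter_eq_right.2 Finset.subset_union_left]
    · rw [Finset.sum_ite_mem, Finset.inter_eq_right.2 Finset.subset_union_right]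
  simp_rw [hLR]
  rw [integral_norm_sq_trig (I0 ∪ I1) (fun j => j) (fun a _ b _ h => h)]
  have hun : ∀ j, ‖u j‖ ^ 2 = 1 / q := by
    intro j
    simp only [hu, cz]
    rw [norm_mul, norm_mul, norm_ee, norm_ee, mul_one, mul_one, hs2]
  have hκn : ‖κ‖ = 1 := norm_ee _
  have hdn : ∀ j ∈ I0 ∪ I1, ‖d j‖ ^ 2 ≤ (if j ∈ I0 then 1 / (q : ℝ) * ‖1 - κ‖ ^ 2 else 0) +
      (if j ∈ I0 \ I1 then 1 / (q : ℝ) else 0) + (if j ∈ I1 \ I0 then 1 / (q : ℝ) else 0) := by
    intro j hj
    by_cases h0 : j ∈ I0 <;> by_cases h1 : j ∈ I1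
    · have : d j = u j * (1 - κ) := by simp only [hd, h0, h1, if_true]; ring
      rw [this, norm_mul, mul_pow, hun]
      simp [h0, h1]
    · have : d j = u j := by simp only [hd, h0, h1, if_true, if_false]; ring
      rw [this, hun]
      simp only [h0, h1, Finset.mem_sdiff, if_true, not_false_eq_true, and_self,
        not_true_eq_false, if_false, add_zero]
      have : 0 ≤ 1 / (q : ℝ) * ‖1 - κ‖ ^ 2 := by positivity
      linarith only [this]
    · have : d j = -(u j * κ) := by simp only [hd, h0, h1, if_true, if_false]; ring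
      rw [this, norm_neg, norm_mul, hκn, mul_one, hun]
      simp [h0, h1]
    · exfalso
      rw [Finset.mem_union] at hj
      tauto
  calc _ ≤ ∑ j ∈ I0 ∪ I1, ((if j ∈ I0 then 1 / (q : ℝ) * ‖1 - κ‖ ^ 2 else 0) +
      (if j ∈ I0 \ I1 then 1 / (q : ℝ) else 0) + (if j ∈ I1 \ I0 then 1 / (q : ℝ) else 0)) :=
        Finset.sum_le_sum hdn
    _ = (I0.card : ℝ) * (1 / (q : ℝ) * ‖1 - κ‖ ^ 2) + ((I0 \ I1).card : ℝ) * (1 / q) +
        ((I1 \ I0).card : ℝ) * (1 / q) := by
      rw [Finset.sum_add_distrib, Finset.sum_add_distrib]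
      congr 1
      · congr 1
        · rw [Finset.sum_ite_mem, Finset.inter_eq_right.2 Finset.subset_union_left,
            Finset.sum_const, nsmul_eq_mul]
        · rw [Finset.sum_ite_mem, Finset.inter_eq_right.2
            (Finset.sdiff_subset.trans Finset.subset_union_left), Finset.sum_const, nsmul_eq_mul]
      · rw [Finset.sum_ite_mem, Finset.inter_eq_right.2
            (Finset.sdiff_subset.trans Finset.subset_union_right), Finset.sum_const, nsmul_eq_mul]
    _ ≤ (q : ℝ) * (1 / (q : ℝ) * ‖1 - κ‖ ^ 2) + ((p * β).natAbs : ℝ) * (1 / q) +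
        ((p * β).natAbs : ℝ) * (1 / q) := by
      have e0 : (I0.card : ℝ) = q := by rw [hI0, Int.card_Ico]; simp
      have e1 : ((I0 \ I1).card : ℝ) ≤ ((p * β).natAbs : ℝ) := by
        exact_mod_cast card_sdiff_shift q (p * β)
      have e2 : ((I1 \ I0).card : ℝ) ≤ ((p * β).natAbs : ℝ) := by
        exact_mod_cast card_sdiff_shift' q (p * β)
      rw [e0]
      gcongr
    _ = _ := by
      field_simp
      ring

/-- The localization defect of a weight `F`. -/
noncomputable def Dq (b : ℕ) (l : ℤ) (q : ℕ) (F : UnitAddCircle → ℂ) (x : UnitAddCircle) : ℂ :=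
  ((Real.sqrt q : ℝ) : ℂ)⁻¹ * ∑ i ∈ Finset.range q,
    F (pt q i) * (ee (l * chirp b q i) * fourier (i : ℤ) x) - F (vres b l x) * Pl b l q x

lemma continuous_Pl (b : ℕ) (l : ℤ) (q : ℕ) : Continuous (Pl b l q) := by
  unfold Pl
  apply Continuous.mul continuous_const
  apply continuous_finsetSum
  intro i _
  exact continuous_const.mul (fourier (i : ℤ)).continuous

lemma continuous_wsum (b : ℕ) (l : ℤ) (q : ℕ) (F : UnitAddCircle → ℂ) :
    Continuous (fun x : UnitAddCircle => ((Real.sqrt q : ℝ) : ℂ)⁻¹ * ∑ i ∈ Finset.range q,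
      F (pt q i) * (ee (l * chirp b q i) * fourier (i : ℤ) x)) := by
  apply Continuous.mul continuous_const
  apply continuous_finsetSum
  intro i _
  exact continuous_const.mul (continuous_const.mul (fourier (i : ℤ)).continuous)

lemma continuous_Dq (b : ℕ) (l : ℤ) (q : ℕ) (F : UnitAddCircle → ℂ) (hF : Continuous F) :
    Continuous (Dq b l q F) := by
  unfold Dq
  exact (continuous_wsum b l q F).sub
    ((hF.comp (continuous_vres b l)).mul (continuous_Pl b l q))

lemma Dq_add (b : ℕ) (l : ℤ) (q : ℕ) (F G : UnitAddCircle → ℂ) (x : UnitAddCircle) :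
    Dq b l q (fun y => F y + G y) x = Dq b l q F x + Dq b l q G x := by
  unfold Dq
  simp only [add_mul, Finset.sum_add_distrib]
  ring

lemma Dq_smul (b : ℕ) (l : ℤ) (q : ℕ) (a : ℂ) (F : UnitAddCircle → ℂ) (x : UnitAddCircle) :
    Dq b l q (fun y => a * F y) x = a * Dq b l q F x := by
  unfold Dq
  simp only [mul_assoc, ← Finset.mul_sum]
  ring

lemma norm_add_sq_le (a b : ℂ) : ‖a + b‖ ^ 2 ≤ 2 * ‖a‖ ^ 2 + 2 * ‖b‖ ^ 2 := by
  have h1 := norm_add_le a b
  have h2 : ‖a + b‖ ^ 2 ≤ (‖a‖ + ‖b‖) ^ 2 := pow_le_pow_left₀ (norm_nonneg _) h1 2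
  linarith only [sq_nonneg (‖a‖ - ‖b‖), h2]

lemma tendsto_Dq_fourier (b : ℕ) (l β : ℤ) (hβ0 : β ≠ 0) (hl : l ≠ 0)
    (hb : (b : ℤ) = l * β) (p : ℤ) :
    Tendsto (fun q : ℕ => ∫ x, ‖Dq b l q (fun y => fourier p y) x‖ ^ 2 ∂haar) atTop (𝓝 0) := by
  have h1 : Tendsto (fun q : ℕ => ‖1 - ee ((p : ℝ) ^ 2 * β / (2 * q))‖ ^ 2 +
      2 * ((p * β).natAbs : ℝ) / q) atTop (𝓝 0) := by
    have t1 : Tendsto (fun q : ℕ => (p : ℝ) ^ 2 * β / (2 * q)) atTop (𝓝 0) := by
      apply Tendsto.const_div_atTop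
      exact tendsto_natCast_atTop_atTop.const_mul_atTop (by norm_num)
    have t2 : Tendsto (fun q : ℕ => ee ((p : ℝ) ^ 2 * β / (2 * q))) atTop (𝓝 1) := by
      have hc : Continuous ee := by
        unfold ee
        fun_prop
      have := (hc.tendsto 0).comp t1
      rwa [ee_zero] at this
    have t3 : Tendsto (fun q : ℕ => 2 * ((p * β).natAbs : ℝ) / q) atTop (𝓝 0) :=
      tendsto_natCast_atTop_atTop.const_div_atTop _
    have t4 := ((t2.const_sub 1).norm.pow 2).add t3
    simpa using t4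
  refine squeeze_zero' ?_ ?_ h1
  · exact Eventually.of_forall (fun q => integral_nonneg (fun x => by positivity))
  · filter_upwards [eventually_gt_atTop 0] with q hq
    exact localization_fourier_bound b l β hβ0 hl hb p q hq

lemma tendsto_Dq_span (b : ℕ) (l β : ℤ) (hβ0 : β ≠ 0) (hl : l ≠ 0)
    (hb : (b : ℤ) = l * β) (F : C(UnitAddCircle, ℂ))
    (hF : F ∈ Submodule.span ℂ (Set.range (@fourier 1))) :
    Tendsto (fun q : ℕ => ∫ x, ‖Dq b l q F x‖ ^ 2 ∂haar) atTop (𝓝 0) := by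
  induction hF using Submodule.span_induction with
  | mem F hF =>
    obtain ⟨p, rfl⟩ := hF
    exact tendsto_Dq_fourier b l β hβ0 hl hb p
  | zero => simp [Dq]
  | add F G _ _ hF hG =>
    have h1 := (hF.const_mul 2).add (hG.const_mul 2)
    rw [mul_zero, add_zero] at h1
    refine squeeze_zero (fun q => integral_nonneg (fun x => by positivity)) (fun q => ?_) h1
    rw [← integral_const_mul, ← integral_const_mul, ← integral_add]
    · apply integral_mono
      · apply integrable_of_continuous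
        exact (continuous_Dq b l q _ (F + G).continuous).norm.pow 2
      · apply integrable_of_continuous
        exact (continuous_const.mul ((continuous_Dq b l q _ F.continuous).norm.pow 2)).add
          (continuous_const.mul ((continuous_Dq b l q _ G.continuous).norm.pow 2))
      · intro x
        have : Dq b l q (F + G : C(UnitAddCircle, ℂ)) x = Dq b l q F x + Dq b l q G x :=
          Dq_add b l q F G x
        simp only
        rw [this]
        exact norm_add_sq_le _ _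
    · apply integrable_of_continuous
      exact continuous_const.mul ((continuous_Dq b l q _ F.continuous).norm.pow 2)
    · apply integrable_of_continuous
      exact continuous_const.mul ((continuous_Dq b l q _ G.continuous).norm.pow 2)
  | smul a F _ hF =>
    have h1 := hF.const_mul (‖a‖ ^ 2)
    rw [mul_zero] at h1
    refine h1.congr (fun q => ?_)
    rw [← integral_const_mul]
    congr 1
    funext x
    have : Dq b l q (a • F : C(UnitAddCircle, ℂ)) x = a * Dq b l q F x :=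
      Dq_smul b l q a F x
    rw [this, norm_mul, mul_pow]

theorem localization (b : ℕ) (hb : 0 < b) (l : ℤ) (hl : l ≠ 0) (hlb : l ∣ (b : ℤ))
    (hflat : Tendsto (fun q : ℕ => ∫ x, (‖Pl b l q x‖ ^ 2 - 1) ^ 2
      ∂(AddCircle.haarAddCircle (T := 1))) atTop (𝓝 0))
    (A : Set UnitAddCircle) (hA : MeasurableSet A)
    (hfr : (AddCircle.haarAddCircle (T := 1)) (frontier A) = 0) [DecidablePred (· ∈ A)] :
    Tendsto (fun q : ℕ => ∫ x, ‖((Real.sqrt q : ℝ) : ℂ)⁻¹ *
        ∑ i ∈ (Finset.range q).filter (fun i : ℕ => (((i : ℝ) / q : ℝ) : UnitAddCircle) ∈ A),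
          ee (l * chirp b q i) * fourier (i : ℤ) x
        - (if vres b l x ∈ A then Pl b l q x else 0)‖ ^ 2 ∂(AddCircle.haarAddCircle (T := 1)))
      atTop (𝓝 0) := by
  obtain ⟨β, hβ⟩ := hlb
  have hβ0 : β ≠ 0 := by
    rintro rfl
    simp at hβ
    omega
  have hdiv : (b : ℤ) / l = β := by rw [hβ]; exact Int.mul_ediv_cancel_left β hl
  set IA : UnitAddCircle → ℂ := fun y => if y ∈ A then 1 else 0 with hIA
  have hrew : ∀ (q : ℕ) (x : UnitAddCircle), ((Real.sqrt q : ℝ) : ℂ)⁻¹ *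
        ∑ i ∈ (Finset.range q).filter (fun i : ℕ => (((i : ℝ) / q : ℝ) : UnitAddCircle) ∈ A),
          ee (l * chirp b q i) * fourier (i : ℤ) x
        - (if vres b l x ∈ A then Pl b l q x else 0) = Dq b l q IA x := by
    intro q x
    unfold Dq
    rw [Finset.sum_filter]
    simp only [hIA, ite_mul, one_mul, zero_mul]
    rfl
  simp_rw [hrew]
  rw [NormedAddGroup.tendsto_nhds_zero]
  intro ε hε
  set η : ℝ := min 1 (ε / 50) with hη
  have hη0 : 0 < η := by rw [hη]; positivity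
  have hη1 : η ≤ 1 := min_le_left _ _
  have hη2 : η ≤ ε / 50 := min_le_right _ _
  obtain ⟨φ, ψ, hψ0, hφ1, hφA, hψA, hψφ, hint⟩ := sandwich A hfr η hη0
  set φc : C(UnitAddCircle, ℂ) :=
    ⟨fun x => ((φ x : ℝ) : ℂ), Complex.continuous_ofReal.comp φ.continuous⟩ with hφc
  have hcl : φc ∈ closure (Submodule.span ℂ (Set.range (@fourier 1)) :
      Set C(UnitAddCircle, ℂ)) := by
    have h1 := span_fourier_closure_eq_top (T := 1)
    have h2 : φc ∈ (Submodule.span ℂ (Set.range (@fourier 1))).topologicalClosure := by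
      rw [h1]; trivial
    exact h2
  rw [Metric.mem_closure_iff] at hcl
  obtain ⟨F, hF, hFd⟩ := hcl η hη0
  rw [dist_eq_norm] at hFd
  have hFφ : ∀ x, ‖((φ x : ℝ) : ℂ) - F x‖ ≤ η := fun x =>
    ((φc - F).norm_coe_le_norm x).trans hFd.le
  set G : UnitAddCircle → ℂ := fun y => IA y - F y with hG
  set H : C(UnitAddCircle, ℝ) := ⟨fun x => 2 * (φ x - ψ x) + 2 * η ^ 2, by fun_prop⟩ with hH
  have hH0 : ∀ x, 0 ≤ H x := fun x => by
    simp only [hH, ContinuousMap.coe_mk]
    have := hψφ x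
    linarith only [sq_nonneg η, this]
  have hH4 : ∀ x, H x ≤ 4 := fun x => by
    simp only [hH, ContinuousMap.coe_mk]
    have h1 := hψ0 x
    have h2 := hφ1 x
    nlinarith only [hη0, hη1, h1, h2]
  have hGH : ∀ y, ‖G y‖ ^ 2 ≤ H y := by
    intro y
    have h1 : ‖IA y - ((φ y : ℝ) : ℂ)‖ ≤ φ y - ψ y := by
      simp only [hIA]
      by_cases hy : y ∈ A
      · rw [if_pos hy, hφA y hy]
        simp only [Complex.ofReal_one, sub_self, norm_zero]
        have := hψφ y
        rw [hφA y hy] at this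
        linarith only [this]
      · rw [if_neg hy, zero_sub, norm_neg, Complex.norm_real, hψA y hy, sub_zero,
          Real.norm_of_nonneg]
        exact (hψ0 y).trans (hψφ y)
    have h2 : G y = (IA y - ((φ y : ℝ) : ℂ)) + (((φ y : ℝ) : ℂ) - F y) := by
      simp only [hG]; ring
    rw [h2]
    have h3 := norm_add_sq_le (IA y - ((φ y : ℝ) : ℂ)) (((φ y : ℝ) : ℂ) - F y)
    have h4 : ‖IA y - ((φ y : ℝ) : ℂ)‖ ^ 2 ≤ φ y - ψ y := by
      have h5 : ‖IA y - ((φ y : ℝ) : ℂ)‖ ^ 2 ≤ (φ y - ψ y) ^ 2 :=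
        pow_le_pow_left₀ (norm_nonneg _) h1 2
      have h6 := hψ0 y
      have h7 := hφ1 y
      have h8 := hψφ y
      nlinarith only [h5, h6, h7, h8]
    have h5 : ‖((φ y : ℝ) : ℂ) - F y‖ ^ 2 ≤ η ^ 2 :=
      pow_le_pow_left₀ (norm_nonneg _) (hFφ y) 2
    simp only [hH, ContinuousMap.coe_mk]
    linarith
  have hHint : ∫ x, H x ∂haar ≤ 4 * η := by
    simp only [hH, ContinuousMap.coe_mk]
    have h1 : ∫ x, (2 * (φ x - ψ x) + 2 * η ^ 2) ∂haar =
        2 * ∫ x, (φ x - ψ x) ∂haar + 2 * η ^ 2 := by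
      rw [integral_add, integral_const_mul]
      · simp
      · apply integrable_of_continuous; fun_prop
      · exact integrable_const _
    rw [h1]
    nlinarith only [hη0, hη1, hint]
  have hpoint : ∀ q x, ‖Dq b l q IA x‖ ^ 2 ≤ 3 * ‖Dq b l q F x‖ ^ 2 +
      3 * ‖((Real.sqrt q : ℝ) : ℂ)⁻¹ * ∑ i ∈ Finset.range q,
        G (pt q i) * (ee (l * chirp b q i) * fourier (i : ℤ) x)‖ ^ 2 +
      3 * (H (vres b l x) * ‖Pl b l q x‖ ^ 2) := by
    intro q x
    have h1 : Dq b l q IA x = Dq b l q F x + Dq b l q G x := by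
      rw [← Dq_add]
      congr 1
      funext y
      simp only [hG]
      ring
    set u := Dq b l q F x
    set v := ((Real.sqrt q : ℝ) : ℂ)⁻¹ * ∑ i ∈ Finset.range q,
        G (pt q i) * (ee (l * chirp b q i) * fourier (i : ℤ) x) with hv
    set w := G (vres b l x) * Pl b l q x with hw
    have h2 : Dq b l q G x = v - w := rfl
    have h3 : ‖w‖ ^ 2 ≤ H (vres b l x) * ‖Pl b l q x‖ ^ 2 := by
      rw [hw, norm_mul, mul_pow]
      exact mul_le_mul_of_nonneg_right (hGH _) (by positivity)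
    have h4 : ‖u + (v - w)‖ ≤ ‖u‖ + ‖v‖ + ‖w‖ := by
      calc ‖u + (v - w)‖ ≤ ‖u‖ + ‖v - w‖ := norm_add_le _ _
        _ ≤ ‖u‖ + (‖v‖ + ‖w‖) := by gcongr; exact norm_sub_le _ _
        _ = _ := by ring
    have h5 : ‖u + (v - w)‖ ^ 2 ≤ (‖u‖ + ‖v‖ + ‖w‖) ^ 2 :=
      pow_le_pow_left₀ (norm_nonneg _) h4 2
    rw [h1, h2]
    linarith only [sq_nonneg (‖u‖ - ‖v‖), sq_nonneg (‖u‖ - ‖w‖), sq_nonneg (‖v‖ - ‖w‖), h3, h5]
  have tF := tendsto_Dq_span b l β hβ0 hl hβ F hF
  have tH := riemann_real H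
  have e1 : ∀ᶠ q : ℕ in atTop, ∫ x, ‖Dq b l q F x‖ ^ 2 ∂haar < η :=
    tF.eventually (gt_mem_nhds hη0)
  have e2 : ∀ᶠ q : ℕ in atTop, (q : ℝ)⁻¹ * ∑ i ∈ Finset.range q, H (pt q i) < 5 * η :=
    tH.eventually (gt_mem_nhds (by linarith))
  have e3 : ∀ᶠ q : ℕ in atTop, ∫ x, (‖Pl b l q x‖ ^ 2 - 1) ^ 2 ∂haar < η ^ 2 :=
    hflat.eventually (gt_mem_nhds (by positivity))
  filter_upwards [e1, e2, e3, eventually_gt_atTop 0] with q h1 h2 h3 hq
  have hq' : (0 : ℝ) < q := by exact_mod_cast hq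
  have cH : Continuous (fun x => H (vres b l x)) := H.continuous.comp (continuous_vres b l)
  have cP := continuous_Pl b l q
  have i1 : Integrable (fun x => 3 * ‖Dq b l q F x‖ ^ 2) haar := by
    apply integrable_of_continuous
    exact continuous_const.mul ((continuous_Dq b l q _ F.continuous).norm.pow 2)
  have i2 : Integrable (fun x => 3 * ‖((Real.sqrt q : ℝ) : ℂ)⁻¹ * ∑ i ∈ Finset.range q,
        G (pt q i) * (ee (l * chirp b q i) * fourier (i : ℤ) x)‖ ^ 2) haar := by
    apply integrable_of_continuous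
    exact continuous_const.mul ((continuous_wsum b l q G).norm.pow 2)
  have i3 : Integrable (fun x => 3 * (H (vres b l x) * ‖Pl b l q x‖ ^ 2)) haar := by
    apply integrable_of_continuous
    exact continuous_const.mul (cH.mul (cP.norm.pow 2))
  have j2 : ∫ x, ‖((Real.sqrt q : ℝ) : ℂ)⁻¹ * ∑ i ∈ Finset.range q,
        G (pt q i) * (ee (l * chirp b q i) * fourier (i : ℤ) x)‖ ^ 2 ∂haar ≤ 5 * η := by
    have k1 : ∀ x : UnitAddCircle, ((Real.sqrt q : ℝ) : ℂ)⁻¹ * ∑ i ∈ Finset.range q,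
        G (pt q i) * (ee (l * chirp b q i) * fourier (i : ℤ) x) =
        ∑ i ∈ Finset.range q, (((Real.sqrt q : ℝ) : ℂ)⁻¹ * (G (pt q i) *
          ee (l * chirp b q i))) * fourier (i : ℤ) x := by
      intro x
      rw [Finset.mul_sum]
      apply Finset.sum_congr rfl
      intro i _
      ring
    simp_rw [k1]
    rw [integral_norm_sq_trig (Finset.range q) (fun i => (i : ℤ))
      (fun a _ b _ h => by simpa using h)]
    have k2 : ∀ i : ℕ, ‖((Real.sqrt q : ℝ) : ℂ)⁻¹ * (G (pt q i) *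
          ee (l * chirp b q i))‖ ^ 2 = (q : ℝ)⁻¹ * ‖G (pt q i)‖ ^ 2 := by
      intro i
      rw [norm_mul, norm_mul, norm_ee, mul_one, mul_pow, norm_inv, Complex.norm_real,
        Real.norm_eq_abs, abs_of_nonneg (Real.sqrt_nonneg _), inv_pow, Real.sq_sqrt hq'.le]
    simp_rw [k2]
    rw [← Finset.mul_sum]
    refine le_trans ?_ h2.le
    gcongr with i _
    exact hGH _
  have j3 : ∫ x, H (vres b l x) * ‖Pl b l q x‖ ^ 2 ∂haar ≤ 8 * η := by
    have k1 : ∀ x, H (vres b l x) * ‖Pl b l q x‖ ^ 2 ≤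
        H (vres b l x) + (2 * η + 2 / η * (‖Pl b l q x‖ ^ 2 - 1) ^ 2) := by
      intro x
      set t := ‖Pl b l q x‖ ^ 2 - 1 with ht
      have k2 : ‖Pl b l q x‖ ^ 2 = 1 + t := by rw [ht]; ring
      rw [k2]
      have k3 : H (vres b l x) * t ≤ 4 * |t| := by
        calc H (vres b l x) * t ≤ H (vres b l x) * |t| :=
              mul_le_mul_of_nonneg_left (le_abs_self t) (hH0 _)
          _ ≤ 4 * |t| := mul_le_mul_of_nonneg_right (hH4 _) (abs_nonneg t)
      have k4 : 4 * |t| ≤ 2 * η + 2 / η * t ^ 2 := by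
        have k5 : 0 ≤ (|t| - η) ^ 2 := sq_nonneg _
        have k6 : 2 / η * t ^ 2 = 2 * (|t| ^ 2 / η) := by rw [sq_abs]; ring
        rw [k6]
        have k7 : 2 * |t| - η ≤ |t| ^ 2 / η := by
          rw [le_div_iff₀ hη0]
          nlinarith
        linarith only [k7]
      linarith only [k3, k4]
    have k2 : ∫ x, H (vres b l x) ∂haar = ∫ x, H x ∂haar := by
      have hmp := measurePreserving_vres b l (by rw [hdiv]; exact hβ0)
      have := hmp.map_eq
      conv_rhs => rw [← this]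
      rw [integral_map hmp.measurable.aemeasurable H.continuous.aestronglyMeasurable]
    have i4 : Integrable (fun x => 2 / η * (‖Pl b l q x‖ ^ 2 - 1) ^ 2) haar := by
      apply integrable_of_continuous
      exact continuous_const.mul (((cP.norm.pow 2).sub continuous_const).pow 2)
    calc _ ≤ ∫ x, (H (vres b l x) + (2 * η + 2 / η * (‖Pl b l q x‖ ^ 2 - 1) ^ 2)) ∂haar := by
          apply integral_mono
          · apply integrable_of_continuous
            exact cH.mul (cP.norm.pow 2)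
          · apply integrable_of_continuous
            exact cH.add (continuous_const.add (continuous_const.mul
              (((cP.norm.pow 2).sub continuous_const).pow 2)))
          · exact k1
      _ = ∫ x, H x ∂haar + (2 * η + 2 / η * ∫ x, (‖Pl b l q x‖ ^ 2 - 1) ^ 2 ∂haar) := by
          have r1 := integral_add (integrable_of_continuous cH)
            ((integrable_const (2 * η)).add i4)
          have r2 := integral_add (integrable_const (2 * η)) i4
          simp only [Pi.add_apply] at r1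
          rw [r1, r2, k2, integral_const_mul (2 / η)]
          simp
      _ ≤ 4 * η + (2 * η + 2 / η * η ^ 2) := by
          gcongr
      _ = 8 * η := by field_simp; ring
  rw [Real.norm_of_nonneg (integral_nonneg (fun x => by positivity))]
  calc ∫ x, ‖Dq b l q IA x‖ ^ 2 ∂haar ≤ ∫ x, (3 * ‖Dq b l q F x‖ ^ 2 +
      3 * ‖((Real.sqrt q : ℝ) : ℂ)⁻¹ * ∑ i ∈ Finset.range q,
        G (pt q i) * (ee (l * chirp b q i) * fourier (i : ℤ) x)‖ ^ 2 +
      3 * (H (vres b l x) * ‖Pl b l q x‖ ^ 2)) ∂haar := by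
        apply integral_mono_of_nonneg (Eventually.of_forall (fun x => by positivity))
          ((i1.add i2).add i3) (Eventually.of_forall (hpoint q))
    _ = 3 * ∫ x, ‖Dq b l q F x‖ ^ 2 ∂haar +
      3 * ∫ x, ‖((Real.sqrt q : ℝ) : ℂ)⁻¹ * ∑ i ∈ Finset.range q,
        G (pt q i) * (ee (l * chirp b q i) * fourier (i : ℤ) x)‖ ^ 2 ∂haar +
      3 * ∫ x, H (vres b l x) * ‖Pl b l q x‖ ^ 2 ∂haar := by
        have r1 := integral_add (i1.add i2) i3
        have r2 := integral_add i1 i2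
        simp only [Pi.add_apply] at r1
        rw [r1, r2, integral_const_mul, integral_const_mul, integral_const_mul]
    _ ≤ 3 * η + 3 * (5 * η) + 3 * (8 * η) := by
        gcongr
    _ = 42 * η := by ring
    _ < ε := by linarith only [hη0, hη2]

end Vale.Agent.P130
end
end

section

section

open MeasureTheory Filter Topology

namespace Vale.Agent.P130


lemma integrable_of_measurable_bdd {f : UnitAddCircle → ℝ} (hf : Measurable f) (C : ℝ)
    (h : ∀ x, ‖f x‖ ≤ C) : Integrable f haar :=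
  Integrable.of_bound hf.aestronglyMeasurable C (Eventually.of_forall h)

lemma exists_bound_of_continuous {f : UnitAddCircle → ℂ} (hf : Continuous f) :
    ∃ C, ∀ x, ‖f x‖ ≤ C := by
  obtain ⟨C, hC⟩ := isCompact_univ.exists_bound_of_continuousOn hf.continuousOn
  exact ⟨C, fun x => hC x (Set.mem_univ x)⟩

lemma zsmul_vres (n : ℕ) (l : ℤ) (hl : l ≠ 0) (hln : |l| ≤ (n : ℤ)) (x : UnitAddCircle) :
    l • vres (2 * n.factorial) l x = -(((2 * n.factorial : ℕ) : ℤ)) • x := by
  have hdvd : l ∣ ((2 * n.factorial : ℕ) : ℤ) := by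
    have h1 : l.natAbs ∣ n.factorial := by
      apply Nat.dvd_factorial (Int.natAbs_pos.2 hl)
      have := Int.abs_eq_natAbs l
      omega
    have h2 : l ∣ (n.factorial : ℤ) := Int.natAbs_dvd_natAbs.1 (by simpa using h1)
    push_cast
    exact Dvd.dvd.mul_left h2 2
  obtain ⟨β, hβ⟩ := hdvd
  have hdiv : ((2 * n.factorial : ℕ) : ℤ) / l = β := by rw [hβ]; exact Int.mul_ediv_cancel_left β hl
  unfold vres
  rw [hdiv, smul_sub, smul_smul]
  have h3 : l • (((((β.natAbs : ℕ) : ℝ) / 2 : ℝ) : UnitAddCircle)) = 0 := by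
    rw [← AddCircle.coe_zsmul, zsmul_eq_mul]
    have h4 : ∃ k : ℤ, (l : ℝ) * (((β.natAbs : ℕ) : ℝ) / 2) = k := by
      have h5 : (l * β : ℤ) = 2 * n.factorial := by rw [← hβ]; push_cast; ring
      rcases Int.natAbs_eq β with h6 | h6
      · refine ⟨n.factorial, ?_⟩
        have h7 : ((l : ℝ) * (β.natAbs : ℝ)) = 2 * n.factorial := by
          have : (l * (β.natAbs : ℤ) : ℤ) = 2 * n.factorial := by rw [← h6]; exact h5
          have h8 : ((l * (β.natAbs : ℤ) : ℤ) : ℝ) = ((2 * n.factorial : ℤ) : ℝ) := by rw [this]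
          rw [Int.cast_mul, Int.cast_natCast, Int.cast_mul, Int.cast_ofNat,
            Int.cast_natCast] at h8
          exact h8
        push_cast
        linarith only [h7]
      · refine ⟨-n.factorial, ?_⟩
        have h7 : ((l : ℝ) * (β.natAbs : ℝ)) = -(2 * n.factorial) := by
          have : (l * (β.natAbs : ℤ) : ℤ) = -(2 * n.factorial) := by
            have h8 : (β.natAbs : ℤ) = -β := by omega
            rw [h8, mul_neg, h5]
          have h8 : ((l * (β.natAbs : ℤ) : ℤ) : ℝ) = ((-(2 * n.factorial) : ℤ) : ℝ) := by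
            rw [this]
          rw [Int.cast_mul, Int.cast_natCast, Int.cast_neg, Int.cast_mul, Int.cast_ofNat,
            Int.cast_natCast] at h8
          exact h8
        push_cast
        linarith only [h7]
    obtain ⟨k, hk⟩ := h4
    rw [hk]
    have : ((k : ℝ) : UnitAddCircle) = k • ((1 : ℝ) : UnitAddCircle) := by
      rw [← AddCircle.coe_zsmul]
      simp
    rw [this, AddCircle.coe_period, smul_zero]
  rw [h3, sub_zero]
  congr 1
  rw [hβ]
  ring

/-- The phase of a complex number (`1` at zero). -/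
noncomputable def phase (z : ℂ) : ℂ := if z = 0 then 1 else z / (‖z‖ : ℂ)

lemma norm_phase (z : ℂ) : ‖phase z‖ = 1 := by
  unfold phase
  by_cases h : z = 0
  · simp [h]
  · rw [if_neg h, norm_div, Complex.norm_real, norm_norm, div_self (norm_ne_zero_iff.2 h)]

lemma norm_sub_phase (z : ℂ) : ‖z - phase z‖ ≤ |‖z‖ ^ 2 - 1| := by
  unfold phase
  by_cases h : z = 0
  · simp [h]
  · rw [if_neg h]
    have hz : (‖z‖ : ℂ) ≠ 0 := by exact_mod_cast norm_ne_zero_iff.2 h
    have hz' : 0 < ‖z‖ := norm_pos_iff.2 h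
    have h1 : z - z / (‖z‖ : ℂ) = (z / (‖z‖ : ℂ)) * ((‖z‖ - 1 : ℝ) : ℂ) := by
      push_cast
      field_simp
    rw [h1, norm_mul, norm_div, Complex.norm_real, norm_norm, div_self hz'.ne', one_mul,
      Complex.norm_real, Real.norm_eq_abs]
    have h2 : ‖z‖ ^ 2 - 1 = (‖z‖ - 1) * (‖z‖ + 1) := by ring
    rw [h2, abs_mul]
    have h3 : 1 ≤ |‖z‖ + 1| := by
      rw [abs_of_pos (by linarith)]
      linarith
    nlinarith only [abs_nonneg (‖z‖ - 1), h3]

lemma measurable_phase : Measurable phase := by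
  unfold phase
  apply Measurable.ite (measurableSet_singleton 0) measurable_const
  exact measurable_id.div (Complex.measurable_ofReal.comp measurable_norm)

lemma pointwise_bound (B : ℕ) (P : ℤ → ℂ) (z : ℂ) (r lam : ℤ) :
    (∑ k ∈ Finset.Icc (-(B : ℤ)) (B : ℤ), ‖P k - phase z * (if lam = k then 1 else 0)‖) ^ 2 ≤
      3 * ((2 * B + 1) * ∑ k ∈ Finset.Icc (-(B : ℤ)) (B : ℤ), ‖P k - (if r = k then z else 0)‖ ^ 2) +
      3 * (‖z‖ ^ 2 - 1) ^ 2 + 12 * (if r ≠ lam then 1 else 0) := by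
  classical
  set S := Finset.Icc (-(B : ℤ)) (B : ℤ) with hS
  have hcard : (S.card : ℝ) = 2 * B + 1 := by
    rw [hS, Int.card_Icc]
    have : ((B : ℤ) + 1 - -(B : ℤ)).toNat = 2 * B + 1 := by omega
    rw [this]
    push_cast
    ring
  set a := ∑ k ∈ S, ‖P k - (if r = k then z else 0)‖ with ha
  set c : ℝ := if r ≠ lam then 1 else 0 with hc
  have h1 : ∑ k ∈ S, ‖(if r = k then z else 0) - phase z * (if lam = k then 1 else 0)‖ ≤
      |‖z‖ ^ 2 - 1| + 2 * c := by
    by_cases h : r = lam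
    · subst h
      simp only [hc, ne_eq, not_true_eq_false, if_false, mul_zero, add_zero]
      calc _ ≤ ∑ k ∈ S, (if r = k then ‖z - phase z‖ else 0) := by
            apply Finset.sum_le_sum
            intro k _
            by_cases hk : r = k
            · simp [hk]
            · simp [hk]
        _ ≤ ‖z - phase z‖ := by
            rw [Finset.sum_ite_eq]
            split_ifs
            · exact le_rfl
            · exact norm_nonneg _
        _ ≤ _ := norm_sub_phase z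
    · simp only [hc, ne_eq, h, not_false_eq_true, if_true, mul_one]
      calc _ ≤ ∑ k ∈ S, ((if r = k then ‖z‖ else 0) + (if lam = k then 1 else 0)) := by
            apply Finset.sum_le_sum
            intro k _
            refine (norm_sub_le _ _).trans ?_
            apply add_le_add
            · split_ifs <;> simp
            · rw [norm_mul, norm_phase]
              split_ifs <;> simp
        _ ≤ ‖z‖ + 1 := by
            rw [Finset.sum_add_distrib, Finset.sum_ite_eq, Finset.sum_ite_eq]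
            apply add_le_add
            · split_ifs
              · exact le_rfl
              · exact norm_nonneg _
            · split_ifs
              · exact le_rfl
              · exact zero_le_one
        _ ≤ |‖z‖ ^ 2 - 1| + 2 := by
            have h3 := norm_sub_phase z
            have h4 : ‖z‖ ≤ ‖z - phase z‖ + ‖phase z‖ := by
              calc ‖z‖ = ‖(z - phase z) + phase z‖ := by congr 1; ring
                _ ≤ _ := norm_add_le _ _
            rw [norm_phase] at h4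
            linarith
  have h2 : ∑ k ∈ S, ‖P k - phase z * (if lam = k then 1 else 0)‖ ≤
      a + |‖z‖ ^ 2 - 1| + 2 * c := by
    have h3 : ∑ k ∈ S, ‖P k - phase z * (if lam = k then 1 else 0)‖ ≤
        a + ∑ k ∈ S, ‖(if r = k then z else 0) - phase z * (if lam = k then 1 else 0)‖ := by
      rw [ha, ← Finset.sum_add_distrib]
      apply Finset.sum_le_sum
      intro k _
      calc _ = ‖(P k - (if r = k then z else 0)) +
            ((if r = k then z else 0) - phase z * (if lam = k then 1 else 0))‖ := by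
              congr 1; ring
        _ ≤ _ := norm_add_le _ _
    linarith
  have ha0 : 0 ≤ a := Finset.sum_nonneg (fun _ _ => norm_nonneg _)
  have hc0 : 0 ≤ c := by rw [hc]; split_ifs <;> norm_num
  have hc2 : c ^ 2 = c := by rw [hc]; split_ifs <;> norm_num
  have h4 : a ^ 2 ≤ (2 * B + 1) * ∑ k ∈ S, ‖P k - (if r = k then z else 0)‖ ^ 2 := by
    rw [ha, ← hcard]
    exact sq_sum_le_card_mul_sum_sq
  have h5 : 0 ≤ ∑ k ∈ S, ‖P k - phase z * (if lam = k then 1 else 0)‖ :=
    Finset.sum_nonneg (fun _ _ => norm_nonneg _)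
  have h6 : (∑ k ∈ S, ‖P k - phase z * (if lam = k then 1 else 0)‖) ^ 2 ≤
      (a + |‖z‖ ^ 2 - 1| + 2 * c) ^ 2 := pow_le_pow_left₀ h5 h2 2
  have h7 : |‖z‖ ^ 2 - 1| ^ 2 = (‖z‖ ^ 2 - 1) ^ 2 := sq_abs _
  have h8 : (a + |‖z‖ ^ 2 - 1| + 2 * c) ^ 2 ≤ 3 * a ^ 2 + 3 * |‖z‖ ^ 2 - 1| ^ 2 + 12 * c ^ 2 := by
    linarith only [sq_nonneg (a - |‖z‖ ^ 2 - 1|), sq_nonneg (a - 2 * c),
      sq_nonneg (|‖z‖ ^ 2 - 1| - 2 * c)]
  rw [h7, hc2] at h8
  linarith

theorem step_core (n : ℕ) (hn : 1 ≤ n) (ε : ℝ) (hε : 0 < ε) (M : UnitAddCircle → ℤ) (BM : ℕ)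
    (hM : Measurable M) (hM1 : ∀ v, M v ≠ 0 ∧ |M v| ≤ (BM : ℤ))
    (hfr : ∀ k : ℤ, haar (frontier (M ⁻¹' {k})) = 0)
    (hmul : ∀ l : ℤ, l ≠ 0 → |l| ≤ (n : ℤ) →
      (haar).real {v | M (l • v) ≠ l * M v} ≤ ε ^ 2 / 24) :
    ∃ q0 : ℕ, ∀ q ≥ q0, StepProp n ε q (fun i => M (pt q i)) (chirp (2 * n.factorial) q)
      (n * BM) := by
  classical
  set b := 2 * n.factorial with hb
  have hb0 : 0 < b := by rw [hb]; positivity
  have hldvd : ∀ l : ℤ, l ≠ 0 → |l| ≤ (n : ℤ) → l ∣ (b : ℤ) := by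
    intro l hl hln
    have h1 : l.natAbs ∣ n.factorial := by
      apply Nat.dvd_factorial (Int.natAbs_pos.2 hl)
      have := Int.abs_eq_natAbs l
      omega
    have h2 : l ∣ (n.factorial : ℤ) := Int.natAbs_dvd_natAbs.1 (by simpa using h1)
    rw [hb]
    push_cast
    exact Dvd.dvd.mul_left h2 2
  set B := n * BM with hB
  set Dk : ℤ → ℕ → ℤ → UnitAddCircle → ℂ := fun l q k x =>
    P (fun i => ee (l * chirp b q i)) (fun i => l * M (pt q i)) q k x -
      (if l * M (vres b l x) = k then Pl b l q x else 0) with hDk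
  -- the L2 smallness of each defect
  have hD : ∀ l : ℤ, l ≠ 0 → |l| ≤ (n : ℤ) → ∀ k : ℤ,
      Tendsto (fun q : ℕ => ∫ x, ‖Dk l q k x‖ ^ 2 ∂haar) atTop (𝓝 0) := by
    intro l hl hln k
    by_cases hlk : l ∣ k
    · obtain ⟨k', rfl⟩ := hlk
      have h1 := localization b hb0 l hl (hldvd l hl hln) (flatness b hb0 l hl (hldvd l hl hln))
        (M ⁻¹' {k'}) (hM (measurableSet_singleton k')) (hfr k')
      refine h1.congr (fun q => ?_)
      congr 1
      funext x
      simp only [hDk, P]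
      congr 3
      · congr 1
        apply Finset.sum_congr _ (fun _ _ => rfl)
        ext i
        simp only [Finset.mem_filter, Finset.mem_range, Set.mem_preimage, Set.mem_singleton_iff,
          and_congr_right_iff]
        intro _
        constructor
        · intro h
          unfold pt
          rw [h]
        · intro h
          exact mul_left_cancel₀ hl h
      · simp only [Set.mem_preimage, Set.mem_singleton_iff, mul_right_inj' hl]
    · have h1 : ∀ q x, Dk l q k x = 0 := by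
        intro q x
        simp only [hDk, P]
        have h2 : (Finset.range q).filter (fun i => l * M (pt q i) = k) = ∅ := by
          rw [Finset.filter_eq_empty_iff]
          intro i _ h
          exact hlk ⟨_, h.symm⟩
        have h3 : l * M (vres b l x) ≠ k := fun h => hlk ⟨_, h.symm⟩
        rw [h2, if_neg h3]
        simp
      simp [h1]
  -- total smallness
  have hE : ∀ l ∈ (Finset.Icc (-(n : ℤ)) n).filter (fun l => l ≠ 0), ∀ᶠ q : ℕ in atTop,
      3 * ((2 * B + 1) * ∑ k ∈ Finset.Icc (-(B : ℤ)) (B : ℤ), ∫ x, ‖Dk l q k x‖ ^ 2 ∂haar) +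
      3 * ∫ x, (‖Pl b l q x‖ ^ 2 - 1) ^ 2 ∂haar ≤ ε ^ 2 / 2 := by
    intro l hl
    simp only [Finset.mem_filter, Finset.mem_Icc] at hl
    have hln : |l| ≤ (n : ℤ) := abs_le.2 ⟨hl.1.1, hl.1.2⟩
    have t1 : Tendsto (fun q : ℕ => 3 * ((2 * (B : ℝ) + 1) *
        ∑ k ∈ Finset.Icc (-(B : ℤ)) (B : ℤ), ∫ x, ‖Dk l q k x‖ ^ 2 ∂haar) +
        3 * ∫ x, (‖Pl b l q x‖ ^ 2 - 1) ^ 2 ∂haar) atTop (𝓝 0) := by
      have t2 : Tendsto (fun q : ℕ => ∑ k ∈ Finset.Icc (-(B : ℤ)) (B : ℤ),
          ∫ x, ‖Dk l q k x‖ ^ 2 ∂haar) atTop (𝓝 0) := by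
        have := tendsto_finsetSum (Finset.Icc (-(B : ℤ)) (B : ℤ))
          (fun k _ => hD l hl.2 hln k)
        simpa using this
      have t3 := ((t2.const_mul (2 * (B : ℝ) + 1)).const_mul 3).add
        ((flatness b hb0 l hl.2 (hldvd l hl.2 hln)).const_mul 3)
      simpa using t3
    have t4 := t1.eventually (gt_mem_nhds (show (0 : ℝ) < ε ^ 2 / 2 by positivity))
    exact t4.mono (fun q hq => hq.le)
  have hE' := (Filter.eventually_all_finset _).2 hE
  obtain ⟨q0, hq0⟩ := Filter.eventually_atTop.1 hE'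
  refine ⟨q0, fun q hq => ?_⟩
  refine ⟨fun l x => phase (Pl b l q x), fun x => M (-(b : ℤ) • x), ?_, ?_, ?_, ?_, ?_⟩
  · intro l
    exact measurable_phase.comp (continuous_Pl b l q).measurable
  · intro l x
    exact norm_phase _
  · exact hM.comp (continuous_zsmul _).measurable
  · intro x
    refine ⟨(hM1 _).1, (hM1 _).2.trans ?_⟩
    rw [hB]
    push_cast
    have : (1 : ℤ) ≤ n := by exact_mod_cast hn
    nlinarith only [Int.natCast_nonneg BM, hn, hB]
  · intro l hl hln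
    have hlmem : l ∈ (Finset.Icc (-(n : ℤ)) n).filter (fun l => l ≠ 0) := by
      simp only [Finset.mem_filter, Finset.mem_Icc]
      exact ⟨abs_le.1 hln, hl⟩
    have hmain := hq0 q hq l hlmem
    have hvm : Measurable (vres b l) := (continuous_vres b l).measurable
    have hmeasD : ∀ k, Measurable (Dk l q k) := by
      intro k
      simp only [hDk, P]
      apply Measurable.sub
      · apply Continuous.measurable
        apply Continuous.mul continuous_const
        apply continuous_finsetSum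
        intro i _
        exact continuous_const.mul (fourier (i : ℤ)).continuous
      · apply Measurable.ite _ (continuous_Pl b l q).measurable measurable_const
        have : Measurable (fun x => l * M (vres b l x)) :=
          (measurable_from_top (f := fun z : ℤ => l * z)).comp (hM.comp hvm)
        exact this (measurableSet_singleton k)
    have hbddD : ∀ k, ∃ C, ∀ x, ‖Dk l q k x‖ ≤ C := by
      intro k
      have c1 : Continuous (fun x => P (fun i => ee (l * chirp b q i))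
          (fun i => l * M (pt q i)) q k x) := by
        unfold P
        apply Continuous.mul continuous_const
        apply continuous_finsetSum
        intro i _
        exact continuous_const.mul (fourier (i : ℤ)).continuous
      obtain ⟨C1, hC1⟩ := exists_bound_of_continuous c1
      obtain ⟨C2, hC2⟩ := exists_bound_of_continuous (continuous_Pl b l q)
      refine ⟨C1 + C2, fun x => ?_⟩
      simp only [hDk]
      refine (norm_sub_le _ _).trans (add_le_add (hC1 x) ?_)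
      split_ifs
      · exact hC2 x
      · rw [norm_zero]
        exact (norm_nonneg _).trans (hC2 x)
    have iD : ∀ k, Integrable (fun x => ‖Dk l q k x‖ ^ 2) haar := by
      intro k
      obtain ⟨C, hC⟩ := hbddD k
      apply integrable_of_measurable_bdd ((hmeasD k).norm.pow_const 2) (C ^ 2)
      intro x
      rw [norm_pow, norm_norm]
      exact pow_le_pow_left₀ (norm_nonneg _) (hC x) 2
    have iP : Integrable (fun x => (‖Pl b l q x‖ ^ 2 - 1) ^ 2) haar := by
      apply integrable_of_continuous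
      exact (((continuous_Pl b l q).norm.pow 2).sub continuous_const).pow 2
    have hbadm : MeasurableSet {x : UnitAddCircle | l * M (vres b l x) ≠ M (-(b : ℤ) • x)} := by
      have m1 : Measurable (fun x => l * M (vres b l x)) :=
        (measurable_from_top (f := fun z : ℤ => l * z)).comp (hM.comp hvm)
      have m2 : Measurable (fun x : UnitAddCircle => M (-(b : ℤ) • x)) :=
        hM.comp (continuous_zsmul _).measurable
      exact (measurableSet_eq_fun m1 m2).compl
    have iB : Integrable (fun x => if l * M (vres b l x) ≠ M (-(b : ℤ) • x) then (1 : ℝ) else 0)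
        haar := by
      apply integrable_of_measurable_bdd (Measurable.ite hbadm measurable_const measurable_const) 1
      intro x
      split_ifs <;> simp
    have hbad : ∫ x, (if l * M (vres b l x) ≠ M (-(b : ℤ) • x) then (1 : ℝ) else 0) ∂haar ≤
        ε ^ 2 / 24 := by
      have h1 : ∫ x, (if l * M (vres b l x) ≠ M (-(b : ℤ) • x) then (1 : ℝ) else 0) ∂haar =
          (haar).real {x : UnitAddCircle | l * M (vres b l x) ≠ M (-(b : ℤ) • x)} := by
        rw [← integral_indicator_one hbadm]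
        congr 1
        funext x
        simp only [Set.indicator_apply, Set.mem_ofPred_eq, Pi.one_apply]
      have h2 : {x : UnitAddCircle | l * M (vres b l x) ≠ M (-(b : ℤ) • x)} =
          vres b l ⁻¹' {v | M (l • v) ≠ l * M v} := by
        ext x
        simp only [Set.mem_ofPred_eq, Set.mem_preimage]
        rw [hb, zsmul_vres n l hl hln x, ne_comm]
      have h3 : MeasurableSet {v : UnitAddCircle | M (l • v) ≠ l * M v} := by
        have m1 : Measurable (fun x => l * M x) :=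
          (measurable_from_top (f := fun z : ℤ => l * z)).comp hM
        have m2 : Measurable (fun x : UnitAddCircle => M (l • x)) :=
          hM.comp (continuous_zsmul _).measurable
        exact (measurableSet_eq_fun m2 m1).compl
      have hβ0 : (b : ℤ) / l ≠ 0 := by
        obtain ⟨β, hβ⟩ := hldvd l hl hln
        rw [hβ, Int.mul_ediv_cancel_left β hl]
        rintro rfl
        simp at hβ
        omega
      rw [h1, h2]
      have h4 := (measurePreserving_vres b l hβ0).measure_preimage h3.nullMeasurableSet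
      rw [measureReal_def, h4]
      exact hmul l hl hln
    calc _ ≤ ∫ x, (3 * ((2 * B + 1) * ∑ k ∈ Finset.Icc (-(B : ℤ)) (B : ℤ), ‖Dk l q k x‖ ^ 2) +
          3 * (‖Pl b l q x‖ ^ 2 - 1) ^ 2 +
          12 * (if l * M (vres b l x) ≠ M (-(b : ℤ) • x) then (1 : ℝ) else 0)) ∂haar := by
          apply integral_mono_of_nonneg (Eventually.of_forall (fun x => by positivity))
          · apply Integrable.add
            · apply Integrable.add
              · apply Integrable.const_mul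
                apply Integrable.const_mul
                apply integrable_finsetSum
                intro k _
                exact iD k
              · exact iP.const_mul 3
            · exact iB.const_mul 12
          · apply Eventually.of_forall
            intro x
            exact pointwise_bound B _ (Pl b l q x) (l * M (vres b l x)) (M (-(b : ℤ) • x))
      _ = 3 * ((2 * B + 1) * ∑ k ∈ Finset.Icc (-(B : ℤ)) (B : ℤ), ∫ x, ‖Dk l q k x‖ ^ 2 ∂haar) +
          3 * ∫ x, (‖Pl b l q x‖ ^ 2 - 1) ^ 2 ∂haar +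
          12 * ∫ x, (if l * M (vres b l x) ≠ M (-(b : ℤ) • x) then (1 : ℝ) else 0) ∂haar := by
          have j1 : Integrable (fun x => 3 * ((2 * (B : ℝ) + 1) *
              ∑ k ∈ Finset.Icc (-(B : ℤ)) (B : ℤ), ‖Dk l q k x‖ ^ 2)) haar := by
            apply Integrable.const_mul
            apply Integrable.const_mul
            apply integrable_finsetSum
            intro k _
            exact iD k
          have r1 := integral_add (j1.add (iP.const_mul 3)) (iB.const_mul 12)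
          have r2 := integral_add j1 (iP.const_mul 3)
          simp only [Pi.add_apply] at r1
          rw [r1, r2, integral_const_mul, integral_const_mul, integral_const_mul,
            integral_const_mul, integral_finsetSum _ (fun k _ => iD k)]
      _ ≤ ε ^ 2 / 2 + 12 * (ε ^ 2 / 24) := by
          gcongr
      _ = ε ^ 2 := by ring

end Vale.Agent.P130
end
end

section

section

open MeasureTheory Filter Topology

namespace Vale.Agent.P130

/-- (B4) the step lemma. -/
theorem step_lemma (n : ℕ) (hn : 1 ≤ n) (ε : ℝ) (hε : 0 < ε) (N0 : ℕ) (hN0 : 1 ≤ N0) :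
    ∃ B : ℕ, ∃ q0 : ℕ, ∀ q ≥ q0, ∃ (m : ℕ → ℤ) (γ : ℕ → ℝ),
      (∀ i, m i ≠ 0 ∧ (N0 : ℤ) ∣ m i ∧ ∀ l : ℤ, |l| ≤ (n : ℤ) → |l * m i| ≤ (B : ℤ)) ∧
      StepProp n ε q m γ B := by
  obtain ⟨M, BM, hM, hM1, hfr, hmul⟩ := label_lemma n hn (ε ^ 2 / 24) (by positivity) N0 hN0
  obtain ⟨q0, hq0⟩ := step_core n hn ε hε M BM hM (fun v => ⟨(hM1 v).1, (hM1 v).2.2⟩) hfr hmul
  refine ⟨n * BM, q0, fun q hq => ⟨fun i => M (pt q i), chirp (2 * n.factorial) q, ?_, hq0 q hq⟩⟩
  intro i
  refine ⟨(hM1 _).1, (hM1 _).2.1, fun l hl => ?_⟩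
  rw [abs_mul]
  push_cast
  exact mul_le_mul hl (hM1 _).2.2 (abs_nonneg _) (by positivity)

end Vale.Agent.P130
end
end

section

section

open MeasureTheory Filter Topology

namespace Vale.Agent.P130

namespace PC

/-! ### the representative `rep` -/

lemma rep_nonneg (y : UnitAddCircle) : 0 ≤ rep y := (AddCircle.equivIco 1 0 y).2.1

lemma rep_lt_one (y : UnitAddCircle) : rep y < 1 := by
  have h := (AddCircle.equivIco (1 : ℝ) 0 y).2.2
  have h1 : ((AddCircle.equivIco (1 : ℝ) 0 y : Set.Ico (0 : ℝ) (0 + 1)) : ℝ) < 0 + 1 := h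
  calc rep y < 0 + 1 := h1
    _ = 1 := by norm_num

lemma coe_rep (y : UnitAddCircle) : ((rep y : ℝ) : UnitAddCircle) = y := AddCircle.coe_equivIco

lemma rep_coe {t : ℝ} (h0 : 0 ≤ t) (h1 : t < 1) : rep (t : UnitAddCircle) = t := by
  unfold rep
  rw [AddCircle.equivIco_coe_eq (p := 1) (a := 0) (x := t) ⟨h0, by simpa using h1⟩]

lemma measurable_rep : Measurable rep := by
  unfold rep
  exact measurable_subtype_coe.comp (AddCircle.measurableEquivIco 1 0).measurable

lemma vp_nonneg (b : ℕ) (l : ℤ) (x : UnitAddCircle) : 0 ≤ vp b l x := rep_nonneg _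

lemma vp_lt_one (b : ℕ) (l : ℤ) (x : UnitAddCircle) : vp b l x < 1 := rep_lt_one _

lemma coe_vp (b : ℕ) (l : ℤ) (x : UnitAddCircle) : ((vp b l x : ℝ) : UnitAddCircle) = vres b l x :=
  coe_rep _

/-! ### arcs -/

/-- the arc `[w/K, (w+1)/K)` -/
def arc (K w : ℕ) : Set UnitAddCircle := {z | ⌊(K : ℝ) * rep z⌋₊ = w}

lemma measurableSet_arc (K w : ℕ) : MeasurableSet (arc K w) := by
  have h : Measurable (fun z : UnitAddCircle => ⌊(K : ℝ) * rep z⌋₊) :=
    Nat.measurable_floor.comp (measurable_rep.const_mul _)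
  exact h (measurableSet_singleton w)

lemma arc_eq (K w : ℕ) (hK : 0 < K) (hw : w < K) :
    arc K w = (fun t : ℝ => (t : UnitAddCircle)) '' Set.Ico ((w : ℝ) / K) (((w : ℝ) + 1) / K) := by
  have hK' : (0 : ℝ) < K := by exact_mod_cast hK
  ext z
  simp only [arc, Set.mem_ofPred_eq, Set.mem_image, Set.mem_Ico]
  constructor
  · intro h
    refine ⟨rep z, ⟨?_, ?_⟩, coe_rep z⟩
    · rw [div_le_iff₀ hK', mul_comm, ← h]
      exact Nat.floor_le (mul_nonneg hK'.le (rep_nonneg z))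
    · rw [lt_div_iff₀ hK', mul_comm, ← h]
      exact Nat.lt_floor_add_one _
  · rintro ⟨t, ⟨h1, h2⟩, rfl⟩
    have ht0 : 0 ≤ t := le_trans (by positivity) h1
    have ht1 : t < 1 := by
      refine h2.trans_le ?_
      rw [div_le_one hK']
      exact_mod_cast hw
    rw [rep_coe ht0 ht1, Nat.floor_eq_iff (by positivity)]
    rw [div_le_iff₀ hK'] at h1
    rw [lt_div_iff₀ hK'] at h2
    constructor <;> linarith

lemma haar_singleton (z : UnitAddCircle) : (AddCircle.haarAddCircle (T := 1)) {z} = 0 := by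
  have h1 := (AddCircle.measurePreserving_mk (1 : ℝ) 0).measure_preimage
    (measurableSet_singleton z).nullMeasurableSet
  have h2 : (volume : Measure UnitAddCircle) = AddCircle.haarAddCircle (T := 1) := by
    rw [AddCircle.volume_eq_smul_haarAddCircle]
    simp
  rw [← h2, ← h1]
  refine Set.Countable.measure_zero ?_ _
  refine (Set.countable_range (fun n : ℤ => rep z + (n : ℝ))).mono ?_
  intro t ht
  have h3 : ((t : ℝ) : UnitAddCircle) = z := ht
  have h4 : ((t - rep z : ℝ) : UnitAddCircle) = 0 := by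
    rw [AddCircle.coe_sub, h3, coe_rep, sub_self]
  obtain ⟨n, hn⟩ := (AddCircle.coe_eq_zero_iff (1 : ℝ)).1 h4
  refine ⟨n, ?_⟩
  simp only [zsmul_eq_mul, mul_one] at hn
  simp only [hn]
  ring

lemma frontier_arc (K w : ℕ) (hK : 0 < K) (hw : w < K) :
    (AddCircle.haarAddCircle (T := 1)) (frontier (arc K w)) = 0 := by
  have hK' : (0 : ℝ) < K := by exact_mod_cast hK
  set c : ℝ → UnitAddCircle := fun t : ℝ => (t : UnitAddCircle) with hc
  have hcont : Continuous c := AddCircle.continuous_mk' 1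
  have hopen : IsOpenMap c := QuotientAddGroup.isOpenMap_coe
  set u : ℝ := (w : ℝ) / K
  set v : ℝ := ((w : ℝ) + 1) / K
  have h1 : closure (arc K w) ⊆ c '' Set.Icc u v := by
    apply closure_minimal
    · rw [arc_eq K w hK hw]
      exact Set.image_mono Set.Ico_subset_Icc_self
    · exact (isCompact_Icc.image hcont).isClosed
  have h2 : c '' Set.Ioo u v ⊆ interior (arc K w) := by
    apply interior_maximal
    · rw [arc_eq K w hK hw]
      exact Set.image_mono Set.Ioo_subset_Ico_self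
    · exact hopen _ isOpen_Ioo
  have h3 : frontier (arc K w) ⊆ {c u, c v} := by
    intro z hz
    have hz1 := h1 hz.1
    have hz2 : z ∉ c '' Set.Ioo u v := fun h => hz.2 (h2 h)
    obtain ⟨t, ht, rfl⟩ := hz1
    rcases eq_or_lt_of_le ht.1 with h | h
    · left; rw [h]
    rcases eq_or_lt_of_le ht.2 with h' | h'
    · right; rw [h']; rfl
    exact absurd ⟨t, ⟨h, h'⟩, rfl⟩ hz2
  refine measure_mono_null h3 ?_
  rw [Set.insert_eq]
  exact measure_union_null (haar_singleton _) (haar_singleton _)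

/-! ### bounded measurable functions and their square norm -/

/-- bounded measurable -/
def BM (f : UnitAddCircle → ℂ) : Prop := Measurable f ∧ ∃ C : ℝ, ∀ x, ‖f x‖ ≤ C

lemma BM.add {f g : UnitAddCircle → ℂ} (hf : BM f) (hg : BM g) : BM (fun x => f x + g x) := by
  obtain ⟨hf, C, hC⟩ := hf
  obtain ⟨hg, D, hD⟩ := hg
  exact ⟨hf.add hg, C + D, fun x => (norm_add_le _ _).trans (add_le_add (hC x) (hD x))⟩

lemma BM.sub {f g : UnitAddCircle → ℂ} (hf : BM f) (hg : BM g) : BM (fun x => f x - g x) := by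
  obtain ⟨hf, C, hC⟩ := hf
  obtain ⟨hg, D, hD⟩ := hg
  exact ⟨hf.sub hg, C + D, fun x => (norm_sub_le _ _).trans (add_le_add (hC x) (hD x))⟩

lemma BM.mul {f g : UnitAddCircle → ℂ} (hf : BM f) (hg : BM g) : BM (fun x => f x * g x) := by
  obtain ⟨hf, C, hC⟩ := hf
  obtain ⟨hg, D, hD⟩ := hg
  refine ⟨hf.mul hg, C * D, fun x => ?_⟩
  rw [norm_mul]
  exact mul_le_mul (hC x) (hD x) (norm_nonneg _) ((norm_nonneg _).trans (hC x))

lemma BM.of_continuous {f : UnitAddCircle → ℂ} (hf : Continuous f) : BM f := by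
  refine ⟨hf.measurable, ?_⟩
  obtain ⟨C, hC⟩ := (isCompact_univ (X := UnitAddCircle)).exists_bound_of_continuousOn
    hf.continuousOn
  exact ⟨C, fun y => hC y (Set.mem_univ y)⟩

lemma BM.comp {f : UnitAddCircle → ℂ} (hf : BM f) {g : UnitAddCircle → UnitAddCircle}
    (hg : Measurable g) : BM (fun x => f (g x)) :=
  ⟨hf.1.comp hg, hf.2.imp fun _ hC x => hC _⟩

lemma BM.const (c : ℂ) : BM (fun _ => c) := ⟨measurable_const, ‖c‖, fun _ => le_rfl⟩

lemma BM.sum {ι : Type*} (S : Finset ι) {f : ι → UnitAddCircle → ℂ} (hf : ∀ i ∈ S, BM (f i)) :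
    BM (fun x => ∑ i ∈ S, f i x) := by
  classical
  induction S using Finset.induction_on with
  | empty => simpa using BM.const 0
  | insert a S ha ih =>
    simp only [Finset.sum_insert ha]
    exact (hf a (Finset.mem_insert_self _ _)).add
      (ih fun i hi => hf i (Finset.mem_insert_of_mem hi))

lemma BM.indicator {f : UnitAddCircle → ℂ} (hf : BM f) {p : UnitAddCircle → Prop}
    [DecidablePred p] (hp : MeasurableSet {x | p x}) : BM (fun x => if p x then f x else 0) := by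
  obtain ⟨hf, C, hC⟩ := hf
  refine ⟨Measurable.ite hp hf measurable_const, C, fun x => ?_⟩
  show ‖if p x then f x else 0‖ ≤ C
  split_ifs
  · exact hC x
  · rw [norm_zero]
    exact (norm_nonneg _).trans (hC x)

lemma BM.integrable_sq {f : UnitAddCircle → ℂ} (hf : BM f) :
    Integrable (fun x => ‖f x‖ ^ 2) mT := by
  obtain ⟨hf, C, hC⟩ := hf
  refine Integrable.of_bound (hf.norm.pow_const 2).aestronglyMeasurable (C ^ 2) ?_
  filter_upwards with x
  rw [Real.norm_of_nonneg (by positivity)]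
  exact pow_le_pow_left₀ (norm_nonneg _) (hC x) 2

/-- square norm -/
noncomputable def N2 (f : UnitAddCircle → ℂ) : ℝ := ∫ x, ‖f x‖ ^ 2 ∂mT

lemma N2_mono {f g : UnitAddCircle → ℂ} (hg : BM g) (h : ∀ x, ‖f x‖ ≤ ‖g x‖) :
    N2 f ≤ N2 g := by
  refine integral_mono_of_nonneg (Eventually.of_forall fun x => by positivity) hg.integrable_sq
    (Eventually.of_forall fun x => ?_)
  exact pow_le_pow_left₀ (norm_nonneg _) (h x) 2

lemma N2_congr {f g : UnitAddCircle → ℂ} (h : ∀ x, ‖f x‖ = ‖g x‖) : N2 f = N2 g := by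
  unfold N2
  simp_rw [h]

lemma N2_add_le {f g : UnitAddCircle → ℂ} (hf : BM f) (hg : BM g) :
    N2 (fun x => f x + g x) ≤ 2 * N2 f + 2 * N2 g := by
  unfold N2
  rw [← integral_const_mul, ← integral_const_mul, ← integral_add
    (hf.integrable_sq.const_mul 2) (hg.integrable_sq.const_mul 2)]
  refine integral_mono (hf.add hg).integrable_sq
    ((hf.integrable_sq.const_mul 2).add (hg.integrable_sq.const_mul 2)) fun x => ?_
  exact norm_add_sq_le _ _

lemma N2_const_mul (c : ℂ) (f : UnitAddCircle → ℂ) :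
    N2 (fun x => c * f x) = ‖c‖ ^ 2 * N2 f := by
  unfold N2
  rw [← integral_const_mul]
  simp_rw [norm_mul, mul_pow]

lemma N2_sum_le {ι : Type*} (S : Finset ι) {f : ι → UnitAddCircle → ℂ}
    (hf : ∀ i ∈ S, BM (f i)) :
    N2 (fun x => ∑ i ∈ S, f i x) ≤ S.card * ∑ i ∈ S, N2 (f i) := by
  unfold N2
  rw [← integral_finsetSum _ (fun i hi => (hf i hi).integrable_sq), ← integral_const_mul]
  refine integral_mono (BM.sum S hf).integrable_sq
    ((integrable_finsetSum _ (fun i hi => (hf i hi).integrable_sq)).const_mul _) fun x => ?_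
  calc ‖∑ i ∈ S, f i x‖ ^ 2 ≤ (∑ i ∈ S, ‖f i x‖) ^ 2 :=
        pow_le_pow_left₀ (norm_nonneg _) (norm_sum_le _ _) 2
    _ ≤ S.card * ∑ i ∈ S, ‖f i x‖ ^ 2 := by
        exact sq_sum_le_card_mul_sum_sq

/-! ### localization for general weights -/

lemma BM_wsum (b : ℕ) (l : ℤ) (q : ℕ) (F : UnitAddCircle → ℂ) :
    BM (fun x : UnitAddCircle => ((Real.sqrt q : ℝ) : ℂ)⁻¹ * ∑ i ∈ Finset.range q,
      F (pt q i) * (ee (l * chirp b q i) * fourier (i : ℤ) x)) :=
  BM.of_continuous (continuous_wsum b l q F)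

lemma BM_Pl (b : ℕ) (l : ℤ) (q : ℕ) : BM (Pl b l q) := BM.of_continuous (continuous_Pl b l q)

lemma BM_Dq (b : ℕ) (l : ℤ) (q : ℕ) {F : UnitAddCircle → ℂ} (hF : BM F) :
    BM (Dq b l q F) := by
  unfold Dq
  exact (BM_wsum b l q F).sub ((hF.comp (continuous_vres b l).measurable).mul (BM_Pl b l q))

/-- weighted sums have norm at most the sup of the weight -/
lemma N2_wsum_le (b : ℕ) (l : ℤ) (q : ℕ) (F : UnitAddCircle → ℂ) (C : ℝ)
    (hF : ∀ y, ‖F y‖ ≤ C) :
    N2 (fun x : UnitAddCircle => ((Real.sqrt q : ℝ) : ℂ)⁻¹ * ∑ i ∈ Finset.range q,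
      F (pt q i) * (ee (l * chirp b q i) * fourier (i : ℤ) x)) ≤ C ^ 2 := by
  have hC : 0 ≤ C := (norm_nonneg _).trans (hF 0)
  rw [N2_const_mul]
  have h1 : N2 (fun x : UnitAddCircle => ∑ i ∈ Finset.range q,
      F (pt q i) * (ee (l * chirp b q i) * fourier (i : ℤ) x)) =
      ∑ i ∈ Finset.range q, ‖F (pt q i) * ee (l * chirp b q i)‖ ^ 2 := by
    unfold N2
    rw [← integral_norm_sq_trig (Finset.range q) (fun i : ℕ => (i : ℤ))
      (fun i _ j _ h => by simpa using h) (fun i => F (pt q i) * ee (l * chirp b q i))]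
    simp_rw [mul_assoc]
  rw [h1]
  have h2 : ∑ i ∈ Finset.range q, ‖F (pt q i) * ee (l * chirp b q i)‖ ^ 2 ≤ q * C ^ 2 := by
    calc _ ≤ ∑ i ∈ Finset.range q, C ^ 2 := by
          refine Finset.sum_le_sum fun i _ => ?_
          rw [norm_mul, norm_ee, mul_one]
          exact pow_le_pow_left₀ (norm_nonneg _) (hF _) 2
      _ = _ := by simp
  rcases Nat.eq_zero_or_pos q with hq | hq
  · subst hq
    simp
    positivity
  have hq' : (0 : ℝ) < q := by exact_mod_cast hq
  have h3 : ‖(((Real.sqrt q : ℝ) : ℂ))⁻¹‖ ^ 2 = (q : ℝ)⁻¹ := by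
    rw [norm_inv, Complex.norm_real, Real.norm_of_nonneg (Real.sqrt_nonneg _), inv_pow,
      Real.sq_sqrt hq'.le]
  rw [h3, inv_mul_le_iff₀ hq']
  exact h2

lemma N2_Pl_le (b : ℕ) (l : ℤ) (q : ℕ) : N2 (Pl b l q) ≤ 1 := by
  have h := N2_wsum_le b l q (fun _ => 1) 1 (fun _ => by simp)
  simp only [one_mul, one_pow] at h
  exact h

lemma N2_Dq_le (b : ℕ) (l : ℤ) (q : ℕ) {F : UnitAddCircle → ℂ} (hF : BM F) (C : ℝ)
    (hC : ∀ y, ‖F y‖ ≤ C) : N2 (Dq b l q F) ≤ 4 * C ^ 2 := by
  have hC0 : 0 ≤ C := (norm_nonneg _).trans (hC 0)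
  have h1 := N2_wsum_le b l q F C hC
  have h2 : N2 (fun x => -(F (vres b l x) * Pl b l q x)) ≤ C ^ 2 := by
    calc N2 (fun x => -(F (vres b l x) * Pl b l q x)) ≤ N2 (fun x => (C : ℂ) * Pl b l q x) := by
          refine N2_mono ((BM.const _).mul (BM_Pl b l q)) fun x => ?_
          rw [norm_neg, norm_mul, norm_mul, Complex.norm_real, Real.norm_of_nonneg hC0]
          exact mul_le_mul_of_nonneg_right (hC _) (norm_nonneg _)
      _ = C ^ 2 * N2 (Pl b l q) := by
          rw [N2_const_mul, Complex.norm_real, Real.norm_of_nonneg hC0]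
      _ ≤ C ^ 2 * 1 := by gcongr; exact N2_Pl_le b l q
      _ = C ^ 2 := mul_one _
  have h3 := N2_add_le (BM_wsum b l q F)
    (g := fun x => -(F (vres b l x) * Pl b l q x)) (by
      have := (BM.const (-1)).mul ((hF.comp (continuous_vres b l).measurable).mul (BM_Pl b l q))
      simpa using this)
  have h4 : N2 (Dq b l q F) = N2 (fun x => ((Real.sqrt q : ℝ) : ℂ)⁻¹ * ∑ i ∈ Finset.range q,
      F (pt q i) * (ee (l * chirp b q i) * fourier (i : ℤ) x) +
        -(F (vres b l x) * Pl b l q x)) := by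
    unfold N2 Dq
    simp only [sub_eq_add_neg]
  rw [h4]
  linarith only [h1, h2, h3]

/-- localizable weights -/
def Locz (b : ℕ) (l : ℤ) (F : UnitAddCircle → ℂ) : Prop :=
  Tendsto (fun q : ℕ => N2 (Dq b l q F)) atTop (𝓝 0)

lemma Locz.arc (b : ℕ) (hb : 0 < b) (l : ℤ) (hl : l ≠ 0) (hlb : l ∣ (b : ℤ)) (K w : ℕ)
    (hK : 0 < K) (hw : w < K) :
    Locz b l (fun y => if ⌊(K : ℝ) * rep y⌋₊ = w then 1 else 0) := by
  letI : DecidablePred (· ∈ PC.arc K w) := fun z =>
    (inferInstance : Decidable (⌊(K : ℝ) * rep z⌋₊ = w))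
  have h := localization b hb l hl hlb (flatness b hb l hl hlb) (PC.arc K w)
    (measurableSet_arc K w) (frontier_arc K w hK hw)
  unfold Locz N2
  refine h.congr fun q => ?_
  congr 1
  funext x
  congr 2
  unfold Dq
  rw [Finset.sum_filter]
  simp only [ite_mul, one_mul, zero_mul]
  rfl

lemma BM_arc (K w : ℕ) :
    BM (fun y : UnitAddCircle => if ⌊(K : ℝ) * rep y⌋₊ = w then (1 : ℂ) else 0) :=
  (BM.const 1).indicator (measurableSet_arc K w)

lemma measurable_ee : Measurable ee := by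
  have : Continuous ee := by
    unfold ee
    fun_prop
  exact this.measurable

lemma norm_ee_sub_le (s t : ℝ) : ‖ee s - ee t‖ ≤ 2 * Real.pi * |s - t| := by
  have h1 : ee s - ee t = ee t * (ee (s - t) - 1) := by
    rw [mul_sub, ← ee_add]
    ring_nf
  rw [h1, norm_mul, norm_ee, one_mul]
  have h2 : ee (s - t) = Complex.exp (Complex.I * ((2 * Real.pi * (s - t) : ℝ) : ℂ)) := by
    unfold ee
    congr 1
    push_cast
    ring
  rw [h2]
  refine (Real.norm_exp_I_mul_ofReal_sub_one_le).trans ?_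
  rw [Real.norm_eq_abs, abs_mul, abs_of_pos (by positivity : (0 : ℝ) < 2 * Real.pi)]

/-- step approximation of `ee (c rep y)` -/
noncomputable def stp (c : ℝ) (K : ℕ) (y : UnitAddCircle) : ℂ :=
  ∑ w ∈ Finset.range K, ee (c * ((w : ℝ) / K)) * (if ⌊(K : ℝ) * rep y⌋₊ = w then 1 else 0)

lemma BM_stp (c : ℝ) (K : ℕ) : BM (stp c K) :=
  BM.sum _ fun w _ => (BM.const _).mul (BM_arc K w)

lemma BM_exp (c : ℝ) : BM (fun y : UnitAddCircle => ee (c * rep y)) :=
  ⟨measurable_ee.comp (measurable_rep.const_mul c), 1, fun x => (norm_ee _).le⟩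

lemma stp_near (c : ℝ) (K : ℕ) (hK0 : 0 < K) (y : UnitAddCircle) :
    ‖ee (c * rep y) - stp c K y‖ ≤ 2 * Real.pi * |c| / K := by
  have hK' : (0 : ℝ) < K := by exact_mod_cast hK0
  set w := ⌊(K : ℝ) * rep y⌋₊ with hw
  have hwK : w < K := by
    rw [hw, Nat.floor_lt (mul_nonneg hK'.le (rep_nonneg y))]
    have := rep_lt_one y
    nlinarith only [hK', this]
  have h1 : stp c K y = ee (c * ((w : ℝ) / K)) := by
    unfold stp
    rw [Finset.sum_eq_single w]
    · simp [hw]
    · intro w' _ h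
      rw [if_neg (by rw [← hw]; exact Ne.symm h), mul_zero]
    · intro h
      exact absurd (Finset.mem_range.2 hwK) h
  rw [h1]
  refine (norm_ee_sub_le _ _).trans ?_
  rw [← mul_sub, abs_mul]
  have h2 : (w : ℝ) ≤ K * rep y := Nat.floor_le (mul_nonneg hK'.le (rep_nonneg y))
  have h3 : (K : ℝ) * rep y < w + 1 := Nat.lt_floor_add_one _
  have h4 : |rep y - (w : ℝ) / K| ≤ 1 / K := by
    rw [abs_of_nonneg]
    · rw [sub_le_iff_le_add, ← add_div, le_div_iff₀ hK']
      linarith only [h3]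
    · rw [sub_nonneg, div_le_iff₀ hK']
      linarith
  calc 2 * Real.pi * (|c| * |rep y - (w : ℝ) / K|) ≤ 2 * Real.pi * (|c| * (1 / K)) := by
        gcongr
    _ = 2 * Real.pi * |c| / K := by ring

lemma Dq_stp (b : ℕ) (l : ℤ) (q : ℕ) (c : ℝ) (K : ℕ) (x : UnitAddCircle) :
    Dq b l q (stp c K) x = ∑ w ∈ Finset.range K, ee (c * ((w : ℝ) / K)) *
      Dq b l q (fun y => if ⌊(K : ℝ) * rep y⌋₊ = w then 1 else 0) x := by
  unfold Dq stp
  simp only [Finset.sum_mul, Finset.mul_sum, mul_sub, Finset.sum_sub_distrib]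
  congr 1
  · rw [Finset.sum_comm]
    refine Finset.sum_congr rfl fun w _ => Finset.sum_congr rfl fun i _ => ?_
    ring
  · refine Finset.sum_congr rfl fun w _ => ?_
    ring

lemma N2_Dq_stp_le (b : ℕ) (l : ℤ) (q : ℕ) (c : ℝ) (K : ℕ) :
    N2 (Dq b l q (stp c K)) ≤ K * ∑ w ∈ Finset.range K,
      N2 (Dq b l q (fun y => if ⌊(K : ℝ) * rep y⌋₊ = w then 1 else 0)) := by
  have h1 : N2 (Dq b l q (stp c K)) = N2 (fun x => ∑ w ∈ Finset.range K,
      ee (c * ((w : ℝ) / K)) * Dq b l q (fun y => if ⌊(K : ℝ) * rep y⌋₊ = w then 1 else 0) x) := by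
    refine N2_congr fun x => ?_
    rw [Dq_stp]
  rw [h1]
  refine (N2_sum_le _ fun w _ => (BM.const _).mul (BM_Dq b l q (BM_arc K w))).trans ?_
  rw [Finset.card_range]
  refine mul_le_mul_of_nonneg_left (Finset.sum_le_sum fun w _ => ?_) (by positivity)
  rw [N2_const_mul, norm_ee]
  simp

end PC

/-- uniform localization -/
theorem loc_unif (b : ℕ) (hb0 : 0 < b) (l : ℤ) (hl : l ≠ 0) (hlb : l ∣ (b : ℤ)) (C δ : ℝ)
    (hδ : 0 < δ) : ∃ q0 : ℕ, ∀ q ≥ q0, ∀ c : ℝ, |c| ≤ C →
      ∫ x, ‖((Real.sqrt q : ℝ) : ℂ)⁻¹ * ∑ j ∈ Finset.range q,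
        ee (c * ((j : ℝ) / q)) * (ee (l * chirp b q j) * fourier (j : ℤ) x)
          - ee (c * vp b l x) * Pl b l q x‖ ^ 2 ∂mT ≤ δ := by
  obtain ⟨K, hK⟩ := exists_nat_gt (max 1 (2 * Real.pi * C * 16 / min 1 δ))
  have hK1 : (1 : ℝ) < K := lt_of_le_of_lt (le_max_left _ _) hK
  have hK2 : 2 * Real.pi * C * 16 / min 1 δ < K := lt_of_le_of_lt (le_max_right _ _) hK
  have hK0 : 0 < K := by
    have : (0 : ℝ) < K := by linarith
    exact_mod_cast this
  have hK' : (0 : ℝ) < K := by exact_mod_cast hK0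
  have hm : 0 < min 1 δ := by positivity
  have hlim : Tendsto (fun q : ℕ => (K : ℝ) * ∑ w ∈ Finset.range K,
      PC.N2 (Dq b l q (fun y => if ⌊(K : ℝ) * rep y⌋₊ = w then 1 else 0))) atTop (𝓝 0) := by
    have h1 : Tendsto (fun q : ℕ => ∑ w ∈ Finset.range K,
        PC.N2 (Dq b l q (fun y => if ⌊(K : ℝ) * rep y⌋₊ = w then 1 else 0))) atTop
        (𝓝 (∑ w ∈ Finset.range K, 0)) := by
      refine tendsto_finsetSum _ fun w hw => ?_
      exact PC.Locz.arc b hb0 l hl hlb K w hK0 (Finset.mem_range.1 hw)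
    have h2 := h1.const_mul (K : ℝ)
    simpa using h2
  obtain ⟨q0, hq0⟩ := eventually_atTop.1
    (hlim.eventually (gt_mem_nhds (show (0 : ℝ) < δ / 4 by linarith only [hδ])))
  refine ⟨q0, fun q hq c hc => ?_⟩
  have hC : 0 ≤ C := (abs_nonneg c).trans hc
  have h1 := (PC.N2_Dq_stp_le b l q c K).trans (hq0 q hq).le
  have h2 : ∀ y, ‖ee (c * rep y) - PC.stp c K y‖ ≤ min 1 δ / 16 := by
    intro y
    refine (PC.stp_near c K hK0 y).trans ?_
    rw [div_le_iff₀ hK']
    rw [div_lt_iff₀ hm] at hK2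
    have h3 : 2 * Real.pi * |c| ≤ 2 * Real.pi * C := by gcongr
    linarith only [hK2, h3]
  have h3 := PC.N2_Dq_le b l q ((PC.BM_exp c).sub (PC.BM_stp c K)) _ h2
  have h4 : PC.N2 (Dq b l q (fun y => ee (c * rep y))) =
      PC.N2 (fun x => Dq b l q (PC.stp c K) x +
        Dq b l q (fun y => ee (c * rep y) - PC.stp c K y) x) := by
    refine PC.N2_congr fun x => ?_
    rw [← Dq_add]
    congr 2
    funext y
    ring
  have h5 := PC.N2_add_le (PC.BM_Dq b l q (PC.BM_stp c K))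
    (PC.BM_Dq b l q ((PC.BM_exp c).sub (PC.BM_stp c K)))
  have h6 : (min 1 δ / 16) ^ 2 ≤ δ / 16 := by
    have h8 : min 1 δ ≤ 1 := min_le_left _ _
    have h9 : min 1 δ ≤ δ := min_le_right _ _
    nlinarith only [hδ, hm, h8, h9]
  have h7 : ∫ x, ‖((Real.sqrt q : ℝ) : ℂ)⁻¹ * ∑ j ∈ Finset.range q,
        ee (c * ((j : ℝ) / q)) * (ee (l * chirp b q j) * fourier (j : ℤ) x)
          - ee (c * vp b l x) * Pl b l q x‖ ^ 2 ∂mT =
      PC.N2 (Dq b l q (fun y => ee (c * rep y))) := by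
    unfold PC.N2 Dq
    congr 1
    funext x
    congr 3
    congr 1
    refine Finset.sum_congr rfl fun j hj => ?_
    have hj' := Finset.mem_range.1 hj
    have hq' : (0 : ℝ) < q := by
      have : 0 < q := by omega
      exact_mod_cast this
    have h8 : rep (pt q j) = (j : ℝ) / q := by
      rw [pt]
      apply PC.rep_coe (by positivity)
      rw [div_lt_one hq']
      exact_mod_cast hj'
    show _ = ee (c * rep (pt q j)) * _
    rw [h8]
  rw [h7, h4]
  linarith only [h1, h3, h5, h6]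

lemma PC.exists_int_of_coe_eq {s t : ℝ} (h : (s : UnitAddCircle) = (t : UnitAddCircle)) :
    ∃ n : ℤ, s = t + n := by
  have h4 : ((s - t : ℝ) : UnitAddCircle) = 0 := by
    rw [AddCircle.coe_sub, h, sub_self]
  obtain ⟨n, hn⟩ := (AddCircle.coe_eq_zero_iff (1 : ℝ)).1 h4
  refine ⟨n, ?_⟩
  simp only [zsmul_eq_mul, mul_one] at hn
  linarith

lemma PC.vres_coe (b : ℕ) (l : ℤ) (t : ℝ) : vres b l (t : UnitAddCircle) =
    ((-(((b : ℤ) / l : ℤ) : ℝ) * t - (((b : ℤ) / l).natAbs : ℝ) / 2 : ℝ) : UnitAddCircle) := by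
  unfold vres
  rw [AddCircle.coe_sub]
  congr 1
  rw [← AddCircle.coe_zsmul]
  simp

/-- integrality of the label shift -/
theorem Nr_int (b : ℕ) (hb : Even b) (hb0 : 0 < b) (l : ℤ) (hl : l ≠ 0) (hlb : l ∣ (b : ℤ)) (r : ℕ)
    (hr : 2 * b ∣ r) (x : UnitAddCircle) :
    (∃ N : ℤ, (N : ℝ) = Nr b l r x) ∧ |Nr b l r x| ≤ |(l : ℝ)| * (r + 1) := by
  constructor
  · obtain ⟨β, hβ⟩ := hlb
    have hdiv : (b : ℤ) / l = β := by rw [hβ]; exact Int.mul_ediv_cancel_left β hl
    set X := rep x with hX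
    have hx : (X : UnitAddCircle) = x := PC.coe_rep x
    have hrx : (((r : ℝ) * X : ℝ) : UnitAddCircle) = (r : ℤ) • x := by
      rw [← hx, ← AddCircle.coe_zsmul]
      simp
    obtain ⟨t1, ht1⟩ := PC.exists_int_of_coe_eq
      ((PC.coe_vp b l (X : UnitAddCircle)).trans (PC.vres_coe b l X))
    obtain ⟨t2, ht2⟩ := PC.exists_int_of_coe_eq
      ((PC.coe_vp b l (((r : ℝ) * X : ℝ) : UnitAddCircle)).trans (PC.vres_coe b l _))
    rw [hx] at ht1
    rw [hrx] at ht2
    rw [hdiv] at ht1 ht2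
    obtain ⟨b', hb'⟩ := hb
    have hsg : ∃ c : ℤ, l * (β.natAbs : ℤ) = 2 * c := by
      rcases Int.natAbs_eq β with h | h
      · refine ⟨b', ?_⟩
        rw [← h, ← hβ, hb']
        push_cast
        ring
      · refine ⟨-b', ?_⟩
        have h2 : (β.natAbs : ℤ) = -β := by omega
        rw [h2, mul_neg, ← hβ, hb']
        push_cast
        ring
    obtain ⟨c, hc⟩ := hsg
    have hc' : (l : ℝ) * (β.natAbs : ℝ) = 2 * c := by
      have h9 : ((l * (β.natAbs : ℤ) : ℤ) : ℝ) = ((2 * c : ℤ) : ℝ) := by rw [hc]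
      rw [Int.cast_mul, Int.cast_mul, Int.cast_natCast] at h9
      rw [h9]
      norm_num
    refine ⟨(1 - r) * c + l * (r * t1 - t2), ?_⟩
    unfold Nr
    rw [ht1, ht2]
    push_cast
    linear_combination (((r : ℝ) - 1) / 2) * hc'
  · unfold Nr
    rw [abs_mul]
    refine mul_le_mul_of_nonneg_left ?_ (abs_nonneg _)
    have h1 := PC.vp_nonneg b l x
    have h2 := PC.vp_lt_one b l x
    have h3 := PC.vp_nonneg b l ((r : ℤ) • x)
    have h4 := PC.vp_lt_one b l ((r : ℤ) • x)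
    have h5 : (0 : ℝ) ≤ r := by positivity
    rw [abs_le]
    constructor <;> nlinarith

end Vale.Agent.P130
end
end

section

section

open MeasureTheory Filter Topology

namespace Vale.Agent.P130

namespace A1

lemma coe_rep (y : UnitAddCircle) : ((rep y : ℝ) : UnitAddCircle) = y :=
  (AddCircle.equivIco (1 : ℝ) 0).symm_apply_apply y

lemma measurable_rep : Measurable rep :=
  measurable_subtype_coe.comp (AddCircle.measurableEquivIco 1 0).measurable

lemma measurable_vp (b : ℕ) (l : ℤ) : Measurable (vp b l) :=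
  measurable_rep.comp (continuous_vres b l).measurable

lemma rep_pt (q i : ℕ) (h : i < q) : rep (pt q i) = (i : ℝ) / q := by
  have hq : (0 : ℝ) < q := by exact_mod_cast (Nat.zero_le i).trans_lt h
  have h1 : ((i : ℝ) / q) ∈ Set.Ico (0 : ℝ) (0 + 1) := by
    constructor
    · positivity
    · rw [zero_add, div_lt_one hq]
      exact_mod_cast h
  have h2 := AddCircle.equivIco_coe_of_mem h1
  unfold rep pt
  rw [h2]

/-- `K a / r` is the cell of `a / r` -/
lemma cell_pt (K r a : ℕ) (h : a < r) : cell K (pt r a) = K * a / r := by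
  have h1 : (K : ℝ) * (AddCircle.equivIco 1 0 (pt r a) : ℝ) = ((K * a : ℕ) : ℝ) / (r : ℝ) := by
    have := rep_pt r a h
    unfold rep at this
    rw [this]
    push_cast
    ring
  rw [cell, h1, Nat.floor_div_natCast, Nat.floor_natCast]

lemma fourier_vp (b : ℕ) (l p : ℤ) (x : UnitAddCircle) :
    ee (p * vp b l x) = fourier p (vres b l x) := by
  rw [← coe_rep (vres b l x), fourier_coe_eq_ee]
  rfl

lemma frontier_cell (K : ℕ) (hK : 0 < K) (w : ℕ) :
    (AddCircle.haarAddCircle (T := 1)) (frontier {y | cell K y = w}) = 0 := by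
  apply measure_mono_null (t := Set.range (fun i : ℕ => (((i : ℝ) / K : ℝ) : UnitAddCircle)))
  · intro t ht
    by_contra hne
    have h1 : ∀ i : ℕ, t ≠ (((i : ℝ) / K : ℝ) : UnitAddCircle) := by
      intro i hi
      exact hne ⟨i, hi.symm⟩
    have h2 := cell_eventuallyEq K hK t h1
    rw [frontier_eq_closure_inter_closure] at ht
    obtain ⟨ha, hb⟩ := ht
    rw [mem_closure_iff_frequently] at ha hb
    obtain ⟨y, hy1, hy2⟩ := (ha.and_eventually h2).exists
    obtain ⟨z, hz1, hz2⟩ := (hb.and_eventually h2).exists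
    simp only [Set.mem_ofPred_eq, Set.mem_compl_iff] at hy1 hz1
    rw [hy2] at hy1
    rw [hz2] at hz1
    exact hz1 hy1
  · exact measure_countable_eq_zero _ (Set.countable_range _)

/-- shifting the index window and a constant phase -/
lemma shift_trig_bound (u : ℤ → ℂ) (hu : ∀ j, ‖u j‖ ≤ 1) (κ : ℂ) (hκ : ‖κ‖ = 1) (r : ℕ)
    (hr : 0 < r) (m : ℤ) :
    ∫ x, ‖((Real.sqrt r : ℝ) : ℂ)⁻¹ * (κ * ∑ j ∈ Finset.Ico (-m) ((r : ℤ) - m), u j * fourier j x
      - ∑ j ∈ Finset.Ico (0 : ℤ) r, u j * fourier j x)‖ ^ 2 ∂mT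
      ≤ ‖κ - 1‖ ^ 2 + 2 * (m.natAbs : ℝ) / r := by
  classical
  have hr' : (0 : ℝ) < r := by exact_mod_cast hr
  set I0 := Finset.Ico (0 : ℤ) r with hI0
  set I1 := Finset.Ico (-m) ((r : ℤ) - m) with hI1
  set d : ℤ → ℂ := fun j => ((Real.sqrt r : ℝ) : ℂ)⁻¹ *
    ((if j ∈ I1 then κ * u j else 0) - (if j ∈ I0 then u j else 0)) with hd
  have key : ∀ x : UnitAddCircle, ((Real.sqrt r : ℝ) : ℂ)⁻¹ * (κ * ∑ j ∈ I1, u j * fourier j x
      - ∑ j ∈ I0, u j * fourier j x) = ∑ j ∈ I0 ∪ I1, d j * fourier j x := by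
    intro x
    simp only [hd, mul_assoc, ← Finset.mul_sum, sub_mul, Finset.sum_sub_distrib, ite_mul, zero_mul]
    rw [Finset.sum_ite_mem, Finset.sum_ite_mem,
      Finset.inter_eq_right.2 Finset.subset_union_left,
      Finset.inter_eq_right.2 Finset.subset_union_right, Finset.mul_sum]
  simp_rw [key]
  have h0 := integral_norm_sq_trig (I0 ∪ I1) (fun j => j) (fun a _ b _ h => h) d
  refine h0.le.trans ?_
  have hs2 : ‖((Real.sqrt r : ℝ) : ℂ)⁻¹‖ ^ 2 = 1 / r := by
    rw [norm_inv, Complex.norm_real, Real.norm_eq_abs, abs_of_nonneg (Real.sqrt_nonneg _),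
      inv_pow, Real.sq_sqrt hr'.le, one_div]
  have hdn : ∀ j ∈ I0 ∪ I1, ‖d j‖ ^ 2 ≤ (if j ∈ I0 then 1 / (r : ℝ) * ‖κ - 1‖ ^ 2 else 0) +
      (if j ∈ I0 \ I1 then 1 / (r : ℝ) else 0) + (if j ∈ I1 \ I0 then 1 / (r : ℝ) else 0) := by
    intro j hj
    have hu1 : ‖u j‖ ^ 2 ≤ 1 := pow_le_one₀ (norm_nonneg _) (hu j)
    by_cases h0 : j ∈ I0 <;> by_cases h1 : j ∈ I1
    · have : d j = ((Real.sqrt r : ℝ) : ℂ)⁻¹ * (u j * (κ - 1)) := by
        simp only [hd, h0, h1, if_true]; ring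
      rw [this, norm_mul, mul_pow, norm_mul, mul_pow, hs2]
      simp only [Finset.mem_sdiff, h0, h1, if_true, not_true_eq_false, and_false,
        if_false, add_zero]
      gcongr
      nlinarith only [sq_nonneg ‖κ - 1‖, hu1]
    · have : d j = -(((Real.sqrt r : ℝ) : ℂ)⁻¹ * u j) := by
        simp only [hd, h0, h1, if_true, if_false]; ring
      rw [this, norm_neg, norm_mul, mul_pow, hs2]
      simp only [h0, h1, Finset.mem_sdiff, if_true, not_false_eq_true, and_self,
        not_true_eq_false, if_false, add_zero]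
      have e1 : 0 ≤ 1 / (r : ℝ) * ‖κ - 1‖ ^ 2 := by positivity
      have e2 : 1 / (r : ℝ) * ‖u j‖ ^ 2 ≤ 1 / r := by
        have : 0 ≤ 1 / (r : ℝ) := by positivity
        nlinarith only [hs2, hu1]
      linarith only [e1, e2]
    · have : d j = ((Real.sqrt r : ℝ) : ℂ)⁻¹ * (κ * u j) := by
        simp only [hd, h0, h1, if_true, if_false]; ring
      rw [this, norm_mul, norm_mul, hκ, one_mul, mul_pow, hs2]
      simp only [h0, h1, Finset.mem_sdiff, if_true, not_false_eq_true, and_self,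
        not_true_eq_false, if_false, zero_add]
      have : 0 ≤ 1 / (r : ℝ) := by positivity
      nlinarith only [hs2, hu1]
    · exfalso
      rw [Finset.mem_union] at hj
      tauto
  calc _ ≤ ∑ j ∈ I0 ∪ I1, ((if j ∈ I0 then 1 / (r : ℝ) * ‖κ - 1‖ ^ 2 else 0) +
      (if j ∈ I0 \ I1 then 1 / (r : ℝ) else 0) + (if j ∈ I1 \ I0 then 1 / (r : ℝ) else 0)) :=
        Finset.sum_le_sum hdn
    _ = (I0.card : ℝ) * (1 / (r : ℝ) * ‖κ - 1‖ ^ 2) + ((I0 \ I1).card : ℝ) * (1 / r) +
        ((I1 \ I0).card : ℝ) * (1 / r) := by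
      rw [Finset.sum_add_distrib, Finset.sum_add_distrib]
      congr 1
      · congr 1
        · rw [Finset.sum_ite_mem, Finset.inter_eq_right.2 Finset.subset_union_left,
            Finset.sum_const, nsmul_eq_mul]
        · rw [Finset.sum_ite_mem, Finset.inter_eq_right.2
            (Finset.sdiff_subset.trans Finset.subset_union_left), Finset.sum_const, nsmul_eq_mul]
      · rw [Finset.sum_ite_mem, Finset.inter_eq_right.2
            (Finset.sdiff_subset.trans Finset.subset_union_right), Finset.sum_const, nsmul_eq_mul]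
    _ ≤ (r : ℝ) * (1 / (r : ℝ) * ‖κ - 1‖ ^ 2) + (m.natAbs : ℝ) * (1 / r) +
        (m.natAbs : ℝ) * (1 / r) := by
      have e0 : (I0.card : ℝ) = r := by rw [hI0, Int.card_Ico]; simp
      have e1 : ((I0 \ I1).card : ℝ) ≤ (m.natAbs : ℝ) := by
        exact_mod_cast card_sdiff_shift r m
      have e2 : ((I1 \ I0).card : ℝ) ≤ (m.natAbs : ℝ) := by
        exact_mod_cast card_sdiff_shift' r m
      rw [e0]
      gcongr
    _ = _ := by
      field_simp
      ring

/-- the summand of the inner chirp sum -/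
lemma term_eq (b r : ℕ) (hb : 0 < b) (hr : 0 < r) (l : ℤ) (s a : ℕ) (x : UnitAddCircle) :
    ee (l * (((a : ℝ) - s) ^ 2 / (2 * b) + (a : ℝ) ^ 2 / (2 * b * r))) * fourier ((a : ℤ) - s) x =
      (fourier (-(s : ℤ)) x * ee (l * (s : ℝ) ^ 2 / (2 * b))) *
        (ee (l * chirp b r a) * fourier (a : ℤ) (x - ((l * s / b : ℝ) : UnitAddCircle))) := by
  have hb' : (b : ℝ) ≠ 0 := by exact_mod_cast hb.ne'
  have hr' : (r : ℝ) ≠ 0 := by exact_mod_cast hr.ne'
  induction x using QuotientAddGroup.induction_on with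
  | H t =>
    have h1 : (((t : ℝ) : UnitAddCircle) - ((l * s / b : ℝ) : UnitAddCircle)) =
        ((t - l * s / b : ℝ) : UnitAddCircle) := (AddCircle.coe_sub _ _ _).symm
    have h2 : ee (l * (((a : ℝ) - s) ^ 2 / (2 * b) + (a : ℝ) ^ 2 / (2 * b * r))) *
        fourier ((a : ℤ) - s) ((t : ℝ) : UnitAddCircle) =
      (fourier (-(s : ℤ)) ((t : ℝ) : UnitAddCircle) * ee (l * (s : ℝ) ^ 2 / (2 * b))) *
        (ee (l * chirp b r a) *
          fourier (a : ℤ) (((t : ℝ) : UnitAddCircle) - ((l * s / b : ℝ) : UnitAddCircle))) := by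
      rw [h1, fourier_coe_eq_ee, fourier_coe_eq_ee, fourier_coe_eq_ee, ← ee_add, ← ee_add,
        ← ee_add, ← ee_add]
      congr 1
      unfold chirp
      push_cast
      field_simp
      ring
    exact h2

/-- the resonance is unchanged by the shift -/
lemma vres_shift (b : ℕ) (l : ℤ) (hb : 0 < b) (hl : l ≠ 0) (hlb : l ∣ (b : ℤ)) (s : ℕ)
    (x : UnitAddCircle) :
    vres b l (x - ((l * s / b : ℝ) : UnitAddCircle)) = vres b l x := by
  obtain ⟨β, hβ⟩ := hlb
  have hdiv : (b : ℤ) / l = β := by rw [hβ]; exact Int.mul_ediv_cancel_left β hl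
  have hb' : (b : ℝ) ≠ 0 := by exact_mod_cast hb.ne'
  unfold vres
  rw [hdiv, smul_sub]
  have h1 : -β • (((l * s / b : ℝ) : UnitAddCircle)) = 0 := by
    rw [← AddCircle.coe_zsmul, zsmul_eq_mul]
    have h2 : (((-β : ℤ) : ℝ) * (l * s / b) : ℝ) = ((-(s : ℤ) : ℤ) : ℝ) := by
      have h3 : ((l : ℝ) * β) = b := by
        have : ((l * β : ℤ) : ℝ) = ((b : ℤ) : ℝ) := by rw [hβ]
        push_cast at this
        exact this
      push_cast
      rw [mul_div_assoc', div_eq_iff hb', ← h3]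
      ring
    rw [h2]
    have h4 : (((-(s : ℤ) : ℤ) : ℝ) : UnitAddCircle) = (-(s : ℤ)) • ((1 : ℝ) : UnitAddCircle) := by
      rw [← AddCircle.coe_zsmul]
      simp
    rw [h4, AddCircle.coe_period, smul_zero]
  rw [h1, sub_zero]

/-- the shift defect -/
noncomputable def Dd (b : ℕ) (l : ℤ) (r s : ℕ) (x : UnitAddCircle) : ℂ :=
  (fourier (-(s : ℤ)) x * ee (l * (s : ℝ) ^ 2 / (2 * b))) *
      Pl b l r (x - ((l * s / b : ℝ) : UnitAddCircle))
    - Pl b l r x * ee (l * s / b * vp b l x)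

/-- the shift defect is periodic in `s` up to a unimodular factor -/
lemma norm_Dd_add (b : ℕ) (hb : 0 < b) (l : ℤ) (hl : l ≠ 0) (β : ℤ) (hβ : (b : ℤ) = l * β)
    (r s : ℕ) (x : UnitAddCircle) :
    ‖Dd b l r (s + β.natAbs) x‖ = ‖Dd b l r s x‖ := by
  have hdiv : (b : ℤ) / l = β := by rw [hβ]; exact Int.mul_ediv_cancel_left β hl
  have hb' : (b : ℝ) ≠ 0 := by exact_mod_cast hb.ne'
  set B : ℕ := β.natAbs with hB
  -- `σ = l B / b` is `± 1`
  obtain ⟨σ, hσ, hσβ, hσσ⟩ : ∃ σ : ℤ, (l * B : ℤ) = σ * b ∧ σ * β = B ∧ (σ * σ = 1) := by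
    rcases lt_or_gt_of_ne (show β ≠ 0 by rintro rfl; simp at hβ; omega) with h | h
    · refine ⟨-1, ?_, ?_, by norm_num⟩
      · rw [hβ]
        have : (B : ℤ) = -β := by omega
        rw [this]; ring
      · omega
    · refine ⟨1, ?_, ?_, by norm_num⟩
      · rw [hβ]
        have : (B : ℤ) = β := by omega
        rw [this]; ring
      · omega
  have hσr : (l : ℝ) * B = σ * b := by exact_mod_cast hσ
  have hσβr : (σ : ℝ) * β = B := by exact_mod_cast hσβ
  have hσσr : (σ : ℝ) * σ = 1 := by exact_mod_cast hσσ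
  have habs : |(β : ℝ)| = B := by
    rw [hB, Nat.cast_natAbs]
    push_cast
    rfl
  have c1 : ((l * ((s + B : ℕ) : ℝ) / b : ℝ) : UnitAddCircle) = ((l * s / b : ℝ) : UnitAddCircle) := by
    have h1 : (l * ((s + B : ℕ) : ℝ) / b : ℝ) = l * s / b + σ := by
      push_cast
      rw [mul_add, hσr]
      field_simp
    rw [h1, AddCircle.coe_add]
    have h4 : (((σ : ℤ) : ℝ) : UnitAddCircle) = σ • ((1 : ℝ) : UnitAddCircle) := by
      rw [← AddCircle.coe_zsmul]
      simp
    rw [h4, AddCircle.coe_period, smul_zero, add_zero]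
  have c2 : ee (l * ((s + B : ℕ) : ℝ) ^ 2 / (2 * b)) =
      ee (l * (s : ℝ) ^ 2 / (2 * b)) * ee (σ * B / 2) := by
    have h1 : (l * ((s + B : ℕ) : ℝ) ^ 2 / (2 * b) : ℝ) =
        (l * (s : ℝ) ^ 2 / (2 * b) + σ * B / 2) + ((σ * s : ℤ) : ℝ) := by
      have h2 : (l * ((s + B : ℕ) : ℝ) ^ 2 : ℝ) = l * s ^ 2 + (l * B) * (2 * s + B) := by
        push_cast
        ring
      rw [h2, hσr]
      push_cast
      field_simp
      ring
    rw [h1, ee_add_int, ee_add]
  have c3 : fourier (-((s + B : ℕ) : ℤ)) x = fourier (-(s : ℤ)) x * fourier (-(B : ℤ)) x := by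
    have h1 : (-((s + B : ℕ) : ℤ)) = -(s : ℤ) + -(B : ℤ) := by
      push_cast
      ring
    rw [h1, fourier_add]
  have c4 : ee (l * ((s + B : ℕ) : ℝ) / b * vp b l x) =
      ee (l * s / b * vp b l x) * (fourier (-(B : ℤ)) x * ee (σ * B / 2)) := by
    have h1 : (l * ((s + B : ℕ) : ℝ) / b * vp b l x : ℝ) =
        l * s / b * vp b l x + σ * vp b l x := by
      have h2 : (l * ((s + B : ℕ) : ℝ) / b : ℝ) = l * s / b + σ := by
        push_cast
        rw [mul_add, hσr]
        field_simp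
      rw [h2]
      ring
    rw [h1, ee_add, fourier_vp, fourier_vres b l β σ hdiv, hσβ, habs]
    have h3 : ee (-(σ * B / 2)) = ee (σ * B / 2) := by
      have h4 : (σ * B / 2 : ℝ) = -(σ * B / 2) + ((σ * B : ℤ) : ℝ) := by
        push_cast
        ring
      conv_rhs => rw [h4, ee_add_int]
    rw [h3]
    ring
  have key : Dd b l r (s + B) x =
      (fourier (-(B : ℤ)) x * ee (σ * B / 2)) * Dd b l r s x := by
    unfold Dd
    rw [c1, c2, c3, c4]
    ring
  rw [key, norm_mul, norm_mul, norm_fourier_apply, norm_ee, one_mul, one_mul]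

lemma norm_Dd_mod (b : ℕ) (hb : 0 < b) (l : ℤ) (hl : l ≠ 0) (β : ℤ) (hβ : (b : ℤ) = l * β)
    (r s : ℕ) (x : UnitAddCircle) :
    ‖Dd b l r s x‖ = ‖Dd b l r (s % β.natAbs) x‖ := by
  have h1 : ∀ k s0 : ℕ, ‖Dd b l r (s0 + k * β.natAbs) x‖ = ‖Dd b l r s0 x‖ := by
    intro k
    induction k with
    | zero => intro s0; simp
    | succ k ih =>
      intro s0
      have : s0 + (k + 1) * β.natAbs = (s0 + k * β.natAbs) + β.natAbs := by ring
      rw [this, norm_Dd_add b hb l hl β hβ, ih]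
  have h2 := h1 (s / β.natAbs) (s % β.natAbs)
  rw [← h2]
  congr 2
  have := Nat.mod_add_div s β.natAbs
  rw [mul_comm (s / β.natAbs)]
  exact this.symm

lemma continuous_shift (c : ℝ) : Continuous (fun x : UnitAddCircle => x - (c : UnitAddCircle)) :=
  continuous_id.sub continuous_const

lemma continuous_Pl_shift (b : ℕ) (l : ℤ) (r : ℕ) (c : ℝ) :
    Continuous (fun x : UnitAddCircle => Pl b l r (x - (c : UnitAddCircle))) :=
  (continuous_Pl b l r).comp (continuous_shift c)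

lemma measurable_ee : Measurable ee := by
  unfold ee
  fun_prop

lemma measurable_Dd (b : ℕ) (l : ℤ) (r s : ℕ) : Measurable (Dd b l r s) := by
  unfold Dd
  refine Measurable.sub ?_ ?_
  · exact (((fourier (-(s : ℤ))).continuous.mul continuous_const).mul
      (continuous_Pl_shift b l r _)).measurable
  · exact (continuous_Pl b l r).measurable.mul
      (measurable_ee.comp (measurable_const.mul (measurable_vp b l)))

lemma norm_Pl_le (b : ℕ) (l : ℤ) (r : ℕ) (x : UnitAddCircle) : ‖Pl b l r x‖ ≤ r := by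
  unfold Pl
  rw [norm_mul, norm_inv, Complex.norm_real, Real.norm_eq_abs, abs_of_nonneg (Real.sqrt_nonneg _)]
  rcases Nat.eq_zero_or_pos r with rfl | hr
  · simp
  have h1 : ‖∑ i ∈ Finset.range r, ee (l * chirp b r i) * fourier (i : ℤ) x‖ ≤ r := by
    refine (norm_sum_le _ _).trans ?_
    have : ∀ i ∈ Finset.range r, ‖ee (l * chirp b r i) * fourier (i : ℤ) x‖ ≤ 1 := by
      intro i _
      rw [norm_mul, norm_ee, norm_fourier_apply, one_mul]
    refine (Finset.sum_le_sum this).trans ?_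
    simp
  have h2 : (Real.sqrt r)⁻¹ ≤ 1 := by
    apply inv_le_one_of_one_le₀
    rw [Real.one_le_sqrt]
    exact_mod_cast hr
  calc _ ≤ 1 * (r : ℝ) := by
        apply mul_le_mul h2 h1 (norm_nonneg _) zero_le_one
    _ = r := one_mul _

lemma norm_Dd_le (b : ℕ) (l : ℤ) (r s : ℕ) (x : UnitAddCircle) : ‖Dd b l r s x‖ ≤ 2 * r := by
  unfold Dd
  refine (norm_sub_le _ _).trans ?_
  rw [norm_mul, norm_mul, norm_mul, norm_fourier_apply, norm_ee, norm_ee, one_mul, one_mul,
    mul_one]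
  have h1 := norm_Pl_le b l r x
  have h2 := norm_Pl_le b l r (x - ((l * s / b : ℝ) : UnitAddCircle))
  linarith

lemma integrable_of_meas_bdd {f : UnitAddCircle → ℝ} (hf : Measurable f) (C : ℝ)
    (h : ∀ x, ‖f x‖ ≤ C) : Integrable f mT :=
  Integrable.of_bound hf.aestronglyMeasurable C (Eventually.of_forall h)

lemma integrable_Dd_sq (b : ℕ) (l : ℤ) (r s : ℕ) :
    Integrable (fun x => ‖Dd b l r s x‖ ^ 2) mT := by
  apply integrable_of_meas_bdd ((measurable_Dd b l r s).norm.pow_const 2) ((2 * r) ^ 2)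
  intro x
  rw [Real.norm_of_nonneg (by positivity)]
  exact pow_le_pow_left₀ (norm_nonneg _) (norm_Dd_le b l r s x) 2

lemma continuous_ee : Continuous ee := by
  unfold ee
  fun_prop

/-- the shifted chirp in expanded form -/
lemma shift_expand (b r : ℕ) (hb : 0 < b) (hr : 0 < r) (l : ℤ) (s : ℕ) (x : UnitAddCircle) :
    (fourier (-(s : ℤ)) x * ee (l * (s : ℝ) ^ 2 / (2 * b))) *
      Pl b l r (x - ((l * s / b : ℝ) : UnitAddCircle)) =
    ((Real.sqrt r : ℝ) : ℂ)⁻¹ * (ee (l * (s : ℝ) ^ 2 / (2 * b * r)) *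
      ∑ j ∈ Finset.Ico (-(s : ℤ)) ((r : ℤ) - s),
        (ee (l * s / b * ((j : ℝ) / r)) * ee (l * (((r : ℝ) + 1) / ((b : ℝ) * r) * (j : ℝ) ^ 2 / 2)))
          * fourier j x) := by
  have hb' : (b : ℝ) ≠ 0 := by exact_mod_cast hb.ne'
  have hr' : (r : ℝ) ≠ 0 := by exact_mod_cast hr.ne'
  set g : ℤ → ℂ := fun a =>
    ee (l * (((a : ℝ) - s) ^ 2 / (2 * b) + (a : ℝ) ^ 2 / (2 * b * r))) * fourier (a - s) x with hg
  have h1 : (fourier (-(s : ℤ)) x * ee (l * (s : ℝ) ^ 2 / (2 * b))) *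
      Pl b l r (x - ((l * s / b : ℝ) : UnitAddCircle)) =
      ((Real.sqrt r : ℝ) : ℂ)⁻¹ * ∑ a ∈ Finset.range r, g a := by
    unfold Pl
    rw [mul_left_comm, Finset.mul_sum]
    congr 1
    apply Finset.sum_congr rfl
    intro a _
    rw [← term_eq b r hb hr l s a x, hg]
    simp only [Int.cast_natCast]
  rw [h1, sum_range_eq_sum_Ico]
  have h2 := Finset.sum_Ico_add' g (-(s : ℤ)) ((r : ℤ) - s) (s : ℤ)
  rw [neg_add_cancel, sub_add_cancel] at h2
  rw [← h2]
  congr 1
  rw [Finset.mul_sum]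
  apply Finset.sum_congr rfl
  intro j _
  simp only [hg, add_sub_cancel_right]
  rw [← mul_assoc, ← ee_add, ← ee_add]
  congr 2
  push_cast
  field_simp
  ring

lemma Dd_tendsto (b : ℕ) (hb0 : 0 < b) (l : ℤ) (hl : l ≠ 0) (hlb : l ∣ (b : ℤ)) (s : ℕ)
    (δ : ℝ) (hδ : 0 < δ) : ∃ r0 : ℕ, ∀ r ≥ r0, ∫ x, ‖Dd b l r s x‖ ^ 2 ∂mT ≤ δ := by
  obtain ⟨q0, hq0⟩ := loc_unif b hb0 l hl hlb |(l * s / b : ℝ)| (δ / 4) (by positivity)
  have hκt : Tendsto (fun r : ℕ => ‖ee (l * (s : ℝ) ^ 2 / (2 * b * r)) - 1‖ ^ 2 +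
      2 * ((s : ℤ).natAbs : ℝ) / r) atTop (𝓝 0) := by
    have h1 : Tendsto (fun r : ℕ => (l * (s : ℝ) ^ 2 / (2 * b * r) : ℝ)) atTop (𝓝 0) := by
      have : (fun r : ℕ => (l * (s : ℝ) ^ 2 / (2 * b * r) : ℝ)) =
          fun r : ℕ => (l * (s : ℝ) ^ 2 / (2 * b)) / (r : ℝ) := by
        funext r
        rw [div_div]
      rw [this]
      exact tendsto_const_div_atTop_nhds_zero_nat _
    have h2 : Tendsto (fun r : ℕ => ‖ee (l * (s : ℝ) ^ 2 / (2 * b * r)) - 1‖ ^ 2) atTop (𝓝 0) := by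
      have h3 := (continuous_ee.tendsto 0).comp h1
      have h4 := ((h3.sub_const 1).norm.pow 2)
      rw [ee_zero] at h4
      simpa using h4
    have h5 := h2.add (tendsto_const_div_atTop_nhds_zero_nat (2 * ((s : ℤ).natAbs : ℝ)))
    simpa using h5
  have hev := hκt.eventually (gt_mem_nhds (show 0 < δ / 4 by positivity))
  obtain ⟨r1, hr1⟩ := eventually_atTop.1 hev
  refine ⟨max (max q0 r1) 1, fun r hr => ?_⟩
  have hrq : q0 ≤ r := (le_max_left _ _).trans ((le_max_left _ _).trans hr)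
  have hr1' : r1 ≤ r := (le_max_right _ _).trans ((le_max_left _ _).trans hr)
  have hr0 : 0 < r := (le_max_right _ _).trans hr
  have b1 := hr1 r hr1'
  have b2 := hq0 r hrq (l * s / b) le_rfl
  set κ : ℂ := ee (l * (s : ℝ) ^ 2 / (2 * b * r)) with hκ
  set u : ℤ → ℂ := fun j => ee (l * s / b * ((j : ℝ) / r)) *
    ee (l * (((r : ℝ) + 1) / ((b : ℝ) * r) * (j : ℝ) ^ 2 / 2)) with hu
  have hu1 : ∀ j, ‖u j‖ ≤ 1 := by
    intro j
    simp only [hu]
    rw [norm_mul, norm_ee, norm_ee, one_mul]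
  have b3 := shift_trig_bound u hu1 κ (norm_ee _) r hr0 (s : ℤ)
  set f : UnitAddCircle → ℂ := fun x => ((Real.sqrt r : ℝ) : ℂ)⁻¹ *
    (κ * ∑ j ∈ Finset.Ico (-(s : ℤ)) ((r : ℤ) - s), u j * fourier j x
      - ∑ j ∈ Finset.Ico (0 : ℤ) r, u j * fourier j x) with hf
  set g : UnitAddCircle → ℂ := fun x => ((Real.sqrt r : ℝ) : ℂ)⁻¹ * ∑ j ∈ Finset.range r,
          ee (l * s / b * ((j : ℝ) / r)) * (ee (l * chirp b r j) * fourier (j : ℤ) x)
        - ee (l * s / b * vp b l x) * Pl b l r x with hg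
  have hfg : ∀ x, Dd b l r s x = f x + g x := by
    intro x
    have h1 : ∑ j ∈ Finset.range r,
          ee (l * s / b * ((j : ℝ) / r)) * (ee (l * chirp b r j) * fourier (j : ℤ) x) =
        ∑ j ∈ Finset.Ico (0 : ℤ) r, u j * fourier j x := by
      rw [← sum_range_eq_sum_Ico]
      apply Finset.sum_congr rfl
      intro j _
      simp only [hu, chirp, Int.cast_natCast]
      ring
    simp only [hf, hg]
    rw [h1]
    unfold Dd
    rw [shift_expand b r hb0 hr0]
    simp only [hu]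
    ring
  have hpt : ∀ x, ‖Dd b l r s x‖ ^ 2 ≤ 2 * ‖f x‖ ^ 2 + 2 * ‖g x‖ ^ 2 := by
    intro x
    rw [hfg]
    exact norm_add_sq_le _ _
  have cf : Continuous f := by
    apply Continuous.mul continuous_const
    apply Continuous.sub
    · apply Continuous.mul continuous_const
      apply continuous_finsetSum
      intro j _
      exact continuous_const.mul (fourier j).continuous
    · apply continuous_finsetSum
      intro j _
      exact continuous_const.mul (fourier j).continuous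
  have if1 : Integrable (fun x => 2 * ‖f x‖ ^ 2) mT :=
    integrable_of_continuous (continuous_const.mul (cf.norm.pow 2))
  have hge : g = fun x => Dd b l r s x - f x := by
    funext x
    rw [hfg]
    ring
  have mg : Measurable g := by
    rw [hge]
    exact (measurable_Dd b l r s).sub cf.measurable
  obtain ⟨C, hC⟩ : ∃ C, ∀ x, ‖f x‖ ≤ C := by
    obtain ⟨C, hC⟩ := isCompact_univ.exists_bound_of_continuousOn (cf.continuousOn (s := Set.univ))
    exact ⟨C, fun x => hC x (Set.mem_univ x)⟩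
  have ig1 : Integrable (fun x => 2 * ‖g x‖ ^ 2) mT := by
    apply integrable_of_meas_bdd ((mg.norm.pow_const 2).const_mul 2) (2 * (2 * r + C) ^ 2)
    intro x
    rw [Real.norm_of_nonneg (by positivity)]
    have h1 : ‖g x‖ ≤ 2 * r + C := by
      rw [hge]
      exact (norm_sub_le _ _).trans (add_le_add (norm_Dd_le b l r s x) (hC x))
    have := pow_le_pow_left₀ (norm_nonneg _) h1 2
    linarith only [this]
  calc ∫ x, ‖Dd b l r s x‖ ^ 2 ∂mT ≤ ∫ x, (2 * ‖f x‖ ^ 2 + 2 * ‖g x‖ ^ 2) ∂mT := by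
        apply integral_mono_of_nonneg (Eventually.of_forall (fun x => by positivity))
          (if1.add ig1) (Eventually.of_forall hpt)
    _ = 2 * ∫ x, ‖f x‖ ^ 2 ∂mT + 2 * ∫ x, ‖g x‖ ^ 2 ∂mT := by
        rw [integral_add if1 ig1, integral_const_mul, integral_const_mul]
    _ ≤ 2 * (δ / 4) + 2 * (δ / 4) := by
        have := b3.trans b1.le
        gcongr
    _ = δ := by ring

end A1

/-- the inner chirp sum of slot indices `a < r` shifted by `s`, uniformly in `s` -/
theorem A1_approx (K b : ℕ) (hK : 1 ≤ K) (hb0 : 0 < b) (l : ℤ) (hl : l ≠ 0) (hlb : l ∣ (b : ℤ))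
    (δ : ℝ) (hδ : 0 < δ) : ∃ r0 : ℕ, ∀ r ≥ r0, ∀ w < K, ∀ s : ℕ,
    ∫ x, ‖((Real.sqrt r : ℝ) : ℂ)⁻¹ * ∑ a ∈ (Finset.range r).filter (fun a => K * a / r = w),
        ee (l * (((a : ℝ) - s) ^ 2 / (2 * b) + (a : ℝ) ^ 2 / (2 * b * r))) * fourier ((a : ℤ) - s) x
      - (if ⌊(K : ℝ) * vp b l x⌋₊ = w then Pl b l r x * ee (l * s / b * vp b l x) else 0)‖ ^ 2
      ∂mT ≤ δ := by
  classical
  obtain ⟨β, hβ⟩ := id hlb
  have hβ0 : β ≠ 0 := by
    rintro rfl
    simp at hβ
    omega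
  -- shift defects
  have hs : ∀ s : ℕ, ∃ r0 : ℕ, ∀ r ≥ r0, ∫ x, ‖A1.Dd b l r s x‖ ^ 2 ∂mT ≤ δ / 4 :=
    fun s => A1.Dd_tendsto b hb0 l hl hlb s (δ / 4) (by positivity)
  choose rs hrs using hs
  -- localization
  have hflat := flatness b hb0 l hl hlb
  have hw : ∀ w : ℕ, ∃ r0 : ℕ, ∀ r ≥ r0, ∫ x, ‖((Real.sqrt r : ℝ) : ℂ)⁻¹ *
        ∑ i ∈ (Finset.range r).filter (fun i : ℕ => (((i : ℝ) / r : ℝ) : UnitAddCircle) ∈
          {y | cell K y = w}),
          ee (l * chirp b r i) * fourier (i : ℤ) x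
        - (if vres b l x ∈ {y | cell K y = w} then Pl b l r x else 0)‖ ^ 2 ∂mT ≤ δ / 4 := by
    intro w
    have h1 := localization b hb0 l hl hlb hflat {y | cell K y = w}
      (measurable_cell K (measurableSet_singleton w)) (A1.frontier_cell K hK w)
    have h2 := h1.eventually (gt_mem_nhds (show 0 < δ / 4 by positivity))
    obtain ⟨r0, hr0⟩ := eventually_atTop.1 h2
    exact ⟨r0, fun r hr => (hr0 r hr).le⟩
  choose rw' hrw using hw
  refine ⟨max (max ((Finset.range β.natAbs).sup rs) ((Finset.range K).sup rw')) 1,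
    fun r hr w hwK s => ?_⟩
  have hr0 : 0 < r := (le_max_right _ _).trans hr
  have g1 : rs (s % β.natAbs) ≤ r := by
    have h1 : rs (s % β.natAbs) ≤ (Finset.range β.natAbs).sup rs :=
      Finset.le_sup (Finset.mem_range.2 (Nat.mod_lt _ (Int.natAbs_pos.2 hβ0)))
    exact h1.trans ((le_max_left _ _).trans ((le_max_left _ _).trans hr))
  have g2 : rw' w ≤ r := by
    have h1 : rw' w ≤ (Finset.range K).sup rw' := Finset.le_sup (Finset.mem_range.2 hwK)
    exact h1.trans ((le_max_right _ _).trans ((le_max_left _ _).trans hr))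
  have B1 : ∫ x, ‖A1.Dd b l r s x‖ ^ 2 ∂mT ≤ δ / 4 := by
    simp_rw [A1.norm_Dd_mod b hb0 l hl β hβ r s]
    exact hrs _ r g1
  have B2 := hrw w r g2
  set c : UnitAddCircle := ((l * s / b : ℝ) : UnitAddCircle) with hc
  set f : UnitAddCircle → ℂ := fun x => ((Real.sqrt r : ℝ) : ℂ)⁻¹ *
        ∑ i ∈ (Finset.range r).filter (fun i : ℕ => (((i : ℝ) / r : ℝ) : UnitAddCircle) ∈
          {y | cell K y = w}),
          ee (l * chirp b r i) * fourier (i : ℤ) x
        - (if vres b l x ∈ {y | cell K y = w} then Pl b l r x else 0) with hf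
  have hfil : (Finset.range r).filter (fun i : ℕ => (((i : ℝ) / r : ℝ) : UnitAddCircle) ∈
          {y | cell K y = w}) = (Finset.range r).filter (fun a => K * a / r = w) := by
    apply Finset.filter_congr
    intro a ha
    have := A1.cell_pt K r a (Finset.mem_range.1 ha)
    unfold pt at this
    rw [Set.mem_ofPred_eq, this]
  set ph : UnitAddCircle → ℂ := fun x =>
    fourier (-(s : ℤ)) x * ee (l * (s : ℝ) ^ 2 / (2 * b)) with hph
  have hphn : ∀ x, ‖ph x‖ = 1 := by
    intro x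
    simp only [hph]
    rw [norm_mul, norm_fourier_apply, norm_ee, one_mul]
  set F : UnitAddCircle → ℂ := fun x => ((Real.sqrt r : ℝ) : ℂ)⁻¹ *
      ∑ a ∈ (Finset.range r).filter (fun a => K * a / r = w),
        ee (l * (((a : ℝ) - s) ^ 2 / (2 * b) + (a : ℝ) ^ 2 / (2 * b * r))) * fourier ((a : ℤ) - s) x
      - (if ⌊(K : ℝ) * vp b l x⌋₊ = w then Pl b l r x * ee (l * s / b * vp b l x) else 0) with hF
  have hdec : ∀ x, F x = ph x * f (x - c) +
      (if vres b l x ∈ {y | cell K y = w} then A1.Dd b l r s x else 0) := by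
    intro x
    have h1 : ((Real.sqrt r : ℝ) : ℂ)⁻¹ * ∑ a ∈ (Finset.range r).filter (fun a => K * a / r = w),
        ee (l * (((a : ℝ) - s) ^ 2 / (2 * b) + (a : ℝ) ^ 2 / (2 * b * r))) *
          fourier ((a : ℤ) - s) x =
        ph x * (((Real.sqrt r : ℝ) : ℂ)⁻¹ *
          ∑ a ∈ (Finset.range r).filter (fun a => K * a / r = w),
            ee (l * chirp b r a) * fourier (a : ℤ) (x - c)) := by
      rw [mul_left_comm]
      congr 1
      rw [Finset.mul_sum]
      apply Finset.sum_congr rfl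
      intro a _
      rw [A1.term_eq b r hb0 hr0 l s a x]
    have h2 : vres b l (x - c) = vres b l x := A1.vres_shift b l hb0 hl hlb s x
    simp only [hF, hf, hfil]
    rw [h1, h2]
    have h3 : (⌊(K : ℝ) * vp b l x⌋₊ = w) ↔ (vres b l x ∈ {y | cell K y = w}) := Iff.rfl
    by_cases h4 : vres b l x ∈ {y | cell K y = w}
    · rw [if_pos (h3.2 h4), if_pos h4, if_pos h4]
      unfold A1.Dd
      simp only [hph, hc]
      ring
    · rw [if_neg (fun h => h4 (h3.1 h)), if_neg h4, if_neg h4]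
      ring
  have hpt : ∀ x, ‖F x‖ ^ 2 ≤ 2 * ‖f (x - c)‖ ^ 2 + 2 * ‖A1.Dd b l r s x‖ ^ 2 := by
    intro x
    rw [hdec]
    refine (norm_add_sq_le _ _).trans ?_
    rw [norm_mul, hphn, one_mul]
    gcongr
    split_ifs
    · exact le_rfl
    · simp
  have mf : Measurable f := by
    apply Measurable.sub
    · apply Continuous.measurable
      apply Continuous.mul continuous_const
      apply continuous_finsetSum
      intro i _
      exact continuous_const.mul (fourier (i : ℤ)).continuous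
    · apply Measurable.ite
      · exact (continuous_vres b l).measurable (measurable_cell K (measurableSet_singleton w))
      · exact (continuous_Pl b l r).measurable
      · exact measurable_const
  obtain ⟨C, hC⟩ : ∃ C, ∀ x, ‖f x‖ ≤ C := by
    have c1 : Continuous (fun x : UnitAddCircle => ((Real.sqrt r : ℝ) : ℂ)⁻¹ *
        ∑ i ∈ (Finset.range r).filter (fun i : ℕ => (((i : ℝ) / r : ℝ) : UnitAddCircle) ∈
          {y | cell K y = w}), ee (l * chirp b r i) * fourier (i : ℤ) x) := by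
      apply Continuous.mul continuous_const
      apply continuous_finsetSum
      intro i _
      exact continuous_const.mul (fourier (i : ℤ)).continuous
    obtain ⟨C, hC⟩ := isCompact_univ.exists_bound_of_continuousOn (c1.continuousOn (s := Set.univ))
    refine ⟨C + r, fun x => ?_⟩
    refine (norm_sub_le _ _).trans (add_le_add (hC x (Set.mem_univ x)) ?_)
    split_ifs
    · exact A1.norm_Pl_le b l r x
    · simp
  have if1 : Integrable (fun x => ‖f x‖ ^ 2) mT := by
    apply A1.integrable_of_meas_bdd (mf.norm.pow_const 2) (C ^ 2)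
    intro x
    rw [Real.norm_of_nonneg (by positivity)]
    exact pow_le_pow_left₀ (norm_nonneg _) (hC x) 2
  have mp : MeasurePreserving (fun x : UnitAddCircle => x - c) mT mT := by
    simp_rw [sub_eq_add_neg]
    exact measurePreserving_add_right _ _
  have if2 : Integrable (fun x => 2 * ‖f (x - c)‖ ^ 2) mT :=
    (mp.integrable_comp_of_integrable if1).const_mul 2
  have id1 : Integrable (fun x => 2 * ‖A1.Dd b l r s x‖ ^ 2) mT :=
    (A1.integrable_Dd_sq b l r s).const_mul 2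
  have e1 : ∫ x, ‖f (x - c)‖ ^ 2 ∂mT = ∫ x, ‖f x‖ ^ 2 ∂mT := by
    have h1 := mp.map_eq
    conv_rhs => rw [← h1]
    rw [integral_map mp.measurable.aemeasurable]
    exact (mf.norm.pow_const 2).aestronglyMeasurable
  calc ∫ x, ‖F x‖ ^ 2 ∂mT ≤ ∫ x, (2 * ‖f (x - c)‖ ^ 2 + 2 * ‖A1.Dd b l r s x‖ ^ 2) ∂mT := by
        apply integral_mono_of_nonneg (Eventually.of_forall (fun x => by positivity))
          (if2.add id1) (Eventually.of_forall hpt)
    _ = 2 * ∫ x, ‖f x‖ ^ 2 ∂mT + 2 * ∫ x, ‖A1.Dd b l r s x‖ ^ 2 ∂mT := by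
        rw [integral_add if2 id1, integral_const_mul, integral_const_mul, e1]
    _ ≤ 2 * (δ / 4) + 2 * (δ / 4) := by
        gcongr
    _ = δ := by ring

end Vale.Agent.P130
end
end

section

section

open MeasureTheory Filter Topology

namespace Vale.Agent.P130

namespace PCore

/-- the phase of the index `t = s + I` -/
noncomputable def Gt (b r q s t : ℕ) : ℝ :=
  ((t : ℝ) - s) ^ 2 / (2 * b) + ((t % r : ℕ) : ℝ) ^ 2 / (2 * b * r) + chirp b q (t / r)
    - ((t / r : ℕ) : ℝ) * s / (r * b * q)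

lemma GI_eq (b r q s I : ℕ) : GI b r q s I = Gt b r q s (s + I) := by
  unfold GI Gt
  have h : (((s + I : ℕ) : ℝ) - s) = I := by push_cast; ring
  rw [h]

/-- the coefficient of the index `t`. -/
noncomputable def gc (K b r q : ℕ) (l : ℤ) (w s t : ℕ) : ℂ :=
  if K * (t % r) / r = w then ee (l * Gt b r q s t) else 0

lemma norm_gc_le (K b r q : ℕ) (l : ℤ) (w s t : ℕ) : ‖gc K b r q l w s t‖ ≤ 1 := by
  unfold gc
  split_ifs
  · rw [norm_ee]
  · simp

/-- the window sum -/
noncomputable def winS (K b r q : ℕ) (l : ℤ) (w s : ℕ) (x : UnitAddCircle) : ℂ :=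
  ((Real.sqrt ((r * q : ℕ) : ℝ) : ℝ) : ℂ)⁻¹ *
    ∑ I ∈ Finset.range (r * q), gc K b r q l w s (s + I) * fourier (I : ℤ) x

/-- the full sum -/
noncomputable def fullS (K b r q : ℕ) (l : ℤ) (w s : ℕ) (x : UnitAddCircle) : ℂ :=
  ((Real.sqrt ((r * q : ℕ) : ℝ) : ℝ) : ℂ)⁻¹ *
    ∑ t ∈ Finset.range (r * q), gc K b r q l w s t * fourier ((t : ℤ) - s) x

lemma winS_eq (K b r q : ℕ) (l : ℤ) (w s : ℕ) (x : UnitAddCircle) :
    ((Real.sqrt ((r * q : ℕ) : ℝ) : ℝ) : ℂ)⁻¹ *
            ∑ I ∈ (Finset.range (r * q)).filter (fun I => wI K r s I = w),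
              ee (l * GI b r q s I) * fourier (I : ℤ) x = winS K b r q l w s x := by
  unfold winS
  rw [Finset.sum_filter]
  congr 1
  apply Finset.sum_congr rfl
  intro I _
  unfold gc wI
  rw [GI_eq]
  split_ifs <;> simp

lemma win_sub_full (K b r q : ℕ) (l : ℤ) (w s : ℕ) (x : UnitAddCircle) :
    winS K b r q l w s x - fullS K b r q l w s x =
      ((Real.sqrt ((r * q : ℕ) : ℝ) : ℝ) : ℂ)⁻¹ *
        (∑ i ∈ Finset.range s, gc K b r q l w s (r * q + i) * fourier ((r * q + i : ℤ) - s) x -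
          ∑ i ∈ Finset.range s, gc K b r q l w s i * fourier ((i : ℤ) - s) x) := by
  set f : ℕ → ℂ := fun t => gc K b r q l w s t * fourier ((t : ℤ) - s) x with hf
  have h1 := Finset.sum_range_add f s (r * q)
  have h2 := Finset.sum_range_add f (r * q) s
  rw [add_comm s (r * q), h2] at h1
  unfold winS fullS
  rw [← mul_sub]
  congr 1
  have h3 : ∑ I ∈ Finset.range (r * q), gc K b r q l w s (s + I) * fourier (I : ℤ) x =
      ∑ I ∈ Finset.range (r * q), f (s + I) := by
    apply Finset.sum_congr rfl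
    intro I _
    simp only [hf]
    congr 2
    push_cast
    ring_nf
  have h4 : ∑ i ∈ Finset.range s, gc K b r q l w s (r * q + i) *
      (fourier ((r * q + i : ℤ) - s) x : ℂ) = ∑ i ∈ Finset.range s, f (r * q + i) := by
    apply Finset.sum_congr rfl
    intro I _
    simp only [hf]
    push_cast
    rfl
  rw [h3, h4]
  linear_combination -h1

lemma integral_win_sub_full (K b r q : ℕ) (hrq : 0 < r * q) (l : ℤ) (w s : ℕ) :
    ∫ x, ‖winS K b r q l w s x - fullS K b r q l w s x‖ ^ 2 ∂mT ≤ 4 * s / ((r * q : ℕ) : ℝ) := by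
  have hN : (0 : ℝ) < ((r * q : ℕ) : ℝ) := by exact_mod_cast hrq
  have hsq : (Real.sqrt ((r * q : ℕ) : ℝ)) ^ 2 = ((r * q : ℕ) : ℝ) := Real.sq_sqrt hN.le
  have hpt : ∀ x, ‖winS K b r q l w s x - fullS K b r q l w s x‖ ^ 2 ≤
      (((r * q : ℕ) : ℝ))⁻¹ * (2 * ‖∑ i ∈ Finset.range s, gc K b r q l w s (r * q + i) *
        (fourier ((r * q + i : ℤ) - s) x : ℂ)‖ ^ 2 + 2 * ‖∑ i ∈ Finset.range s,
          gc K b r q l w s i * (fourier ((i : ℤ) - s) x : ℂ)‖ ^ 2) := by
    intro x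
    rw [win_sub_full, norm_mul, mul_pow, norm_inv, Complex.norm_real, Real.norm_eq_abs,
      abs_of_nonneg (Real.sqrt_nonneg _), inv_pow, hsq]
    apply mul_le_mul_of_nonneg_left _ (by positivity)
    rw [sub_eq_add_neg]
    have := norm_add_sq_le (∑ i ∈ Finset.range s, gc K b r q l w s (r * q + i) *
        (fourier ((r * q + i : ℤ) - s) x : ℂ)) (-∑ i ∈ Finset.range s,
          gc K b r q l w s i * (fourier ((i : ℤ) - s) x : ℂ))
    rwa [norm_neg] at this
  have hc1 : Continuous (fun x : UnitAddCircle => ∑ i ∈ Finset.range s,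
      gc K b r q l w s (r * q + i) * (fourier ((r * q + i : ℤ) - s) x : ℂ)) := by
    apply continuous_finsetSum
    intro i _
    exact continuous_const.mul (map_continuous _)
  have hc2 : Continuous (fun x : UnitAddCircle => ∑ i ∈ Finset.range s,
      gc K b r q l w s i * (fourier ((i : ℤ) - s) x : ℂ)) := by
    apply continuous_finsetSum
    intro i _
    exact continuous_const.mul (map_continuous _)
  have hi1 : ∫ x, ‖∑ i ∈ Finset.range s, gc K b r q l w s (r * q + i) *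
        (fourier ((r * q + i : ℤ) - s) x : ℂ)‖ ^ 2 ∂mT ≤ s := by
    have := integral_norm_sq_trig (Finset.range s) (fun i : ℕ => ((r * q + i : ℤ) - s))
      (by intro i _ j _ hij; simpa using hij) (fun i => gc K b r q l w s (r * q + i))
    rw [show mT = haar from rfl, this]
    calc ∑ i ∈ Finset.range s, ‖gc K b r q l w s (r * q + i)‖ ^ 2
        ≤ ∑ i ∈ Finset.range s, (1 : ℝ) := by
          apply Finset.sum_le_sum
          intro i _
          have := norm_gc_le K b r q l w s (r * q + i)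
          have h0 := norm_nonneg (gc K b r q l w s (r * q + i))
          nlinarith only [this, h0]
      _ = s := by simp
  have hi2 : ∫ x, ‖∑ i ∈ Finset.range s, gc K b r q l w s i *
        (fourier ((i : ℤ) - s) x : ℂ)‖ ^ 2 ∂mT ≤ s := by
    have := integral_norm_sq_trig (Finset.range s) (fun i : ℕ => ((i : ℤ) - s))
      (by intro i _ j _ hij; simpa using hij) (fun i => gc K b r q l w s i)
    rw [show mT = haar from rfl, this]
    calc ∑ i ∈ Finset.range s, ‖gc K b r q l w s i‖ ^ 2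
        ≤ ∑ i ∈ Finset.range s, (1 : ℝ) := by
          apply Finset.sum_le_sum
          intro i _
          have := norm_gc_le K b r q l w s i
          have h0 := norm_nonneg (gc K b r q l w s i)
          nlinarith only [this, h0]
      _ = s := by simp
  calc ∫ x, ‖winS K b r q l w s x - fullS K b r q l w s x‖ ^ 2 ∂mT
      ≤ ∫ x, (((r * q : ℕ) : ℝ))⁻¹ * (2 * ‖∑ i ∈ Finset.range s, gc K b r q l w s (r * q + i) *
        (fourier ((r * q + i : ℤ) - s) x : ℂ)‖ ^ 2 + 2 * ‖∑ i ∈ Finset.range s,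
          gc K b r q l w s i * (fourier ((i : ℤ) - s) x : ℂ)‖ ^ 2) ∂mT := by
        apply integral_mono_of_nonneg (Eventually.of_forall fun x => by positivity)
        · apply integrable_of_continuous
          exact continuous_const.mul ((continuous_const.mul (hc1.norm.pow 2)).add
            (continuous_const.mul (hc2.norm.pow 2)))
        · exact Eventually.of_forall hpt
    _ = (((r * q : ℕ) : ℝ))⁻¹ * (2 * (∫ x, ‖∑ i ∈ Finset.range s, gc K b r q l w s (r * q + i) *
        (fourier ((r * q + i : ℤ) - s) x : ℂ)‖ ^ 2 ∂mT) + 2 * ∫ x, ‖∑ i ∈ Finset.range s,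
          gc K b r q l w s i * (fourier ((i : ℤ) - s) x : ℂ)‖ ^ 2 ∂mT) := by
        rw [integral_const_mul, integral_add, integral_const_mul, integral_const_mul]
        · exact integrable_of_continuous (continuous_const.mul (hc1.norm.pow 2))
        · exact integrable_of_continuous (continuous_const.mul (hc2.norm.pow 2))
    _ ≤ (((r * q : ℕ) : ℝ))⁻¹ * (2 * s + 2 * s) := by
        apply mul_le_mul_of_nonneg_left _ (by positivity)
        linarith
    _ = 4 * s / ((r * q : ℕ) : ℝ) := by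
        field_simp
        ring

/-- The first factor. -/
noncomputable def A1f (K b r : ℕ) (l : ℤ) (w s : ℕ) (x : UnitAddCircle) : ℂ :=
  ((Real.sqrt r : ℝ) : ℂ)⁻¹ * ∑ a ∈ (Finset.range r).filter (fun a => K * a / r = w),
    ee (l * (((a : ℝ) - s) ^ 2 / (2 * b) + (a : ℝ) ^ 2 / (2 * b * r))) * fourier ((a : ℤ) - s) x

/-- The second factor. -/
noncomputable def A2f (b q : ℕ) (l : ℤ) (c : ℝ) (x : UnitAddCircle) : ℂ :=
  ((Real.sqrt q : ℝ) : ℂ)⁻¹ * ∑ j ∈ Finset.range q,
    ee (c * ((j : ℝ) / q)) * (ee (l * chirp b q j) * fourier (j : ℤ) x)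

lemma sum_range_mul_eq (g : ℕ → ℂ) (r q : ℕ) :
    ∑ t ∈ Finset.range (r * q), g t = ∑ j ∈ Finset.range q, ∑ a ∈ Finset.range r, g (r * j + a) := by
  induction q with
  | zero => simp
  | succ q ih => rw [Nat.mul_succ, Finset.sum_range_add, ih, Finset.sum_range_succ]

lemma fullS_eq (K b r q : ℕ) (hb : 0 < b) (hr : 0 < r) (hq : 0 < q) (hbr : 2 * b ∣ r) (l : ℤ)
    (w s : ℕ) (x : UnitAddCircle) :
    fullS K b r q l w s x =
      A1f K b r l w s x * A2f b q l (-(l * s / ((r * b : ℕ) : ℝ))) ((r : ℤ) • x) := by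
  obtain ⟨k, hk⟩ := hbr
  have hb' : (b : ℝ) ≠ 0 := by positivity
  have hr' : (r : ℝ) ≠ 0 := by positivity
  have hq' : (q : ℝ) ≠ 0 := by positivity
  unfold fullS A1f A2f
  rw [sum_range_mul_eq]
  have hsq : ((Real.sqrt ((r * q : ℕ) : ℝ) : ℝ) : ℂ)⁻¹ =
      ((Real.sqrt r : ℝ) : ℂ)⁻¹ * ((Real.sqrt q : ℝ) : ℂ)⁻¹ := by
    rw [← mul_inv]
    congr 1
    rw [← Complex.ofReal_mul]
    congr 1
    push_cast
    exact Real.sqrt_mul (by positivity) _
  rw [hsq]
  rw [mul_mul_mul_comm]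
  congr 1
  rw [Finset.sum_comm, Finset.sum_filter, Finset.sum_mul_sum]
  apply Finset.sum_congr rfl
  intro a ha
  apply Finset.sum_congr rfl
  intro j hj
  have ha' : a < r := Finset.mem_range.1 ha
  have hmod : (r * j + a) % r = a := by
    rw [Nat.mul_add_mod, Nat.mod_eq_of_lt ha']
  have hdiv : (r * j + a) / r = j := by
    rw [Nat.mul_add_div hr, Nat.div_eq_of_lt ha', add_zero]
  unfold gc
  rw [hmod]
  by_cases hw : K * a / r = w
  · rw [if_pos hw, if_pos hw]
    unfold Gt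
    rw [hmod, hdiv]
    have hkey : (l : ℝ) * ((((r * j + a : ℕ) : ℝ) - s) ^ 2 / (2 * b) + (a : ℝ) ^ 2 / (2 * b * r) +
        chirp b q j - (j : ℝ) * s / (r * b * q)) =
        (l * (((a : ℝ) - s) ^ 2 / (2 * b) + (a : ℝ) ^ 2 / (2 * b * r))) +
        (-(l * s / ((r * b : ℕ) : ℝ)) * ((j : ℝ) / q)) + (l * chirp b q j) +
        ((l * (k * (r * j ^ 2 + 2 * j * (a - s))) : ℤ) : ℝ) := by
      have hr2 : (r : ℝ) = 2 * b * k := by exact_mod_cast hk
      have hk' : (k : ℝ) ≠ 0 := by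
        intro h0
        rw [h0, mul_zero] at hr2
        exact hr' hr2
      push_cast
      rw [hr2]
      field_simp
      ring
    rw [hkey, ee_add_int, ee_add, ee_add]
    have hfour : (fourier (((r * j + a : ℕ) : ℤ) - s) x : ℂ) =
        fourier ((a : ℤ) - s) x * fourier (j : ℤ) ((r : ℤ) • x) := by
      rw [fourier_apply, fourier_apply, fourier_apply, smul_smul, ← Circle.coe_mul,
        ← AddCircle.toCircle_add, ← add_smul]
      congr 3
      push_cast
      ring
    rw [hfour]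
    ring
  · rw [if_neg hw, if_neg hw]
    ring

lemma norm_trig_le (q : ℕ) (S : Finset ℕ) (hS : S ⊆ Finset.range q) (f : ℕ → ℂ)
    (hf : ∀ i, ‖f i‖ ≤ 1) : ‖((Real.sqrt q : ℝ) : ℂ)⁻¹ * ∑ i ∈ S, f i‖ ≤ Real.sqrt q := by
  rw [norm_mul, norm_inv, Complex.norm_real, Real.norm_eq_abs, abs_of_nonneg (Real.sqrt_nonneg _)]
  have h1 : ‖∑ i ∈ S, f i‖ ≤ q := by
    calc ‖∑ i ∈ S, f i‖ ≤ ∑ i ∈ S, ‖f i‖ := norm_sum_le _ _
      _ ≤ ∑ i ∈ S, (1 : ℝ) := Finset.sum_le_sum fun i _ => hf i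
      _ = (S.card : ℝ) := by simp
      _ ≤ ((Finset.range q).card : ℝ) := by exact_mod_cast Finset.card_le_card hS
      _ = q := by simp
  rcases Nat.eq_zero_or_pos q with hq | hq
  · subst hq
    simp
  · have hq' : (0 : ℝ) < Real.sqrt q := Real.sqrt_pos.2 (by exact_mod_cast hq)
    rw [inv_mul_le_iff₀ hq', Real.mul_self_sqrt (Nat.cast_nonneg q)]
    exact h1

lemma norm_A1f_le (K b r : ℕ) (l : ℤ) (w s : ℕ) (x : UnitAddCircle) :
    ‖A1f K b r l w s x‖ ≤ Real.sqrt r := by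
  unfold A1f
  apply norm_trig_le _ _ (Finset.filter_subset _ _)
  intro a
  rw [norm_mul, norm_ee, norm_fourier_apply, one_mul]

lemma norm_Pl_le (b : ℕ) (l : ℤ) (q : ℕ) (x : UnitAddCircle) : ‖Pl b l q x‖ ≤ Real.sqrt q := by
  unfold Pl
  apply norm_trig_le _ _ subset_rfl
  intro a
  rw [norm_mul, norm_ee, norm_fourier_apply, one_mul]

lemma norm_A2f_le (b q : ℕ) (l : ℤ) (c : ℝ) (x : UnitAddCircle) :
    ‖A2f b q l c x‖ ≤ Real.sqrt q := by
  unfold A2f
  apply norm_trig_le _ _ subset_rfl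
  intro a
  rw [norm_mul, norm_mul, norm_ee, norm_ee, norm_fourier_apply, one_mul, one_mul]

lemma continuous_A1f (K b r : ℕ) (l : ℤ) (w s : ℕ) : Continuous (A1f K b r l w s) := by
  unfold A1f
  apply continuous_const.mul
  apply continuous_finsetSum
  intro i _
  exact continuous_const.mul (map_continuous _)

lemma continuous_A2f (b q : ℕ) (l : ℤ) (c : ℝ) : Continuous (A2f b q l c) := by
  unfold A2f
  apply continuous_const.mul
  apply continuous_finsetSum
  intro i _
  exact continuous_const.mul (continuous_const.mul (map_continuous _))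

lemma continuous_winS (K b r q : ℕ) (l : ℤ) (w s : ℕ) : Continuous (winS K b r q l w s) := by
  unfold winS
  apply continuous_const.mul
  apply continuous_finsetSum
  intro i _
  exact continuous_const.mul (map_continuous _)

lemma continuous_fullS (K b r q : ℕ) (l : ℤ) (w s : ℕ) : Continuous (fullS K b r q l w s) := by
  unfold fullS
  apply continuous_const.mul
  apply continuous_finsetSum
  intro i _
  exact continuous_const.mul (map_continuous _)

lemma abs_norm_sub_one_le (z : ℂ) : |‖z‖ - 1| ≤ |‖z‖ ^ 2 - 1| := by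
  have h2 : ‖z‖ ^ 2 - 1 = (‖z‖ - 1) * (‖z‖ + 1) := by ring
  rw [h2, abs_mul]
  have h3 : 1 ≤ |‖z‖ + 1| := by
    rw [abs_of_pos (by positivity)]
    linarith [norm_nonneg z]
  nlinarith only [abs_nonneg (‖z‖ - 1), h3]

lemma norm_sub_phase' (z : ℂ) : ‖z - phase z‖ ≤ |‖z‖ - 1| := by
  unfold phase
  by_cases h : z = 0
  · simp [h]
  · rw [if_neg h]
    have hz : (‖z‖ : ℂ) ≠ 0 := by exact_mod_cast norm_ne_zero_iff.2 h
    have hz' : 0 < ‖z‖ := norm_pos_iff.2 h
    have h1 : z - z / (‖z‖ : ℂ) = (z / (‖z‖ : ℂ)) * ((‖z‖ - 1 : ℝ) : ℂ) := by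
      push_cast
      field_simp
    rw [h1, norm_mul, norm_div, Complex.norm_real, norm_norm, div_self hz'.ne', one_mul,
      Complex.norm_real, Real.norm_eq_abs]

lemma five_sq (a b c d e : ℝ) :
    (a + b + c + d + e) ^ 2 ≤ 5 * (a ^ 2 + b ^ 2 + c ^ 2 + d ^ 2 + e ^ 2) := by
  linarith only [sq_nonneg (a - b), sq_nonneg (a - c), sq_nonneg (a - d), sq_nonneg (a - e),
    sq_nonneg (b - c), sq_nonneg (b - d), sq_nonneg (b - e), sq_nonneg (c - d), sq_nonneg (c - e),
    sq_nonneg (d - e)]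

/-- The pointwise estimate behind `pmp_core`. -/
lemma core_pointwise (r : ℝ) (hr : 0 < r) (δ' : ℝ) (hδ' : 0 < δ') (S z1 z2 p1 p2 e1 e2 : ℂ)
    (cond : Prop) [Decidable cond] (hz1 : ‖z1‖ ^ 2 ≤ r) (hp1 : ‖p1‖ ^ 2 ≤ r) (he1 : ‖e1‖ = 1)
    (he2 : ‖e2‖ = 1) :
    ‖S - (if cond then phase (p1 * p2) * (e1 * e2) else 0)‖ ^ 2 ≤
      5 * (‖S - z1 * z2‖ ^ 2 + r * ‖z2 - e2 * p2‖ ^ 2 +
        ‖z1 - (if cond then p1 * e1 else 0)‖ ^ 2 + δ' +
        (4 * r ^ 2 / δ' + r) * (‖p2‖ ^ 2 - 1) ^ 2 + (‖p1‖ ^ 2 - 1) ^ 2) := by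
  set t1 : ℂ := if cond then p1 * e1 else 0 with ht1
  set tg : ℂ := if cond then phase (p1 * p2) * (e1 * e2) else 0 with htg
  have hd1 : ‖S - tg‖ ≤ ‖S - z1 * z2‖ + ‖z1‖ * ‖z2 - e2 * p2‖ + ‖z1 - t1‖ * ‖p2‖ +
      ‖p1‖ * |‖p2‖ - 1| + |‖p1‖ - 1| := by
    have h1 : S - tg = (S - z1 * z2) + z1 * (z2 - e2 * p2) + (z1 - t1) * (e2 * p2) +
        (t1 * (e2 * p2) - tg) := by ring
    have h2 : ‖t1 * (e2 * p2) - tg‖ ≤ ‖p1‖ * |‖p2‖ - 1| + |‖p1‖ - 1| := by
      have h3 : ‖t1 * (e2 * p2) - tg‖ ≤ |‖p1 * p2‖ - 1| := by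
        rw [ht1, htg]
        split_ifs
        · have h4 : p1 * e1 * (e2 * p2) - phase (p1 * p2) * (e1 * e2) =
              (p1 * p2 - phase (p1 * p2)) * (e1 * e2) := by ring
          rw [h4, norm_mul, norm_mul, he1, he2, one_mul, mul_one]
          exact norm_sub_phase' _
        · simp
      refine h3.trans ?_
      rw [norm_mul]
      have h5 : ‖p1‖ * ‖p2‖ - 1 = ‖p1‖ * (‖p2‖ - 1) + (‖p1‖ - 1) := by ring
      rw [h5]
      refine (abs_add_le _ _).trans ?_
      rw [abs_mul, abs_of_nonneg (norm_nonneg p1)]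
    rw [h1]
    have h6 := norm_add_le ((S - z1 * z2) + z1 * (z2 - e2 * p2) + (z1 - t1) * (e2 * p2))
      (t1 * (e2 * p2) - tg)
    have h7 := norm_add_le ((S - z1 * z2) + z1 * (z2 - e2 * p2)) ((z1 - t1) * (e2 * p2))
    have h8 := norm_add_le (S - z1 * z2) (z1 * (z2 - e2 * p2))
    have h9 : ‖z1 * (z2 - e2 * p2)‖ = ‖z1‖ * ‖z2 - e2 * p2‖ := norm_mul _ _
    have h10 : ‖(z1 - t1) * (e2 * p2)‖ = ‖z1 - t1‖ * ‖p2‖ := by
      rw [norm_mul, norm_mul, he2, one_mul]
    linarith
  have hsq : ‖S - tg‖ ^ 2 ≤ (‖S - z1 * z2‖ + ‖z1‖ * ‖z2 - e2 * p2‖ + ‖z1 - t1‖ * ‖p2‖ +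
      ‖p1‖ * |‖p2‖ - 1| + |‖p1‖ - 1|) ^ 2 := pow_le_pow_left₀ (norm_nonneg _) hd1 2
  refine hsq.trans ((five_sq _ _ _ _ _).trans ?_)
  apply mul_le_mul_of_nonneg_left _ (by norm_num)
  have ha : (‖z1‖ * ‖z2 - e2 * p2‖) ^ 2 ≤ r * ‖z2 - e2 * p2‖ ^ 2 := by
    rw [mul_pow]
    exact mul_le_mul_of_nonneg_right hz1 (by positivity)
  have ht1n : ‖t1‖ ^ 2 ≤ r := by
    rw [ht1]
    split_ifs
    · rw [norm_mul, he1, mul_one]
      exact hp1
    · simpa using hr.le
  have hzt : ‖z1 - t1‖ ^ 2 ≤ 4 * r := by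
    have h1 : ‖z1 - t1‖ ≤ ‖z1‖ + ‖t1‖ := norm_sub_le _ _
    have h2 : ‖z1 - t1‖ ^ 2 ≤ (‖z1‖ + ‖t1‖) ^ 2 := pow_le_pow_left₀ (norm_nonneg _) h1 2
    linarith only [sq_nonneg (‖z1‖ - ‖t1‖), hz1, ht1n, h2]
  have hb1 : (‖z1 - t1‖ * ‖p2‖) ^ 2 ≤ ‖z1 - t1‖ ^ 2 + δ' + 4 * r ^ 2 / δ' * (‖p2‖ ^ 2 - 1) ^ 2 := by
    have h1 : (‖z1 - t1‖ * ‖p2‖) ^ 2 = ‖z1 - t1‖ ^ 2 + ‖z1 - t1‖ ^ 2 * (‖p2‖ ^ 2 - 1) := by ring
    have h2 : ‖z1 - t1‖ ^ 2 * (‖p2‖ ^ 2 - 1) ≤ 4 * r * |‖p2‖ ^ 2 - 1| := by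
      have := le_abs_self (‖p2‖ ^ 2 - 1)
      calc ‖z1 - t1‖ ^ 2 * (‖p2‖ ^ 2 - 1) ≤ ‖z1 - t1‖ ^ 2 * |‖p2‖ ^ 2 - 1| :=
            mul_le_mul_of_nonneg_left this (by positivity)
        _ ≤ 4 * r * |‖p2‖ ^ 2 - 1| := mul_le_mul_of_nonneg_right hzt (abs_nonneg _)
    have h3 : 4 * r * |‖p2‖ ^ 2 - 1| ≤ δ' + 4 * r ^ 2 / δ' * (‖p2‖ ^ 2 - 1) ^ 2 := by
      have h4 : 4 * r ^ 2 / δ' * (‖p2‖ ^ 2 - 1) ^ 2 = (2 * r * |‖p2‖ ^ 2 - 1|) ^ 2 / δ' := by
        rw [← sq_abs (‖p2‖ ^ 2 - 1)]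
        ring
      rw [h4]
      have h5 : 0 ≤ (δ' - 2 * r * |‖p2‖ ^ 2 - 1|) ^ 2 / δ' := by positivity
      have h6 : (δ' - 2 * r * |‖p2‖ ^ 2 - 1|) ^ 2 / δ' =
          δ' - 4 * r * |‖p2‖ ^ 2 - 1| + (2 * r * |‖p2‖ ^ 2 - 1|) ^ 2 / δ' := by
        field_simp
        ring
      linarith only [h5, h6]
    linarith only [h2, h3]
  have hc : (‖p1‖ * |‖p2‖ - 1|) ^ 2 ≤ r * (‖p2‖ ^ 2 - 1) ^ 2 := by
    rw [mul_pow]
    apply mul_le_mul hp1 _ (by positivity) hr.le
    rw [← sq_abs (‖p2‖ ^ 2 - 1)]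
    exact pow_le_pow_left₀ (abs_nonneg _) (abs_norm_sub_one_le p2) 2
  have hd : |‖p1‖ - 1| ^ 2 ≤ (‖p1‖ ^ 2 - 1) ^ 2 := by
    rw [← sq_abs (‖p1‖ ^ 2 - 1)]
    exact pow_le_pow_left₀ (abs_nonneg _) (abs_norm_sub_one_le p1) 2
  have := add_mul (4 * r ^ 2 / δ') r ((‖p2‖ ^ 2 - 1) ^ 2)
  linarith only [ha, hb1, hc, hd]

lemma ee_combine (b r s : ℕ) (hb : 0 < b) (hr : 0 < r) (l : ℤ) (x : UnitAddCircle) :
    ee (l * s / b * vp b l x) * ee (-(l * s / ((r * b : ℕ) : ℝ)) * vp b l ((r : ℤ) • x)) =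
      ee (Nr b l r x * s / ((r * b : ℕ) : ℝ)) := by
  rw [← ee_add]
  congr 1
  unfold Nr
  have hb' : (b : ℝ) ≠ 0 := by positivity
  have hr' : (r : ℝ) ≠ 0 := by positivity
  push_cast
  field_simp
  ring

lemma measurable_target (K b r : ℕ) (l : ℤ) (w s : ℕ) :
    Measurable (fun x => (if ⌊(K : ℝ) * vp b l x⌋₊ = w then Pl b l r x * ee (l * s / b * vp b l x)
      else 0 : ℂ)) := by
  have hvp := A1.measurable_vp b l
  apply Measurable.ite
  · have : Measurable (fun x => ⌊(K : ℝ) * vp b l x⌋₊) :=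
      Nat.measurable_floor.comp (measurable_const.mul hvp)
    exact this (measurableSet_singleton w)
  · apply (continuous_Pl b l r).measurable.mul
    have : Measurable ee := by
      unfold ee
      fun_prop
    exact this.comp (measurable_const.mul hvp)
  · exact measurable_const

lemma final_integral (δ' r C : ℝ) (hr : 0 < r) (hC : 0 < C) (F f1 f2 f3 f4 f5 : UnitAddCircle → ℝ)
    (hF : ∀ x, 0 ≤ F x) (h1 : Integrable f1 mT) (h2 : Integrable f2 mT) (h3 : Integrable f3 mT)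
    (h4 : Integrable f4 mT) (h5 : Integrable f5 mT) (i1 : ∫ x, f1 x ∂mT ≤ δ')
    (i2 : ∫ x, f2 x ∂mT ≤ δ' / r) (i3 : ∫ x, f3 x ∂mT ≤ δ') (i4 : ∫ x, f4 x ∂mT ≤ δ' / C)
    (i5 : ∫ x, f5 x ∂mT ≤ δ')
    (hpt : ∀ x, F x ≤ 5 * (f1 x + r * f2 x + f3 x + δ' + C * f4 x + f5 x)) :
    ∫ x, F x ∂mT ≤ 30 * δ' := by
  have a1 := h1.add (h2.const_mul r)
  have a2 := a1.add h3
  have a3 := a2.add (integrable_const (μ := mT) δ')
  have a4 := a3.add (h4.const_mul C)
  have a5 := a4.add h5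
  have e1 : ∫ x, (f1 x + r * f2 x) ∂mT = ∫ x, f1 x ∂mT + r * ∫ x, f2 x ∂mT := by
    rw [integral_add h1 (h2.const_mul r), integral_const_mul]
  have e2 : ∫ x, (f1 x + r * f2 x + f3 x) ∂mT =
      ∫ x, f1 x ∂mT + r * ∫ x, f2 x ∂mT + ∫ x, f3 x ∂mT := by
    rw [← e1]
    exact integral_add a1 h3
  have e3 : ∫ x, (f1 x + r * f2 x + f3 x + δ') ∂mT =
      ∫ x, f1 x ∂mT + r * ∫ x, f2 x ∂mT + ∫ x, f3 x ∂mT + δ' := by
    have := integral_add a2 (integrable_const (μ := mT) δ')
    rw [integral_const] at this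
    rw [← e2]
    simpa using this
  have e4 : ∫ x, (f1 x + r * f2 x + f3 x + δ' + C * f4 x) ∂mT =
      ∫ x, f1 x ∂mT + r * ∫ x, f2 x ∂mT + ∫ x, f3 x ∂mT + δ' + C * ∫ x, f4 x ∂mT := by
    rw [← e3, ← integral_const_mul]
    exact integral_add a3 (h4.const_mul C)
  have e5 : ∫ x, (f1 x + r * f2 x + f3 x + δ' + C * f4 x + f5 x) ∂mT =
      ∫ x, f1 x ∂mT + r * ∫ x, f2 x ∂mT + ∫ x, f3 x ∂mT + δ' + C * ∫ x, f4 x ∂mT +
        ∫ x, f5 x ∂mT := by
    rw [← e4]
    exact integral_add a4 h5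
  have b1 : ∫ x, F x ∂mT ≤
      ∫ x, 5 * (f1 x + r * f2 x + f3 x + δ' + C * f4 x + f5 x) ∂mT :=
    integral_mono_of_nonneg (Eventually.of_forall hF) (a5.const_mul 5) (Eventually.of_forall hpt)
  rw [integral_const_mul, e5] at b1
  have b2 : r * ∫ x, f2 x ∂mT ≤ δ' := by
    have := mul_le_mul_of_nonneg_left i2 hr.le
    rwa [mul_div_cancel₀ _ hr.ne'] at this
  have b3 : C * ∫ x, f4 x ∂mT ≤ δ' := by
    have := mul_le_mul_of_nonneg_left i4 hC.le
    rwa [mul_div_cancel₀ _ hC.ne'] at this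
  linarith only [i1, i3, i5, b1, b2, b3]

lemma measurable_ee : Measurable ee := by
  unfold ee
  fun_prop

lemma integrable_g2 (b q : ℕ) (l : ℤ) (c : ℝ) : Measurable (fun x : UnitAddCircle =>
      ‖A2f b q l c x - ee (c * vp b l x) * Pl b l q x‖ ^ 2) ∧
    Integrable (fun x : UnitAddCircle =>
      ‖A2f b q l c x - ee (c * vp b l x) * Pl b l q x‖ ^ 2) mT := by
  have hm : Measurable (fun x : UnitAddCircle =>
      ‖A2f b q l c x - ee (c * vp b l x) * Pl b l q x‖ ^ 2) := by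
    apply Measurable.pow_const
    apply Measurable.norm
    apply (continuous_A2f b q l c).measurable.sub
    apply Measurable.mul _ (continuous_Pl b l q).measurable
    exact measurable_ee.comp (measurable_const.mul (A1.measurable_vp b l))
  refine ⟨hm, integrable_of_measurable_bdd hm ((2 * Real.sqrt q) ^ 2) fun x => ?_⟩
  rw [Real.norm_eq_abs, abs_of_nonneg (by positivity)]
  apply pow_le_pow_left₀ (norm_nonneg _)
  refine (norm_sub_le _ _).trans ?_
  rw [norm_mul, norm_ee, one_mul]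
  linarith [norm_A2f_le b q l c x, norm_Pl_le b l q x]

lemma integrable_f3 (K b r : ℕ) (l : ℤ) (w s : ℕ) : Integrable (fun x : UnitAddCircle =>
      ‖A1f K b r l w s x - (if ⌊(K : ℝ) * vp b l x⌋₊ = w then Pl b l r x *
        ee (l * s / b * vp b l x) else 0)‖ ^ 2) mT := by
  have hm : Measurable (fun x : UnitAddCircle =>
      ‖A1f K b r l w s x - (if ⌊(K : ℝ) * vp b l x⌋₊ = w then Pl b l r x *
        ee (l * s / b * vp b l x) else 0)‖ ^ 2) := by
    apply Measurable.pow_const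
    apply Measurable.norm
    exact (continuous_A1f K b r l w s).measurable.sub (measurable_target K b r l w s)
  refine integrable_of_measurable_bdd hm ((2 * Real.sqrt r) ^ 2) fun x => ?_
  rw [Real.norm_eq_abs, abs_of_nonneg (by positivity)]
  apply pow_le_pow_left₀ (norm_nonneg _)
  refine (norm_sub_le _ _).trans ?_
  have h1 : ‖(if ⌊(K : ℝ) * vp b l x⌋₊ = w then Pl b l r x * ee (l * s / b * vp b l x) else 0 : ℂ)‖ ≤
      Real.sqrt r := by
    split_ifs
    · rw [norm_mul, norm_ee, mul_one]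
      exact norm_Pl_le b l r x
    · simp
  linarith [norm_A1f_le K b r l w s x]

lemma integral_comp_zsmul (r : ℤ) (hr : r ≠ 0) (g : UnitAddCircle → ℝ) (hg : Measurable g) :
    ∫ x, g (r • x) ∂mT = ∫ x, g x ∂mT := by
  have hmp : MeasurePreserving (fun x : UnitAddCircle => r • x) mT mT :=
    Measure.measurePreserving_zsmul haar hr
  rw [← integral_map hmp.measurable.aemeasurable (by rw [hmp.map_eq]; exact hg.aestronglyMeasurable),
    hmp.map_eq]

lemma integrable_comp_zsmul (r : ℤ) (hr : r ≠ 0) (g : UnitAddCircle → ℝ) (hg : Integrable g mT) :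
    Integrable (fun x : UnitAddCircle => g (r • x)) mT := by
  have hmp : MeasurePreserving (fun x : UnitAddCircle => r • x) mT mT :=
    Measure.measurePreserving_zsmul haar hr
  exact hmp.integrable_comp_of_integrable hg

lemma pmp_core_aux (K b r q : ℕ) (hb0 : 0 < b) (hr0 : 0 < r) (hq0 : 0 < q) (l : ℤ)
    (δ' : ℝ) (hδ'0 : 0 < δ') (hbr : 2 * b ∣ r) (w s : ℕ) (hs : s < r * b)
    (hq3 : 4 * (b : ℝ) ≤ δ' * q)
    (hI2 : ∫ x, ‖A2f b q l (-(l * s / ((r * b : ℕ) : ℝ))) x -
      ee (-(l * s / ((r * b : ℕ) : ℝ)) * vp b l x) * Pl b l q x‖ ^ 2 ∂mT ≤ δ' / r)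
    (hI3 : ∫ x, ‖A1f K b r l w s x - (if ⌊(K : ℝ) * vp b l x⌋₊ = w then Pl b l r x *
        ee (l * s / b * vp b l x) else 0)‖ ^ 2 ∂mT ≤ δ')
    (hI4 : ∫ x, (‖Pl b l q x‖ ^ 2 - 1) ^ 2 ∂mT ≤ δ' / (4 * (r : ℝ) ^ 2 / δ' + r))
    (hI5 : ∫ x, (‖Pl b l r x‖ ^ 2 - 1) ^ 2 ∂mT ≤ δ') :
    ∫ x, ‖winS K b r q l w s x
          - (if ⌊(K : ℝ) * vp b l x⌋₊ = w then phase (Pl b l r x * Pl b l q ((r : ℤ) • x)) *
            ee (Nr b l r x * s / ((r * b : ℕ) : ℝ)) else 0)‖ ^ 2 ∂mT ≤ 30 * δ' := by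
  classical
  set c : ℝ := -(l * s / ((r * b : ℕ) : ℝ)) with hc
  have hr0' : (0 : ℝ) < r := by exact_mod_cast hr0
  have hq0' : (0 : ℝ) < q := by exact_mod_cast hq0
  have hzr : ((r : ℤ)) ≠ 0 := by exact_mod_cast hr0.ne'
  have hsqr : (Real.sqrt r) ^ 2 = (r : ℝ) := Real.sq_sqrt hr0'.le
  have hg4c : Continuous (fun x : UnitAddCircle => (‖Pl b l q x‖ ^ 2 - 1) ^ 2) :=
    (((continuous_Pl b l q).norm.pow 2).sub continuous_const).pow 2
  have hf5c : Continuous (fun x : UnitAddCircle => (‖Pl b l r x‖ ^ 2 - 1) ^ 2) :=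
    (((continuous_Pl b l r).norm.pow 2).sub continuous_const).pow 2
  have hf1c : Continuous (fun x : UnitAddCircle =>
      ‖winS K b r q l w s x - fullS K b r q l w s x‖ ^ 2) :=
    ((continuous_winS K b r q l w s).sub (continuous_fullS K b r q l w s)).norm.pow 2
  have hI1 : ∫ x, ‖winS K b r q l w s x - fullS K b r q l w s x‖ ^ 2 ∂mT ≤ δ' := by
    refine (integral_win_sub_full K b r q (Nat.mul_pos hr0 hq0) l w s).trans ?_
    have h1 : (s : ℝ) ≤ r * b := by exact_mod_cast hs.le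
    push_cast
    rw [div_le_iff₀ (by positivity)]
    nlinarith only [hq3, h1]
  refine final_integral δ' r (4 * (r : ℝ) ^ 2 / δ' + r) hr0' (by positivity) _
    (fun x => ‖winS K b r q l w s x - fullS K b r q l w s x‖ ^ 2)
    (fun x => ‖A2f b q l c ((r : ℤ) • x) - ee (c * vp b l ((r : ℤ) • x)) *
      Pl b l q ((r : ℤ) • x)‖ ^ 2)
    (fun x => ‖A1f K b r l w s x -
      (if ⌊(K : ℝ) * vp b l x⌋₊ = w then Pl b l r x * ee (l * s / b * vp b l x) else 0)‖ ^ 2)
    (fun x => (‖Pl b l q ((r : ℤ) • x)‖ ^ 2 - 1) ^ 2)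
    (fun x => (‖Pl b l r x‖ ^ 2 - 1) ^ 2) (fun x => by positivity)
    (integrable_of_continuous hf1c) ?_ (integrable_f3 K b r l w s) ?_
    (integrable_of_continuous hf5c) hI1 ?_ hI3 ?_ hI5 ?_
  · exact integrable_comp_zsmul r hzr (fun x : UnitAddCircle =>
      ‖A2f b q l c x - ee (c * vp b l x) * Pl b l q x‖ ^ 2) (integrable_g2 b q l c).2
  · exact integrable_comp_zsmul r hzr (fun x : UnitAddCircle => (‖Pl b l q x‖ ^ 2 - 1) ^ 2)
      (integrable_of_continuous hg4c)
  · have h := integral_comp_zsmul r hzr (fun x : UnitAddCircle =>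
      ‖A2f b q l c x - ee (c * vp b l x) * Pl b l q x‖ ^ 2) (integrable_g2 b q l c).1
    exact h.trans_le hI2
  · have h := integral_comp_zsmul r hzr (fun x : UnitAddCircle => (‖Pl b l q x‖ ^ 2 - 1) ^ 2)
      hg4c.measurable
    exact h.trans_le hI4
  · intro x
    rw [← ee_combine b r s hb0 hr0 l x]
    have h1 := core_pointwise (r : ℝ) hr0' δ' hδ'0 (winS K b r q l w s x) (A1f K b r l w s x)
      (A2f b q l c ((r : ℤ) • x)) (Pl b l r x) (Pl b l q ((r : ℤ) • x))
      (ee (l * s / b * vp b l x)) (ee (c * vp b l ((r : ℤ) • x)))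
      (⌊(K : ℝ) * vp b l x⌋₊ = w)
      (by rw [← hsqr]; exact pow_le_pow_left₀ (norm_nonneg _) (norm_A1f_le K b r l w s x) 2)
      (by rw [← hsqr]; exact pow_le_pow_left₀ (norm_nonneg _) (norm_Pl_le b l r x) 2)
      (norm_ee _) (norm_ee _)
    rw [← fullS_eq K b r q hb0 hr0 hq0 hbr l w s x] at h1
    exact h1

end PCore

open PCore in
/-- (P2) analytic core of PMP -/
theorem pmp_core (K b : ℕ) (hK : 1 ≤ K) (hb0 : 0 < b) (hb : Even b) (l : ℤ) (hl : l ≠ 0)
    (hlb : l ∣ (b : ℤ)) (δ : ℝ) (hδ : 0 < δ) :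
    ∃ r0 : ℕ, ∀ r ≥ r0, 2 * b * K ∣ r → ∃ q0 : ℕ, ∀ q ≥ q0,
      ∃ U : UnitAddCircle → ℂ, Measurable U ∧ (∀ x, ‖U x‖ = 1) ∧
      ∀ w < K, ∀ s < r * b,
        ∫ x, ‖((Real.sqrt ((r * q : ℕ) : ℝ) : ℝ) : ℂ)⁻¹ *
            ∑ I ∈ (Finset.range (r * q)).filter (fun I => wI K r s I = w),
              ee (l * GI b r q s I) * fourier (I : ℤ) x
          - (if ⌊(K : ℝ) * vp b l x⌋₊ = w then U x * ee (Nr b l r x * s / ((r * b : ℕ) : ℝ)) else 0)‖ ^ 2
          ∂mT ≤ δ := by
  set δ' : ℝ := δ / 30 with hδ'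
  have hδ'0 : 0 < δ' := by positivity
  have hδδ : δ = 30 * δ' := by rw [hδ']; ring
  obtain ⟨r1, hr1⟩ := A1_approx K b hK hb0 l hl hlb δ' hδ'0
  have hflat := flatness b hb0 l hl hlb
  obtain ⟨r2, hr2⟩ := (Filter.eventually_atTop.1 (hflat.eventually (gt_mem_nhds hδ'0)))
  refine ⟨max (max r1 r2) 1, fun r hr hdvd => ?_⟩
  have hr1' : r1 ≤ r := le_trans (le_trans (le_max_left _ _) (le_max_left _ _)) hr
  have hr2' : r2 ≤ r := le_trans (le_trans (le_max_right _ _) (le_max_left _ _)) hr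
  have hr0 : 0 < r := lt_of_lt_of_le Nat.one_pos (le_trans (le_max_right _ _) hr)
  have hr0' : (0 : ℝ) < r := by exact_mod_cast hr0
  obtain ⟨q1, hq1⟩ := loc_unif b hb0 l hl hlb |(l : ℝ)| (δ' / r) (by positivity)
  obtain ⟨q2, hq2⟩ := (Filter.eventually_atTop.1 (hflat.eventually
    (gt_mem_nhds (show (0 : ℝ) < δ' / (4 * (r : ℝ) ^ 2 / δ' + r) by positivity))))
  obtain ⟨q3, hq3⟩ := exists_nat_gt (4 * (b : ℝ) / δ')
  refine ⟨max (max q1 q2) (max q3 1), fun q hq => ?_⟩
  have hq1' : q1 ≤ q := le_trans (le_trans (le_max_left _ _) (le_max_left _ _)) hq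
  have hq2' : q2 ≤ q := le_trans (le_trans (le_max_right _ _) (le_max_left _ _)) hq
  have hq3' : q3 ≤ q := le_trans (le_trans (le_max_left _ _) (le_max_right _ _)) hq
  have hq0 : 0 < q := lt_of_lt_of_le Nat.one_pos (le_trans (le_trans (le_max_right _ _)
    (le_max_right _ _)) hq)
  refine ⟨fun x => phase (Pl b l r x * Pl b l q ((r : ℤ) • x)), ?_, fun x => norm_phase _, ?_⟩
  · apply measurable_phase.comp
    apply (continuous_Pl b l r).measurable.mul
    exact ((continuous_Pl b l q).comp (continuous_zsmul (r : ℤ))).measurable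
  intro w hw s hs
  have hbr : 2 * b ∣ r := Dvd.dvd.trans (Dvd.intro K rfl) hdvd
  have hrb0 : (0 : ℝ) < ((r * b : ℕ) : ℝ) := by exact_mod_cast Nat.mul_pos hr0 hb0
  have hcC : |-(l * s / ((r * b : ℕ) : ℝ))| ≤ |(l : ℝ)| := by
    rw [abs_neg, abs_div, abs_mul, abs_of_pos hrb0, Nat.abs_cast, div_le_iff₀ hrb0]
    apply mul_le_mul_of_nonneg_left _ (abs_nonneg _)
    exact_mod_cast hs.le
  have h2 : 4 * (b : ℝ) ≤ δ' * q := by
    have h3 : (q3 : ℝ) ≤ q := by exact_mod_cast hq3'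
    have h4 := (div_lt_iff₀ hδ'0).1 (lt_of_lt_of_le hq3 h3)
    linarith only [h4]
  have key := pmp_core_aux K b r q hb0 hr0 hq0 l δ' hδ'0 hbr w s hs h2
    (hq1 q hq1' _ hcC) (hr1 r hr1' w hw s) (hq2 q hq2').le (hr2 r hr2').le
  rw [hδδ]
  refine le_trans (le_of_eq ?_) key
  congr 1
  funext x
  rw [winS_eq]

end Vale.Agent.P130
end
end

section

section

open MeasureTheory Filter Topology

namespace Vale.Agent.P130

theorem pmp_ee_add (a b : ℝ) : ee (a + b) = ee a * ee b := by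
  unfold ee
  rw [← Complex.exp_add]
  congr 1
  push_cast
  ring

theorem pmp_norm_ee (a : ℝ) : ‖ee a‖ = 1 := by
  unfold ee
  rw [show (2 * Real.pi * Complex.I * (a : ℂ)) = ((2 * Real.pi * a : ℝ) : ℂ) * Complex.I by
    push_cast; ring]
  exact Complex.norm_exp_ofReal_mul_I _

theorem pmp_continuous_ee : Continuous ee := by
  unfold ee
  fun_prop

theorem pmp_ee_sub (a b : ℝ) : ‖ee a - ee b‖ ≤ 2 * Real.pi * |a - b| := by
  have h1 : ee a - ee b = ee b * (ee (a - b) - 1) := by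
    have : ee a = ee b * ee (a - b) := by rw [← pmp_ee_add]; congr 1; ring
    rw [this]; ring
  rw [h1, norm_mul, pmp_norm_ee, one_mul]
  unfold ee
  rw [show (2 * Real.pi * Complex.I * ((a - b : ℝ) : ℂ)) =
    Complex.I * ((2 * Real.pi * (a - b) : ℝ) : ℂ) by push_cast; ring]
  refine (Real.norm_exp_I_mul_ofReal_sub_one_le).trans ?_
  rw [Real.norm_eq_abs, abs_mul, abs_of_pos (by positivity : (0:ℝ) < 2 * Real.pi)]

theorem pmp_fourier_coe (n : ℤ) (t : ℝ) : fourier n (t : UnitAddCircle) = ee (n * t) := by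
  rw [fourier_coe_apply]
  unfold ee
  congr 1
  push_cast
  ring

theorem pmp_coe_rep (y : UnitAddCircle) : ((rep y : ℝ) : UnitAddCircle) = y :=
  (AddCircle.equivIco 1 0).symm_apply_apply y

theorem pmp_fourier_rep (n : ℤ) (y : UnitAddCircle) : fourier n y = ee (n * rep y) := by
  conv_lhs => rw [← pmp_coe_rep y]
  exact pmp_fourier_coe n (rep y)

theorem pmp_rep_mem (y : UnitAddCircle) : 0 ≤ rep y ∧ rep y < 1 := by
  have h := (AddCircle.equivIco 1 0 y).2
  exact ⟨h.1, lt_of_lt_of_eq h.2 (zero_add 1)⟩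

theorem pmp_measurable_rep : Measurable rep := by
  unfold rep
  exact measurable_subtype_coe.comp (AddCircle.measurableEquivIco 1 0).measurable

theorem pmp_fourier_zsmul (l k : ℤ) (y : UnitAddCircle) :
    fourier l (k • y) = fourier (l * k) y := by
  rw [fourier_apply, fourier_apply, mul_smul]

theorem pmp_fourier_add (l : ℤ) (x y : UnitAddCircle) :
    fourier l (x + y) = fourier l x * fourier l y := by
  rw [fourier_apply, fourier_apply, fourier_apply, smul_add, AddCircle.toCircle_add,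
    Circle.coe_mul]

theorem pmp_norm_fourier (l : ℤ) (y : UnitAddCircle) : ‖fourier l y‖ = 1 := by
  rw [fourier_apply]; exact Circle.norm_coe _

theorem pmp_measurable_vp (b : ℕ) (l : ℤ) : Measurable (vp b l) := by
  unfold vp
  refine pmp_measurable_rep.comp ?_
  unfold vres
  fun_prop

theorem pmp_measurable_Nr (b : ℕ) (l : ℤ) (r : ℕ) : Measurable (Nr b l r) := by
  unfold Nr
  have h1 := pmp_measurable_vp b l
  have h2 : Measurable fun x : UnitAddCircle => vp b l ((r : ℤ) • x) :=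
    h1.comp (by fun_prop)
  exact ((h1.const_mul (r : ℝ)).sub h2).const_mul (l : ℝ)

/-- the polynomial with spacer `ρ` and shift `s` -/
noncomputable def pmpS (K b r q : ℕ) (l : ℤ) (ρ s : ℕ) (x : UnitAddCircle) : ℂ :=
  ((Real.sqrt ((r * q : ℕ) : ℝ) : ℝ) : ℂ)⁻¹ *
    ∑ I ∈ (Finset.range (r * q)).filter (fun I => wI K r s I = ρ),
      ee (l * GI b r q s I) * fourier (I : ℤ) x

/-- the limit object for spacer `ρ` and shift `s` -/
noncomputable def pmpT (K b r : ℕ) (l : ℤ) (U : UnitAddCircle → ℂ) (ρ s : ℕ)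
    (x : UnitAddCircle) : ℂ :=
  if ⌊(K : ℝ) * vp b l x⌋₊ = ρ then U x * ee (Nr b l r x * s / ((r * b : ℕ) : ℝ)) else 0

theorem pmp_measurable_S (K b r q : ℕ) (l : ℤ) (ρ s : ℕ) : Measurable (pmpS K b r q l ρ s) := by
  unfold pmpS
  refine Measurable.const_mul ?_ _
  refine Finset.measurable_sum _ fun I _ => ?_
  exact (map_continuous (fourier (T := 1) (I : ℤ))).measurable.const_mul _

theorem pmp_measurable_T (K b r : ℕ) (l : ℤ) (U : UnitAddCircle → ℂ) (hU : Measurable U)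
    (ρ s : ℕ) : Measurable (pmpT K b r l U ρ s) := by
  unfold pmpT
  refine Measurable.ite ?_ ?_ measurable_const
  · exact (Nat.measurable_floor.comp ((pmp_measurable_vp b l).const_mul (K : ℝ)))
      (measurableSet_singleton ρ)
  · exact hU.mul (pmp_continuous_ee.measurable.comp
      (((pmp_measurable_Nr b l r).mul_const _).div_const _))

theorem pmp_integrable_g (K b r q : ℕ) (l : ℤ) (U : UnitAddCircle → ℂ) (hU : Measurable U)
    (hU1 : ∀ x, ‖U x‖ = 1) (ρ s : ℕ) :
    Integrable (fun x => ‖pmpS K b r q l ρ s x - pmpT K b r l U ρ s x‖ ^ 2) mT := by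
  set C : ℝ := ‖((Real.sqrt ((r * q : ℕ) : ℝ) : ℝ) : ℂ)⁻¹‖ *
    ((Finset.range (r * q)).filter (fun I => wI K r s I = ρ)).card with hC
  refine Integrable.of_bound (C := (C + 1) ^ 2) ?_ ?_
  · exact (((pmp_measurable_S K b r q l ρ s).sub
      (pmp_measurable_T K b r l U hU ρ s)).norm.pow_const 2).aestronglyMeasurable
  · refine Eventually.of_forall fun x => ?_
    rw [norm_pow, norm_norm]
    refine pow_le_pow_left₀ (norm_nonneg _) ?_ 2
    refine (norm_sub_le _ _).trans (add_le_add ?_ ?_)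
    · unfold pmpS
      rw [norm_mul, hC]
      refine mul_le_mul_of_nonneg_left ?_ (norm_nonneg _)
      refine (norm_sum_le _ _).trans ?_
      rw [Finset.card_eq_sum_ones, Nat.cast_sum]
      refine Finset.sum_le_sum fun I _ => ?_
      rw [norm_mul, pmp_norm_ee, pmp_norm_fourier]
      simp
    · unfold pmpT
      split_ifs
      · rw [norm_mul, hU1, pmp_norm_ee, one_mul]
      · simp

theorem pmp_pointwise (K b r q : ℕ) (hb : 1 ≤ b) (hr0 : 0 < r) (l : ℤ) (ρ : ℕ)
    (U : UnitAddCircle → ℂ) (hU1 : ∀ x, ‖U x‖ = 1)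
    (N : UnitAddCircle → ℤ) (hN : ∀ x, (N x : ℝ) = l * ((r * b : ℕ) : ℝ) + Nr b l r x)
    (hNr : ∀ x, |Nr b l r x| ≤ |(l : ℝ)| * (r + 1))
    (hs : ∀ y, ((r * b : ℕ) : ℝ) * rep y - 1 < sI r b y ∧
      (sI r b y : ℝ) ≤ ((r * b : ℕ) : ℝ) * rep y)
    (η : ℝ) (hη : 4 * Real.pi * |(l : ℝ)| / b ≤ η) (x y : UnitAddCircle) :
    ‖((Real.sqrt ((r * q : ℕ) : ℝ) : ℝ) : ℂ)⁻¹ * ∑ I ∈ Finset.range (r * q),
            (if wI K r (sI r b y) I = ρ then 1 else 0) *
              (fourier (I : ℤ) x * fourier l (uI b r q I y))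
          - (if ⌊(K : ℝ) * vp b l x⌋₊ = ρ then 1 else 0) * (U x * fourier (N x) y)‖ ^ 2 ≤
      2 * ‖pmpS K b r q l ρ (sI r b y) x - pmpT K b r l U ρ (sI r b y) x‖ ^ 2 + 2 * η ^ 2 := by
  set s := sI r b y with hsdef
  have hA : ((Real.sqrt ((r * q : ℕ) : ℝ) : ℝ) : ℂ)⁻¹ * ∑ I ∈ Finset.range (r * q),
            (if wI K r s I = ρ then 1 else 0) *
              (fourier (I : ℤ) x * fourier l (uI b r q I y)) =
      fourier (l * ((r * b : ℕ) : ℤ)) y * pmpS K b r q l ρ s x := by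
    have key : ∑ I ∈ Finset.range (r * q), (if wI K r s I = ρ then (1 : ℂ) else 0) *
              (fourier (I : ℤ) x * fourier l (uI b r q I y)) =
        fourier (l * ((r * b : ℕ) : ℤ)) y *
          ∑ I ∈ (Finset.range (r * q)).filter (fun I => wI K r s I = ρ),
            ee (l * GI b r q s I) * fourier (I : ℤ) x := by
      rw [Finset.sum_filter, Finset.mul_sum]
      refine Finset.sum_congr rfl fun I _ => ?_
      split_ifs
      · unfold uI
        rw [pmp_fourier_add, pmp_fourier_zsmul, pmp_fourier_coe, ← hsdef]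
        ring
      · simp
    unfold pmpS
    rw [key]
    ring
  have hB : (if ⌊(K : ℝ) * vp b l x⌋₊ = ρ then 1 else 0) * (U x * fourier (N x) y) =
      fourier (l * ((r * b : ℕ) : ℤ)) y *
        (if ⌊(K : ℝ) * vp b l x⌋₊ = ρ then U x * ee (Nr b l r x * rep y) else 0) := by
    split_ifs
    · have : fourier (N x) y = fourier (l * ((r * b : ℕ) : ℤ)) y * ee (Nr b l r x * rep y) := by
        rw [pmp_fourier_rep, pmp_fourier_rep, ← pmp_ee_add, hN x]
        congr 1
        push_cast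
        ring
      rw [this]
      ring
    · simp
  have hD : ‖pmpT K b r l U ρ s x -
      (if ⌊(K : ℝ) * vp b l x⌋₊ = ρ then U x * ee (Nr b l r x * rep y) else 0)‖ ≤ η := by
    unfold pmpT
    have hη0 : 0 ≤ η := le_trans (by positivity) hη
    split_ifs
    · rw [← mul_sub, norm_mul, hU1, one_mul]
      refine (pmp_ee_sub _ _).trans (le_trans ?_ hη)
      have hb' : (0 : ℝ) < b := by exact_mod_cast hb
      have hr' : (0 : ℝ) < r := by exact_mod_cast hr0
      have hrb : (0 : ℝ) < ((r * b : ℕ) : ℝ) := by push_cast; positivity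
      have h1 : Nr b l r x * s / ((r * b : ℕ) : ℝ) - Nr b l r x * rep y =
          Nr b l r x * ((s : ℝ) - ((r * b : ℕ) : ℝ) * rep y) / ((r * b : ℕ) : ℝ) := by
        field_simp
      rw [h1, abs_div, abs_mul, abs_of_pos hrb]
      have h2 : |(s : ℝ) - ((r * b : ℕ) : ℝ) * rep y| ≤ 1 := by
        rw [abs_le]
        obtain ⟨h3, h4⟩ := hs y
        constructor <;> linarith
      have h3 : |Nr b l r x| * |(s : ℝ) - ((r * b : ℕ) : ℝ) * rep y| ≤ |(l : ℝ)| * (r + 1) * 1 :=
        mul_le_mul (hNr x) h2 (abs_nonneg _) (by positivity)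
      have h4 : |Nr b l r x| * |(s : ℝ) - ((r * b : ℕ) : ℝ) * rep y| / ((r * b : ℕ) : ℝ) ≤
          2 * |(l : ℝ)| / b := by
        rw [div_le_div_iff₀ hrb hb']
        have h5 : (1 : ℝ) ≤ r := by exact_mod_cast hr0
        have h6 : ((r * b : ℕ) : ℝ) = r * b := by push_cast; ring
        calc |Nr b l r x| * |(s : ℝ) - ((r * b : ℕ) : ℝ) * rep y| * b
            ≤ (|(l : ℝ)| * (r + 1) * 1) * b := by
              exact mul_le_mul_of_nonneg_right h3 hb'.le
          _ ≤ 2 * |(l : ℝ)| * ((r * b : ℕ) : ℝ) := by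
              rw [h6]
              have : |(l : ℝ)| * b * (r + 1) ≤ |(l : ℝ)| * b * (2 * r) :=
                mul_le_mul_of_nonneg_left (by linarith only [h5]) (by positivity)
              linarith only [this]
      calc 2 * Real.pi * (|Nr b l r x| * |(s : ℝ) - ((r * b : ℕ) : ℝ) * rep y| /
              ((r * b : ℕ) : ℝ)) ≤ 2 * Real.pi * (2 * |(l : ℝ)| / b) :=
            mul_le_mul_of_nonneg_left h4 (by positivity)
        _ = 4 * Real.pi * |(l : ℝ)| / b := by ring
    · simpa using hη0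
  rw [hA, hB, ← mul_sub, norm_mul, pmp_norm_fourier, one_mul]
  set a := pmpS K b r q l ρ s x
  set t := pmpT K b r l U ρ s x
  set c := (if ⌊(K : ℝ) * vp b l x⌋₊ = ρ then U x * ee (Nr b l r x * rep y) else 0)
  have h1 : ‖a - c‖ ≤ ‖a - t‖ + ‖t - c‖ := norm_sub_le_norm_sub_add_norm_sub a t c
  have h2 : ‖a - c‖ ≤ ‖a - t‖ + η := h1.trans (by linarith only [hD])
  calc ‖a - c‖ ^ 2 ≤ (‖a - t‖ + η) ^ 2 := pow_le_pow_left₀ (norm_nonneg _) h2 2
    _ ≤ 2 * ‖a - t‖ ^ 2 + 2 * η ^ 2 := by linarith only [sq_nonneg (‖a - t‖ - η)]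

theorem pmp_measurable_sI (r b : ℕ) : Measurable (sI r b) := by
  unfold sI
  exact Nat.measurable_floor.comp (pmp_measurable_rep.const_mul _)

theorem pmp_single (K b r q : ℕ) (hb : 1 ≤ b) (hr0 : 0 < r) (l : ℤ) (ρ : ℕ)
    (U : UnitAddCircle → ℂ) (hU : Measurable U) (hU1 : ∀ x, ‖U x‖ = 1)
    (N : UnitAddCircle → ℤ) (hN : ∀ x, (N x : ℝ) = l * ((r * b : ℕ) : ℝ) + Nr b l r x)
    (hNr : ∀ x, |Nr b l r x| ≤ |(l : ℝ)| * (r + 1))
    (hlt : ∀ y, sI r b y < r * b)
    (hs : ∀ y, ((r * b : ℕ) : ℝ) * rep y - 1 < sI r b y ∧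
      (sI r b y : ℝ) ≤ ((r * b : ℕ) : ℝ) * rep y)
    (δ : ℝ) (hcore : ∀ s < r * b,
      ∫ x, ‖pmpS K b r q l ρ s x - pmpT K b r l U ρ s x‖ ^ 2 ∂mT ≤ δ)
    (η : ℝ) (hη : 4 * Real.pi * |(l : ℝ)| / b ≤ η) :
    ∫ x, (∫ y, ‖((Real.sqrt ((r * q : ℕ) : ℝ) : ℝ) : ℂ)⁻¹ * ∑ I ∈ Finset.range (r * q),
            (if wI K r (sI r b y) I = ρ then 1 else 0) *
              (fourier (I : ℤ) x * fourier l (uI b r q I y))
          - (if ⌊(K : ℝ) * vp b l x⌋₊ = ρ then 1 else 0) * (U x * fourier (N x) y)‖ ^ 2 ∂mT) ∂mT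
      ≤ 2 * δ + 2 * η ^ 2 := by
  set g : ℕ → UnitAddCircle → ℝ := fun s x =>
    ‖pmpS K b r q l ρ s x - pmpT K b r l U ρ s x‖ ^ 2 with hg
  have hgi : ∀ s, Integrable (g s) mT := fun s => pmp_integrable_g K b r q l U hU hU1 ρ s
  set c : ℕ → ℝ := fun s => mT.real {y | sI r b y = s} with hc
  have hms : ∀ s, MeasurableSet {y | sI r b y = s} := fun s =>
    pmp_measurable_sI r b (measurableSet_singleton s)
  have hint : ∀ (s : ℕ) (a : ℝ), ∫ y, (if sI r b y = s then a else 0) ∂mT = c s * a := by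
    intro s a
    have : (fun y => if sI r b y = s then a else 0) =
        Set.indicator {y | sI r b y = s} (fun _ => a) := by
      ext y; simp [Set.indicator_apply]
    rw [this, integral_indicator_const _ (hms s), smul_eq_mul]
  have hinti : ∀ (s : ℕ) (a : ℝ), Integrable (fun y => if sI r b y = s then a else 0) mT := by
    intro s a
    have : (fun y => if sI r b y = s then a else 0) =
        Set.indicator {y | sI r b y = s} (fun _ => a) := by
      ext y; simp [Set.indicator_apply]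
    rw [this]
    exact (integrable_const a).indicator (hms s)
  have hcsum : ∑ s ∈ Finset.range (r * b), c s = 1 := by
    have h1 : ∫ y, (∑ s ∈ Finset.range (r * b), (if sI r b y = s then (1:ℝ) else 0)) ∂mT =
        ∑ s ∈ Finset.range (r * b), c s := by
      rw [integral_finsetSum _ fun s _ => hinti s 1]
      refine Finset.sum_congr rfl fun s _ => ?_
      rw [hint, mul_one]
    rw [← h1]
    have h2 : (fun y => ∑ s ∈ Finset.range (r * b), (if sI r b y = s then (1:ℝ) else 0)) =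
        fun _ => 1 := by
      ext y
      rw [Finset.sum_ite_eq, if_pos (Finset.mem_range.2 (hlt y))]
    rw [h2]
    simp
  have hy : ∀ x, ∫ y, ‖((Real.sqrt ((r * q : ℕ) : ℝ) : ℝ) : ℂ)⁻¹ *
            ∑ I ∈ Finset.range (r * q), (if wI K r (sI r b y) I = ρ then 1 else 0) *
              (fourier (I : ℤ) x * fourier l (uI b r q I y))
          - (if ⌊(K : ℝ) * vp b l x⌋₊ = ρ then 1 else 0) * (U x * fourier (N x) y)‖ ^ 2 ∂mT ≤
      2 * ∑ s ∈ Finset.range (r * b), c s * g s x + 2 * η ^ 2 := by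
    intro x
    have h1 : ∫ y, (2 * ∑ s ∈ Finset.range (r * b), (if sI r b y = s then g s x else 0)
        + 2 * η ^ 2) ∂mT = 2 * ∑ s ∈ Finset.range (r * b), c s * g s x + 2 * η ^ 2 := by
      rw [integral_add ((integrable_finsetSum _ fun s _ => hinti s (g s x)).const_mul 2)
        (integrable_const _), integral_const_mul, integral_finsetSum _ fun s _ => hinti s (g s x)]
      simp [hint]
    rw [← h1]
    refine integral_mono_of_nonneg (Eventually.of_forall fun y => by positivity)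
      (((integrable_finsetSum _ fun s _ => hinti s (g s x)).const_mul 2).add
        (integrable_const _)) (Eventually.of_forall fun y => ?_)
    refine (pmp_pointwise K b r q hb hr0 l ρ U hU1 N hN hNr hs η hη x y).trans ?_
    have h2 : ∑ s ∈ Finset.range (r * b), (if sI r b y = s then g s x else 0) =
        g (sI r b y) x := by
      rw [Finset.sum_ite_eq, if_pos (Finset.mem_range.2 (hlt y))]
    beta_reduce
    rw [h2]
  calc _ ≤ ∫ x, (2 * ∑ s ∈ Finset.range (r * b), c s * g s x + 2 * η ^ 2) ∂mT := by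
        refine integral_mono_of_nonneg (Eventually.of_forall fun x =>
          integral_nonneg fun y => by positivity) ?_ (Eventually.of_forall hy)
        exact ((integrable_finsetSum _ fun s _ => (hgi s).const_mul (c s)).const_mul 2).add
          (integrable_const _)
    _ = 2 * ∑ s ∈ Finset.range (r * b), c s * ∫ x, g s x ∂mT + 2 * η ^ 2 := by
        rw [integral_add ((integrable_finsetSum _ fun s _ => (hgi s).const_mul (c s)).const_mul 2)
          (integrable_const _), integral_const_mul,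
          integral_finsetSum _ fun s _ => (hgi s).const_mul (c s)]
        simp [integral_const_mul]
    _ ≤ 2 * δ + 2 * η ^ 2 := by
        have h1 : ∑ s ∈ Finset.range (r * b), c s * ∫ x, g s x ∂mT ≤
            ∑ s ∈ Finset.range (r * b), c s * δ := by
          refine Finset.sum_le_sum fun s hs => ?_
          exact mul_le_mul_of_nonneg_left (hcore s (Finset.mem_range.1 hs)) measureReal_nonneg
        rw [← Finset.sum_mul, hcsum, one_mul] at h1
        linarith only [h1]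

/-- (P3) position measurement by phases -/
theorem pmp (K : ℕ) (hK : 1 ≤ K) (L : ℕ) (_hL : 1 ≤ L) (ε : ℝ) (hε : 0 < ε) :
    ∃ (m : ℕ) (w : ℕ → UnitAddCircle → ℕ) (u : ℕ → UnitAddCircle → UnitAddCircle) (B : ℕ)
      (W : ℤ → UnitAddCircle → ℕ) (U : ℤ → UnitAddCircle → ℂ) (N : ℤ → UnitAddCircle → ℤ),
      1 ≤ m ∧ (∀ I, Measurable (w I)) ∧ (∀ I, Measurable (u I)) ∧ (∀ I y, w I y < K) ∧
      (∀ I, ∀ r < K, ∀ A, MeasurableSet A →
        mT.real ({y | w I y = r} ∩ u I ⁻¹' A) = (1 / (K : ℝ)) * mT.real A) ∧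
      (∀ l, Measurable (W l)) ∧ (∀ l x, W l x < K) ∧
      (∀ l, Measurable (U l)) ∧ (∀ l x, ‖U l x‖ = 1) ∧
      (∀ l, Measurable (N l)) ∧ (∀ l x, l ≠ 0 → |l| ≤ (L : ℤ) → N l x ≠ 0 ∧ |N l x| ≤ (B : ℤ)) ∧
      ∀ l : ℤ, l ≠ 0 → |l| ≤ (L : ℤ) → ∀ r < K,
        ∫ x, (∫ y, ‖((Real.sqrt m : ℝ) : ℂ)⁻¹ * ∑ I ∈ Finset.range m,
            (if w I y = r then 1 else 0) * (fourier (I : ℤ) x * fourier l (u I y))
          - (if W l x = r then 1 else 0) * (U l x * fourier (N l x) y)‖ ^ 2 ∂mT) ∂mT ≤ ε ^ 2 := by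
  classical
  -- the modulus `b`
  obtain ⟨M, hM⟩ := exists_nat_ge (8 * Real.pi * L / ε)
  set b : ℕ := 2 * (L.factorial * (M + 1)) with hbdef
  have hfac : 1 ≤ L.factorial := Nat.succ_le_of_lt L.factorial_pos
  have hMb : M + 1 ≤ b := by
    calc M + 1 = 1 * (1 * (M + 1)) := by ring
      _ ≤ 2 * (L.factorial * (M + 1)) :=
        Nat.mul_le_mul (by norm_num) (Nat.mul_le_mul_right _ hfac)
  have hb2 : 2 ≤ b := by
    have : 1 ≤ L.factorial * (M + 1) := Nat.mul_pos hfac (Nat.succ_pos M)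
    omega
  have hbe : Even b := even_two_mul _
  have hb0 : 0 < b := by omega
  have hbR : (0 : ℝ) < b := by exact_mod_cast hb0
  have hdvd : ∀ l : ℤ, l ≠ 0 → |l| ≤ (L : ℤ) → l ∣ (b : ℤ) := by
    intro l hl hlL
    have h1 : l.natAbs ∣ L.factorial := by
      refine Nat.dvd_factorial (Int.natAbs_pos.2 hl) ?_
      have := hlL
      rw [Int.abs_eq_natAbs] at this
      exact_mod_cast this
    have h2 : l.natAbs ∣ b := (h1.mul_right (M + 1)).mul_left 2
    exact Int.natAbs_dvd.1 (by exact_mod_cast h2)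
  have hη : ∀ l : ℤ, |l| ≤ (L : ℤ) → 4 * Real.pi * |(l : ℝ)| / b ≤ ε / 2 := by
    intro l hlL
    have h1 : |(l : ℝ)| ≤ L := by exact_mod_cast hlL
    have h2 : 8 * Real.pi * L / ε ≤ b := hM.trans (by exact_mod_cast (by omega : M ≤ b))
    rw [div_le_iff₀ hε] at h2
    rw [div_le_iff₀ hbR]
    have h3 : 4 * Real.pi * |(l : ℝ)| ≤ 4 * Real.pi * L :=
      mul_le_mul_of_nonneg_left h1 (by positivity)
    linarith only [h2, h3]
  -- the set of labels
  set S : Finset ℤ := (Finset.Icc (-(L : ℤ)) L).filter (fun l => l ≠ 0) with hS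
  have hmemS : ∀ l : ℤ, l ∈ S ↔ l ≠ 0 ∧ |l| ≤ (L : ℤ) := by
    intro l
    rw [hS, Finset.mem_filter, Finset.mem_Icc, abs_le]
    tauto
  set δ : ℝ := ε ^ 2 / 4 with hδdef
  have hδ : 0 < δ := by positivity
  have hr1 : ∀ᶠ r : ℕ in atTop, ∀ l ∈ S, 2 * b * K ∣ r → ∃ q0 : ℕ, ∀ q ≥ q0,
      ∃ U : UnitAddCircle → ℂ, Measurable U ∧ (∀ x, ‖U x‖ = 1) ∧
      ∀ w < K, ∀ s < r * b,
        ∫ x, ‖pmpS K b r q l w s x - pmpT K b r l U w s x‖ ^ 2 ∂mT ≤ δ := by
    rw [Filter.eventually_all_finset]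
    intro l hl
    obtain ⟨hl0, hlL⟩ := (hmemS l).1 hl
    obtain ⟨r0, h0⟩ := pmp_core K b hK hb0 hbe l hl0 (hdvd l hl0 hlL) δ hδ
    filter_upwards [eventually_ge_atTop r0] with r hr hrd
    exact h0 r hr hrd
  obtain ⟨R, hR⟩ := eventually_atTop.1 hr1
  set r : ℕ := 2 * b * K * (R + 1) with hrdef
  have hKb : 1 ≤ b * K := Nat.mul_pos hb0 hK
  have hrR : R ≤ r := by
    calc R ≤ 1 * (R + 1) := by omega
      _ ≤ 2 * b * K * (R + 1) := Nat.mul_le_mul_right _ (by rw [mul_assoc]; omega)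
  have hr2 : 2 ≤ r := by
    have : 1 ≤ b * K * (R + 1) := Nat.mul_pos hKb (Nat.succ_pos R)
    have h3 : r = 2 * (b * K * (R + 1)) := by rw [hrdef]; ring
    omega
  have hr0 : 0 < r := by omega
  have hrd : 2 * b * K ∣ r := Dvd.intro _ rfl
  have hrd' : 2 * b ∣ r := (Dvd.intro K rfl).trans hrd
  have hq1 : ∀ᶠ q : ℕ in atTop, ∀ l ∈ S,
      ∃ U : UnitAddCircle → ℂ, Measurable U ∧ (∀ x, ‖U x‖ = 1) ∧
      ∀ w < K, ∀ s < r * b,
        ∫ x, ‖pmpS K b r q l w s x - pmpT K b r l U w s x‖ ^ 2 ∂mT ≤ δ := by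
    rw [Filter.eventually_all_finset]
    intro l hl
    exact eventually_atTop.2 (hR r hrR l hl hrd)
  obtain ⟨q, hq, hq0⟩ := (hq1.and (eventually_ge_atTop 1)).exists
  choose! U hUm hU1 hU using hq
  have hNr : ∀ l : ℤ, l ≠ 0 → |l| ≤ (L : ℤ) → ∀ x,
      (∃ N : ℤ, (N : ℝ) = Nr b l r x) ∧ |Nr b l r x| ≤ |(l : ℝ)| * (r + 1) :=
    fun l hl hlL x => Nr_int b hbe hb0 l hl (hdvd l hl hlL) r hrd' x
  set N : ℤ → UnitAddCircle → ℤ := fun l x => l * ((r * b : ℕ) : ℤ) + ⌊Nr b l r x⌋ with hNdef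
  have hN : ∀ l : ℤ, l ≠ 0 → |l| ≤ (L : ℤ) → ∀ x,
      (N l x : ℝ) = l * ((r * b : ℕ) : ℝ) + Nr b l r x := by
    intro l hl hlL x
    obtain ⟨⟨n, hn⟩, -⟩ := hNr l hl hlL x
    rw [hNdef]
    simp only [← hn, Int.floor_intCast]
    push_cast
    ring
  have hu : ∀ I, _ := fun I => pmp_uniform K b r q hK hb0 hr0 hrd I
  have hsI := (hu 0).2.2.2.2.1
  refine ⟨r * q, fun I y => wI K r (sI r b y) I, fun I => uI b r q I, L * (2 * (r * b)),
    fun l x => ⌊(K : ℝ) * vp b l x⌋₊, fun l => if l ∈ S then U l else fun _ => 1, N,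
    Nat.mul_pos hr0 hq0, fun I => (hu I).1, fun I => (hu I).2.1, fun I => (hu I).2.2.1,
    fun I => (hu I).2.2.2.2.2, ?_, ?_, ?_, ?_, ?_, ?_, ?_⟩
  · intro l
    exact Nat.measurable_floor.comp ((pmp_measurable_vp b l).const_mul (K : ℝ))
  · intro l x
    have h1 : 0 ≤ vp b l x ∧ vp b l x < 1 := pmp_rep_mem (vres b l x)
    have hK' : (0 : ℝ) < K := by exact_mod_cast hK
    beta_reduce
    rw [Nat.floor_lt (mul_nonneg hK'.le h1.1)]
    calc (K : ℝ) * vp b l x < K * 1 := mul_lt_mul_of_pos_left h1.2 hK'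
      _ = K := mul_one _
  · intro l
    by_cases hl : l ∈ S
    · simp only [hl, if_true]; exact hUm l hl
    · simp only [hl, if_false]; exact measurable_const
  · intro l x
    by_cases hl : l ∈ S
    · simp only [hl, if_true]; exact hU1 l hl x
    · simp only [hl, if_false]; simp
  · intro l
    exact (measurable_const.add ((pmp_measurable_Nr b l r).floor))
  · intro l x hl hlL
    have h1 := hN l hl hlL x
    have h2 := (hNr l hl hlL x).2
    have hlabs : (1 : ℝ) ≤ |(l : ℝ)| := by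
      have : (1 : ℤ) ≤ |l| := Int.one_le_abs hl
      exact_mod_cast this
    have hlabs' : |(l : ℝ)| ≤ L := by exact_mod_cast hlL
    have hrR' : (2 : ℝ) ≤ r := by exact_mod_cast hr2
    have hbR' : (2 : ℝ) ≤ b := by exact_mod_cast hb2
    have hrb : (r : ℝ) + 1 < ((r * b : ℕ) : ℝ) := by
      push_cast
      nlinarith only [hrR', hbR']
    have h3 : |Nr b l r x| < |(l : ℝ)| * ((r * b : ℕ) : ℝ) :=
      lt_of_le_of_lt h2 (mul_lt_mul_of_pos_left hrb (by linarith only [hlabs]))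
    have h4 : |(l : ℝ) * ((r * b : ℕ) : ℝ)| = |(l : ℝ)| * ((r * b : ℕ) : ℝ) := by
      have h5 : (0 : ℝ) ≤ ((r * b : ℕ) : ℝ) := Nat.cast_nonneg _
      rw [abs_mul, abs_of_nonneg h5]
    constructor
    · intro h0
      rw [h0, Int.cast_zero] at h1
      have h5 : Nr b l r x = -((l : ℝ) * ((r * b : ℕ) : ℝ)) := by linarith only [h1]
      rw [h5, abs_neg, h4] at h3
      exact lt_irrefl _ h3
    · have h5 : |(N l x : ℝ)| ≤ (L : ℝ) * (2 * ((r * b : ℕ) : ℝ)) := by
        rw [h1]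
        calc |(l : ℝ) * ((r * b : ℕ) : ℝ) + Nr b l r x|
            ≤ |(l : ℝ) * ((r * b : ℕ) : ℝ)| + |Nr b l r x| := abs_add_le _ _
          _ ≤ |(l : ℝ)| * ((r * b : ℕ) : ℝ) + |(l : ℝ)| * ((r * b : ℕ) : ℝ) := by
              rw [h4]; linarith only [h3]
          _ = |(l : ℝ)| * (2 * ((r * b : ℕ) : ℝ)) := by ring
          _ ≤ (L : ℝ) * (2 * ((r * b : ℕ) : ℝ)) :=
              mul_le_mul_of_nonneg_right hlabs' (by positivity)
      have h6 : ((|N l x| : ℤ) : ℝ) ≤ ((L * (2 * (r * b)) : ℕ) : ℝ) := by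
        push_cast at h5 ⊢
        exact h5
      exact_mod_cast h6
  · intro l hl hlL ρ hρ
    have hlS : l ∈ S := (hmemS l).2 ⟨hl, hlL⟩
    simp only [hlS, if_true]
    refine (pmp_single K b r q hb0 hr0 l ρ (U l) (hUm l hlS) (hU1 l hlS) (N l) (hN l hl hlL)
      (fun x => (hNr l hl hlL x).2) (fun y => (hu 0).2.2.2.1 y) hsI δ (hU l hlS ρ hρ) (ε / 2)
      (hη l hlL)).trans ?_
    rw [hδdef]
    linarith only [sq_nonneg ε]

end Vale.Agent.P130
end
end

section

section

open MeasureTheory Filter Topology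

namespace Vale.Agent.P130

lemma MM_rot (D : SD) (ρ : UnitAddCircle) (l : ℤ) (x y : UnitAddCircle) :
    MM (D.rot ρ).m (D.rot ρ).p (D.rot ρ).φ l x y = fourier l ρ * MM D.m D.p D.φ l x y := by
  have h1 : ∀ i, (D.rot ρ).φ i y = D.φ i y + ρ := fun i => rfl
  have h2 : (D.rot ρ).m = D.m := rfl
  have h3 : (D.rot ρ).p = D.p := rfl
  simp only [MM, h1, h2, h3]
  rw [mul_left_comm]
  congr 1
  rw [Finset.mul_sum]
  refine Finset.sum_congr rfl fun i _ => ?_
  have h4 : (fourier l (D.φ i y + ρ) : ℂ) = fourier l (D.φ i y) * fourier l ρ := by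
    simp only [fourier_apply, smul_add, AddCircle.toCircle_add, Circle.coe_mul]
  rw [h4]
  ring

/-- rotation keeps a good stage good -/
theorem GoodStage.rot {h n : ℕ} {ε : ℝ} {D : SD} (hD : GoodStage h n ε D) (ρ : UnitAddCircle) :
    GoodStage h n ε (D.rot ρ) where
  two_le := hD.two_le
  meas_p := hD.meas_p
  mp_φ i := (measurePreserving_add_right mT ρ).comp (hD.mp_φ i)
  disj := hD.disj
  fit := hD.fit
  ratio := hD.ratio
  ind i hi r A hA := by
    have h1 : (D.rot ρ).φ i ⁻¹' A = D.φ i ⁻¹' ((fun y => y + ρ) ⁻¹' A) := rfl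
    have h2 : MeasurableSet ((fun y : UnitAddCircle => y + ρ) ⁻¹' A) :=
      (measurable_id.add_const ρ) hA
    have h3 : mT.real ((fun y : UnitAddCircle => y + ρ) ⁻¹' A) = mT.real A :=
      (measurePreserving_add_right mT ρ).measureReal_preimage hA.nullMeasurableSet
    rw [h1, ← h3]
    exact hD.ind i hi r _ h2
  rnd := hD.rnd
  meas_θ l := measurable_const.mul (hD.meas_θ l)
  norm_θ l x := by
    change ‖fourier l ρ * D.θ l x‖ = 1
    rw [norm_mul, hD.norm_θ, mul_one, norm_fourier_apply]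
  meas_N := hD.meas_N
  N_ne := hD.N_ne
  N_le := hD.N_le
  main l hl := by
    have h := hD.main l hl
    have h1 : ∀ x y, ‖MM (D.rot ρ).m (D.rot ρ).p (D.rot ρ).φ l x y -
        (D.rot ρ).θ l x * fourier ((D.rot ρ).N x) y‖ ^ 2 =
        ‖MM D.m D.p D.φ l x y - D.θ l x * fourier (D.N x) y‖ ^ 2 := by
      intro x y
      rw [MM_rot]
      have h2 : (D.rot ρ).θ l x = fourier l ρ * D.θ l x := rfl
      have h3 : (D.rot ρ).N x = D.N x := rfl
      rw [h2, h3, mul_assoc, ← mul_sub, norm_mul, norm_fourier_apply, one_mul]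
    simp only [h1]
    exact h

/-- averaging over the rotation -/
theorem exists_rot {n : ℕ} (D : SD) (hθ : ∀ l, Measurable (D.θ l)) (hθ1 : ∀ l x, ‖D.θ l x‖ = 1)
    (I : Finset ℤ) (a : ℤ → ℤ → UnitAddCircle → ℂ) (ha : ∀ i l, MemLp (a i l) 2 mT) :
    ∃ ρ : UnitAddCircle, ∑ i ∈ I, ∫ x, ‖∑ lam ∈ labs n, a i lam x * (D.rot ρ).θ lam x‖ ^ 2 ∂mT ≤
      ∑ i ∈ I, ∑ lam ∈ labs n, ∫ x, ‖a i lam x‖ ^ 2 ∂mT := by
  have hθl : ∀ (ρ : UnitAddCircle) lam x, (D.rot ρ).θ lam x = fourier lam ρ * D.θ lam x :=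
    fun _ _ _ => rfl
  -- the integrand in product form
  let G : ℤ → UnitAddCircle × UnitAddCircle → ℝ := fun i z =>
    ‖∑ lam ∈ labs n, (a i lam z.2 * D.θ lam z.2) * fourier lam z.1‖ ^ 2
  have hGint : ∀ i, Integrable (G i) (mT.prod mT) := by
    intro i
    have hsq : ∀ lam, Integrable (fun x => ‖a i lam x‖ ^ 2) mT := fun lam =>
      (ha i lam).integrable_norm_pow (by norm_num)
    have hdom : Integrable (fun z : UnitAddCircle × UnitAddCircle =>
        (labs n).card * ∑ lam ∈ labs n, ‖a i lam z.2‖ ^ 2) (mT.prod mT) := by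
      refine Integrable.const_mul ?_ _
      refine integrable_finsetSum _ fun lam _ => ?_
      exact (hsq lam).comp_snd mT
    have hmeas : AEStronglyMeasurable (G i) (mT.prod mT) := by
      have h1 : ∀ lam ∈ labs n, AEStronglyMeasurable (fun z : UnitAddCircle × UnitAddCircle =>
          (a i lam z.2 * D.θ lam z.2) * fourier lam z.1) (mT.prod mT) := fun lam _ =>
        (((ha i lam).aestronglyMeasurable.comp_snd).mul
          ((hθ lam).comp measurable_snd).aestronglyMeasurable).mul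
          ((fourier lam).continuous.comp continuous_fst).aestronglyMeasurable
      have h2 := (Finset.aestronglyMeasurable_fun_sum (labs n) h1).norm.pow 2
      exact h2
    refine hdom.mono' hmeas (ae_of_all _ fun z => ?_)
    rw [Real.norm_of_nonneg (by positivity)]
    have h3 : ‖∑ lam ∈ labs n, (a i lam z.2 * D.θ lam z.2) * fourier lam z.1‖ ≤
        ∑ lam ∈ labs n, ‖a i lam z.2‖ := by
      refine (norm_sum_le _ _).trans (Finset.sum_le_sum fun lam _ => ?_)
      rw [norm_mul, norm_mul, hθ1, mul_one, norm_fourier_apply, mul_one]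
    calc G i z ≤ (∑ lam ∈ labs n, ‖a i lam z.2‖) ^ 2 := by
          exact pow_le_pow_left₀ (norm_nonneg _) h3 2
      _ ≤ (labs n).card * ∑ lam ∈ labs n, ‖a i lam z.2‖ ^ 2 := sq_sum_le_card_mul_sum_sq
  have havg : ∀ i, ∫ z, G i z ∂(mT.prod mT) = ∑ lam ∈ labs n, ∫ x, ‖a i lam x‖ ^ 2 ∂mT := by
    intro i
    rw [integral_prod_symm _ (hGint i)]
    have h1 : ∀ x, ∫ ρ, G i (ρ, x) ∂mT = ∑ lam ∈ labs n, ‖a i lam x‖ ^ 2 := by
      intro x
      have h2 := integral_norm_sq_trig (labs n) (fun l : ℤ => l) (Function.injective_id.injOn)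
        (fun lam => a i lam x * D.θ lam x)
      have h3 : ∀ lam, ‖a i lam x * D.θ lam x‖ ^ 2 = ‖a i lam x‖ ^ 2 := fun lam => by
        rw [norm_mul, hθ1, mul_one]
      simp only [h3] at h2
      exact h2
    simp only [h1]
    exact integral_finsetSum _ fun lam _ => (ha i lam).integrable_norm_pow (by norm_num)
  let f : UnitAddCircle → ℝ := fun ρ => ∑ i ∈ I, ∫ x, G i (ρ, x) ∂mT
  have hfint : Integrable f mT := integrable_finsetSum _ fun i _ => (hGint i).integral_prod_left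
  obtain ⟨ρ, hρ⟩ := exists_le_integral hfint
  refine ⟨ρ, ?_⟩
  have h4 : ∫ ρ, f ρ ∂mT = ∑ i ∈ I, ∑ lam ∈ labs n, ∫ x, ‖a i lam x‖ ^ 2 ∂mT := by
    rw [integral_finsetSum _ fun i _ => (hGint i).integral_prod_left]
    refine Finset.sum_congr rfl fun i _ => ?_
    rw [← havg i, integral_prod _ (hGint i)]
  rw [h4] at hρ
  refine le_trans (le_of_eq ?_) hρ
  refine Finset.sum_congr rfl fun i _ => ?_
  refine integral_congr_ae (ae_of_all _ fun x => ?_)
  simp only [G]
  congr 2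
  refine Finset.sum_congr rfl fun lam _ => ?_
  rw [hθl]
  ring

end Vale.Agent.P130
end
end

section

section

open MeasureTheory Filter Topology

namespace Vale.Agent.P130

lemma c2_norm_MM_le (D : SD) (l : ℤ) (x y : UnitAddCircle) :
    ‖MM D.m D.p D.φ l x y‖ ≤ (Real.sqrt D.m)⁻¹ * D.m := by
  rw [MM, norm_mul, norm_inv, Complex.norm_real, Real.norm_of_nonneg (Real.sqrt_nonneg _)]
  refine mul_le_mul_of_nonneg_left ?_ (inv_nonneg.2 (Real.sqrt_nonneg _))
  refine (norm_sum_le _ _).trans ?_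
  have h1 : ∀ i ∈ Finset.range D.m, ‖(fourier (D.p i y : ℤ) x : ℂ) * fourier l (D.φ i y)‖ ≤ 1 :=
    fun i _ => by rw [norm_mul, norm_fourier_apply, norm_fourier_apply, one_mul]
  refine (Finset.sum_le_sum h1).trans ?_
  simp

lemma c2_measurable_MM {h n : ℕ} {ε : ℝ} {D : SD} (hD : GoodStage h n ε D) (l : ℤ) :
    Measurable (fun z : UnitAddCircle × UnitAddCircle => MM D.m D.p D.φ l z.1 z.2) := by
  unfold MM
  refine measurable_const.mul (Finset.measurable_sum _ fun i _ => ?_)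
  refine Measurable.mul ?_ ?_
  · have h1 : Measurable (fun w : ℕ × UnitAddCircle => (fourier (w.1 : ℤ) w.2 : ℂ)) :=
      measurable_from_prod_countable_right fun k => (fourier (k : ℤ)).continuous.measurable
    exact h1.comp (((hD.meas_p i).comp measurable_snd).prodMk measurable_fst)
  · exact (fourier l).continuous.measurable.comp ((hD.mp_φ i).measurable.comp measurable_snd)

lemma c2_measurable_target {h n : ℕ} {ε : ℝ} {D : SD} (hD : GoodStage h n ε D) (l : ℤ) :
    Measurable (fun z : UnitAddCircle × UnitAddCircle => D.θ l z.1 * fourier (D.N z.1) z.2) := by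
  refine ((hD.meas_θ l).comp measurable_fst).mul ?_
  have h1 : Measurable (fun w : ℤ × UnitAddCircle => (fourier w.1 w.2 : ℂ)) :=
    measurable_from_prod_countable_right fun k => (fourier k).continuous.measurable
  exact h1.comp ((hD.meas_N.comp measurable_fst).prodMk measurable_snd)

/-- Bessel's inequality for bounded measurable functions on the circle. -/
lemma c2_bessel (S : Finset ℤ) (f : UnitAddCircle → ℂ) (hf : MemLp f 2 mT) :
    ∑ k ∈ S, ‖fourierCoeff f k‖ ^ 2 ≤ ∫ y, ‖f y‖ ^ 2 ∂mT := by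
  have h1 := tsum_sq_fourierCoeff (T := 1) (hf.toLp f)
  have h2 : ∀ k, fourierCoeff (hf.toLp f) k = fourierCoeff f k := by
    intro k
    exact integral_congr_ae (by
      filter_upwards [hf.coeFn_toLp] with y hy
      rw [hy])
  have h3 : ∫ y, ‖(hf.toLp f) y‖ ^ 2 ∂mT = ∫ y, ‖f y‖ ^ 2 ∂mT := integral_congr_ae (by
    filter_upwards [hf.coeFn_toLp] with y hy
    rw [hy])
  rw [← h3, ← h1]
  have hs := (hasSum_sq_fourierCoeff (T := 1) (hf.toLp f)).summable
  simp only [h2] at hs ⊢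
  exact hs.sum_le_tsum S fun k _ => by positivity

/-- The difference between the transfer operator and its pure target. -/
noncomputable def c2_dif (D : SD) (l : ℤ) (x y : UnitAddCircle) : ℂ :=
  MM D.m D.p D.φ l x y - D.θ l x * fourier (D.N x) y

lemma c2_measurable_dif {h n : ℕ} {ε : ℝ} {D : SD} (hD : GoodStage h n ε D) (l : ℤ) :
    Measurable (fun z : UnitAddCircle × UnitAddCircle => c2_dif D l z.1 z.2) :=
  (c2_measurable_MM hD l).sub (c2_measurable_target hD l)

lemma c2_norm_dif_le {h n : ℕ} {ε : ℝ} {D : SD} (hD : GoodStage h n ε D) (l : ℤ)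
    (x y : UnitAddCircle) : ‖c2_dif D l x y‖ ≤ (Real.sqrt D.m)⁻¹ * D.m + 1 := by
  refine (norm_sub_le _ _).trans (add_le_add (c2_norm_MM_le D l x y) ?_)
  rw [norm_mul, hD.norm_θ, norm_fourier_apply, one_mul]

lemma c2_measurable_MM_right {h n : ℕ} {ε : ℝ} {D : SD} (hD : GoodStage h n ε D) (l : ℤ)
    (x : UnitAddCircle) : Measurable (fun y => MM D.m D.p D.φ l x y) := by
  have h1 : Measurable (Prod.mk x : UnitAddCircle → UnitAddCircle × UnitAddCircle) :=
    measurable_prodMk_left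
  have h2 := (c2_measurable_MM hD l).comp h1
  exact h2

lemma c2_measurable_dif_right {h n : ℕ} {ε : ℝ} {D : SD} (hD : GoodStage h n ε D) (l : ℤ)
    (x : UnitAddCircle) : Measurable (fun y => c2_dif D l x y) := by
  have h1 : Measurable (Prod.mk x : UnitAddCircle → UnitAddCircle × UnitAddCircle) :=
    measurable_prodMk_left
  have h2 := (c2_measurable_dif hD l).comp h1
  exact h2

lemma c2_memLp_dif {h n : ℕ} {ε : ℝ} {D : SD} (hD : GoodStage h n ε D) (l : ℤ)
    (x : UnitAddCircle) : MemLp (fun y => c2_dif D l x y) 2 mT :=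
  MemLp.of_bound (c2_measurable_dif_right hD l x).aestronglyMeasurable _
    (ae_of_all _ fun y => c2_norm_dif_le hD l x y)

/-- `acoef` is a Fourier coefficient of the difference. -/
lemma c2_acoef_eq {h n : ℕ} {ε : ℝ} {D : SD} (hD : GoodStage h n ε D) (l lam : ℤ)
    (x : UnitAddCircle) : acoef D l lam x = fourierCoeff (fun y => c2_dif D l x y) lam := by
  have hMi : Integrable (fun y => (fourier (-lam) y : ℂ) • MM D.m D.p D.φ l x y) mT := by
    refine Integrable.of_bound ?_ ((Real.sqrt D.m)⁻¹ * D.m) (ae_of_all _ fun y => ?_)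
    · exact ((fourier (-lam)).continuous.measurable.smul
        (c2_measurable_MM_right hD l x)).aestronglyMeasurable
    · rw [norm_smul, norm_fourier_apply, one_mul]
      exact c2_norm_MM_le D l x y
  have hTi : Integrable (fun y => (fourier (-lam) y : ℂ) • (D.θ l x * fourier (D.N x) y)) mT := by
    refine integrable_of_continuous ?_
    exact (fourier (-lam)).continuous.smul (continuous_const.mul (fourier (D.N x)).continuous)
  have h1 : fourierCoeff (fun y => c2_dif D l x y) lam =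
      fourierCoeff (fun y => MM D.m D.p D.φ l x y) lam -
        ∫ y, (fourier (-lam) y : ℂ) • (D.θ l x * fourier (D.N x) y) ∂mT := by
    unfold fourierCoeff
    rw [← integral_sub hMi hTi]
    refine integral_congr_ae (ae_of_all _ fun y => ?_)
    simp only [c2_dif, smul_sub]
  have h2 : ∫ y, (fourier (-lam) y : ℂ) • (D.θ l x * fourier (D.N x) y) ∂mT =
      D.θ l x * (if D.N x = lam then 1 else 0) := by
    have h3 : ∀ y : UnitAddCircle, (fourier (-lam) y : ℂ) • (D.θ l x * fourier (D.N x) y) =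
        D.θ l x * fourier (D.N x - lam) y := by
      intro y
      rw [sub_eq_add_neg, fourier_add, smul_eq_mul]
      ring
    simp only [h3]
    rw [integral_const_mul, integral_fourier]
    by_cases h : D.N x = lam
    · simp [h]
    · rw [if_neg h, if_neg (sub_ne_zero.2 h)]
  rw [h1, h2, acoef]

lemma c2_integrable_sq_dif {h n : ℕ} {ε : ℝ} {D : SD} (hD : GoodStage h n ε D) (l : ℤ) :
    Integrable (fun x => ∫ y, ‖c2_dif D l x y‖ ^ 2 ∂mT) mT := by
  have h1 : Integrable (fun z : UnitAddCircle × UnitAddCircle => ‖c2_dif D l z.1 z.2‖ ^ 2)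
      (mT.prod mT) := by
    refine Integrable.of_bound ((c2_measurable_dif hD l).norm.pow_const 2).aestronglyMeasurable
      (((Real.sqrt D.m)⁻¹ * D.m + 1) ^ 2) (ae_of_all _ fun z => ?_)
    rw [norm_pow, norm_norm]
    exact pow_le_pow_left₀ (norm_nonneg _) (c2_norm_dif_le hD l z.1 z.2) 2
  exact h1.integral_prod_left

lemma c2_measurable_acoef {h n : ℕ} {ε : ℝ} {D : SD} (hD : GoodStage h n ε D) (l lam : ℤ) :
    StronglyMeasurable (fun x => acoef D l lam x) := by
  have h1 : StronglyMeasurable (fun z : UnitAddCircle × UnitAddCircle =>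
      (fourier (-lam) z.2 : ℂ) • c2_dif D l z.1 z.2) :=
    (((fourier (-lam)).continuous.measurable.comp measurable_snd).smul
      (c2_measurable_dif hD l)).stronglyMeasurable
  have h2 := StronglyMeasurable.integral_prod_right (ν := mT)
    (f := fun x y => (fourier (-lam) y : ℂ) • c2_dif D l x y) h1
  have h3 : (fun x => acoef D l lam x) =
      fun x => ∫ y, (fourier (-lam) y : ℂ) • c2_dif D l x y ∂mT := by
    funext x
    rw [c2_acoef_eq hD]
    rfl
  rw [h3]
  exact h2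

lemma c2_norm_acoef_le {h n : ℕ} {ε : ℝ} {D : SD} (hD : GoodStage h n ε D) (l lam : ℤ)
    (x : UnitAddCircle) : ‖acoef D l lam x‖ ≤ (Real.sqrt D.m)⁻¹ * D.m + 1 := by
  rw [c2_acoef_eq hD, fourierCoeff]
  refine (norm_integral_le_of_norm_le_const (C := (Real.sqrt D.m)⁻¹ * D.m + 1)
    (ae_of_all _ fun y => ?_)).trans (le_of_eq ?_)
  · rw [norm_smul, norm_fourier_apply, one_mul]
    exact c2_norm_dif_le hD l x y
  · simp

lemma c2_memLp_acoef {h n : ℕ} {ε : ℝ} {D : SD} (hD : GoodStage h n ε D) (l lam : ℤ) :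
    MemLp (acoef D l lam) 2 mT :=
  MemLp.of_bound (c2_measurable_acoef hD l lam).aestronglyMeasurable _
    (ae_of_all _ fun x => c2_norm_acoef_le hD l lam x)

/-- The total energy of the error coefficients. -/
lemma c2_sum_acoef_le {h n : ℕ} {ε : ℝ} {D : SD} (hD : GoodStage h n ε D) (l : ℤ) (hl : l ∈ labs n)
    (S : Finset ℤ) : ∑ lam ∈ S, ∫ x, ‖acoef D l lam x‖ ^ 2 ∂mT ≤ ε ^ 2 := by
  rw [← integral_finsetSum _ fun lam _ => (c2_memLp_acoef hD l lam).integrable_norm_pow (by norm_num)]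
  refine le_trans (integral_mono ?_ (c2_integrable_sq_dif hD l) fun x => ?_) (hD.main l hl)
  · exact integrable_finsetSum _ fun lam _ =>
      (c2_memLp_acoef hD l lam).integrable_norm_pow (by norm_num)
  · simp only [c2_acoef_eq hD]
    exact c2_bessel S _ (c2_memLp_dif hD l x)

lemma c2_card_labs (n : ℕ) : (labs n).card = 2 * n := by
  rw [labs, Finset.card_erase_of_mem (by simp), Int.card_Icc]
  omega

lemma c2_mem_labs {n : ℕ} {l : ℤ} : l ∈ labs n ↔ l ≠ 0 ∧ |l| ≤ (n : ℤ) := by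
  rw [labs, Finset.mem_erase, Finset.mem_Icc, abs_le]

namespace Plan

variable (τ : Plan)

lemma c2_N_mem (k : ℕ) (x : UnitAddCircle) : (τ.D k).N x ∈ labs (τ.n (k + 1)) := by
  rw [c2_mem_labs]
  refine ⟨(τ.good k).N_ne x, ((τ.good k).N_le x).trans ?_⟩
  exact_mod_cast τ.n_B k

lemma c2_conj_mul_self_of_norm_one {z : ℂ} (hz : ‖z‖ = 1) : starRingEnd ℂ z * z = 1 := by
  rw [Complex.conj_mul', hz]
  norm_num

lemma c2_norm_phi (k : ℕ) (l : ℤ) (x : UnitAddCircle) : ‖τ.phi k l x‖ = 1 := by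
  rw [phi, norm_mul, RCLike.norm_conj, (τ.good k).norm_θ, (τ.good k).norm_θ, one_mul]

lemma c2_norm_U (k : ℕ) (x : UnitAddCircle) : ‖τ.U k x‖ = 1 := by
  rw [U, norm_prod]
  refine Finset.prod_eq_one fun i _ => ?_
  rw [u, norm_mul, (τ.good i).norm_θ, c2_norm_phi, one_mul]

/-- The pointwise identity behind `F_rel`. -/
lemma c2_F_diff (k : ℕ) (j : ℕ) (l : ℤ) (x : UnitAddCircle)
    (hcs : ∀ lam : ℤ, ∑ r ∈ Finset.range (τ.h (k + 1)),
      coef (τ.h k) (τ.D k) j l r lam * fourier (r : ℤ) x =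
        fourier (j : ℤ) x * fourierCoeff (fun y => MM (τ.D k).m (τ.D k).p (τ.D k).φ l x y) lam) :
    τ.F k j l x - ∑ b ∈ idx2 (τ.h (k+1)) (τ.n (k+1)),
      coef (τ.h k) (τ.D k) j l b.1 b.2 * τ.F (k+1) b.1 b.2 x =
    -(starRingEnd ℂ (τ.U (k + 1) x) * (fourier (j : ℤ) x * (starRingEnd ℂ ((τ.D (k + 1)).θ 1 x) *
      ∑ lam ∈ labs (τ.n (k + 1)), acoef (τ.D k) l lam x * (τ.D (k + 1)).θ lam x))) := by
  have hN := τ.c2_N_mem k x
  -- the sum over the next level
  have h1 : ∑ b ∈ idx2 (τ.h (k+1)) (τ.n (k+1)),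
      coef (τ.h k) (τ.D k) j l b.1 b.2 * τ.F (k+1) b.1 b.2 x =
      starRingEnd ℂ (τ.U (k + 1) x) * (fourier (j : ℤ) x *
        ∑ lam ∈ labs (τ.n (k + 1)), fourierCoeff
          (fun y => MM (τ.D k).m (τ.D k).p (τ.D k).φ l x y) lam * τ.phi (k + 1) lam x) := by
    rw [idx2, Finset.sum_product_right, Finset.mul_sum, Finset.mul_sum]
    refine Finset.sum_congr rfl fun lam _ => ?_
    have h2 : ∀ r ∈ Finset.range (τ.h (k + 1)),
        coef (τ.h k) (τ.D k) j l r lam * τ.F (k + 1) r lam x =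
        starRingEnd ℂ (τ.U (k + 1) x) * ((coef (τ.h k) (τ.D k) j l r lam * fourier (r : ℤ) x) *
          τ.phi (k + 1) lam x) := by
      intro r _
      rw [F]
      ring
    rw [Finset.sum_congr rfl h2, ← Finset.mul_sum, ← Finset.sum_mul, hcs lam]
    ring
  -- split the coefficient
  have h3 : ∑ lam ∈ labs (τ.n (k + 1)), fourierCoeff
          (fun y => MM (τ.D k).m (τ.D k).p (τ.D k).φ l x y) lam * τ.phi (k + 1) lam x =
      starRingEnd ℂ ((τ.D (k + 1)).θ 1 x) *
        ∑ lam ∈ labs (τ.n (k + 1)), acoef (τ.D k) l lam x * (τ.D (k + 1)).θ lam x +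
      (τ.D k).θ l x * τ.phi (k + 1) ((τ.D k).N x) x := by
    have h4 : ∀ lam ∈ labs (τ.n (k + 1)), fourierCoeff
          (fun y => MM (τ.D k).m (τ.D k).p (τ.D k).φ l x y) lam * τ.phi (k + 1) lam x =
        starRingEnd ℂ ((τ.D (k + 1)).θ 1 x) * (acoef (τ.D k) l lam x * (τ.D (k + 1)).θ lam x) +
          (if (τ.D k).N x = lam then (τ.D k).θ l x * τ.phi (k + 1) lam x else 0) := by
      intro lam _
      rw [acoef, phi]
      by_cases h : (τ.D k).N x = lam
      · rw [if_pos h, if_pos h]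
        ring
      · rw [if_neg h, if_neg h]
        ring
    rw [Finset.sum_congr rfl h4, Finset.sum_add_distrib, ← Finset.mul_sum, Finset.sum_ite_eq,
      if_pos hN]
  -- the leading term
  have h5 : τ.F k j l x = starRingEnd ℂ (τ.U (k + 1) x) * (fourier (j : ℤ) x *
      ((τ.D k).θ l x * τ.phi (k + 1) ((τ.D k).N x) x)) := by
    have e1 : τ.U (k + 1) x = τ.U k x * τ.u k x := Finset.prod_range_succ _ _
    have e2 : starRingEnd ℂ (τ.phi (k + 1) ((τ.D k).N x) x) * τ.phi (k + 1) ((τ.D k).N x) x = 1 :=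
      c2_conj_mul_self_of_norm_one (τ.c2_norm_phi _ _ _)
    rw [e1, u, F, map_mul, map_mul]
    have e3 : τ.phi k l x = (τ.D k).θ l x * starRingEnd ℂ ((τ.D k).θ 1 x) := rfl
    rw [e3]
    calc starRingEnd ℂ (τ.U k x) * (fourier (j : ℤ) x * ((τ.D k).θ l x *
          starRingEnd ℂ ((τ.D k).θ 1 x)))
        = starRingEnd ℂ (τ.U k x) * (fourier (j : ℤ) x * ((τ.D k).θ l x *
          starRingEnd ℂ ((τ.D k).θ 1 x))) * 1 := by ring
      _ = _ := by
        rw [← e2]
        ring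
  rw [h1, h3, h5]
  ring

lemma c2_norm_F_diff (k : ℕ) (j : ℕ) (l : ℤ) (x : UnitAddCircle)
    (hcs : ∀ lam : ℤ, ∑ r ∈ Finset.range (τ.h (k + 1)),
      coef (τ.h k) (τ.D k) j l r lam * fourier (r : ℤ) x =
        fourier (j : ℤ) x * fourierCoeff (fun y => MM (τ.D k).m (τ.D k).p (τ.D k).φ l x y) lam) :
    ‖τ.F k j l x - ∑ b ∈ idx2 (τ.h (k+1)) (τ.n (k+1)),
      coef (τ.h k) (τ.D k) j l b.1 b.2 * τ.F (k+1) b.1 b.2 x‖ =
    ‖∑ lam ∈ labs (τ.n (k + 1)), acoef (τ.D k) l lam x * (τ.D (k + 1)).θ lam x‖ := by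
  rw [τ.c2_F_diff k j l x hcs, norm_neg, norm_mul, norm_mul, norm_mul, RCLike.norm_conj,
    RCLike.norm_conj, c2_norm_U, norm_fourier_apply, (τ.good (k + 1)).norm_θ, one_mul, one_mul,
    one_mul]

theorem F_rel_of (k : ℕ) (a : ℕ × ℤ) (ha : a ∈ idx2 (τ.h k) (τ.n k))
    (hcs : ∀ (lam : ℤ) (x : UnitAddCircle), ∑ r ∈ Finset.range (τ.h (k + 1)),
      coef (τ.h k) (τ.D k) a.1 a.2 r lam * fourier (r : ℤ) x =
        fourier (a.1 : ℤ) x *
          fourierCoeff (fun y => MM (τ.D k).m (τ.D k).p (τ.D k).φ a.2 x y) lam) :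
    ∫ x, ‖τ.F k a.1 a.2 x - ∑ b ∈ idx2 (τ.h (k+1)) (τ.n (k+1)),
      coef (τ.h k) (τ.D k) a.1 a.2 b.1 b.2 * τ.F (k+1) b.1 b.2 x‖ ^ 2 ∂mT ≤
      (tol τ.h τ.n k) ^ 2 := by
  have hl : a.2 ∈ labs (τ.n k) := (Finset.mem_product.1 ha).2
  simp only [fun x => τ.c2_norm_F_diff k a.1 a.2 x (fun lam => hcs lam x)]
  have h1 : ∫ x, ‖∑ lam ∈ labs (τ.n (k + 1)), acoef (τ.D k) a.2 lam x *
      (τ.D (k + 1)).θ lam x‖ ^ 2 ∂mT ≤ ∑ l ∈ labs (τ.n k),
      ∫ x, ‖∑ lam ∈ labs (τ.n (k + 1)), acoef (τ.D k) l lam x * (τ.D (k + 1)).θ lam x‖ ^ 2 ∂mT :=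
    Finset.single_le_sum (f := fun l => ∫ x, ‖∑ lam ∈ labs (τ.n (k + 1)),
      acoef (τ.D k) l lam x * (τ.D (k + 1)).θ lam x‖ ^ 2 ∂mT)
      (fun l _ => integral_nonneg fun x => by positivity) hl
  have h2 : ∑ l ∈ labs (τ.n k), ∑ lam ∈ labs (τ.n (k+1)), ∫ x, ‖acoef (τ.D k) l lam x‖ ^ 2 ∂mT ≤
      ∑ _l ∈ labs (τ.n k), (τ.ε k) ^ 2 :=
    Finset.sum_le_sum fun l hl => c2_sum_acoef_le (τ.good k) l hl _
  rw [Finset.sum_const, c2_card_labs, nsmul_eq_mul] at h2
  refine h1.trans ((τ.rot k).trans (h2.trans ?_))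
  have hn : (1 : ℝ) ≤ τ.n k := by
    have := τ.n_ge k
    exact_mod_cast (by omega : 1 ≤ τ.n k)
  have he := τ.ε_le k
  have hp := τ.ε_pos k
  have h3 : (4 * (τ.n k) * τ.ε k) ^ 2 ≤ (tol τ.h τ.n k) ^ 2 :=
    pow_le_pow_left₀ (by positivity) he 2
  push_cast
  linarith only [mul_nonneg (sub_nonneg.2 hn) (sq_nonneg (τ.ε k)), sq_nonneg (τ.ε k),
    mul_nonneg (mul_nonneg (sub_nonneg.2 hn) (by linarith : (0:ℝ) ≤ τ.n k)) (sq_nonneg (τ.ε k)), h3]

end Plan

end Vale.Agent.P130
end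
end

section

section

/-!
# P130, task F2: the relation between consecutive model families on the circle
-/

open MeasureTheory Filter Topology

namespace Vale.Agent.P130

namespace Plan

variable (τ : Plan)

theorem F_rel (k : ℕ) (a : ℕ × ℤ) (ha : a ∈ idx2 (τ.h k) (τ.n k)) :
    ∫ x, ‖τ.F k a.1 a.2 x - ∑ b ∈ idx2 (τ.h (k+1)) (τ.n (k+1)),
      coef (τ.h k) (τ.D k) a.1 a.2 b.1 b.2 * τ.F (k+1) b.1 b.2 x‖ ^ 2 ∂mT ≤
      (tol τ.h τ.n k) ^ 2 := by
  refine τ.F_rel_of k a ha fun lam x => ?_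
  rw [τ.h_succ k]
  exact (τ.good k).coef_sum (Finset.mem_range.1 (Finset.mem_product.1 ha).1) a.2 lam x

end Plan

end Vale.Agent.P130
end
end

section

section

/-!
# Assembly of the stage lemma and of the plan
-/

open MeasureTheory Filter Topology

namespace Vale.Agent.P130

/-- (C) the composite stage lemma -/
theorem stage_lemma (h : ℕ) (hh : 1 ≤ h) (n : ℕ) (hn : 1 ≤ n) (ε : ℝ) (hε : 0 < ε) :
    ∃ D : SD, GoodStage h n ε D :=
  stage_lemma_of step_lemma pmp h hh n hn ε hε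

/-- (R) existence of a full plan -/
theorem exists_plan : Nonempty Plan :=
  exists_plan_of (fun h hh n hn e he => stage_lemma h hh n hn e he)
    (fun _ _ _ _ r hD => hD.rot r) (fun _ D h1 h2 I a ha => exists_rot D h1 h2 I a ha)

end Vale.Agent.P130
end
end

section

section

open MeasureTheory Filter Topology

namespace Vale.Agent.P130

lemma norm_sub_proj {H ι : Type*} [NormedAddCommGroup H] [InnerProductSpace ℂ H] [DecidableEq ι]
    (s : Finset ι) (e : ι → H)
    (he : ∀ a ∈ s, ∀ b ∈ s, inner ℂ (e a) (e b) = if a = b then (1:ℂ) else 0) (v : H) :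
    ‖v - ∑ b ∈ s, (inner ℂ (e b) v : ℂ) • e b‖ ^ 2 = ‖v‖ ^ 2 - ∑ b ∈ s, ‖(inner ℂ (e b) v : ℂ)‖ ^ 2 := by
  set w := ∑ b ∈ s, (inner ℂ (e b) v : ℂ) • e b with hw
  have h1 : inner ℂ v w = ((∑ b ∈ s, ‖(inner ℂ (e b) v : ℂ)‖ ^ 2 : ℝ) : ℂ) := by
    rw [hw, inner_sum, Complex.ofReal_sum]
    refine Finset.sum_congr rfl fun b _ => ?_
    rw [inner_smul_right, ← inner_conj_symm v (e b), Complex.mul_conj', Complex.ofReal_pow]
  have h2 : inner ℂ w w = ((∑ b ∈ s, ‖(inner ℂ (e b) v : ℂ)‖ ^ 2 : ℝ) : ℂ) := by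
    conv_lhs => rw [hw]
    rw [sum_inner, Complex.ofReal_sum]
    refine Finset.sum_congr rfl fun b hb => ?_
    rw [inner_sum, Finset.sum_eq_single b]
    · rw [inner_smul_left, inner_smul_right, he b hb b hb, if_pos rfl, mul_one, Complex.conj_mul',
        Complex.ofReal_pow]
    · intro c hc hne
      rw [inner_smul_left, inner_smul_right, he b hb c hc, if_neg (Ne.symm hne), mul_zero, mul_zero]
    · intro h; exact absurd hb h
  have h3 := inner_self_eq_norm_sq (𝕜 := ℂ) w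
  rw [h2] at h3
  simp only [RCLike.re_to_complex, Complex.ofReal_re] at h3
  rw [@norm_sub_sq ℂ, h1, ← h3]
  simp only [RCLike.re_to_complex, Complex.ofReal_re]
  ring

lemma tendsto_norm_of_sq {f : ℕ → ℝ} (h0 : ∀ k, 0 ≤ f k) (h : Tendsto (fun k => f k ^ 2) atTop (𝓝 0)) :
    Tendsto f atTop (𝓝 0) := by
  have := h.sqrt
  rw [Real.sqrt_zero] at this
  exact this.congr fun k => Real.sqrt_sq (h0 k)

section Fin

variable (τ : Plan)

lemma memLp_F (k j : ℕ) (l : ℤ) : MemLp (τ.F k j l) 2 mT :=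
  MemLp.of_bound (τ.measurable_F k j l).aestronglyMeasurable 1
    (Eventually.of_forall fun x => (τ.norm_F k j l x).le)

variable {X : Type} [MeasurableSpace X] {μ : Measure X} [IsProbabilityMeasure μ]
    (T : X ≃ᵐ X) (hT : MeasurePreserving T μ μ) (E : ℕ → ℕ → ℤ → X → ℂ)
    (c1 : ∀ k j l, MemLp (E k j l) 2 μ)
    (c2 : ∀ k, ∀ j < τ.h k, ∀ j' < τ.h k, ∀ l l' : ℤ,
      ∫ x, starRingEnd ℂ (E k j l x) * E k j' l' x ∂μ = if j = j' ∧ l = l' then 1 else 0)
    (c3 : ∀ k, ∀ j < τ.h k, ∀ r < τ.h (k+1), ∀ l lam : ℤ,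
      ∫ x, starRingEnd ℂ (E (k+1) r lam x) * E k j l x ∂μ = coef (τ.h k) (τ.D k) j l r lam)
    (c4 : ∀ k j (l : ℤ), j + 1 < τ.h k → ∀ᵐ x ∂μ, E k (j+1) l (T x) = E k j l x)
    (c5 : ∀ v : X → ℂ, MemLp v 2 μ → Tendsto (fun k => ∫ x, ‖(∑ a ∈ idx2 (τ.h k) (τ.n k),
        (∫ z, starRingEnd ℂ (E k a.1 a.2 z) * v z ∂μ) * E k a.1 a.2 x)
          - (v x - ∫ z, v z ∂μ)‖ ^ 2 ∂μ) atTop (𝓝 0))
    (c6 : ∀ v : X → ℂ, MemLp v 2 μ → Tendsto (fun k => ∑ l ∈ labs (τ.n k),
        ‖∫ z, starRingEnd ℂ (E k (τ.h k - 1) l z) * v z ∂μ‖ ^ 2) atTop (𝓝 0))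
    (c7 : ∀ v : X → ℂ, MemLp v 2 μ → Tendsto (fun k => ∑ l ∈ labs (τ.n k),
        ‖∫ z, starRingEnd ℂ (E k 0 l z) * v z ∂μ‖ ^ 2) atTop (𝓝 0))

include c2 in
lemma E_orth' (k : ℕ) (a : ℕ × ℤ) (ha : a ∈ idx2 (τ.h k) (τ.n k)) (b : ℕ × ℤ)
    (hb : b ∈ idx2 (τ.h k) (τ.n k)) :
    inner ℂ ((c1 k a.1 a.2).toLp (E k a.1 a.2)) ((c1 k b.1 b.2).toLp (E k b.1 b.2)) =
      if a = b then (1:ℂ) else 0 := by
  rw [inner_toLp, c2 k a.1 (mem_idx2.1 ha).1 b.1 (mem_idx2.1 hb).1]
  simp only [Prod.ext_iff]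

include c3 in
lemma coef_eq (k : ℕ) (a : ℕ × ℤ) (ha : a ∈ idx2 (τ.h k) (τ.n k)) (b : ℕ × ℤ)
    (hb : b ∈ idx2 (τ.h (k+1)) (τ.n (k+1))) :
    inner ℂ ((c1 (k+1) b.1 b.2).toLp (E (k+1) b.1 b.2)) ((c1 k a.1 a.2).toLp (E k a.1 a.2)) =
      coef (τ.h k) (τ.D k) a.1 a.2 b.1 b.2 := by
  rw [inner_toLp, c3 k a.1 (mem_idx2.1 ha).1 b.1 (mem_idx2.1 hb).1]

lemma inner_toLp_coe {f : X → ℂ} (hf : MemLp f 2 μ) (v : Lp ℂ 2 μ) :
    inner ℂ (hf.toLp f) v = ∫ x, starRingEnd ℂ (f x) * v x ∂μ := by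
  rw [inner_eq_integral]
  refine integral_congr_ae ?_
  filter_upwards [hf.coeFn_toLp] with x hx
  rw [hx]

/-- the constant function -/
noncomputable def oneLp (μ : Measure X) [IsProbabilityMeasure μ] : Lp ℂ 2 μ :=
  (memLp_const (1:ℂ)).toLp (fun _ : X => (1:ℂ))

lemma inner_one (v : Lp ℂ 2 μ) : inner ℂ (oneLp μ) v = ∫ x, v x ∂μ := by
  rw [oneLp, inner_toLp_coe]; simp

lemma tol_nonneg (h n : ℕ → ℕ) (k : ℕ) : 0 ≤ tol h n k := by
  rw [tol]; positivity

/-- assembling the data -/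
noncomputable def mkData : HData2 (Lp ℂ 2 μ) (Lp ℂ 2 mT) where
  h := τ.h
  n := τ.n
  S := koopE T hT
  Z := Zop
  E k j l := (c1 k j l).toLp (E k j l)
  F k j l := (memLp_F τ k j l).toLp (τ.F k j l)
  one := oneLp μ
  h_pos := τ.h_pos
  n_pos k := by have := τ.n_ge k; omega
  one_norm := by
    have := norm_sq_toLp (μ := μ) (memLp_const (1:ℂ))
    simp only [norm_one, one_pow, integral_const, probReal_univ, smul_eq_mul, mul_one] at this
    rw [oneLp]
    nlinarith only [norm_nonneg ((memLp_const (1:ℂ) (p := 2) (μ := μ)).toLp (fun _ : X => (1:ℂ))), this]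
  E_orth := E_orth' τ E c1 c2
  E_shift k j l hl hj := by
    refine Lp.ext ?_
    refine (coe_koopE T hT _).trans ?_
    have h1 := (hT.symm T).quasiMeasurePreserving.ae_eq_comp (c1 k j l).coeFn_toLp
    refine h1.trans ?_
    have h2 := (hT.symm T).quasiMeasurePreserving.ae (c4 k j l hj)
    filter_upwards [h2, (c1 k (j+1) l).coeFn_toLp] with x hx h3
    rw [h3, Function.comp_apply, ← hx, MeasurableEquiv.apply_symm_apply]
  E_near k a ha := by
    have h1 := norm_sub_proj (idx2 (τ.h (k+1)) (τ.n (k+1)))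
      (fun b => (c1 (k+1) b.1 b.2).toLp (E (k+1) b.1 b.2)) (E_orth' τ E c1 c2 (k+1))
      ((c1 k a.1 a.2).toLp (E k a.1 a.2))
    have h2 : ‖(c1 k a.1 a.2).toLp (E k a.1 a.2)‖ ^ 2 = 1 := by
      have h3 := E_orth' τ E c1 c2 k a ha a ha
      rw [if_pos rfl] at h3
      have h4 := inner_self_eq_norm_sq (𝕜 := ℂ) ((c1 k a.1 a.2).toLp (E k a.1 a.2))
      rw [h3] at h4
      rw [← h4]; simp
    have h3 : ∑ b ∈ idx2 (τ.h (k+1)) (τ.n (k+1)),
        ‖(inner ℂ ((c1 (k+1) b.1 b.2).toLp (E (k+1) b.1 b.2)) ((c1 k a.1 a.2).toLp (E k a.1 a.2)) : ℂ)‖ ^ 2 =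
        ∑ b ∈ idx2 (τ.h (k+1)) (τ.n (k+1)), ‖coef (τ.h k) (τ.D k) a.1 a.2 b.1 b.2‖ ^ 2 :=
      Finset.sum_congr rfl fun b hb => by rw [coef_eq τ E c1 c3 k a ha b hb]
    rw [h2, h3] at h1
    have h4 := τ.coef_near k a ha
    rw [← h1] at h4
    exact le_of_sq_le_sq h4 (tol_nonneg _ _ _)
  E_lim v := by
    rw [tendsto_iff_norm_sub_tendsto_zero]
    refine tendsto_norm_of_sq (fun k => norm_nonneg _) ?_
    refine (c5 v (Lp.memLp v)).congr fun k => ?_
    rw [norm_sq_eq_integral]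
    refine integral_congr_ae ?_
    have e1 : ∀ᵐ x ∂μ, ∀ a : ℕ × ℤ, (c1 k a.1 a.2).toLp (E k a.1 a.2) x = E k a.1 a.2 x :=
      ae_all_iff.2 fun a => (c1 k a.1 a.2).coeFn_toLp
    have e2 : (↑(∑ a ∈ idx2 (τ.h k) (τ.n k),
        (inner ℂ ((c1 k a.1 a.2).toLp (E k a.1 a.2)) v : ℂ) • (c1 k a.1 a.2).toLp (E k a.1 a.2)) : X → ℂ) =ᵐ[μ]
        fun x => ∑ a ∈ idx2 (τ.h k) (τ.n k), (∫ z, starRingEnd ℂ (E k a.1 a.2 z) * v z ∂μ) * E k a.1 a.2 x := by
      refine (Lp.coeFn_fun_finsetSum _ _).trans ?_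
      have e3 : ∀ᵐ x ∂μ, ∀ a : ℕ × ℤ,
          ((inner ℂ ((c1 k a.1 a.2).toLp (E k a.1 a.2)) v : ℂ) • (c1 k a.1 a.2).toLp (E k a.1 a.2) : Lp ℂ 2 μ) x =
          (inner ℂ ((c1 k a.1 a.2).toLp (E k a.1 a.2)) v : ℂ) • ((c1 k a.1 a.2).toLp (E k a.1 a.2) x) :=
        ae_all_iff.2 fun a => Lp.coeFn_smul _ _
      filter_upwards [e1, e3] with x h1 h3
      refine Finset.sum_congr rfl fun a _ => ?_
      rw [h3, h1, inner_toLp_coe, smul_eq_mul]
    have e4 : ((inner ℂ (oneLp μ) v : ℂ) • oneLp μ : Lp ℂ 2 μ) =ᵐ[μ] fun _ => ∫ z, v z ∂μ := by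
      refine (Lp.coeFn_smul _ _).trans ?_
      filter_upwards [(memLp_const (1:ℂ) (p := 2) (μ := μ)).coeFn_toLp] with x hx
      rw [Pi.smul_apply, oneLp, hx, ← oneLp, inner_one]; simp
    filter_upwards [Lp.coeFn_sub (∑ a ∈ idx2 (τ.h k) (τ.n k),
        (inner ℂ ((c1 k a.1 a.2).toLp (E k a.1 a.2)) v : ℂ) • (c1 k a.1 a.2).toLp (E k a.1 a.2))
        (v - (inner ℂ (oneLp μ) v : ℂ) • oneLp μ), Lp.coeFn_sub v ((inner ℂ (oneLp μ) v : ℂ) • oneLp μ),
        e2, e4] with x h1 h2 h3 h4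
    rw [h1, Pi.sub_apply, h2, Pi.sub_apply, h3, h4]
  E_top v := by
    refine (c6 v (Lp.memLp v)).congr fun k => ?_
    refine Finset.sum_congr rfl fun l _ => ?_
    rw [inner_toLp_coe]
  E_bot v := by
    refine (c7 v (Lp.memLp v)).congr fun k => ?_
    refine Finset.sum_congr rfl fun l _ => ?_
    rw [inner_toLp_coe]
  F_shift k j l := by
    refine Lp.ext ?_
    refine (memLp_F τ k (j+1) l).coeFn_toLp.trans ?_
    refine EventuallyEq.symm ((coe_Zop _).trans ?_)
    filter_upwards [(memLp_F τ k j l).coeFn_toLp] with x hx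
    rw [hx]
    simp only [Plan.F]
    push_cast
    rw [fourier_add]; ring
  F_orth k a ha b hb := by
    rw [inner_toLp]
    exact τ.F_orth k a b ha hb
  F_rel k a ha := by
    refine le_of_sq_le_sq ?_ (tol_nonneg _ _ _)
    refine le_trans (le_of_eq ?_) (τ.F_rel k a ha)
    rw [norm_sq_eq_integral]
    refine integral_congr_ae ?_
    have e1 : ∀ᵐ x ∂mT, ∀ b : ℕ × ℤ, (memLp_F τ (k+1) b.1 b.2).toLp (τ.F (k+1) b.1 b.2) x =
        τ.F (k+1) b.1 b.2 x := ae_all_iff.2 fun b => (memLp_F τ (k+1) b.1 b.2).coeFn_toLp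
    have e3 : ∀ᵐ x ∂mT, ∀ b : ℕ × ℤ,
        ((inner ℂ ((c1 (k+1) b.1 b.2).toLp (E (k+1) b.1 b.2)) ((c1 k a.1 a.2).toLp (E k a.1 a.2)) : ℂ) •
          (memLp_F τ (k+1) b.1 b.2).toLp (τ.F (k+1) b.1 b.2) : Lp ℂ 2 mT) x =
        (inner ℂ ((c1 (k+1) b.1 b.2).toLp (E (k+1) b.1 b.2)) ((c1 k a.1 a.2).toLp (E k a.1 a.2)) : ℂ) •
          ((memLp_F τ (k+1) b.1 b.2).toLp (τ.F (k+1) b.1 b.2) x) :=
      ae_all_iff.2 fun b => Lp.coeFn_smul _ _
    have e2 := Lp.coeFn_fun_finsetSum (idx2 (τ.h (k+1)) (τ.n (k+1))) (fun b =>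
      ((inner ℂ ((c1 (k+1) b.1 b.2).toLp (E (k+1) b.1 b.2)) ((c1 k a.1 a.2).toLp (E k a.1 a.2)) : ℂ) •
          (memLp_F τ (k+1) b.1 b.2).toLp (τ.F (k+1) b.1 b.2) : Lp ℂ 2 mT))
    filter_upwards [e1, e3, e2, (memLp_F τ k a.1 a.2).coeFn_toLp, Lp.coeFn_sub
      ((memLp_F τ k a.1 a.2).toLp (τ.F k a.1 a.2)) (∑ b ∈ idx2 (τ.h (k+1)) (τ.n (k+1)),
      ((inner ℂ ((c1 (k+1) b.1 b.2).toLp (E (k+1) b.1 b.2)) ((c1 k a.1 a.2).toLp (E k a.1 a.2)) : ℂ) •
          (memLp_F τ (k+1) b.1 b.2).toLp (τ.F (k+1) b.1 b.2) : Lp ℂ 2 mT))] with x h1 h3 h2 h4 h5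
    rw [h5, Pi.sub_apply, h4, h2]
    congr 3
    refine Finset.sum_congr rfl fun b hb => ?_
    rw [h3, h1, coef_eq τ E c1 c3 k a ha b hb, smul_eq_mul]

lemma coe_koopE_zpow (n : ℤ) (f : Lp ℂ 2 μ) : ((koopE T hT) ^ n) f =ᵐ[μ]
    fun x => f (((T.toEquiv : Equiv.Perm X) ^ (-n)) x) := by
  induction n using Int.induction_on with
  | zero => exact Eventually.of_forall fun x => by simp
  | succ n ih =>
    rw [add_comm, zpow_add, zpow_one]
    change (koopE T hT ((koopE T hT ^ (n:ℤ)) f) : Lp ℂ 2 μ) =ᵐ[μ] _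
    refine (coe_koopE T hT _).trans ?_
    refine ((hT.symm T).quasiMeasurePreserving.ae_eq_comp ih).trans ?_
    refine Eventually.of_forall fun x => ?_
    simp only [Function.comp_apply]
    congr 1
    rw [neg_add, add_comm (-1) (-(n:ℤ)), zpow_add, zpow_neg_one]
    rfl
  | pred n ih =>
    rw [sub_eq_add_neg, add_comm, zpow_add, zpow_neg_one]
    change ((koopE T hT).symm ((koopE T hT ^ (-(n:ℤ))) f) : Lp ℂ 2 μ) =ᵐ[μ] _
    refine (coe_koopE_symm T hT _).trans ?_
    refine (hT.quasiMeasurePreserving.ae_eq_comp ih).trans ?_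
    refine Eventually.of_forall fun x => ?_
    simp only [Function.comp_apply]
    congr 1
    rw [neg_add, add_comm (- -1) (- -(n:ℤ)), zpow_add, neg_neg, neg_neg, zpow_one]
    rfl

theorem simpleLebesgue_of {X : Type} [MeasurableSpace X] {μ : Measure X} [IsProbabilityMeasure μ]
    (T : X ≃ᵐ X) (hT : MeasurePreserving T μ μ) (E : ℕ → ℕ → ℤ → X → ℂ)
    (c1 : ∀ k j l, MemLp (E k j l) 2 μ)
    (c2 : ∀ k, ∀ j < τ.h k, ∀ j' < τ.h k, ∀ l l' : ℤ,
      ∫ x, starRingEnd ℂ (E k j l x) * E k j' l' x ∂μ = if j = j' ∧ l = l' then 1 else 0)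
    (c3 : ∀ k, ∀ j < τ.h k, ∀ r < τ.h (k+1), ∀ l lam : ℤ,
      ∫ x, starRingEnd ℂ (E (k+1) r lam x) * E k j l x ∂μ = coef (τ.h k) (τ.D k) j l r lam)
    (c4 : ∀ k j (l : ℤ), j + 1 < τ.h k → ∀ᵐ x ∂μ, E k (j+1) l (T x) = E k j l x)
    (c5 : ∀ v : X → ℂ, MemLp v 2 μ → Tendsto (fun k => ∫ x, ‖(∑ a ∈ idx2 (τ.h k) (τ.n k),
        (∫ z, starRingEnd ℂ (E k a.1 a.2 z) * v z ∂μ) * E k a.1 a.2 x)
          - (v x - ∫ z, v z ∂μ)‖ ^ 2 ∂μ) atTop (𝓝 0))
    (c6 : ∀ v : X → ℂ, MemLp v 2 μ → Tendsto (fun k => ∑ l ∈ labs (τ.n k),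
        ‖∫ z, starRingEnd ℂ (E k (τ.h k - 1) l z) * v z ∂μ‖ ^ 2) atTop (𝓝 0))
    (c7 : ∀ v : X → ℂ, MemLp v 2 μ → Tendsto (fun k => ∑ l ∈ labs (τ.n k),
        ‖∫ z, starRingEnd ℂ (E k 0 l z) * v z ∂μ‖ ^ 2) atTop (𝓝 0)) :
    SimpleLebesgue μ T := by
  let D := mkData τ T hT E c1 c2 c3 c4 c5 c6 c7
  have hs : D.Surj := by
    intro w g hg hw
    exact surj_circle (fun k => τ.F k 0 1) (fun k => memLp_F τ k 0 1)
      (fun k x => τ.norm_F k 0 1 x) w g hg hw
  obtain ⟨f, h1, h2, h3⟩ := D.main hs e0 orthonormal_Z total_Z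
  have h1' : Orthonormal ℂ (fun n : ℤ => ((koopE T hT) ^ n) f) := h1
  have h2' : inner ℂ (oneLp μ) f = 0 := h2
  have h3' : ∀ v, (∀ n : ℤ, inner ℂ (((koopE T hT) ^ n) f) v = 0) → inner ℂ (oneLp μ) v = 0 → v = 0 := h3
  refine ⟨f, Lp.memLp f, ?_, ?_, ?_⟩
  · rw [← inner_one]; exact h2'
  · intro m n
    rw [orthonormal_iff_ite] at h1'
    have h4 := h1' (-m) (-n)
    simp only [neg_inj] at h4
    rw [← h4, inner_eq_integral]
    refine integral_congr_ae ?_
    filter_upwards [coe_koopE_zpow T hT (-m) f, coe_koopE_zpow T hT (-n) f] with x hx hx'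
    rw [hx, hx', neg_neg, neg_neg]
  · intro g hg hg0 hgn
    have h4 : hg.toLp g = 0 := by
      refine h3' _ (fun n => ?_) ?_
      · rw [← hgn (-n), inner_eq_integral]
        refine integral_congr_ae ?_
        filter_upwards [coe_koopE_zpow T hT n f, hg.coeFn_toLp] with x hx hx'
        rw [hx, hx']
      · rw [inner_one, ← hg0]
        exact integral_congr_ae hg.coeFn_toLp
    exact (hg.coeFn_toLp.symm.trans (by rw [h4])).trans (Lp.coeFn_zero ℂ 2 μ)

end Fin

/-- Banach's problem: a transformation with simple Lebesgue spectrum. -/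
theorem banach : BanachStatement := by
  obtain ⟨τ⟩ := exists_plan
  obtain ⟨W, hh, hN, hp, hφ⟩ := τ.exists_toTower
  obtain ⟨R⟩ := realization_exists W
  refine ⟨R.X, R.ms, R.sb, R.μ, R.pm, R.na, R.T, R.hT, ?_⟩
  let _ := R.ms
  have _ := R.pm
  obtain ⟨c1, c2, c3, c4, c5, c6, c7⟩ := τ.xside W hh hN hp hφ R
  exact simpleLebesgue_of τ R.T R.hT (Plan.Ef R) c1 c2 c3 c4 c5 c6 c7

end Vale.Agent.P130
end
end
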