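import Vale.Agent.P130.MathlibUsed
import Vale.Agent.P130.Bdl.B1
import Vale.Agent.PNT.Main

set_option linter.all false

section

set_option linter.all false

section

/-! # P110, C4: auxiliary lemmas for comb systems (primes in windows, CRT, labels) -/

namespace Vale.Agent.P110.CombB

open Finset Filter

/-! ### primes in short windows -/

theorem exists_primes_window (n : ℕ) : ∀ δ : ℝ, 0 < δ → ∀ᶠ x : ℝ in atTop,
    ∃ T : Finset ℕ, n ≤ T.card ∧ ∀ p ∈ T, p.Prime ∧ x < p ∧ (p : ℝ) ≤ (1 + δ) * x := by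
  induction n with
  | zero =>
    intro δ _
    exact Eventually.of_forall fun x => ⟨∅, le_rfl, by simp⟩
  | succ n ih =>
    intro δ hδ
    set δ' : ℝ := min δ 1 / 3 with hδ'
    have h0 : 0 < min δ 1 := lt_min hδ one_pos
    have h1 : 0 < δ' := by positivity
    have h2 : δ' ≤ 1 / 3 := by
      have := min_le_right δ 1
      rw [hδ']; linarith only [this]
    have h3 : δ' ≤ δ / 3 := by
      have := min_le_left δ 1
      rw [hδ']; linarith
    have h4 : (1 + δ') * (1 + δ') ≤ 1 + δ := by nlinarith only [hδ', h0, h1, h2, h3]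
    have hmul : Tendsto (fun x : ℝ => (1 + δ') * x) atTop atTop :=
      tendsto_id.const_mul_atTop (by linarith)
    filter_upwards [ih δ' h1, hmul.eventually (Vale.Agent.PNT.exists_prime_Ioc h1),
      eventually_gt_atTop 0] with x hx hx2 hx0
    obtain ⟨T, hT, hTp⟩ := hx
    obtain ⟨p, hp, hp1, hp2⟩ := hx2
    have hpT : p ∉ T := fun h => absurd (hTp p h).2.2 (not_le.2 hp1)
    refine ⟨insert p T, ?_, ?_⟩
    · rw [card_insert_of_notMem hpT]
      omega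
    · intro p' hp'
      rcases mem_insert.1 hp' with rfl | hp'
      · refine ⟨hp, ?_, ?_⟩
        · nlinarith only [hδ', h0, hx0, hp1]
        · calc (p' : ℝ) ≤ (1 + δ') * ((1 + δ') * x) := hp2
            _ = (1 + δ') * (1 + δ') * x := by ring
            _ ≤ (1 + δ) * x := by nlinarith only [h1, h2, h4, hx0]
      · obtain ⟨a1, a2, a3⟩ := hTp p' hp'
        refine ⟨a1, a2, a3.trans ?_⟩
        nlinarith only [hδ, hδ', h0, h4, a2, a3]

/-! ### distinct representatives -/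

theorem exists_inj_choice {α : Type*} [DecidableEq α] (n : ℕ) (T : α → Finset ℕ) (X : Finset α) :
    X.card ≤ n → (∀ χ ∈ X, n ≤ (T χ).card) →
    ∃ q : α → ℕ, (∀ χ ∈ X, q χ ∈ T χ) ∧ ∀ χ ∈ X, ∀ χ' ∈ X, q χ = q χ' → χ = χ' := by
  induction X using Finset.induction_on with
  | empty =>
    intro _ _
    exact ⟨fun _ => 0, by simp, by simp⟩
  | insert a s ha ih =>
    intro hcard hT
    rw [card_insert_of_notMem ha] at hcard
    obtain ⟨q, hq1, hq2⟩ := ih (by omega) fun χ hχ => hT χ (mem_insert_of_mem hχ)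
    have hex : ∃ x ∈ T a, x ∉ s.image q := by
      by_contra hcon
      push Not at hcon
      have h1 : (T a).card ≤ (s.image q).card := card_le_card fun x hx => hcon x hx
      have h2 := hT a (mem_insert_self _ _)
      have h3 : (s.image q).card ≤ s.card := card_image_le
      omega
    obtain ⟨x, hx1, hx2⟩ := hex
    refine ⟨fun χ => if χ = a then x else q χ, ?_, ?_⟩
    · intro χ hχ
      rcases mem_insert.1 hχ with rfl | hχ
      · simpa using hx1
      · have : χ ≠ a := fun e => ha (e ▸ hχ)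
        simpa [this] using hq1 χ hχ
    · intro χ hχ χ' hχ' h
      rcases mem_insert.1 hχ with h1 | h1 <;> rcases mem_insert.1 hχ' with h2 | h2
      · rw [h1, h2]
      · exfalso
        have h' : χ' ≠ a := fun e => ha (e ▸ h2)
        simp only [if_pos h1, if_neg h'] at h
        exact hx2 (mem_image.2 ⟨χ', h2, h.symm⟩)
      · exfalso
        have h' : χ ≠ a := fun e => ha (e ▸ h1)
        simp only [if_pos h2, if_neg h'] at h
        exact hx2 (mem_image.2 ⟨χ, h1, h⟩)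
      · have h1' : χ ≠ a := fun e => ha (e ▸ h1)
        have h2' : χ' ≠ a := fun e => ha (e ▸ h2)
        simp only [if_neg h1', if_neg h2'] at h
        exact hq2 χ h1 χ' h2 h

/-! ### Chinese remainder theorem over the integers -/

theorem int_crt {α : Type*} (X : Finset α) (q : α → ℕ) (hq : ∀ χ ∈ X, (q χ).Prime)
    (hinj : ∀ χ ∈ X, ∀ χ' ∈ X, q χ = q χ' → χ = χ') (a : α → ℤ) :
    ∃ z : ℤ, ∀ χ ∈ X, (q χ : ℤ) ∣ z - a χ := by
  have hpp : Set.Pairwise (X : Set α) (Function.onFun Nat.Coprime q) := by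
    intro χ hχ χ' hχ' hne
    exact (Nat.coprime_primes (hq χ hχ) (hq χ' hχ')).2 fun h => hne (hinj χ hχ χ' hχ' h)
  obtain ⟨k, hk⟩ := Nat.chineseRemainderOfFinset (fun χ => (a χ % (q χ : ℤ)).toNat) q X
    (fun χ hχ => (hq χ hχ).pos.ne') hpp
  refine ⟨k, fun χ hχ => ?_⟩
  have h1 := (Nat.modEq_iff_dvd.1 (hk χ hχ))
  have hpos : (0 : ℤ) < q χ := by exact_mod_cast (hq χ hχ).pos
  rw [Int.toNat_of_nonneg (Int.emod_nonneg _ hpos.ne')] at h1
  have h2 : (q χ : ℤ) ∣ a χ - a χ % (q χ : ℤ) := Int.dvd_self_sub_emod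
  have h3 := (dvd_add h1 h2)
  have h4 : a χ % (q χ : ℤ) - (k : ℤ) + (a χ - a χ % (q χ : ℤ)) = -((k : ℤ) - a χ) := by ring
  rw [h4] at h3
  exact (dvd_neg).1 h3

/-! ### labels -/

theorem exists_label {α β : Type*} [DecidableEq α] [DecidableEq β] (G : Finset α) (u : α → β)
    (q : ℕ) (h : ∀ r ∈ G, (G.filter (fun r' => u r' = u r)).card ≤ q) :
    ∃ lab : α → ℕ, (∀ r ∈ G, lab r < q) ∧
      ∀ r ∈ G, ∀ r' ∈ G, u r = u r' → lab r = lab r' → r = r' := by
  classical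
  let idx : α → ℕ := fun r => if hr : r ∈ G then (G.equivFin ⟨r, hr⟩ : ℕ) else 0
  have hidx : ∀ r ∈ G, ∀ r' ∈ G, idx r = idx r' → r = r' := by
    intro r hr r' hr' he
    simp only [idx, hr, hr', dif_pos] at he
    have := G.equivFin.injective (Fin.ext he)
    exact congrArg Subtype.val this
  have hlt : ∀ r ∈ G, ∀ r' ∈ G, u r = u r' → idx r < idx r' →
      (G.filter (fun s => u s = u r ∧ idx s < idx r)).card <
        (G.filter (fun s => u s = u r' ∧ idx s < idx r')).card := by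
    intro r hr r' hr' hu hi
    apply card_lt_card
    rw [ssubset_iff_of_subset]
    · refine ⟨r, mem_filter.2 ⟨hr, hu, hi⟩, fun hc => ?_⟩
      exact lt_irrefl _ (mem_filter.1 hc).2.2
    · intro s hs
      obtain ⟨h1, h2, h3⟩ := mem_filter.1 hs
      exact mem_filter.2 ⟨h1, h2.trans hu, h3.trans hi⟩
  refine ⟨fun r => (G.filter (fun s => u s = u r ∧ idx s < idx r)).card, ?_, ?_⟩
  · intro r hr
    refine lt_of_lt_of_le ?_ (h r hr)
    apply card_lt_card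
    rw [ssubset_iff_of_subset]
    · refine ⟨r, mem_filter.2 ⟨hr, rfl⟩, fun hc => ?_⟩
      exact lt_irrefl _ (mem_filter.1 hc).2.2
    · intro s hs
      obtain ⟨h1, h2, -⟩ := mem_filter.1 hs
      exact mem_filter.2 ⟨h1, h2⟩
  · intro r hr r' hr' hu hl
    simp only at hl
    rcases lt_trichotomy (idx r) (idx r') with h1 | h1 | h1
    · exact absurd hl (hlt r hr r' hr' hu h1).ne
    · exact hidx r hr r' hr' h1
    · exact absurd hl (hlt r' hr' r hr hu.symm h1).ne'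

/-! ### counting shifts -/

theorem card_shift_le (L b' o : ℕ) (hL : 0 < L) :
    ((range (b' * L)).filter (fun j => (j * L) % (b' * L) = o)).card ≤ L := by
  calc ((range (b' * L)).filter (fun j => (j * L) % (b' * L) = o)).card
      ≤ (range L).card := by
        apply card_le_card_of_injOn (fun j => j / b')
        · intro j hj
          rw [mem_coe, mem_filter, mem_range] at hj
          rw [mem_coe, mem_range]
          exact Nat.div_lt_of_lt_mul hj.1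
        · intro j hj j' hj' h
          rw [mem_coe, mem_filter] at hj hj'
          have h1 := hj.2.trans hj'.2.symm
          rw [Nat.mul_mod_mul_right, Nat.mul_mod_mul_right] at h1
          have h2 : j % b' = j' % b' := Nat.eq_of_mul_eq_mul_right hL h1
          have h3 : j / b' = j' / b' := h
          rw [← Nat.div_add_mod j b', ← Nat.div_add_mod j' b', h2, h3]
    _ = L := card_range L

theorem divmod_unique {b a a' s s' : ℤ} (hs : 0 ≤ s) (hs1 : s < b) (hs2 : 0 ≤ s') (hs3 : s' < b)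
    (h : b * a + s = b * a' + s') : a = a' ∧ s = s' := by
  have ha : a = a' := by
    rcases lt_trichotomy a a' with h1 | h1 | h1
    · nlinarith
    · exact h1
    · nlinarith only [hs, hs1, hs3, h, h1]
  subst ha
  exact ⟨rfl, by linarith⟩

/-! ### the vectors `c` -/

variable {d : ℕ}

theorem exists_cvec {X : Finset (Fin d → ℤ)} {V : Fin d → ℤ} (hX : GoodSet d X V)
    {χ : Fin d → ℤ} (hχ : χ ∈ X) : ∃ v : Fin d → ℤ, dot χ v = 0 ∧
      ∀ χ' ∈ X, χ ≠ χ' → dot χ' v ≠ 0 := by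
  classical
  obtain ⟨j, hj, hj2⟩ := hX.top χ hχ
  let Q : (Fin d → ℤ) → Polynomial ℤ := fun χ' =>
    ∑ i : Fin d, Polynomial.C (χ' i - χ' j * χ i) * Polynomial.X ^ (i : ℕ)
  have hcoeff : ∀ χ' (i : Fin d), (Q χ').coeff (i : ℕ) = χ' i - χ' j * χ i := by
    intro χ' i
    simp only [Q, Polynomial.finsetSum_coeff, Polynomial.coeff_C_mul_X_pow]
    rw [Finset.sum_eq_single i]
    · simp
    · intro k _ hk
      rw [if_neg]
      intro h
      exact hk (Fin.ext h.symm)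
    · simp
  have hQ : ∀ χ' ∈ X, χ ≠ χ' → Q χ' ≠ 0 := by
    intro χ' hχ' hne h0
    have h1 : ∀ k, χ' k = χ' j * χ k := by
      intro k
      have := hcoeff χ' k
      rw [h0, Polynomial.coeff_zero] at this
      linarith
    obtain ⟨j', hj', hj2'⟩ := hX.top χ' hχ'
    have h2 : χ' j ≠ 0 := by
      intro h
      have := h1 j'
      rw [h, zero_mul, hj'] at this
      exact one_ne_zero this
    have h3 : j ≤ j' := by
      by_contra hlt
      push Not at hlt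
      exact h2 (hj2' j hlt)
    have h4 : j' ≤ j := by
      by_contra hlt
      push Not at hlt
      have := h1 j'
      rw [hj', hj2 j' hlt, mul_zero] at this
      exact one_ne_zero this
    have h5 : j' = j := le_antisymm h4 h3
    rw [h5] at hj'
    apply hne
    funext k
    rw [h1 k, hj', one_mul]
  have hprod : (∏ χ' ∈ X.filter (fun χ' => χ ≠ χ'), Q χ') ≠ 0 := by
    rw [Finset.prod_ne_zero_iff]
    intro χ' hχ'
    rw [mem_filter] at hχ'
    exact hQ χ' hχ'.1 hχ'.2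
  obtain ⟨T, hT⟩ : ∃ T : ℤ, (∏ χ' ∈ X.filter (fun χ' => χ ≠ χ'), Q χ').eval T ≠ 0 := by
    by_contra hcon
    push Not at hcon
    apply hprod
    apply Polynomial.funext
    intro T
    rw [hcon T, Polynomial.eval_zero]
  rw [Polynomial.eval_prod, Finset.prod_ne_zero_iff] at hT
  have hgen : ∀ χ' : Fin d → ℤ,
      dot χ' (fun i => T ^ (i : ℕ) - if i = j then ∑ k : Fin d, χ k * T ^ (k : ℕ) else 0) =
        (Q χ').eval T := by
    intro χ'
    simp only [Q, dot, Polynomial.eval_finsetSum, Polynomial.eval_mul, Polynomial.eval_C,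
      Polynomial.eval_pow, Polynomial.eval_X]
    simp only [mul_sub, Finset.sum_sub_distrib, mul_ite, mul_zero, Finset.sum_ite_eq', mem_univ,
      if_true, sub_mul]
    rw [Finset.mul_sum]
    congr 1
    apply Finset.sum_congr rfl
    intro i _
    ring
  refine ⟨fun i => T ^ (i : ℕ) - if i = j then ∑ k : Fin d, χ k * T ^ (k : ℕ) else 0, ?_, ?_⟩
  · rw [hgen]
    simp [Q, hj]
  · intro χ' hχ' hne
    rw [hgen]
    exact hT χ' (mem_filter.2 ⟨hχ', hne⟩)

end Vale.Agent.P110.CombB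
end

section

/-! # P110, C4: comb systems exist -/

namespace Vale.Agent.P110.CombB

open Finset Filter

variable {d : ℕ}

/-- the coloured point of mode `χ` of the comb `r` -/
noncomputable def tt (V : Fin d → ℤ) (m b : ℕ) (χ : Fin d → ℤ) (r : (Fin d → ZMod m) × ℕ) : ZMod m :=
  ∑ i, (χ i : ZMod m) * r.1 i + ((r.2 * (dot χ V).toNat / b : ℕ) : ZMod m)

/-- the offset inside the block -/
def oo (V : Fin d → ℤ) (b : ℕ) (χ : Fin d → ℤ) (j : ℕ) : ℕ := (j * (dot χ V).toNat) % b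

/-- the residue modulo `g = m b` of mode `χ` of the comb `r` -/
noncomputable def uu (V : Fin d → ℤ) (m b : ℕ) (χ : Fin d → ℤ) (r : (Fin d → ZMod m) × ℕ) : ℕ :=
  b * (tt V m b χ r).val + oo V b χ r.2

/-- the vector of a comb with prescribed labels -/
theorem exists_vec {X : Finset (Fin d → ℤ)} {V : Fin d → ℤ} (hX : GoodSet d X V) {m b : ℕ}
    [NeZero m] (q : (Fin d → ℤ) → ℕ) (hq : ∀ χ ∈ X, (q χ).Prime)
    (hinj : ∀ χ ∈ X, ∀ χ' ∈ X, q χ = q χ' → χ = χ') (r : (Fin d → ZMod m) × ℕ)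
    (lab : (Fin d → ℤ) → ℤ) :
    ∃ v : Fin d → ℤ, ∀ χ ∈ X,
      ((q χ : ℤ) * (m * b : ℕ)) ∣
        (dot χ v - ((uu V m b χ r : ℤ) + (m * b : ℕ) * lab χ)) := by
  classical
  -- the number `w` with `b χ·σ + j L = u + g w`
  have hw : ∀ χ ∈ X, ∃ w : ℤ, (b : ℤ) * (∑ i, χ i * ((r.1 i).val : ℤ)) +
      r.2 * dot χ V = uu V m b χ r + (m * b : ℕ) * w := by
    intro χ hχ
    have hL : ((dot χ V).toNat : ℤ) = dot χ V :=
      Int.toNat_of_nonneg (hX.V_pos χ hχ).le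
    have hdvd : (m : ℤ) ∣ (∑ i, χ i * ((r.1 i).val : ℤ) +
        ((r.2 * (dot χ V).toNat / b : ℕ) : ℤ)) - ((tt V m b χ r).val : ℤ) := by
      rw [← ZMod.intCast_zmod_eq_zero_iff_dvd, Int.cast_sub, Int.cast_add, Int.cast_natCast,
        Int.cast_natCast, Int.cast_sum]
      simp only [Int.cast_mul, Int.cast_natCast, ZMod.natCast_zmod_val]
      exact sub_self _
    obtain ⟨w, hw⟩ := hdvd
    refine ⟨w, ?_⟩
    have h1 : ((b : ℤ) * ((r.2 * (dot χ V).toNat / b : ℕ) : ℤ)) +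
        ((oo V b χ r.2 : ℕ) : ℤ) = r.2 * dot χ V := by
      have := Nat.div_add_mod (r.2 * (dot χ V).toNat) b
      rw [← hL]
      exact_mod_cast this
    rw [uu]
    push_cast
    rw [← h1]
    have h2 : (b : ℤ) * (∑ i, χ i * ((r.1 i).val : ℤ)) + (b : ℤ) *
        ((r.2 * (dot χ V).toNat / b : ℕ) : ℤ) =
        b * ((tt V m b χ r).val : ℤ) + b * (m * w) := by
      rw [← hw]; ring
    push_cast at h2 ⊢
    linarith only [h2]
  choose! w hw using hw
  have hne : Nonempty (Fin d) := ⟨⟨0, by have := hX.two_le; omega⟩⟩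
  have htop : ∀ χ ∈ X, ∃ j, χ j = 1 := fun χ hχ => by
    obtain ⟨j, hj, -⟩ := hX.top χ hχ
    exact ⟨j, hj⟩
  choose! jj hjj using htop
  have hz := fun i : Fin d =>
    int_crt X q hq hinj (fun χ => if i = jj χ then lab χ - w χ else 0)
  choose z hz using hz
  refine ⟨fun i => b * ((r.1 i).val : ℤ) + r.2 * V i + (m * b : ℕ) * z i, fun χ hχ => ?_⟩
  have hsum : dot χ (fun i => b * ((r.1 i).val : ℤ) + r.2 * V i + (m * b : ℕ) * z i) =
      (b : ℤ) * (∑ i, χ i * ((r.1 i).val : ℤ)) + r.2 * dot χ V + (m * b : ℕ) * dot χ z := by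
    simp only [dot, mul_add, Finset.sum_add_distrib]
    rw [Finset.mul_sum, Finset.mul_sum, Finset.mul_sum]
    congr 1
    · congr 1
      · apply Finset.sum_congr rfl
        intro i _
        ring
      · apply Finset.sum_congr rfl
        intro i _
        ring
    · apply Finset.sum_congr rfl
      intro i _
      ring
  have hdz : (q χ : ℤ) ∣ dot χ z - (lab χ - w χ) := by
    have h1 : (q χ : ℤ) ∣ dot χ z -
        ∑ i, χ i * (if i = jj χ then lab χ - w χ else 0) := by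
      rw [dot, ← Finset.sum_sub_distrib]
      apply Finset.dvd_sum
      intro i _
      rw [← mul_sub]
      exact Dvd.dvd.mul_left (hz i χ hχ) _
    have h2 : ∑ i, χ i * (if i = jj χ then lab χ - w χ else 0) = lab χ - w χ := by
      simp only [mul_ite, mul_zero, Finset.sum_ite_eq', mem_univ, if_true]
      rw [hjj χ hχ, one_mul]
    rwa [h2] at h1
  rw [hsum, hw χ hχ]
  obtain ⟨y, hy⟩ := hdz
  refine ⟨y, ?_⟩
  have e1 : dot χ z = lab χ - w χ + q χ * y := by linarith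
  rw [e1]
  ring

theorem oo_facts {X : Finset (Fin d → ℤ)} {V : Fin d → ℤ} (hX : GoodSet d X V) {b : ℕ} (hb : 0 < b)
    (hbL : ∀ χ ∈ X, (dot χ V).toNat ∣ b) {χ : Fin d → ℤ} (hχ : χ ∈ X) (j : ℕ) :
    dot χ V ∣ ((oo V b χ j : ℕ) : ℤ) ∧
      ((oo V b χ j : ℕ) : ℤ) + dot χ V ≤ b := by
  have hL : ((dot χ V).toNat : ℤ) = dot χ V :=
    Int.toNat_of_nonneg (hX.V_pos χ hχ).le
  have h1 : (dot χ V).toNat ∣ oo V b χ j :=
    (Nat.dvd_mod_iff (hbL χ hχ)).2 (dvd_mul_left _ _)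
  have h2 : oo V b χ j < b := Nat.mod_lt _ hb
  rw [← hL]
  refine ⟨by exact_mod_cast h1, ?_⟩
  obtain ⟨x, hx⟩ := h1
  obtain ⟨y, hy⟩ := hbL χ hχ
  have hLpos : 0 < (dot χ V).toNat := by
    have := hX.V_pos χ hχ
    omega
  have h3 : x < y := by
    rw [hx] at h2
    conv_rhs at h2 => rw [hy]
    exact Nat.lt_of_mul_lt_mul_left h2
  have h4 : oo V b χ j + (dot χ V).toNat ≤ b := by
    rw [hx]
    conv_rhs => rw [hy]
    calc (dot χ V).toNat * x + (dot χ V).toNat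
        = (dot χ V).toNat * (x + 1) := by ring
      _ ≤ _ := Nat.mul_le_mul_left _ h3
  exact_mod_cast h4

/-- position of a cell of a comb modulo `g` -/
theorem pos_facts {X : Finset (Fin d → ℤ)} {V : Fin d → ℤ} (hX : GoodSet d X V) {m b : ℕ} [NeZero m]
    (hb : 0 < b) (hbL : ∀ χ ∈ X, (dot χ V).toNat ∣ b) {χ : Fin d → ℤ}
    (hχ : χ ∈ X) (r : (Fin d → ZMod m) × ℕ) {i : ℤ} (hi : 0 ≤ i)
    (hi1 : i < dot χ V) :
    0 ≤ (oo V b χ r.2 : ℤ) + i ∧ (oo V b χ r.2 : ℤ) + i < b ∧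
      0 ≤ (uu V m b χ r : ℤ) + i ∧ (uu V m b χ r : ℤ) + i < (m * b : ℕ) ∧
      (uu V m b χ r : ℤ) + i = b * ((tt V m b χ r).val : ℤ) + ((oo V b χ r.2 : ℤ) + i) := by
  obtain ⟨h1, h2⟩ := oo_facts hX hb hbL hχ r.2
  have h3 : 0 ≤ (oo V b χ r.2 : ℤ) := by positivity
  have h4 : (uu V m b χ r : ℤ) + i = b * ((tt V m b χ r).val : ℤ) + ((oo V b χ r.2 : ℤ) + i) := by
    rw [uu]; push_cast; ring
  have h5 : ((tt V m b χ r).val : ℤ) + 1 ≤ m := by
    have := ZMod.val_lt (tt V m b χ r)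
    exact_mod_cast this
  have h6 : (0 : ℤ) ≤ ((tt V m b χ r).val : ℤ) := by positivity
  have hb' : (0 : ℤ) < b := by exact_mod_cast hb
  refine ⟨by linarith, by linarith, ?_, ?_, h4⟩
  · rw [h4]
    have : (0 : ℤ) ≤ b * ((tt V m b χ r).val : ℤ) := by positivity
    linarith
  · rw [h4]
    push_cast
    nlinarith only [hi1, h2, h5]

/-- The combinatorial core. -/
theorem comb_core {X : Finset (Fin d → ℤ)} {V : Fin d → ℤ} (hX : GoodSet d X V) {m b : ℕ} [NeZero m]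
    (hb : 0 < b) (hbe : Even b) (hbL : ∀ χ ∈ X, (dot χ V).toNat ∣ b)
    (col : ZMod m → Option (Fin d → ℤ)) (G : Finset ((Fin d → ZMod m) × ℕ))
    (hanti : ∀ t, col t ≠ none → col (-1 - t) = none)
    (hcol : ∀ r ∈ G, ∀ χ ∈ X, col (tt V m b χ r) = some χ) (hG : G.Nonempty)
    (q : (Fin d → ℤ) → ℕ) (hq : ∀ χ ∈ X, (q χ).Prime) (hq2 : ∀ χ ∈ X, 2 < q χ)
    (hinj : ∀ χ ∈ X, ∀ χ' ∈ X, q χ = q χ' → χ = χ')
    (cv : (Fin d → ℤ) → Fin d → ℤ) (hcv : ∀ χ ∈ X, dot χ (cv χ) = 0)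
    (hcv' : ∀ χ ∈ X, ∀ χ' ∈ X, χ ≠ χ' → dot χ' (cv χ) ≠ 0 ∧ |dot χ' (cv χ)| < q χ)
    (hfib : ∀ χ ∈ X, ∀ r ∈ G, (G.filter (fun r' => uu V m b χ r' = uu V m b χ r)).card ≤ q χ) :
    ∃ S : CombSystem d X V, S.g = m * b ∧ S.P = G.card ∧ ∀ χ ∈ X, S.q χ = q χ := by
  classical
  -- labels
  have hlab : ∀ χ ∈ X, ∃ lab : ((Fin d → ZMod m) × ℕ) → ℕ, (∀ r ∈ G, lab r < q χ) ∧
      ∀ r ∈ G, ∀ r' ∈ G, uu V m b χ r = uu V m b χ r' → lab r = lab r' → r = r' :=
    fun χ hχ => exists_label G (uu V m b χ) (q χ) (hfib χ hχ)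
  choose! lab hlab1 hlab2 using hlab
  -- vectors
  have hvec := fun r : (Fin d → ZMod m) × ℕ =>
    exists_vec (b := b) hX q hq hinj r (fun χ => (lab χ r : ℤ))
  choose Rv hRv using hvec
  -- the vector `c`
  have hc := fun i : Fin d => int_crt X q hq hinj (fun χ => cv χ i)
  choose c hc using hc
  have hcsum : ∀ χ ∈ X, ∀ χ' : Fin d → ℤ,
      (q χ : ℤ) ∣ dot χ' c - dot χ' (cv χ) := by
    intro χ hχ χ'
    rw [dot, dot, ← Finset.sum_sub_distrib]
    apply Finset.dvd_sum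
    intro i _
    rw [← mul_sub]
    exact Dvd.dvd.mul_left (hc i χ hχ) _
  have hm : 0 < m := Nat.pos_of_ne_zero (NeZero.ne m)
  have hgpos : (0 : ℤ) < ((m * b : ℕ) : ℤ) := by exact_mod_cast Nat.mul_pos hm hb
  -- indices
  let rr : ℕ → (Fin d → ZMod m) × ℕ := fun k =>
    if hk : k < G.card then (G.equivFin.symm ⟨k, hk⟩ : G) else (0, 0)
  have hrr : ∀ k < G.card, rr k ∈ G := by
    intro k hk
    simp only [rr, hk, dif_pos]
    exact (G.equivFin.symm ⟨k, hk⟩).2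
  have hrrinj : ∀ k < G.card, ∀ k' < G.card, rr k = rr k' → k = k' := by
    intro k hk k' hk' h
    simp only [rr, hk, hk', dif_pos] at h
    have := G.equivFin.symm.injective (Subtype.ext h)
    exact congrArg Fin.val this
  -- residues modulo g
  have hres : ∀ k, ∀ χ ∈ X, ∀ x i : ℤ,
      ((q χ : ℤ) * (m * b : ℕ)) ∣ (x - dot χ (Rv (rr k)) - i) →
      ((q χ : ℤ) * (m * b : ℕ)) ∣
        (x - ((uu V m b χ (rr k) : ℤ) + i) - (m * b : ℕ) * (lab χ (rr k) : ℤ)) := by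
    intro k χ hχ x i h
    have h2 := hRv (rr k) χ hχ
    have h3 := dvd_add h h2
    have h4 : x - dot χ (Rv (rr k)) - i + (dot χ (Rv (rr k)) -
        ((uu V m b χ (rr k) : ℤ) + (m * b : ℕ) * (lab χ (rr k) : ℤ))) =
        x - ((uu V m b χ (rr k) : ℤ) + i) - (m * b : ℕ) * (lab χ (rr k) : ℤ) := by ring
    rwa [h4] at h3
  have hresg : ∀ k, ∀ χ ∈ X, ∀ x i : ℤ,
      ((q χ : ℤ) * (m * b : ℕ)) ∣ (x - dot χ (Rv (rr k)) - i) →
      ((m * b : ℕ) : ℤ) ∣ (x - ((uu V m b χ (rr k) : ℤ) + i)) := by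
    intro k χ hχ x i h
    have h1 := hres k χ hχ x i h
    have h2 : ((m * b : ℕ) : ℤ) ∣ (x - ((uu V m b χ (rr k) : ℤ) + i) -
      (m * b : ℕ) * (lab χ (rr k) : ℤ)) := (dvd_mul_left _ _).trans h1
    have h3 : ((m * b : ℕ) : ℤ) ∣ (m * b : ℕ) * (lab χ (rr k) : ℤ) := dvd_mul_right _ _
    have h4 := dvd_add h2 h3
    rwa [sub_add_cancel] at h4
  refine ⟨{
    g := m * b
    P := G.card
    q := q
    c := c
    R := fun k => Rv (rr k)
    g_pos := Nat.mul_pos hm hb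
    g_even := hbe.mul_left m
    P_pos := hG.card_pos
    q_odd := fun χ hχ => (hq χ hχ).odd_of_ne_two (hq2 χ hχ).ne'
    q_coprime := fun χ hχ χ' hχ' hne =>
      (Nat.coprime_primes (hq χ hχ) (hq χ' hχ')).2 fun h => hne (hinj χ hχ χ' hχ' h)
    c_dvd := ?_
    c_coprime := ?_
    disj := ?_
    disj' := ?_ }, rfl, rfl, fun _ _ => rfl⟩
  · intro χ hχ
    have := hcsum χ hχ χ
    rwa [hcv χ hχ, sub_zero] at this
  · intro χ hχ χ' hχ' hne
    have hp : Prime (q χ : ℤ) := Nat.prime_iff_prime_int.1 (hq χ hχ)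
    rw [isCoprime_comm, hp.irreducible.coprime_iff_not_dvd]
    intro hdvd
    obtain ⟨h1, h2⟩ := hcv' χ hχ χ' hχ' hne
    have h3 := hcsum χ hχ χ'
    have h4 := dvd_sub hdvd h3
    rw [sub_sub_cancel] at h4
    exact h1 (Int.eq_zero_of_abs_lt_dvd h4 h2)
  · intro k hk k' hk' χ hχ χ' hχ' x i i' hi hi1 hi' hi1' h h'
    obtain ⟨a1, a2, a3, a4, a5⟩ := pos_facts hX hb hbL hχ (rr k) hi hi1
    obtain ⟨b1, b2, b3, b4, b5⟩ := pos_facts hX hb hbL hχ' (rr k') hi' hi1'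
    have e1 := hresg k χ hχ x i h
    have e2 := hresg k' χ' hχ' x i' h'
    have e3 : (uu V m b χ (rr k) : ℤ) + i = (uu V m b χ' (rr k') : ℤ) + i' := by
      have e4 := dvd_sub e2 e1
      have e5 : x - ((uu V m b χ' (rr k') : ℤ) + i') - (x - ((uu V m b χ (rr k) : ℤ) + i)) =
          ((uu V m b χ (rr k) : ℤ) + i) - ((uu V m b χ' (rr k') : ℤ) + i') := by ring
      rw [e5] at e4
      have e6 := Int.eq_zero_of_abs_lt_dvd e4 (by rw [abs_lt]; constructor <;> linarith)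
      linarith only [e6]
    have e4 := e3
    rw [a5, b5] at e4
    obtain ⟨f1, f2⟩ := divmod_unique a1 a2 b1 b2 e4
    have f3 : tt V m b χ (rr k) = tt V m b χ' (rr k') := by
      apply ZMod.val_injective
      exact_mod_cast f1
    have f4 : χ = χ' := by
      have g1 := hcol (rr k) (hrr k hk) χ hχ
      have g2 := hcol (rr k') (hrr k' hk') χ' hχ'
      rw [f3, g2] at g1
      exact (Option.some_injective _ g1).symm
    subst f4
    obtain ⟨⟨y, hy⟩, -⟩ := oo_facts hX hb hbL hχ (rr k).2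
    obtain ⟨⟨y', hy'⟩, -⟩ := oo_facts hX hb hbL hχ (rr k').2
    rw [hy, hy'] at f2
    obtain ⟨f5, f6⟩ := divmod_unique hi hi1 hi' hi1' f2
    subst f6
    have f7 : (uu V m b χ (rr k) : ℤ) = uu V m b χ (rr k') := by linarith only [e3]
    have f7' : uu V m b χ (rr k) = uu V m b χ (rr k') := by exact_mod_cast f7
    have g1 := hres k χ hχ x i h
    have g2 := hres k' χ hχ x i h'
    rw [f7] at g1
    have g3 := dvd_sub g1 g2
    have g4 : x - ((uu V m b χ (rr k') : ℤ) + i) - (m * b : ℕ) * (lab χ (rr k) : ℤ) -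
        (x - ((uu V m b χ (rr k') : ℤ) + i) - (m * b : ℕ) * (lab χ (rr k') : ℤ)) =
        ((lab χ (rr k') : ℤ) - lab χ (rr k)) * (m * b : ℕ) := by ring
    rw [g4] at g3
    have g5 : (q χ : ℤ) ∣ ((lab χ (rr k') : ℤ) - lab χ (rr k)) :=
      Int.dvd_of_mul_dvd_mul_right hgpos.ne' g3
    have l1 := hlab1 χ hχ (rr k) (hrr k hk)
    have l2 := hlab1 χ hχ (rr k') (hrr k' hk')
    have g6 := Int.eq_zero_of_abs_lt_dvd g5 (by
      rw [abs_lt]
      constructor <;> omega)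
    have g7 : lab χ (rr k) = lab χ (rr k') := by omega
    exact ⟨hrrinj k hk k' hk' (hlab2 χ hχ (rr k) (hrr k hk) (rr k') (hrr k' hk') f7' g7), rfl⟩
  · intro k hk k' hk' χ hχ χ' hχ' x i i' hi hi1 hi' hi1' h h'
    obtain ⟨a1, a2, a3, a4, a5⟩ := pos_facts hX hb hbL hχ (rr k) hi hi1
    obtain ⟨b1, b2, b3, b4, b5⟩ := pos_facts hX hb hbL hχ' (rr k') hi' hi1'
    have e1 := hresg k χ hχ x i h
    have e2 := hresg k' χ' hχ' (-1 - x) i' h'
    have e3 := dvd_add e1 e2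
    have e4 : x - ((uu V m b χ (rr k) : ℤ) + i) + (-1 - x - ((uu V m b χ' (rr k') : ℤ) + i')) =
        -(((uu V m b χ (rr k) : ℤ) + i) + ((uu V m b χ' (rr k') : ℤ) + i') + 1) := by ring
    rw [e4, dvd_neg] at e3
    set g : ℤ := ((m * b : ℕ) : ℤ) with hg
    have e5 : ((uu V m b χ (rr k) : ℤ) + i) + ((uu V m b χ' (rr k') : ℤ) + i') + 1 = g := by
      have e6 : g ∣ ((uu V m b χ (rr k) : ℤ) + i) + ((uu V m b χ' (rr k') : ℤ) + i') + 1 - g :=
        dvd_sub_self_right.2 e3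
      have e7 := Int.eq_zero_of_abs_lt_dvd e6 (by rw [abs_lt]; constructor <;> linarith)
      linarith only [e7]
    rw [a5, b5, hg] at e5
    push_cast at e5
    have hb' : (0 : ℤ) < b := by exact_mod_cast hb
    set s : ℤ := (oo V b χ (rr k).2 : ℤ) + i with hs
    set s' : ℤ := (oo V b χ' (rr k').2 : ℤ) + i' with hs'
    set τ : ℤ := ((tt V m b χ (rr k)).val : ℤ) with hτ
    set τ' : ℤ := ((tt V m b χ' (rr k')).val : ℤ) with hτ'
    have e8 : s + s' + 1 = b := by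
      have e9 : (b : ℤ) ∣ s + s' + 1 - b := by
        refine ⟨m - 1 - τ - τ', ?_⟩
        linarith only [e5]
      have e10 := Int.eq_zero_of_abs_lt_dvd e9 (by rw [abs_lt]; constructor <;> linarith)
      linarith only [e10]
    have e11 : τ + τ' + 1 = m := by
      have : (b : ℤ) * (τ + τ' + 1) = b * m := by linarith only [e5, e8]
      exact mul_left_cancel₀ hb'.ne' this
    have e12 : tt V m b χ' (rr k') = -1 - tt V m b χ (rr k) := by
      have e13 : (((tt V m b χ (rr k)).val + (tt V m b χ' (rr k')).val + 1 : ℕ) : ZMod m) =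
          ((m : ℕ) : ZMod m) := by
        congr 1
        have : (((tt V m b χ (rr k)).val + (tt V m b χ' (rr k')).val + 1 : ℕ) : ℤ) = m := by
          push_cast
          rw [← hτ, ← hτ']
          exact e11
        exact_mod_cast this
      rw [ZMod.natCast_self] at e13
      push_cast at e13
      rw [ZMod.natCast_zmod_val, ZMod.natCast_zmod_val] at e13
      linear_combination e13
    have g1 := hcol (rr k) (hrr k hk) χ hχ
    have g2 := hcol (rr k') (hrr k' hk') χ' hχ'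
    rw [e12, hanti _ (by rw [g1]; exact Option.some_ne_none _)] at g2
    exact Option.some_ne_none _ g2.symm

/-! ### the final statement -/

theorem fib_card_le {X : Finset (Fin d → ℤ)} {V : Fin d → ℤ} (hX : GoodSet d X V) {m b : ℕ} [NeZero m]
    (hb : 0 < b) (hbL : ∀ χ ∈ X, (dot χ V).toNat ∣ b)
    (G : Finset ((Fin d → ZMod m) × ℕ)) (hGb : ∀ r ∈ G, r.2 < b)
    {χ : Fin d → ℤ} (hχ : χ ∈ X) (A : ℝ)
    (hA : ∀ t : ZMod m, ∀ j < b,
      ((G.filter fun r => r.2 = j ∧ tt V m b χ r = t).card : ℝ) ≤ A)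
    (r : (Fin d → ZMod m) × ℕ) :
    ((G.filter (fun r' => uu V m b χ r' = uu V m b χ r)).card : ℝ) ≤
      (dot χ V).toNat * A := by
  classical
  have hLpos : 0 < (dot χ V).toNat := by
    have := hX.V_pos χ hχ
    omega
  obtain ⟨b', hb'⟩ := hbL χ hχ
  set L := (dot χ V).toNat with hL
  set Js := (range b).filter (fun j => oo V b χ j = oo V b χ r.2) with hJs
  have hJcard : Js.card ≤ L := by
    have h := card_shift_le L b' (oo V b χ r.2) hLpos
    have h2 : Js = (range (b' * L)).filter (fun j => (j * L) % (b' * L) = oo V b χ r.2) := by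
      rw [hJs, hb', mul_comm L b']
      rfl
    rw [h2]
    exact h
  have hsub : G.filter (fun r' => uu V m b χ r' = uu V m b χ r) ⊆
      Js.biUnion (fun j => G.filter fun r' => r'.2 = j ∧ tt V m b χ r' = tt V m b χ r) := by
    intro r' hr'
    obtain ⟨h1, h2⟩ := mem_filter.1 hr'
    have o1 : oo V b χ r'.2 < b := Nat.mod_lt _ hb
    have o2 : oo V b χ r.2 < b := Nat.mod_lt _ hb
    rw [uu, uu] at h2
    obtain ⟨h3, h4⟩ := divmod_unique (b := (b : ℤ)) (a := ((tt V m b χ r').val : ℤ))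
      (a' := ((tt V m b χ r).val : ℤ)) (s := (oo V b χ r'.2 : ℤ)) (s' := (oo V b χ r.2 : ℤ))
      (by positivity) (by exact_mod_cast o1) (by positivity) (by exact_mod_cast o2)
      (by exact_mod_cast h2)
    have h5 : tt V m b χ r' = tt V m b χ r := by
      apply ZMod.val_injective
      exact_mod_cast h3
    rw [mem_biUnion]
    refine ⟨r'.2, ?_, mem_filter.2 ⟨h1, rfl, h5⟩⟩
    rw [hJs, mem_filter, mem_range]
    exact ⟨hGb r' h1, by exact_mod_cast h4⟩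
  have hA0 : 0 ≤ A := (Nat.cast_nonneg _).trans (hA 0 0 hb)
  calc ((G.filter (fun r' => uu V m b χ r' = uu V m b χ r)).card : ℝ)
      ≤ ((Js.biUnion (fun j => G.filter fun r' => r'.2 = j ∧ tt V m b χ r' = tt V m b χ r)).card : ℝ) :=
        by exact_mod_cast card_le_card hsub
    _ ≤ ((∑ j ∈ Js, (G.filter fun r' => r'.2 = j ∧ tt V m b χ r' = tt V m b χ r).card : ℕ) : ℝ) := by
        exact_mod_cast card_biUnion_le
    _ = ∑ j ∈ Js, ((G.filter fun r' => r'.2 = j ∧ tt V m b χ r' = tt V m b χ r).card : ℝ) := by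
        push_cast; rfl
    _ ≤ ∑ _j ∈ Js, A := by
        apply sum_le_sum
        intro j hj
        exact hA _ j (mem_range.1 (mem_filter.1 hj).1)
    _ = Js.card * A := by rw [sum_const, nsmul_eq_mul]
    _ ≤ L * A := by
        apply mul_le_mul_of_nonneg_right _ hA0
        exact_mod_cast hJcard

theorem comb (hcolor : ColoringStatement) : CombStatement := by
  classical
  intro d X V hX p hp hpsum ε hε
  -- constants
  set e1 : ℝ := min ε 1 / 3 with he1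
  have h0 : 0 < min ε 1 := lt_min hε one_pos
  have he1pos : 0 < e1 := by positivity
  have he1a : e1 ≤ 1 / 3 := by
    have := min_le_right ε 1
    rw [he1]; linarith
  have he1b : e1 ≤ ε / 3 := by
    have := min_le_left ε 1
    rw [he1]; linarith
  have he1c : (1 + e1) * (1 + e1) ≤ 1 + ε := by nlinarith only [he1, h0, he1pos, he1a, he1b]
  set L : (Fin d → ℤ) → ℕ := fun χ => (dot χ V).toNat with hLdef
  have hLpos : ∀ χ ∈ X, 0 < L χ := by
    intro χ hχ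
    have := hX.V_pos χ hχ
    simp only [hLdef]
    omega
  have hLcast : ∀ χ ∈ X, ((L χ : ℕ) : ℝ) = ((dot χ V : ℤ) : ℝ) := by
    intro χ hχ
    have : ((L χ : ℕ) : ℤ) = dot χ V := Int.toNat_of_nonneg (hX.V_pos χ hχ).le
    exact_mod_cast this
  set b : ℕ := 2 * ∏ χ ∈ X, L χ with hbdef
  have hb : 0 < b := Nat.mul_pos (by norm_num) (Finset.prod_pos hLpos)
  have hbe : Even b := even_two_mul _
  have hbL : ∀ χ ∈ X, L χ ∣ b := fun χ hχ => Dvd.dvd.mul_left (Finset.dvd_prod_of_mem L hχ) 2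
  obtain ⟨m₀, hm₀⟩ := hcolor d X V hX p hp hpsum b (fun χ j => j * L χ / b) hb e1 he1pos
  -- vectors
  have hcv := fun (χ : Fin d → ℤ) (hχ : χ ∈ X) => exists_cvec hX hχ
  choose! cv hcv1 hcv2 using hcv
  -- thresholds
  obtain ⟨x₀, hx₀⟩ := (exists_primes_window X.card e1 he1pos).exists_forall_of_atTop
  set B₀ : ℤ := ∑ χ ∈ X, ∑ χ' ∈ X, |dot χ' (cv χ)| with hB₀
  set π₀ : ℝ := (∏ χ ∈ X, p χ) / 2 with hπ₀
  have hπpos : 0 < π₀ := by
    have := Finset.prod_pos hp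
    positivity
  set M : ℝ := max x₀ (max (B₀ : ℝ) 2) with hM
  obtain ⟨m, hm1, hm2⟩ := Nat.exists_infinite_primes (max m₀ (⌈M * b / π₀⌉₊))
  have : NeZero m := ⟨hm2.pos.ne'⟩
  have hmm₀ : m₀ ≤ m := (le_max_left _ _).trans hm1
  have hmM : M * b / π₀ ≤ m := by
    have h1 : ⌈M * b / π₀⌉₊ ≤ m := (le_max_right _ _).trans hm1
    exact (Nat.le_ceil _).trans (by exact_mod_cast h1)
  obtain ⟨col, G, hanti, hG2, hcol, hcount, hGcard⟩ := hm₀ m hmm₀ hm2
  have hmpos : (0 : ℝ) < m := by exact_mod_cast hm2.pos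
  have hm1' : (1 : ℝ) ≤ m := by exact_mod_cast hm2.one_lt.le
  have hbpos : (0 : ℝ) < b := by exact_mod_cast hb
  have hGpos : 0 < G.card := by
    have h1 : 0 < π₀ * (m : ℝ) ^ d := by positivity
    have h2 : (0 : ℝ) < G.card := lt_of_lt_of_le h1 hGcard
    exact_mod_cast h2
  have hGne : G.Nonempty := card_pos.1 hGpos
  have hGr : (0 : ℝ) < G.card := by exact_mod_cast hGpos
  -- the target sizes
  set Z : (Fin d → ℤ) → ℝ := fun χ => (G.card * L χ : ℝ) / ((m * b : ℕ) * p χ) with hZ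
  have hZpos : ∀ χ ∈ X, 0 < Z χ := by
    intro χ hχ
    have h1 := hp χ hχ
    have h2 : (0 : ℝ) < L χ := by exact_mod_cast hLpos χ hχ
    simp only [hZ]
    push_cast
    positivity
  have hple : ∀ χ ∈ X, p χ ≤ 1 := by
    intro χ hχ
    have h1 : p χ ≤ ∑ χ ∈ X, p χ := Finset.single_le_sum (fun i hi => (hp i hi).le) hχ
    linarith only [hpsum, he1pos, he1a, h1]
  have hZM : ∀ χ ∈ X, M ≤ Z χ := by
    intro χ hχ
    have h1 := hp χ hχ
    have h1' := hple χ hχ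
    have h2 : (1 : ℝ) ≤ L χ := by exact_mod_cast hLpos χ hχ
    have h3 : M * b ≤ π₀ * m := by
      rw [div_le_iff₀ hπpos] at hmM
      linarith only [hmM]
    have h4 : π₀ * (m : ℝ) * m ≤ G.card := by
      refine le_trans ?_ hGcard
      have h5 : (m : ℝ) ^ 2 ≤ m ^ d := pow_le_pow_right₀ hm1' hX.two_le
      calc π₀ * (m : ℝ) * m = π₀ * (m : ℝ) ^ 2 := by ring
        _ ≤ π₀ * (m : ℝ) ^ d := mul_le_mul_of_nonneg_left h5 hπpos.le
    simp only [hZ]
    push_cast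
    rw [le_div_iff₀ (by positivity)]
    calc M * (m * b * p χ) = (M * b) * m * p χ := by ring
      _ ≤ (π₀ * m) * m * p χ := by
          apply mul_le_mul_of_nonneg_right _ h1.le
          exact mul_le_mul_of_nonneg_right h3 hmpos.le
      _ ≤ G.card * p χ := mul_le_mul_of_nonneg_right h4 h1.le
      _ ≤ G.card * 1 := mul_le_mul_of_nonneg_left h1' hGr.le
      _ ≤ G.card * L χ := mul_le_mul_of_nonneg_left h2 hGr.le
  set Y : (Fin d → ℤ) → ℝ := fun χ => (1 + e1) * Z χ with hY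
  have hYZ : ∀ χ ∈ X, Z χ ≤ Y χ := by
    intro χ hχ
    have := hZpos χ hχ
    simp only [hY]
    nlinarith only [he1, h0, this]
  have hYM : ∀ χ ∈ X, M ≤ Y χ := fun χ hχ => (hZM χ hχ).trans (hYZ χ hχ)
  -- primes
  have hwin : ∀ χ ∈ X, ∃ T : Finset ℕ, X.card ≤ T.card ∧
      ∀ p ∈ T, p.Prime ∧ Y χ < p ∧ (p : ℝ) ≤ (1 + e1) * Y χ :=
    fun χ hχ => hx₀ (Y χ) ((le_max_left _ _).trans (hYM χ hχ))
  choose! T hT1 hT2 using hwin
  obtain ⟨q, hqT, hinj⟩ := exists_inj_choice X.card T X le_rfl hT1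
  have hq : ∀ χ ∈ X, (q χ).Prime := fun χ hχ => (hT2 χ hχ _ (hqT χ hχ)).1
  have hqY : ∀ χ ∈ X, Y χ < q χ := fun χ hχ => (hT2 χ hχ _ (hqT χ hχ)).2.1
  have hqY' : ∀ χ ∈ X, (q χ : ℝ) ≤ (1 + e1) * Y χ := fun χ hχ => (hT2 χ hχ _ (hqT χ hχ)).2.2
  have hqB : ∀ χ ∈ X, B₀ < (q χ : ℤ) := by
    intro χ hχ
    have h1 : (B₀ : ℝ) ≤ M := (le_max_left _ _).trans (le_max_right _ _)
    have h2 : (B₀ : ℝ) < (q χ : ℝ) := lt_of_le_of_lt (h1.trans (hYM χ hχ)) (hqY χ hχ)
    exact_mod_cast h2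
  have hq2 : ∀ χ ∈ X, 2 < q χ := by
    intro χ hχ
    have h1 : (2 : ℝ) ≤ M := (le_max_right _ _).trans (le_max_right _ _)
    have h2 : (2 : ℝ) < (q χ : ℝ) := lt_of_le_of_lt (h1.trans (hYM χ hχ)) (hqY χ hχ)
    exact_mod_cast h2
  have hs2 : ∀ χ ∈ X, ∀ χ' ∈ X, |dot χ' (cv χ)| ≤ ∑ χ ∈ X, ∑ χ' ∈ X, |dot χ' (cv χ)| := by
    intro χ hχ χ' hχ'
    have h1 : |dot χ' (cv χ)| ≤ ∑ χ' ∈ X, |dot χ' (cv χ)| :=
      Finset.single_le_sum (f := fun χ' : Fin d → ℤ => |dot χ' (cv χ)|)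
        (fun i _ => abs_nonneg _) hχ'
    refine h1.trans ?_
    exact Finset.single_le_sum
      (f := fun χ : Fin d → ℤ => ∑ χ' ∈ X, |dot χ' (cv χ)|)
      (fun i _ => Finset.sum_nonneg fun _ _ => abs_nonneg _) hχ
  have hcv' : ∀ χ ∈ X, ∀ χ' ∈ X, χ ≠ χ' → dot χ' (cv χ) ≠ 0 ∧ |dot χ' (cv χ)| < q χ := by
    intro χ hχ χ' hχ' hne
    refine ⟨hcv2 χ hχ χ' hχ' hne, ?_⟩
    have h1 := hs2 χ hχ χ' hχ'
    have h2 := hqB χ hχ
    rw [hB₀] at h2
    linarith only [h1, h2]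
  -- fibres
  have hfib : ∀ χ ∈ X, ∀ r ∈ G, (G.filter (fun r' => uu V m b χ r' = uu V m b χ r)).card ≤ q χ := by
    intro χ hχ r hr
    have h1 := fib_card_le hX hb hbL G hG2 hχ ((1 + e1) * G.card / (b * m * p χ)) (by
      intro t j hj
      rw [le_div_iff₀ (by have := hp χ hχ; positivity)]
      exact hcount χ hχ t j hj) r
    have h2 : ((dot χ V).toNat : ℝ) * ((1 + e1) * G.card / (b * m * p χ)) = Y χ := by
      simp only [hY, hZ]
      push_cast
      have := hp χ hχ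
      field_simp
      rfl
    rw [h2] at h1
    have h3 : ((G.filter (fun r' => uu V m b χ r' = uu V m b χ r)).card : ℝ) < q χ :=
      lt_of_le_of_lt h1 (hqY χ hχ)
    exact le_of_lt (by exact_mod_cast h3)
  obtain ⟨S, hS1, hS2, hS3⟩ := comb_core hX hb hbe hbL col G hanti hcol hGne q hq hq2 hinj cv
    hcv1 hcv' hfib
  refine ⟨S, fun χ hχ => ?_⟩
  have e : (S.P * dot χ V : ℝ) / (S.g * p χ) = Z χ := by
    simp only [hZ]
    rw [hS1, hS2, hLcast χ hχ]
  rw [hS3 χ hχ, e]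
  refine ⟨((hYZ χ hχ).trans (hqY χ hχ).le), ?_⟩
  calc (q χ : ℝ) ≤ (1 + e1) * Y χ := hqY' χ hχ
    _ = ((1 + e1) * (1 + e1)) * Z χ := by simp only [hY]; ring
    _ ≤ (1 + ε) * Z χ := mul_le_mul_of_nonneg_right he1c (hZpos χ hχ).le

end Vale.Agent.P110.CombB

namespace Vale.Agent.P110

/-- C4: comb systems with near optimal density exist (from the random colouring lemma). -/
theorem comb : ColoringStatement → CombStatement := CombB.comb

end Vale.Agent.P110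
end

section

open Finset AddMonoidAlgebra

namespace Vale.Agent.P110

open TrigF

lemma abs_sum_pow_le (B : ℤ) (hB : 1 ≤ B) (c : ℕ → ℤ) (hc : ∀ i, |c i| ≤ B - 1) (n : ℕ) :
    |∑ i ∈ range n, c i * B ^ i| ≤ B ^ n - 1 := by
  induction n with
  | zero => simp
  | succ n ih =>
    rw [Finset.sum_range_succ]
    refine (abs_add_le _ _).trans ?_
    rw [abs_mul, abs_of_nonneg (show (0 : ℤ) ≤ B ^ n by positivity)]
    have h1 : |c n| * B ^ n ≤ (B - 1) * B ^ n :=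
      mul_le_mul_of_nonneg_right (hc n) (by positivity)
    have h2 : (B : ℤ) ^ (n + 1) = (B - 1) * B ^ n + B ^ n := by ring
    rw [h2]
    linarith

lemma dot_pow_pos {d : ℕ} (B : ℤ) (hB : 1 ≤ B) (χ : Fin d → ℤ) (hχ : ∀ i, |χ i| ≤ B - 1)
    (m : Fin d) (hm : χ m = 1) (hm' : ∀ i, m < i → χ i = 0) :
    0 < dot χ (fun i => B ^ (i : ℕ)) := by
  let c : ℕ → ℤ := fun i => if h : i < d then χ ⟨i, h⟩ else 0
  have hc : ∀ i, |c i| ≤ B - 1 := by
    intro i
    by_cases h : i < d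
    · simp only [c, h, dif_pos]
      exact hχ _
    · simp only [c, h, dif_neg, not_false_eq_true, abs_zero]
      linarith
  have h1 : dot χ (fun i => B ^ (i : ℕ)) = ∑ i ∈ range d, c i * B ^ i := by
    rw [← Fin.sum_univ_eq_sum_range (fun i => c i * B ^ i) d]
    unfold dot
    apply Finset.sum_congr rfl
    intro i _
    simp [c]
  have h2 : ∑ i ∈ range d, c i * B ^ i = ∑ i ∈ range ((m : ℕ) + 1), c i * B ^ i := by
    symm
    apply Finset.sum_subset
    · intro i hi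
      rw [mem_range] at *
      omega
    · intro i hi hi'
      rw [mem_range] at *
      have : c i = 0 := by
        simp only [c, hi, dif_pos]
        apply hm'
        rw [Fin.lt_def]
        push Not at hi'
        simpa using by omega
      rw [this, zero_mul]
  have h3 : c m = 1 := by
    simp only [c, m.2, dif_pos]
    exact hm
  rw [h1, h2, Finset.sum_range_succ, h3, one_mul]
  have h4 := (abs_le.mp (abs_sum_pow_le B hB c hc m)).1
  linarith

end Vale.Agent.P110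
end

section

/-!
# P130R-1 VEC: the torus function
-/

set_option autoImplicit false

namespace Vale.Agent.P130R.Vec

open Finset AddMonoidAlgebra
open Vale.Agent.P110 (e dot GoodSet)
open Vale.Agent.P110.TrigF

variable {d : ℕ}

/-- inner recursion -/
noncomputable def Gp (d : ℕ) (p : ℝ) (A : AddMonoidAlgebra ℝ (Fin d → ℤ)) (off : ℕ) :
    ℕ → AddMonoidAlgebra ℝ (Fin d → ℤ)
  | 0 => (1 - p) • A
  | j + 1 => Gp d p A off j +
      (1 / 2 : ℝ) • (Gp d p A off j * (A - Gp d p A off j) * Hp d (off + j))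

/-- outer recursion -/
noncomputable def Ap (d : ℕ) (p : ℝ) (m : ℕ) : ℕ → AddMonoidAlgebra ℝ (Fin d → ℤ)
  | 0 => 1
  | i + 1 => Gp d p (Ap d p m i) (i * m) m

lemma low_Gp {p : ℝ} {A : AddMonoidAlgebra ℝ (Fin d → ℤ)} {off : ℕ} (hA : Low off A) (j : ℕ) :
    Low (off + j) (Gp d p A off j) := by
  induction j with
  | zero => exact hA.smul _
  | succ j ih =>
    have h1 : Low (off + (j + 1)) (Gp d p A off j) := ih.mono (by omega)
    have h2 : Low (off + (j + 1)) A := hA.mono (by omega)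
    have h3 : Low (off + (j + 1)) (Hp d (off + j)) := Low.Hp _
    exact h1.add (((h1.mul (h2.sub h1)).mul h3).smul _)

lemma low_Ap (p : ℝ) (m i : ℕ) : Low (i * m) (Ap d p m i) := by
  induction i with
  | zero => exact Low.one
  | succ i ih =>
    have h := low_Gp (p := p) ih m
    rw [show (i + 1) * m = i * m + m by ring]
    exact h

lemma sym_Gp {p : ℝ} {A : AddMonoidAlgebra ℝ (Fin d → ℤ)} {off : ℕ} (hA : Sym A) (j : ℕ) :
    Sym (Gp d p A off j) := by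
  have hA' := hA
  unfold P110.TrigF.Sym at hA'
  induction j with
  | zero =>
    unfold P110.TrigF.Sym
    rw [Gp, map_smul, hA']
  | succ j ih =>
    have h := sym_Hp (e := d) (off + j)
    unfold P110.TrigF.Sym at *
    rw [Gp, map_add, map_smul, map_mul, map_mul, map_sub, ih, h, hA']

lemma sym_Ap (p : ℝ) (m i : ℕ) : Sym (Ap d p m i) := by
  induction i with
  | zero =>
    unfold P110.TrigF.Sym
    rw [Ap, map_one]
  | succ i ih => exact sym_Gp ih m

/-- the last nonzero coordinate of a frequency of the increment -/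
lemma last_Gp {p : ℝ} {A : AddMonoidAlgebra ℝ (Fin d → ℤ)} {off : ℕ} (hA : Low off A) (j : ℕ)
    (hj : off + j ≤ d) (χ : Fin d → ℤ) (hχ : ((1 - p) • A - Gp d p A off j).coeff χ ≠ 0) :
    ∃ n : Fin d, off ≤ (n : ℕ) ∧ (n : ℕ) < off + j ∧ (χ n = 1 ∨ χ n = -1) ∧
      ∀ i, n < i → χ i = 0 := by
  induction j with
  | zero => simp [Gp] at hχ
  | succ j ih =>
    by_cases h : ((1 - p) • A - Gp d p A off j).coeff χ = 0
    · set W := Gp d p A off j * (A - Gp d p A off j) with hW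
      have h1 : (W * Hp d (off + j)).coeff χ ≠ 0 := by
        intro h'
        apply hχ
        have e1 : (1 - p) • A - Gp d p A off (j + 1)
            = ((1 - p) • A - Gp d p A off j) - (1 / 2 : ℝ) • (W * Hp d (off + j)) := by
          rw [Gp]
          abel
        rw [e1, AddMonoidAlgebra.coeff_sub, Finsupp.sub_apply, h, coeff_smul_apply, h']
        simp
      have hlow : Low (off + j) W :=
        (low_Gp hA j).mul ((hA.mono (by omega)).sub (low_Gp hA j))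
      rw [Hp, mul_add, AddMonoidAlgebra.coeff_add, Finsupp.add_apply,
        coeff_mul_single_apply, coeff_mul_single_apply, mul_one, mul_one] at h1
      let m : Fin d := ⟨off + j, by omega⟩
      have key : ∀ σ : Fin d → ℤ, W.coeff (χ + - σ) ≠ 0 →
          (∀ i : Fin d, i ≠ m → σ i = 0) → χ m = σ m ∧ ∀ i, m < i → χ i = 0 := by
        intro σ hσ hσ0
        have h2 := hlow _ hσ
        refine ⟨?_, ?_⟩
        · have := h2 m le_rfl
          simp only [Pi.add_apply, Pi.neg_apply] at this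
          omega
        · intro i hi
          have h3 := h2 i (le_of_lt hi)
          have h4 := hσ0 i (ne_of_gt hi)
          simp only [Pi.add_apply, Pi.neg_apply] at h3
          omega
      have huv : uv d (off + j) m = 1 := by simp [uv, m]
      have huv0 : ∀ i : Fin d, i ≠ m → uv d (off + j) i = 0 := by
        intro i hi
        have : (i : ℕ) ≠ off + j := by
          intro h
          apply hi
          ext
          exact h
        simp [uv, this]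
      have hm1 : off ≤ (m : ℕ) := by simp [m]
      have hm2 : (m : ℕ) < off + (j + 1) := by
        simp only [m]
        omega
      by_cases ha : W.coeff (χ + - uv d (off + j)) = 0
      · rw [ha, zero_add] at h1
        obtain ⟨h5, h6⟩ := key (- uv d (off + j)) h1 (by
          intro i hi
          simp [huv0 i hi])
        refine ⟨m, hm1, hm2, Or.inr ?_, h6⟩
        rw [h5]
        simp [huv]
      · obtain ⟨h5, h6⟩ := key (uv d (off + j)) ha huv0
        refine ⟨m, hm1, hm2, Or.inl ?_, h6⟩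
        rw [h5, huv]
    · obtain ⟨n, h1, h2, h3⟩ := ih (by omega) h
      exact ⟨n, h1, by omega, h3⟩

/-! ### means -/

/-- mean value -/
noncomputable def mn (P : AddMonoidAlgebra ℝ (Fin d → ℤ)) : ℝ := P.coeff 0

lemma mn_add (P Q : AddMonoidAlgebra ℝ (Fin d → ℤ)) : mn (P + Q) = mn P + mn Q := by
  unfold mn
  rw [AddMonoidAlgebra.coeff_add, Finsupp.add_apply]

lemma mn_sub (P Q : AddMonoidAlgebra ℝ (Fin d → ℤ)) : mn (P - Q) = mn P - mn Q := by
  unfold mn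
  rw [AddMonoidAlgebra.coeff_sub, Finsupp.sub_apply]

lemma mn_smul (c : ℝ) (P : AddMonoidAlgebra ℝ (Fin d → ℤ)) : mn (c • P) = c * mn P := by
  unfold mn
  rw [coeff_smul_apply, smul_eq_mul]

lemma mn_one : mn (1 : AddMonoidAlgebra ℝ (Fin d → ℤ)) = 1 :=
  AddMonoidAlgebra.coeff_one_zero

lemma mn_mul_Hp {n : ℕ} (hn : n < d) {Q : AddMonoidAlgebra ℝ (Fin d → ℤ)} (hQ : Low n Q) :
    mn (Q * Hp d n) = 0 := by
  have huv : uv d n ⟨n, hn⟩ = 1 := by simp [uv]
  unfold mn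
  rw [Hp, mul_add, AddMonoidAlgebra.coeff_add, Finsupp.add_apply,
    coeff_mul_single_apply, coeff_mul_single_apply, mul_one, mul_one,
    coeff_eq_zero_of_low hn hQ _ (by simp [huv]), coeff_eq_zero_of_low hn hQ _ (by simp [huv]),
    add_zero]

lemma mn_mul_Hp_sq {n : ℕ} (hn : n < d) {Q : AddMonoidAlgebra ℝ (Fin d → ℤ)} (hQ : Low n Q) :
    mn (Q * (Hp d n * Hp d n)) = 2 * mn Q := by
  have hH : Hp d n * Hp d n = single (uv d n + uv d n) 1 + (2 : ℝ) • 1
      + single (- uv d n + - uv d n) 1 := by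
    unfold Hp
    rw [add_mul, mul_add, mul_add, single_mul_single, single_mul_single, single_mul_single,
      single_mul_single, AddMonoidAlgebra.one_def]
    simp only [mul_one, add_neg_cancel, neg_add_cancel]
    module
  have huv : uv d n ⟨n, hn⟩ = 1 := by simp [uv]
  unfold mn
  rw [hH]
  simp only [AddMonoidAlgebra.coeff_add, Finsupp.add_apply, mul_add,
    coeff_smul_apply, coeff_mul_single_apply, mul_smul_comm, mul_one, smul_eq_mul]
  rw [coeff_eq_zero_of_low hn hQ (0 + - (uv d n + uv d n)) (by simp [huv]),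
    coeff_eq_zero_of_low hn hQ (0 + - (- uv d n + - uv d n)) (by simp [huv])]
  ring

/-- new variables average out -/
lemma mn_Gp_mul {p : ℝ} {A : AddMonoidAlgebra ℝ (Fin d → ℤ)} {off : ℕ} (hA : Low off A) (j : ℕ)
    (hj : off + j ≤ d) {Q : AddMonoidAlgebra ℝ (Fin d → ℤ)} (hQ : Low off Q) :
    mn (Gp d p A off j * Q) = (1 - p) * mn (A * Q) := by
  induction j with
  | zero => rw [Gp, smul_mul_assoc, mn_smul]
  | succ j ih =>
    have h1 : Low (off + j) (Gp d p A off j * (A - Gp d p A off j) * Q) :=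
      ((low_Gp hA j).mul ((hA.mono (by omega)).sub (low_Gp hA j))).mul (hQ.mono (by omega))
    have e1 : Gp d p A off (j + 1) * Q = Gp d p A off j * Q + (1 / 2 : ℝ) •
        (Gp d p A off j * (A - Gp d p A off j) * Q * Hp d (off + j)) := by
      rw [Gp, add_mul, smul_mul_assoc]
      congr 2
      ring
    rw [e1, mn_add, mn_smul, mn_mul_Hp (by omega) h1, ih (by omega)]
    ring

lemma v_step {p : ℝ} {A : AddMonoidAlgebra ℝ (Fin d → ℤ)} {off : ℕ} (hA : Low off A)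
    (hs : Sym A) (j : ℕ) (hj : off + j < d) :
    mn (Gp d p A off (j + 1) * (A - Gp d p A off (j + 1))) ≤
      mn (Gp d p A off j * (A - Gp d p A off j))
        - (1 / 2) * mn (Gp d p A off j * (A - Gp d p A off j)) ^ 2 := by
  set g := Gp d p A off j with hg
  have hgl : Low (off + j) g := low_Gp hA j
  have hAl : Low (off + j) A := hA.mono (by omega)
  set W := g * (A - g) with hW
  have hWl : Low (off + j) W := hgl.mul (hAl.sub hgl)
  have hWs : Sym W := by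
    have h1 : Sym g := sym_Gp hs j
    unfold P110.TrigF.Sym at *
    rw [hW, map_mul, map_sub, h1, hs]
  have e1 : Gp d p A off (j + 1) * (A - Gp d p A off (j + 1))
      = W + (1 / 2 : ℝ) • (W * (A - g - g) * Hp d (off + j))
        - (1 / 4 : ℝ) • (W * W * (Hp d (off + j) * Hp d (off + j))) := by
    have h0 : Gp d p A off (j + 1) = g + (1 / 2 : ℝ) • (W * Hp d (off + j)) := rfl
    rw [h0]
    have h1 : A - (g + (1 / 2 : ℝ) • (W * Hp d (off + j)))
        = (A - g) - (1 / 2 : ℝ) • (W * Hp d (off + j)) := by abel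
    have hx : (g + (1 / 2 : ℝ) • (W * Hp d (off + j))) *
        ((A - g) - (1 / 2 : ℝ) • (W * Hp d (off + j)))
        = g * (A - g) + (1 / 2 : ℝ) • (W * Hp d (off + j) * (A - g))
          - (1 / 2 : ℝ) • (g * (W * Hp d (off + j)))
          - (1 / 4 : ℝ) • (W * Hp d (off + j) * (W * Hp d (off + j))) := by
      rw [add_mul, mul_sub (g : AddMonoidAlgebra ℝ (Fin d → ℤ)) (A - g), mul_smul_comm,
        smul_mul_assoc, mul_sub (W * Hp d (off + j)) (A - g), mul_smul_comm]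
      module
    have h2 : W * Hp d (off + j) * (A - g) = W * (A - g) * Hp d (off + j) := by ring
    have h3 : g * (W * Hp d (off + j)) = W * g * Hp d (off + j) := by ring
    have h4 : W * Hp d (off + j) * (W * Hp d (off + j))
        = W * W * (Hp d (off + j) * Hp d (off + j)) := by ring
    have h5 : W * (A - g - g) * Hp d (off + j)
        = W * (A - g) * Hp d (off + j) - W * g * Hp d (off + j) := by ring
    rw [h1, hx, h2, h3, h4, h5, ← hW]
    module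
  rw [e1, mn_sub, mn_add, mn_smul, mn_smul,
    mn_mul_Hp hj (hWl.mul ((hAl.sub hgl).sub hgl)), mn_mul_Hp_sq hj (hWl.mul hWl)]
  have h6 : mn W ^ 2 ≤ mn (W * W) := sq_le_mass hWs
  linarith only [h6]

lemma v_small {p : ℝ} {A : AddMonoidAlgebra ℝ (Fin d → ℤ)} {off : ℕ} (hA : Low off A)
    (hs : Sym A) (δ : ℝ) (hδ : 0 < δ) (j : ℕ) (hj : off + (j + 1) ≤ d) :
    mn (Gp d p A off (j + 1) * (A - Gp d p A off (j + 1))) ≤ max δ (1 / 2 - j * (δ ^ 2 / 2)) := by
  induction j with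
  | zero =>
    refine le_trans (v_step hA hs 0 (by omega)) (le_trans ?_ (le_max_right _ _))
    linarith only [sq_nonneg (mn (Gp d p A off 0 * (A - Gp d p A off 0)) - 1)]
  | succ j ih =>
    have ih := ih (by omega)
    have h := v_step (p := p) hA hs (j + 1) (by omega)
    by_cases h1 : mn (Gp d p A off (j + 1) * (A - Gp d p A off (j + 1))) ≤ δ
    · refine le_trans h (le_trans ?_ (le_max_left _ _))
      linarith only [sq_nonneg (mn (Gp d p A off (j + 1) * (A - Gp d p A off (j + 1)))), h1]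
    · push Not at h1
      refine le_trans h (le_trans ?_ (le_max_right _ _))
      have h2 : mn (Gp d p A off (j + 1) * (A - Gp d p A off (j + 1))) ≤
          1 / 2 - j * (δ ^ 2 / 2) := by
        rcases le_max_iff.mp ih with h' | h'
        · linarith only [h1, h']
        · exact h'
      push_cast
      nlinarith only [hδ, h1, h2]

/-! ### evaluation -/

lemma ev_Hp' (γ : Fin d → ℝ) (n : ℕ) (hn : n < d) :
    ∃ c : ℝ, -1 ≤ c ∧ c ≤ 1 ∧ ev γ (Hp d n) = ((2 * c : ℝ) : ℂ) := by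
  let y : ℕ → ℝ := fun n => if h : n < d then γ ⟨n, h⟩ else 0
  have hy : γ = fun i : Fin d => y i := by
    funext i
    simp [y]
  refine ⟨Real.cos (2 * Real.pi * y n), Real.neg_one_le_cos _, Real.cos_le_one _, ?_⟩
  conv_lhs => rw [hy]
  exact ev_Hp y n hn

lemma ev_Gp {p : ℝ} (hp0 : 0 < p) (hp1 : p < 1) {A : AddMonoidAlgebra ℝ (Fin d → ℤ)} {off : ℕ}
    (γ : Fin d → ℝ) (a : ℝ) (ha : ev γ A = (a : ℂ)) (ha0 : 0 ≤ a) (ha1 : a ≤ 1) (j : ℕ)
    (hj : off + j ≤ d) :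
    ∃ r : ℝ, ev γ (Gp d p A off j) = (r : ℂ) ∧ 0 ≤ r ∧ r ≤ a := by
  induction j with
  | zero =>
    refine ⟨(1 - p) * a, ?_, by nlinarith only [hp1, ha0], by nlinarith only [hp0, ha0]⟩
    rw [Gp, map_smul, ha, Complex.real_smul]
    push_cast
    ring
  | succ j ih =>
    obtain ⟨r, h1, h2, h3⟩ := ih (by omega)
    obtain ⟨c, hc1, hc2, hc3⟩ := ev_Hp' γ (off + j) (by omega)
    refine ⟨r + r * (a - r) * c, ?_, ?_, ?_⟩
    · rw [Gp, map_add, map_smul, map_mul, map_mul, map_sub, h1, hc3, ha, Complex.real_smul]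
      push_cast
      ring
    · have h4 : 0 ≤ r * (a - r) := mul_nonneg h2 (by linarith)
      have h5 : 0 ≤ r * (1 - (a - r)) := mul_nonneg h2 (by linarith)
      nlinarith only [hp0, hp1, hc1, h4, h5]
    · have h4 : 0 ≤ r * (a - r) := mul_nonneg h2 (by linarith)
      have h5 : 0 ≤ (a - r) * (1 - r) := mul_nonneg (by linarith) (by linarith)
      nlinarith only [hp0, hp1, h3, hc1, hc2, h4, h5]

lemma ev_Ap {p : ℝ} (hp0 : 0 < p) (hp1 : p < 1) (m : ℕ) (γ : Fin d → ℝ) (i : ℕ)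
    (hi : i * m ≤ d) :
    ∃ r : ℝ, ev γ (Ap d p m i) = (r : ℂ) ∧ 0 ≤ r ∧ r ≤ 1 := by
  induction i with
  | zero => exact ⟨1, by simp [Ap], by norm_num, le_rfl⟩
  | succ i ih =>
    have h0 : (i + 1) * m = i * m + m := by ring
    obtain ⟨a, h1, h2, h3⟩ := ih (by omega)
    obtain ⟨r, h4, h5, h6⟩ := ev_Gp hp0 hp1 (off := i * m) γ a h1 h2 h3 m (by omega)
    exact ⟨r, h4, h5, h6.trans h3⟩

lemma ev_Ap_re {p : ℝ} (hp0 : 0 < p) (hp1 : p < 1) (m : ℕ) (γ : Fin d → ℝ) (i : ℕ)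
    (hi : (i + 1) * m ≤ d) :
    0 ≤ (ev γ (Ap d p m (i + 1))).re ∧ (ev γ (Ap d p m (i + 1))).re ≤ (ev γ (Ap d p m i)).re := by
  have h0 : (i + 1) * m = i * m + m := by ring
  obtain ⟨a, h1, h2, h3⟩ := ev_Ap hp0 hp1 m γ i (by omega)
  obtain ⟨r, h4, h5, h6⟩ := ev_Gp hp0 hp1 (off := i * m) γ a h1 h2 h3 m (by omega)
  rw [Ap, h4, h1, Complex.ofReal_re, Complex.ofReal_re]
  exact ⟨h5, h6⟩

/-! ### increments -/

/-- the increment -/
noncomputable def ff (d : ℕ) (p : ℝ) (m i : ℕ) : AddMonoidAlgebra ℝ (Fin d → ℤ) :=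
  (1 - p) • Ap d p m i - Ap d p m (i + 1)

lemma sym_ff (p : ℝ) (m i : ℕ) : P110.TrigF.Sym (ff d p m i) := by
  have h1 := sym_Ap (d := d) p m i
  have h2 := sym_Ap (d := d) p m (i + 1)
  unfold P110.TrigF.Sym at *
  rw [ff, map_sub, map_smul, h1, h2]

/-- index of the last nonzero coordinate -/
noncomputable def lst (χ : Fin d → ℤ) : ℕ :=
  (univ.filter (fun i => χ i ≠ 0)).sup (fun i => (i : ℕ))

lemma lst_eq (χ : Fin d → ℤ) (n : Fin d) (h : χ n ≠ 0) (h' : ∀ i, n < i → χ i = 0) :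
    lst χ = n := by
  unfold lst
  apply le_antisymm
  · apply Finset.sup_le
    intro i hi
    by_contra hc
    push Not at hc
    exact (Finset.mem_filter.mp hi).2 (h' i hc)
  · exact Finset.le_sup (f := fun i : Fin d => (i : ℕ)) (by simp [h])

lemma ff_last {p : ℝ} {m i : ℕ} (hi : (i + 1) * m ≤ d) (χ : Fin d → ℤ)
    (hχ : (ff d p m i).coeff χ ≠ 0) :
    (Pos χ ∨ Pos (-χ)) ∧ lst χ / m = i := by
  have h0 : (i + 1) * m = i * m + m := by ring
  obtain ⟨n, h1, h2, h3, h4⟩ := last_Gp (low_Ap p m i) m (by omega) χ hχ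
  refine ⟨?_, ?_⟩
  · rcases h3 with h3 | h3
    · exact Or.inl ⟨n, h3, h4⟩
    · exact Or.inr ⟨n, by simp [h3], fun i hi => by simp [h4 i hi]⟩
  · have hm : 0 < m := by omega
    rw [lst_eq χ n (by rcases h3 with h3 | h3 <;> simp [h3]) h4]
    apply Nat.div_eq_of_lt_le
    · exact h1
    · rw [h0]
      exact h2

open Classical in
lemma sum_half' {P : AddMonoidAlgebra ℝ (Fin d → ℤ)} (hs : P110.TrigF.Sym P)
    (hP : ∀ χ, P.coeff χ ≠ 0 → Pos χ ∨ Pos (-χ)) (f : (Fin d → ℤ) → ℝ)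
    (hf : ∀ χ, f (-χ) = f χ) :
    ∑ χ ∈ P.coeff.support, f χ = 2 * ∑ χ ∈ P.coeff.support.filter Pos, f χ := by
  rw [← Finset.sum_filter_add_sum_filter_not _ Pos, two_mul]
  congr 1
  refine Finset.sum_nbij' (fun χ => -χ) (fun χ => -χ) ?_ ?_ ?_ ?_ ?_
  · intro χ hχ
    rw [Finset.mem_filter, Finsupp.mem_support_iff] at *
    refine ⟨by rw [hs.coeff]; exact hχ.1, ?_⟩
    rcases hP χ hχ.1 with h | h
    · exact absurd h hχ.2
    · exact h
  · intro χ hχ
    rw [Finset.mem_filter, Finsupp.mem_support_iff] at *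
    exact ⟨by rw [hs.coeff]; exact hχ.1, not_pos_neg hχ.2⟩
  · intro χ _
    simp
  · intro χ _
    simp
  · intro χ _
    exact (hf χ).symm

/-- second moments -/
lemma mn_sq_succ (p : ℝ) (m i : ℕ) (hi : (i + 1) * m ≤ d) :
    mn (Ap d p m (i + 1) * Ap d p m (i + 1)) =
      (1 - p) ^ 2 * mn (Ap d p m i * Ap d p m i) + mass (ff d p m i) := by
  have h0 : (i + 1) * m = i * m + m := by ring
  have h1 : mn (Ap d p m (i + 1) * Ap d p m i) = (1 - p) * mn (Ap d p m i * Ap d p m i) :=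
    mn_Gp_mul (low_Ap p m i) m (by omega) (low_Ap p m i)
  have h2 : mass (ff d p m i) = mn (ff d p m i * ff d p m i) := rfl
  have h3 : ff d p m i * ff d p m i = ((1 - p) ^ 2) • (Ap d p m i * Ap d p m i)
      - (2 * (1 - p)) • (Ap d p m (i + 1) * Ap d p m i) + Ap d p m (i + 1) * Ap d p m (i + 1) := by
    unfold ff
    rw [sub_mul, mul_sub, mul_sub, smul_mul_smul_comm, smul_mul_assoc, mul_smul_comm,
      mul_comm (Ap d p m i) (Ap d p m (i + 1))]
    module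
  rw [h2, h3, mn_add, mn_sub, mn_smul, mn_smul, h1]
  ring

lemma mn_Ap (p : ℝ) (m i : ℕ) (hi : i * m ≤ d) : mn (Ap d p m i) = (1 - p) ^ i := by
  induction i with
  | zero => simp [Ap, mn_one]
  | succ i ih =>
    have h0 : (i + 1) * m = i * m + m := by ring
    have h1 := mn_Gp_mul (p := p) (low_Ap (d := d) p m i) m (by omega)
      (Q := 1) Low.one
    rw [mul_one, mul_one, ih (by omega)] at h1
    rw [Ap, h1]
    ring

lemma w_bound {p : ℝ} (hp0 : 0 < p) (hp1 : p < 1) (m : ℕ) (δ : ℝ) (hδ : 0 < δ)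
    (hm : 1 / 2 - (m : ℝ) * (δ ^ 2 / 2) ≤ δ) (i : ℕ) (hi : i * (m + 1) ≤ d) :
    mn (Ap d p (m + 1) i) - mn (Ap d p (m + 1) i * Ap d p (m + 1) i) ≤ i * δ := by
  induction i with
  | zero => simp [Ap, mn_one]
  | succ i ih =>
    have h0 : (i + 1) * (m + 1) = i * (m + 1) + (m + 1) := by ring
    have ih := ih (by omega)
    have h1 : mn (Ap d p (m + 1) (i + 1) * Ap d p (m + 1) i)
        = (1 - p) * mn (Ap d p (m + 1) i * Ap d p (m + 1) i) :=
      mn_Gp_mul (low_Ap p (m + 1) i) (m + 1) (by omega) (low_Ap p (m + 1) i)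
    have h2 : mn (Ap d p (m + 1) (i + 1)) = (1 - p) * mn (Ap d p (m + 1) i) := by
      rw [mn_Ap p (m + 1) (i + 1) hi, mn_Ap p (m + 1) i (by omega)]
      ring
    have h3 : mn (Ap d p (m + 1) (i + 1) * (Ap d p (m + 1) i - Ap d p (m + 1) (i + 1)))
        ≤ δ := by
      have h4 := v_small (p := p) (low_Ap (d := d) p (m + 1) i) (sym_Ap p (m + 1) i) δ hδ m
        (by omega)
      exact h4.trans (max_le le_rfl hm)
    rw [mul_sub, mn_sub, h1] at h3
    have h5 : 0 ≤ (i : ℝ) * δ := by positivity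
    rw [h2]
    push_cast
    nlinarith only [hp0, hp1, ih, h3, h5]

/-! ### assembly -/

open Classical in
/-- the modes -/
noncomputable def XX (d : ℕ) (p : ℝ) (m K : ℕ) : Finset (Fin d → ℤ) :=
  (range K).biUnion fun i => (ff d p m i).coeff.support.filter Pos

/-- label -/
noncomputable def lb (m : ℕ) (χ : Fin d → ℤ) : ℕ := lst χ / m

/-- coefficient -/
noncomputable def aa (p : ℝ) (m : ℕ) (χ : Fin d → ℤ) : ℝ := (ff d p m (lb m χ)).coeff χ

lemma mul_le_of {K m i : ℕ} (hK : K * m ≤ d) (hi : i < K) : (i + 1) * m ≤ d :=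
  (Nat.mul_le_mul_right m hi).trans hK

lemma mem_XX {p : ℝ} {m K : ℕ} (χ : Fin d → ℤ) :
    χ ∈ XX d p m K ↔ ∃ i < K, (ff d p m i).coeff χ ≠ 0 ∧ Pos χ := by
  unfold XX
  simp only [Finset.mem_biUnion, Finset.mem_range, Finset.mem_filter, Finsupp.mem_support_iff]

open Classical in
lemma XX_filter {p : ℝ} {m K : ℕ} (hK : K * m ≤ d) {i : ℕ} (hi : i < K) :
    (XX d p m K).filter (fun χ => lb m χ = i) = (ff d p m i).coeff.support.filter Pos := by
  ext χ
  simp only [Finset.mem_filter, mem_XX, Finsupp.mem_support_iff]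
  constructor
  · rintro ⟨⟨i', hi', h1, h2⟩, h3⟩
    have h4 := (ff_last (mul_le_of hK hi') χ h1).2
    have h5 : i' = i := h4.symm.trans h3
    subst h5
    exact ⟨h1, h2⟩
  · rintro ⟨h1, h2⟩
    exact ⟨⟨i, hi, h1, h2⟩, (ff_last (mul_le_of hK hi) χ h1).2⟩

lemma fl_eq {p : ℝ} {m K : ℕ} (hK : K * m ≤ d) {i : ℕ} (hi : i < K) (γ : Fin d → ℝ) :
    fl (XX d p m K) (aa p m) (lb m) γ i = (ev γ (ff d p m i)).re := by
  classical
  unfold fl
  rw [ev_eq_sum, sum_half' (sym_ff p m i) (fun χ hχ => (ff_last (mul_le_of hK hi) χ hχ).1)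
    (fun χ => (ff d p m i).coeff χ * Real.cos (2 * Real.pi * ∑ i, (χ i : ℝ) * γ i)),
    XX_filter hK hi, Finset.mul_sum]
  · apply Finset.sum_congr rfl
    intro χ hχ
    rw [Finset.mem_filter, Finsupp.mem_support_iff] at hχ
    have h1 : lb m χ = i := (ff_last (mul_le_of hK hi) χ hχ.1).2
    rw [aa, h1, mul_assoc]
  · intro χ
    rw [(sym_ff p m i).coeff]
    congr 1
    rw [← Real.cos_neg]
    congr 1
    simp [Finset.sum_neg_distrib]

lemma ml_eq {p : ℝ} {m K : ℕ} (hK : K * m ≤ d) {i : ℕ} (hi : i < K) :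
    ml (XX d p m K) (aa p m) (lb m) i = mass (ff d p m i) := by
  classical
  unfold ml
  rw [mass_eq (sym_ff p m i), sum_half' (sym_ff p m i)
    (fun χ hχ => (ff_last (mul_le_of hK hi) χ hχ).1) (fun χ => (ff d p m i).coeff χ ^ 2),
    XX_filter hK hi, Finset.mul_sum]
  · apply Finset.sum_congr rfl
    intro χ hχ
    rw [Finset.mem_filter, Finsupp.mem_support_iff] at hχ
    have h1 : lb m χ = i := (ff_last (mul_le_of hK hi) χ hχ.1).2
    rw [aa, h1]
  · intro χ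
    rw [(sym_ff p m i).coeff]

lemma alv_eq {p : ℝ} {m K : ℕ} (hK : K * m ≤ d) (γ : Fin d → ℝ) (i : ℕ) (hi : i ≤ K) :
    alv p (fl (XX d p m K) (aa p m) (lb m) γ) i = (ev γ (Ap d p m i)).re := by
  induction i with
  | zero => simp [alv_zero, Ap]
  | succ i ih =>
    rw [alv_succ, ih (by omega), fl_eq hK (by omega)]
    have h : ff d p m i = (1 - p) • Ap d p m i - Ap d p m (i + 1) := rfl
    rw [h, map_sub, map_smul, Complex.sub_re, Complex.real_smul, Complex.re_ofReal_mul]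
    ring

lemma mn_sq_eq {p : ℝ} {m K : ℕ} (hK : K * m ≤ d) (i : ℕ) (hi : i < K) :
    mn (Ap d p m (i + 1) * Ap d p m (i + 1)) = (1 - p) ^ (2 * (i + 1)) +
      ∑ j ∈ range (i + 1), (1 - p) ^ (2 * (i - j)) *
        ml (XX d p m K) (aa p m) (lb m) j := by
  induction i with
  | zero =>
    rw [mn_sq_succ p m 0 (mul_le_of hK hi), ← ml_eq hK hi]
    simp [Ap, mn_one]
  | succ i ih =>
    rw [mn_sq_succ p m (i + 1) (mul_le_of hK hi), ← ml_eq hK hi, ih (by omega),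
      Finset.sum_range_succ _ (i + 1), mul_add, Finset.mul_sum, Nat.sub_self, mul_zero, pow_zero,
      one_mul, add_assoc, ← pow_add, show 2 + 2 * (i + 1) = 2 * (i + 1 + 1) by ring]
    congr 2
    apply Finset.sum_congr rfl
    intro j hj
    rw [Finset.mem_range] at hj
    rw [← mul_assoc, ← pow_add, show 2 + 2 * (i - j) = 2 * (i + 1 - j) by omega]

end Vale.Agent.P130R.Vec

namespace Vale.Agent.P130R

open Finset AddMonoidAlgebra Vec
open Vale.Agent.P110 (e dot GoodSet)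
open Vale.Agent.P110.TrigF

theorem vec : VecStatement := by
  intro p hp0 hp1 K hK1 δ hδ
  have hKpos : (0 : ℝ) < K := by exact_mod_cast hK1
  have hpp : 0 < p * (1 - p) := mul_pos hp0 (by linarith)
  -- small parameter
  obtain ⟨δ', hδ', h1, h2⟩ : ∃ δ' : ℝ, 0 < δ' ∧ K * δ' ≤ δ ∧ K * δ' < p * (1 - p) := by
    refine ⟨min δ (p * (1 - p) / 2) / K, by positivity, ?_, ?_⟩
    · rw [mul_div_cancel₀ _ (ne_of_gt hKpos)]
      exact min_le_left _ _
    · rw [mul_div_cancel₀ _ (ne_of_gt hKpos)]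
      exact lt_of_le_of_lt (min_le_right _ _) (by linarith)
  obtain ⟨m0, hm0⟩ := exists_nat_ge (1 / (δ' ^ 2))
  obtain ⟨m, hm1, hm⟩ : ∃ m : ℕ, 1 ≤ m ∧ 1 / 2 - (m : ℝ) * (δ' ^ 2 / 2) ≤ δ' := by
    refine ⟨m0 + 1, by omega, ?_⟩
    have h3 : 0 < δ' ^ 2 := by positivity
    rw [div_le_iff₀ h3] at hm0
    push_cast
    linarith only [hδ', hm0, h3]
  have hdK : K * (m + 1) ≤ K * (m + 1) := le_rfl
  set d := K * (m + 1) with hd
  have hw : ∀ i < K, (1 - p) ^ (i + 1) - ((1 - p) ^ (2 * (i + 1)) +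
        ∑ j ∈ range (i + 1), (1 - p) ^ (2 * (i - j)) *
          ml (XX d p (m + 1) K) (aa p (m + 1)) (lb (m + 1)) j) ≤ K * δ' := by
    intro i hi
    have h3 := w_bound (d := d) hp0 hp1 m δ' hδ' hm (i + 1) (mul_le_of hdK hi)
    rw [mn_sq_eq hdK i hi, mn_Ap p (m + 1) (i + 1) (mul_le_of hdK hi)] at h3
    refine h3.trans ?_
    have h4 : ((i + 1 : ℕ) : ℝ) ≤ K := by exact_mod_cast hi
    exact mul_le_mul_of_nonneg_right h4 hδ'.le
  let X := XX d p (m + 1) K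
  have hpos : ∀ χ ∈ X, Pos χ := by
    intro χ hχ
    obtain ⟨i, _, _, h⟩ := (mem_XX χ).mp hχ
    exact h
  obtain ⟨B0, hB0⟩ : ∃ B0 : ℕ, ∀ χ ∈ X, ∀ i, (χ i).natAbs ≤ B0 := by
    refine ⟨∑ χ ∈ X, ∑ i, (χ i).natAbs, ?_⟩
    intro χ hχ i
    calc (χ i).natAbs ≤ ∑ i, (χ i).natAbs :=
          Finset.single_le_sum (f := fun i => (χ i).natAbs) (fun _ _ => Nat.zero_le _)
            (Finset.mem_univ i)
      _ ≤ _ := Finset.single_le_sum (f := fun χ : Fin d → ℤ => ∑ i, (χ i).natAbs)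
            (fun _ _ => Nat.zero_le _) hχ
  refine ⟨d, X, fun i => ((B0 : ℤ) + 1) ^ (i : ℕ), aa p (m + 1), lb (m + 1), ⟨?_, ?_, ?_, ?_⟩,
    ?_, ?_, ?_, ?_⟩
  · rw [hd]
    nlinarith only [hK1, hm1]
  · by_contra h
    rw [Finset.not_nonempty_iff_eq_empty] at h
    have h3 := hw 0 (by omega)
    have h4 : XX d p (m + 1) K = ∅ := h
    rw [h4] at h3
    simp only [ml, Finset.filter_empty, Finset.sum_empty, mul_zero, Finset.sum_const_zero,
      zero_add, mul_one, pow_one, add_zero] at h3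
    linarith only [h2, h3]
  · intro χ hχ
    exact hpos χ hχ
  · intro χ hχ
    obtain ⟨n, hn, hn'⟩ := hpos χ hχ
    refine P110.dot_pow_pos _ (by linarith only [Int.natCast_nonneg B0]) χ ?_ n hn hn'
    intro i
    have h1 := hB0 χ hχ i
    have h2 : ((χ i).natAbs : ℤ) = |χ i| := Int.natCast_natAbs _
    rw [← h2]
    have : ((χ i).natAbs : ℤ) ≤ B0 := by exact_mod_cast h1
    linarith only [h1, h2]
  · intro χ hχ
    obtain ⟨i, hi, h3, _⟩ := (mem_XX χ).mp hχ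
    have h4 : lb (m + 1) χ = i := (ff_last (mul_le_of hdK hi) χ h3).2
    rw [aa, h4]
    exact h3
  · intro χ hχ
    obtain ⟨i, hi, h3, _⟩ := (mem_XX χ).mp hχ
    have h4 : lb (m + 1) χ = i := (ff_last (mul_le_of hdK hi) χ h3).2
    rw [h4]
    exact hi
  · intro γ i hi
    rw [alv_eq hdK γ (i + 1) (by omega), alv_eq hdK γ i (by omega)]
    exact ev_Ap_re hp0 hp1 (m + 1) γ i (mul_le_of hdK hi)
  · intro i hi
    exact (hw i hi).trans h1

end Vale.Agent.P130R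
end

section

/-! # TF, part a: quadratic means of bounded measurable functions -/

set_option autoImplicit false

namespace Vale.Agent.P130R.TF

open Finset MeasureTheory Filter Topology
open Vale.Agent.P110 (e dot GoodSet)

/-- bounded and measurable -/
def Nice (f : ℝ → ℂ) : Prop := Measurable f ∧ ∃ C : ℝ, ∀ x, ‖f x‖ ≤ C

/-- quadratic mean over a period -/
noncomputable def N2 (f : ℝ → ℂ) : ℝ := ∫ x in (0 : ℝ)..1, ‖f x‖ ^ 2

theorem Nice.add {f g : ℝ → ℂ} (hf : Nice f) (hg : Nice g) : Nice (fun x => f x + g x) := by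
  obtain ⟨h1, C, hC⟩ := hf
  obtain ⟨h2, D, hD⟩ := hg
  exact ⟨h1.add h2, C + D, fun x => (norm_add_le _ _).trans (add_le_add (hC x) (hD x))⟩

theorem Nice.sub {f g : ℝ → ℂ} (hf : Nice f) (hg : Nice g) : Nice (fun x => f x - g x) := by
  obtain ⟨h1, C, hC⟩ := hf
  obtain ⟨h2, D, hD⟩ := hg
  exact ⟨h1.sub h2, C + D, fun x => (norm_sub_le _ _).trans (add_le_add (hC x) (hD x))⟩

theorem Nice.const_mul {f : ℝ → ℂ} (hf : Nice f) (c : ℂ) : Nice (fun x => c * f x) := by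
  obtain ⟨h1, C, hC⟩ := hf
  refine ⟨h1.const_mul c, ‖c‖ * C, fun x => ?_⟩
  rw [norm_mul]
  exact mul_le_mul_of_nonneg_left (hC x) (norm_nonneg _)

theorem Nice.mul {f g : ℝ → ℂ} (hf : Nice f) (hg : Nice g) : Nice (fun x => f x * g x) := by
  obtain ⟨h1, C, hC⟩ := hf
  obtain ⟨h2, D, hD⟩ := hg
  refine ⟨h1.mul h2, C * D, fun x => ?_⟩
  rw [norm_mul]
  exact mul_le_mul (hC x) (hD x) (norm_nonneg _) ((norm_nonneg _).trans (hC x))

theorem Nice.sum {ι : Type} (F : Finset ι) {f : ι → ℝ → ℂ} (hf : ∀ i ∈ F, Nice (f i)) :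
    Nice (fun x => ∑ i ∈ F, f i x) := by
  classical
  induction F using Finset.induction_on with
  | empty => exact ⟨by simp, 0, fun x => by simp⟩
  | insert a F ha ih =>
    have h1 : (fun x => ∑ i ∈ insert a F, f i x) = fun x => f a x + ∑ i ∈ F, f i x := by
      funext x; rw [Finset.sum_insert ha]
    rw [h1]
    exact (hf a (Finset.mem_insert_self a F)).add
      (ih fun i hi => hf i (Finset.mem_insert_of_mem hi))

theorem nice_e (g : ℝ → ℝ) (hg : Measurable g) : Nice (fun x => e (g x)) :=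
  ⟨Vale.Agent.P110.AT.continuous_e.measurable.comp hg, 1, fun x => by
    rw [Vale.Agent.P110.AT.norm_e]⟩

theorem nice_ite {f : ℝ → ℂ} (hf : Nice f) {p : ℝ → Prop} [DecidablePred p]
    (hp : MeasurableSet {x | p x}) : Nice (fun x => if p x then f x else 0) := by
  obtain ⟨h1, C, hC⟩ := hf
  refine ⟨Measurable.ite hp h1 measurable_const, max C 0, fun x => ?_⟩
  simp only
  split_ifs
  · exact (hC x).trans (le_max_left _ _)
  · simp

theorem Nice.comp {f : ℝ → ℂ} (hf : Nice f) {g : ℝ → ℝ} (hg : Measurable g) :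
    Nice (fun x => f (g x)) := by
  obtain ⟨h1, C, hC⟩ := hf
  exact ⟨h1.comp hg, C, fun x => hC _⟩

theorem Nice.conj {f : ℝ → ℂ} (hf : Nice f) : Nice (fun x => starRingEnd ℂ (f x)) := by
  obtain ⟨h1, C, hC⟩ := hf
  refine ⟨Complex.continuous_conj.measurable.comp h1, C, fun x => ?_⟩
  rw [Complex.norm_conj]
  exact hC x

theorem Nice.int {f : ℝ → ℂ} (hf : Nice f) (a b : ℝ) :
    IntervalIntegrable (fun x => ‖f x‖ ^ 2) volume a b := by
  obtain ⟨h1, C, hC⟩ := hf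
  have h2 : Measurable (fun x => ‖f x‖ ^ 2) := h1.norm.pow_const 2
  refine ⟨?_, ?_⟩ <;>
  · refine Measure.integrableOn_of_bounded (M := C ^ 2) (by simp) h2.aestronglyMeasurable ?_
    refine Filter.Eventually.of_forall fun x => ?_
    rw [Real.norm_of_nonneg (by positivity)]
    exact pow_le_pow_left₀ (norm_nonneg _) (hC x) 2

theorem N2_sum_le {ι : Type} (F : Finset ι) {f : ι → ℝ → ℂ} (hf : ∀ i ∈ F, Nice (f i)) :
    N2 (fun x => ∑ i ∈ F, f i x) ≤ F.card * ∑ i ∈ F, N2 (f i) := by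
  have h1 : ∑ i ∈ F, N2 (f i) = ∫ x in (0 : ℝ)..1, ∑ i ∈ F, ‖f i x‖ ^ 2 := by
    rw [intervalIntegral.integral_finsetSum]
    · rfl
    · intro i hi; exact (hf i hi).int _ _
  rw [h1, ← intervalIntegral.integral_const_mul]
  unfold N2
  have h3 : IntervalIntegrable (fun x => ∑ i ∈ F, ‖f i x‖ ^ 2) volume 0 1 := by
    have h4 := IntervalIntegrable.sum F (f := fun i x => ‖f i x‖ ^ 2)
      (μ := volume) (a := 0) (b := 1) fun i hi => (hf i hi).int _ _
    have h5 : (fun x => ∑ i ∈ F, ‖f i x‖ ^ 2) = ∑ i ∈ F, fun x => ‖f i x‖ ^ 2 := by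
      funext x
      simp
    rw [h5]
    exact h4
  refine intervalIntegral.integral_mono_on (by norm_num) ((Nice.sum F hf).int _ _)
    (h3.const_mul _) fun x _ => ?_
  calc ‖∑ i ∈ F, f i x‖ ^ 2 ≤ (∑ i ∈ F, ‖f i x‖) ^ 2 :=
        pow_le_pow_left₀ (norm_nonneg _) (norm_sum_le _ _) 2
    _ ≤ F.card * ∑ i ∈ F, ‖f i x‖ ^ 2 := sq_sum_le_card_mul_sum_sq

theorem N2_add_le {f g : ℝ → ℂ} (hf : Nice f) (hg : Nice g) :
    N2 (fun x => f x + g x) ≤ 2 * N2 f + 2 * N2 g := by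
  have h := N2_sum_le (Finset.univ : Finset Bool) (f := fun b => if b then f else g)
    (fun b _ => by cases b <;> simpa)
  simpa [Fintype.sum_bool, mul_add] using h

theorem N2_mul_unit {f g : ℝ → ℂ} (hg : ∀ x, ‖g x‖ = 1) :
    N2 (fun x => g x * f x) = N2 f := by
  unfold N2
  congr 1
  funext x
  rw [norm_mul, hg, one_mul]

theorem N2_conj (f : ℝ → ℂ) : N2 (fun x => starRingEnd ℂ (f x)) = N2 f := by
  unfold N2
  congr 1
  funext x
  rw [Complex.norm_conj]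

/-- translation invariance -/
theorem N2_translate {f : ℝ → ℂ} (hf : ∀ x, f (x + 1) = f x) (t : ℝ) :
    N2 (fun x => f (x - t)) = N2 f := by
  unfold N2
  rw [intervalIntegral.integral_comp_sub_right (fun x => ‖f x‖ ^ 2) t]
  have hp : Function.Periodic (fun x => ‖f x‖ ^ 2) 1 := fun x => by simp only [hf]
  have h1 := hp.intervalIntegral_add_eq (0 - t) 0
  rw [show (0 : ℝ) - t + 1 = 1 - t by ring, zero_add] at h1
  exact h1

/-- reflection -/
theorem N2_reflect (f : ℝ → ℂ) : N2 (fun x => f (1 - x)) = N2 f := by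
  unfold N2
  rw [intervalIntegral.integral_comp_sub_left (fun x => ‖f x‖ ^ 2) 1]
  norm_num

end Vale.Agent.P130R.TF
end

section

/-! # TF, part d: the spectrum of one slot and of its mirror image -/

set_option autoImplicit false

namespace Vale.Agent.P130R.TF

open Finset MeasureTheory Filter Topology
open Vale.Agent.P110 (e dot GoodSet CombSystem)
open Vale.Agent.P110.AT (norm_e e_add e_neg e_int e_add_int)

theorem N2_congr_fin (F : Finset ℝ) {f g : ℝ → ℂ}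
    (h : ∀ y, 0 < y → y < 1 → y ∉ F → f y = g y) : N2 f = N2 g := by
  unfold N2
  apply intervalIntegral.integral_congr_ae
  have h1 : ∀ᵐ x : ℝ, x ∉ (insert 1 F : Finset ℝ) := by
    have h2 : volume ((insert 1 F : Finset ℝ) : Set ℝ) = 0 :=
      (Finset.finite_toSet _).measure_zero _
    have h3 := measure_eq_zero_iff_ae_notMem.1 h2
    filter_upwards [h3] with x hx
    exact fun h' => hx (Finset.mem_coe.2 h')
  filter_upwards [h1] with x hx hx2
  rw [Set.uIoc_of_le (by norm_num : (0 : ℝ) ≤ 1)] at hx2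
  rw [Finset.mem_insert, not_or] at hx
  rw [h x hx2.1 (lt_of_le_of_ne hx2.2 hx.1) hx.2]

/-- the chirp on `[0,l)` -/
noncomputable def chp (l : ℝ) (B : ℕ) (x : ℝ) : ℂ :=
  if x < l then e (B * x ^ 2 / (2 * l)) else 0

/-- its spectral approximation -/
noncomputable def chT (l : ℝ) (B : ℕ) (x : ℝ) : ℂ :=
  ((Real.sqrt (l / B) : ℝ) : ℂ) * e (1 / 8) * ∑ k ∈ range B, e (k * x - l * k ^ 2 / (2 * B))

/-- the error -/
noncomputable def chE (l : ℝ) (B : ℕ) : ℝ := N2 (fun x => chp l B x - chT l B x)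

theorem chE_tendsto (hch : ChirpStatement) {l : ℝ} (h0 : 0 < l) (h1 : l ≤ 1) :
    Tendsto (fun B : ℕ => chE l B) atTop (𝓝 0) := hch l h0 h1

theorem chT_add_int (l : ℝ) (B : ℕ) (x : ℝ) (z : ℤ) : chT l B (x + z) = chT l B x := by
  unfold chT
  congr 1
  refine Finset.sum_congr rfl fun k _ => ?_
  rw [show (k : ℝ) * (x + z) - l * k ^ 2 / (2 * B) = (k * x - l * k ^ 2 / (2 * B))
    + ((k * z : ℤ) : ℝ) by push_cast; ring, e_add_int]

theorem chT_fract (l : ℝ) (B : ℕ) (x : ℝ) : chT l B (Int.fract x) = chT l B x := by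
  have h := chT_add_int l B (Int.fract x) ⌊x⌋
  rw [Int.fract_add_floor] at h
  exact h.symm

/-- the piece on an up slot -/
noncomputable def upG (w t l : ℝ) (m B : ℕ) (y : ℝ) : ℂ :=
  e (w + m * (y - t) + B * (y - t) ^ 2 / (2 * l))

noncomputable def upT (w t l : ℝ) (m B : ℕ) (y : ℝ) : ℂ :=
  e (w + m * (y - t)) * chT l B (y - t)

theorem up_err {t l : ℝ} (h0 : 0 ≤ t) (hl : 0 ≤ l) (h1 : t + l ≤ 1) (w : ℝ) (m B : ℕ) :
    N2 (fun y => (if Int.fract y ∈ Set.Ico t (t + l) then upG w t l m B (Int.fract y) else 0)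
      - upT w t l m B y) = chE l B := by
  have hA : N2 (fun y => (if Int.fract y ∈ Set.Ico t (t + l) then upG w t l m B (Int.fract y)
      else 0) - upT w t l m B y) = N2 (fun y => e (w + m * (y - t)) *
        (chp l B (Int.fract (y - t)) - chT l B (Int.fract (y - t)))) := by
    apply N2_congr_fin ∅
    intro y hy0 hy1 _
    rw [Int.fract_eq_self.2 ⟨hy0.le, hy1⟩, chT_fract]
    unfold upT
    have key : (if y ∈ Set.Ico t (t + l) then upG w t l m B y else 0) =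
        e (w + m * (y - t)) * chp l B (Int.fract (y - t)) := by
      unfold chp upG
      by_cases hty : t ≤ y
      · have hf : Int.fract (y - t) = y - t := Int.fract_eq_self.2 ⟨by linarith, by linarith⟩
        rw [hf]
        by_cases hyl : y < t + l
        · rw [if_pos ⟨hty, hyl⟩, if_pos (by linarith), ← e_add]
        · rw [if_neg (fun h => hyl h.2), if_neg (by linarith), mul_zero]
      · have hf : Int.fract (y - t) = y - t + 1 := by
          have h3 := Int.fract_add_one (y - t)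
          rw [← h3]
          exact Int.fract_eq_self.2 ⟨by linarith, by linarith⟩
        rw [hf, if_neg (fun h => hty h.1), if_neg (by linarith), mul_zero]
    rw [key, ← mul_sub]
  rw [hA, N2_mul_unit (f := fun y => chp l B (Int.fract (y - t)) - chT l B (Int.fract (y - t)))
    (fun x => norm_e _)]
  rw [N2_translate (f := fun y => chp l B (Int.fract y) - chT l B (Int.fract y))
    (fun x => by simp only [Int.fract_add_one]) t]
  unfold chE
  apply N2_congr_fin ∅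
  intro y hy0 hy1 _
  simp only [Int.fract_eq_self.2 ⟨hy0.le, hy1⟩]

theorem dn_err {t l : ℝ} (h0 : 0 ≤ t) (hl : 0 ≤ l) (h1 : t + l ≤ 1) (w : ℝ) (m B : ℕ) :
    N2 (fun y => (if Int.fract y ∈ Set.Ico (1 - t - l) (1 - t) then
        starRingEnd ℂ (upG w t l m B (1 - Int.fract y)) else 0)
      - starRingEnd ℂ (upT w t l m B (1 - y))) = chE l B := by
  rw [← up_err h0 hl h1 w m B]
  rw [← N2_reflect, ← N2_conj]
  apply N2_congr_fin {t, t + l}
  intro y hy0 hy1 hy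
  simp only [Finset.mem_insert, Finset.mem_singleton, not_or] at hy
  have hf : Int.fract y = y := Int.fract_eq_self.2 ⟨hy0.le, hy1⟩
  have hf1 : Int.fract (1 - y) = 1 - y := Int.fract_eq_self.2 ⟨by linarith, by linarith⟩
  simp only [hf, hf1, sub_sub_cancel, map_sub, Complex.conj_conj]
  congr 1
  by_cases h : y ∈ Set.Ico t (t + l)
  · have h2 : (1 - y) ∈ Set.Ico (1 - t - l) (1 - t) := by
      refine ⟨by linarith [h.2], ?_⟩
      have := lt_of_le_of_ne h.1 (Ne.symm hy.1)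
      linarith
    rw [if_pos h, if_pos h2, Complex.conj_conj]
  · have h2 : (1 - y) ∉ Set.Ico (1 - t - l) (1 - t) := by
      intro h3
      apply h
      refine ⟨by linarith [h3.2], ?_⟩
      have h4 : y ≤ t + l := by linarith [h3.1]
      exact lt_of_le_of_ne h4 hy.2
    rw [if_neg h, if_neg h2, map_zero]

theorem upT_pair (w t l : ℝ) (m B : ℕ) (y : ℝ) :
    upT w t l m B y + starRingEnd ℂ (upT w t l m B (1 - y)) =
      ((Real.sqrt (l / B) : ℝ) : ℂ) * ∑ k ∈ range B,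
        ((2 * Real.cos (2 * Real.pi * (w + 1 / 8 - (m + k : ℕ) * t - l * (k ^ 2 / (2 * B)))) : ℝ) : ℂ)
          * e ((m + k : ℕ) * y) := by
  have h1 : ∀ y : ℝ, upT w t l m B y = ((Real.sqrt (l / B) : ℝ) : ℂ) * ∑ k ∈ range B,
      e (w + 1 / 8 - (m + k : ℕ) * t - l * (k ^ 2 / (2 * B))) * e ((m + k : ℕ) * y) := by
    intro y
    unfold upT chT
    rw [show e (w + m * (y - t)) * (((Real.sqrt (l / B) : ℝ) : ℂ) * e (1 / 8) *
      ∑ k ∈ range B, e (k * (y - t) - l * k ^ 2 / (2 * B))) = ((Real.sqrt (l / B) : ℝ) : ℂ) *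
      (e (w + m * (y - t)) * e (1 / 8) * ∑ k ∈ range B, e (k * (y - t) - l * k ^ 2 / (2 * B)))
      by ring, Finset.mul_sum]
    congr 1
    refine Finset.sum_congr rfl fun k _ => ?_
    rw [← e_add, ← e_add, ← e_add]
    congr 1
    push_cast
    ring
  rw [h1 y, h1 (1 - y), map_mul, Complex.conj_ofReal, ← mul_add, map_sum, ← Finset.sum_add_distrib]
  congr 1
  refine Finset.sum_congr rfl fun k _ => ?_
  set α : ℝ := w + 1 / 8 - (m + k : ℕ) * t - l * (k ^ 2 / (2 * B)) with hα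
  rw [map_mul, ← e_neg, ← e_neg]
  have h2 : e (-(((m + k : ℕ) : ℝ) * (1 - y))) = e ((m + k : ℕ) * y) := by
    rw [show -(((m + k : ℕ) : ℝ) * (1 - y)) = (m + k : ℕ) * y + ((-(m + k : ℕ) : ℤ) : ℝ) by
      push_cast; ring, e_add_int]
  rw [h2, ← add_mul]
  congr 1
  rw [e_neg, Complex.add_conj, Vale.Agent.P110.AT.e_re]

end Vale.Agent.P130R.TF
end

section

/-! # TF, part e: the spectrum of one mode -/

set_option autoImplicit false

namespace Vale.Agent.P130R.TF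

open Finset MeasureTheory Filter Topology
open Vale.Agent.P110 (e dot GoodSet CombSystem)
open Vale.Agent.P110.AT (norm_e e_add e_neg e_int e_add_int)
open Vale.Agent.P110.CellProof

variable {d : ℕ} {X : Finset (Fin d → ℤ)} {V : Fin d → ℤ}

/-- the pieces of mode `χ` -/
noncomputable def pcs (S : CombSystem d X V) (χ : Fin d → ℤ) : Finset (Slot S × Bool) :=
  univ.filter (fun j : Slot S × Bool => j.1.2.1.1 = χ)

theorem sum_pcs (S : CombSystem d X V) {χ : Fin d → ℤ} (hχ : χ ∈ X) {E : Type}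
    [AddCommMonoid E] (f : Slot S × Bool → E) :
    ∑ j ∈ pcs S χ, f j = ∑ p : Fin S.P, ∑ s : Fin (mm S χ),
      (f ((p, ⟨⟨χ, hχ⟩, s⟩), true) + f ((p, ⟨⟨χ, hχ⟩, s⟩), false)) := by
  unfold pcs
  rw [Finset.sum_filter, Fintype.sum_prod_type, Fintype.sum_prod_type]
  refine Finset.sum_congr rfl fun p _ => ?_
  rw [Fintype.sum_sigma, Finset.sum_eq_single ⟨χ, hχ⟩]
  · refine Finset.sum_congr rfl fun s _ => ?_
    rw [Fintype.sum_bool]
    simp
  · intro c _ hc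
    refine Finset.sum_eq_zero fun s _ => ?_
    refine Finset.sum_eq_zero fun b _ => ?_
    rw [if_neg]
    intro h
    exact hc (Subtype.ext h)
  · intro h; exact absurd (Finset.mem_univ _) h

theorem card_pcs (S : CombSystem d X V) {χ : Fin d → ℤ} (hχ : χ ∈ X) :
    ((pcs S χ).card : ℝ) = 2 * S.P * mm S χ := by
  have h := sum_pcs S hχ (fun _ => (1 : ℝ))
  simp only [Finset.sum_const, nsmul_eq_mul, mul_one, Finset.card_univ, Fintype.card_fin] at h
  rw [h]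
  ring

/-- the phase of slot `i` -/
noncomputable def WS (S : CombSystem d X V) (wG : (Fin d → ℤ) → ℕ → ℝ) (hs : (Fin d → ℤ) → ℝ)
    (i : Slot S) : ℝ := wG i.2.1.1 i.2.2 + hs i.2.1.1 - 1 / 8

/-- the function on the piece `j` -/
noncomputable def GS (S : CombSystem d X V) (wG : (Fin d → ℤ) → ℕ → ℝ) (hs : (Fin d → ℤ) → ℝ)
    (B : ℕ) (j : Slot S × Bool) (y : ℝ) : ℂ :=
  if j.2 then upG (WS S wG hs j.1) (tS S j.1) (lS S j.1.2.1.1) ((j.1.1 : ℕ) * B) B y
  else starRingEnd ℂ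
    (upG (WS S wG hs j.1) (tS S j.1) (lS S j.1.2.1.1) ((j.1.1 : ℕ) * B) B (1 - y))

/-- its spectral approximation -/
noncomputable def TTS (S : CombSystem d X V) (wG : (Fin d → ℤ) → ℕ → ℝ) (hs : (Fin d → ℤ) → ℝ)
    (B : ℕ) (j : Slot S × Bool) (y : ℝ) : ℂ :=
  if j.2 then upT (WS S wG hs j.1) (tS S j.1) (lS S j.1.2.1.1) ((j.1.1 : ℕ) * B) B y
  else starRingEnd ℂ
    (upT (WS S wG hs j.1) (tS S j.1) (lS S j.1.2.1.1) ((j.1.1 : ℕ) * B) B (1 - y))

open Classical in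
theorem piece_err (S : CombSystem d X V) (hG : GoodSet d X V) (wG : (Fin d → ℤ) → ℕ → ℝ)
    (hs : (Fin d → ℤ) → ℝ) (B : ℕ) (j : Slot S × Bool) :
    N2 (fun y => (if Int.fract y ∈ TS S j then GS S wG hs B j (Int.fract y) else 0)
      - TTS S wG hs B j y) = chE (lS S j.1.2.1.1) B := by
  have h0 := tS_nonneg S j.1
  have h1 := tS_add_lS S j.1
  have h2 := (lS_pos S hG j.1.2.1.2).le
  obtain ⟨i, b⟩ := j
  cases b
  · rw [← dn_err h0 h2 h1 (WS S wG hs i) ((i.1 : ℕ) * B) B]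
    congr 1
    funext y
    simp only [TS, GS, TTS, Bool.false_eq_true, if_false]
  · rw [← up_err h0 h2 h1 (WS S wG hs i) ((i.1 : ℕ) * B) B]
    congr 1
    funext y
    simp only [TS, GS, TTS, if_true]

theorem measurable_upG (w t l : ℝ) (m B : ℕ) : Measurable (upG w t l m B) := by
  unfold upG
  apply Vale.Agent.P110.AT.continuous_e.measurable.comp
  fun_prop

theorem norm_upG (w t l : ℝ) (m B : ℕ) (y : ℝ) : ‖upG w t l m B y‖ = 1 := norm_e _

theorem nice_upT (w t l : ℝ) (m B : ℕ) : Nice (upT w t l m B) := by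
  unfold upT chT
  refine (nice_e _ (by fun_prop)).mul ?_
  refine Nice.const_mul ?_ _
  refine Nice.sum _ fun k _ => ?_
  exact nice_e _ (by fun_prop)

theorem measurable_GS (S : CombSystem d X V) (wG : (Fin d → ℤ) → ℕ → ℝ)
    (hs : (Fin d → ℤ) → ℝ) (B : ℕ) (j : Slot S × Bool) : Measurable (GS S wG hs B j) := by
  unfold GS
  by_cases h : j.2 = true
  · simp only [h, if_true]
    exact measurable_upG _ _ _ _ _
  · simp only [h]
    refine Complex.continuous_conj.measurable.comp ?_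
    exact (measurable_upG _ _ _ _ _).comp (by fun_prop)

theorem norm_GS (S : CombSystem d X V) (wG : (Fin d → ℤ) → ℕ → ℝ)
    (hs : (Fin d → ℤ) → ℝ) (B : ℕ) (j : Slot S × Bool) (y : ℝ) : ‖GS S wG hs B j y‖ = 1 := by
  unfold GS
  split_ifs
  · exact norm_upG _ _ _ _ _ _
  · rw [Complex.norm_conj]; exact norm_upG _ _ _ _ _ _

theorem nice_TTS (S : CombSystem d X V) (wG : (Fin d → ℤ) → ℕ → ℝ)
    (hs : (Fin d → ℤ) → ℝ) (B : ℕ) (j : Slot S × Bool) : Nice (TTS S wG hs B j) := by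
  unfold TTS
  by_cases h : j.2 = true
  · simp only [h, if_true]
    exact nice_upT _ _ _ _ _
  · simp only [h]
    refine Nice.conj ?_
    exact (nice_upT _ _ _ _ _).comp (g := fun y => 1 - y) (by fun_prop)

open Classical in
theorem nice_piece (S : CombSystem d X V) (wG : (Fin d → ℤ) → ℕ → ℝ)
    (hs : (Fin d → ℤ) → ℝ) (B : ℕ) (j : Slot S × Bool) :
    Nice (fun y => if Int.fract y ∈ TS S j then GS S wG hs B j (Int.fract y) else 0) := by
  have h1 : Nice (fun y => GS S wG hs B j (Int.fract y)) :=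
    ⟨(measurable_GS S wG hs B j).comp measurable_fract, 1, fun y => (norm_GS S wG hs B j _).le⟩
  have h2 : MeasurableSet {y : ℝ | Int.fract y ∈ TS S j} :=
    measurable_fract (measurable_TS S j)
  exact nice_ite h1 h2

open Classical in
theorem mode_err (S : CombSystem d X V) (hG : GoodSet d X V) (wG : (Fin d → ℤ) → ℕ → ℝ)
    (hs : (Fin d → ℤ) → ℝ) (B : ℕ) {χ : Fin d → ℤ} (hχ : χ ∈ X) :
    N2 (fun y => (∑ j ∈ pcs S χ, if Int.fract y ∈ TS S j then GS S wG hs B j (Int.fract y)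
      else 0) - ∑ j ∈ pcs S χ, TTS S wG hs B j y) ≤ (2 * S.P * mm S χ) ^ 2 * chE (lS S χ) B := by
  have h := N2_sum_le (pcs S χ) (f := fun j y =>
    (if Int.fract y ∈ TS S j then GS S wG hs B j (Int.fract y) else 0) - TTS S wG hs B j y)
    (fun j _ => (nice_piece S wG hs B j).sub (nice_TTS S wG hs B j))
  have h1 : ∑ j ∈ pcs S χ, N2 (fun y =>
      (if Int.fract y ∈ TS S j then GS S wG hs B j (Int.fract y) else 0) - TTS S wG hs B j y)
      = (pcs S χ).card * chE (lS S χ) B := by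
    rw [← nsmul_eq_mul, ← Finset.sum_const]
    refine Finset.sum_congr rfl fun j hj => ?_
    rw [piece_err S hG wG hs B j]
    unfold pcs at hj
    rw [(Finset.mem_filter.1 hj).2]
  rw [h1, card_pcs S hχ] at h
  simp only [Finset.sum_sub_distrib] at h
  calc _ ≤ _ := h
    _ = _ := by ring

/-- the time of the `k`-th term -/
noncomputable def gam (S : CombSystem d X V) (B : ℕ) (k : ℕ) (i : Fin d) : ℝ :=
  (S.c i : ℝ) * k ^ 2 / MM S + k * (S.R (k / B) i : ℝ) / (2 * KK S)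
    + ((k % B : ℕ) : ℝ) ^ 2 / (2 * B) * V i / (2 * KK S)

theorem sum_range_mul {E : Type} [AddCommMonoid E] (P B : ℕ) (F : ℕ → E) :
    ∑ k ∈ range (P * B), F k = ∑ p ∈ range P, ∑ k ∈ range B, F (p * B + k) := by
  induction P with
  | zero => simp
  | succ P ih => rw [Nat.succ_mul, Finset.sum_range_add, ih, Finset.sum_range_succ]

theorem spec_mode (S : CombSystem d X V) (wG : (Fin d → ℤ) → ℕ → ℝ)
    (hs sg : (Fin d → ℤ) → ℝ) {B : ℕ} (hB : 1 ≤ B) {χ : Fin d → ℤ} (hχ : χ ∈ X)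
    (hw : ∀ k : ℤ, ∑ s ∈ range (mm S χ), e (wG χ s - k * s / (mm S χ)) =
      (Real.sqrt (mm S χ) : ℂ) * e (-((Ac S χ) * k ^ 2 / (mm S χ))))
    (hh : ∀ x : ℝ, Real.cos (2 * Real.pi * (x - hs χ)) = sg χ * Real.cos (2 * Real.pi * x))
    (hl : 0 ≤ lS S χ) (y : ℝ) :
    ∑ j ∈ pcs S χ, TTS S wG hs B j y = ∑ k ∈ range (S.P * B),
      ((Real.sqrt (lS S χ * mm S χ) / Real.sqrt B * (2 * sg χ *
        Real.cos (2 * Real.pi * ∑ i, (χ i : ℝ) * gam S B k i)) : ℝ) : ℂ) * e (k * y) := by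
  rw [sum_pcs S hχ, sum_range_mul, ← Fin.sum_univ_eq_sum_range]
  refine Finset.sum_congr rfl fun p _ => ?_
  have h1 : ∀ s : Fin (mm S χ), TTS S wG hs B ((p, ⟨⟨χ, hχ⟩, s⟩), true) y
      + TTS S wG hs B ((p, ⟨⟨χ, hχ⟩, s⟩), false) y = ((Real.sqrt (lS S χ / B) : ℝ) : ℂ) *
        ∑ k ∈ range B, ((2 * Real.cos (2 * Real.pi * (wG χ s + hs χ -
          (((p : ℕ) * B + k : ℕ) : ℤ) * (AA S p χ s / (2 * KK S))
          - (dot χ V : ℝ) / (2 * KK S) * ((k : ℝ) ^ 2 / (2 * B)))) : ℝ) : ℂ)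
          * e (((p : ℕ) * B + k : ℕ) * y) := by
    intro s
    have h2 := upT_pair (WS S wG hs (p, ⟨⟨χ, hχ⟩, s⟩)) (tS S (p, ⟨⟨χ, hχ⟩, s⟩)) (lS S χ)
      ((p : ℕ) * B) B y
    simp only [TTS, if_true, Bool.false_eq_true, if_false]
    rw [h2]
    congr 1
    refine Finset.sum_congr rfl fun k _ => ?_
    congr 4
    congr 1
    unfold WS tS lS
    push_cast
    ring
  rw [Finset.sum_congr rfl fun s _ => h1 s, ← Finset.mul_sum, Finset.sum_comm, Finset.mul_sum]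
  refine Finset.sum_congr rfl fun k hk => ?_
  have hkB : k < B := Finset.mem_range.1 hk
  rw [← Finset.sum_mul, ← mul_assoc]
  congr 1
  have h3 := comb_sum S hχ p (wG χ) hw (hs χ) (((p : ℕ) * B + k : ℕ) : ℤ)
    ((k : ℝ) ^ 2 / (2 * B))
  have hd1 : ((p : ℕ) * B + k) / B = p := by
    rw [Nat.add_comm, Nat.add_mul_div_right _ _ hB, Nat.div_eq_of_lt hkB, zero_add]
  have hd2 : ((p : ℕ) * B + k) % B = k := by
    rw [Nat.add_comm, Nat.add_mul_mod_self_right, Nat.mod_eq_of_lt hkB]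
  have h4 : ∑ i, (χ i : ℝ) * gam S B ((p : ℕ) * B + k) i = ∑ i, (χ i : ℝ) *
        ((S.c i : ℝ) * ((((p : ℕ) * B + k : ℕ) : ℤ) : ℝ) ^ 2 / MM S
          + ((((p : ℕ) * B + k : ℕ) : ℤ) : ℝ) * (S.R p i : ℝ) / (2 * KK S)
          + (k : ℝ) ^ 2 / (2 * B) * V i / (2 * KK S)) := by
    refine Finset.sum_congr rfl fun i _ => ?_
    unfold gam
    rw [hd1, hd2]
    push_cast
    ring
  rw [h4]
  rw [hh] at h3
  have hB0 : (0 : ℝ) < B := by exact_mod_cast hB
  have h5 : Real.sqrt (lS S χ * mm S χ) / Real.sqrt B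
      = Real.sqrt (lS S χ / B) * Real.sqrt (mm S χ) := by
    rw [Real.sqrt_mul hl, Real.sqrt_div hl]
    ring
  rw [h5, ← Complex.ofReal_sum, ← Finset.mul_sum, h3, ← Complex.ofReal_mul]
  congr 1
  ring

end Vale.Agent.P130R.TF
end

section

/-! # TF, part f: comparison of the coefficients -/

set_option autoImplicit false

namespace Vale.Agent.P130R.TF

open Finset MeasureTheory Filter Topology
open Vale.Agent.P110 (e dot GoodSet CombSystem)
open Vale.Agent.P110.AT (norm_e e_add e_neg e_int e_add_int)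
open Vale.Agent.P110.CellProof

theorem le_of_sq {x y : ℝ} (hy : 0 ≤ y) (h : x ^ 2 ≤ y ^ 2) : x ≤ y := by
  by_contra h'
  push Not at h'
  nlinarith

theorem coef_est {a δ K P B q : ℝ} (hP : 0 < P) (hB : 0 < B) (hq : 0 < q)
    (hPB : P * B ≤ q) (hqPB : q ≤ P * B + P) (hPq : P ≤ δ * q) (hδ1 : δ ≤ 1)
    (hK : 0 ≤ K) (hK1 : K ^ 2 * P ≤ a ^ 2) (hK2 : a ^ 2 ≤ (1 + δ) * (K ^ 2 * P)) :
    P * B * (|a| / Real.sqrt q - K / Real.sqrt B) ^ 2 ≤ a ^ 2 * δ ^ 2 := by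
  have hsq : 0 < Real.sqrt q := Real.sqrt_pos.2 hq
  have hsB : 0 < Real.sqrt B := Real.sqrt_pos.2 hB
  have hsP : 0 < Real.sqrt P := Real.sqrt_pos.2 hP
  have e1 : Real.sqrt q ^ 2 = q := Real.sq_sqrt hq.le
  have e2 : Real.sqrt B ^ 2 = B := Real.sq_sqrt hB.le
  have e3 : Real.sqrt P ^ 2 = P := Real.sq_sqrt hP.le
  set x1 : ℝ := |a| * (Real.sqrt P * Real.sqrt B) / Real.sqrt q with hx1
  set x2 : ℝ := K * Real.sqrt P with hx2
  have h1 : P * B * (|a| / Real.sqrt q - K / Real.sqrt B) ^ 2 = (x1 - x2) ^ 2 := by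
    have h2 : x1 - x2 = Real.sqrt P * Real.sqrt B * (|a| / Real.sqrt q - K / Real.sqrt B) := by
      rw [hx1, hx2]
      field_simp
    rw [h2, mul_pow, mul_pow, e2, e3]
  have h3 : x1 ^ 2 = a ^ 2 * (P * B / q) := by
    rw [hx1, div_pow, mul_pow, mul_pow, e1, e2, e3, sq_abs]
    ring
  have h4 : x2 ^ 2 = K ^ 2 * P := by rw [hx2, mul_pow, e3]
  have hx1n : 0 ≤ x1 := by positivity
  have hx2n : 0 ≤ x2 := by positivity
  have ha : 0 ≤ |a| := abs_nonneg a
  have haa : |a| ^ 2 = a ^ 2 := sq_abs a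
  have h5 : P * B / q ≤ 1 := by rw [div_le_one hq]; exact hPB
  have h6 : 1 - δ ≤ P * B / q := by
    rw [le_div_iff₀ hq]; linarith only [hqPB, hPq]
  have u1 : x1 ≤ |a| := by
    apply le_of_sq ha
    rw [h3, haa]
    nlinarith only [sq_nonneg a, h5]
  have u2 : x2 ≤ |a| := by
    apply le_of_sq ha
    rw [h4, haa]
    exact hK1
  have hdd : (1 - δ) ^ 2 ≤ 1 - δ := by nlinarith only [hP, hq, hPq, hδ1]
  have l1 : |a| * (1 - δ) ≤ x1 := by
    apply le_of_sq hx1n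
    rw [h3, mul_pow, haa]
    exact mul_le_mul_of_nonneg_left (hdd.trans h6) (sq_nonneg a)
  have l2 : |a| * (1 - δ) ≤ x2 := by
    apply le_of_sq hx2n
    rw [h4, mul_pow, haa]
    have h7 : a ^ 2 * (1 - δ) ^ 2 ≤ a ^ 2 * (1 - δ) :=
      mul_le_mul_of_nonneg_left hdd (sq_nonneg a)
    have h8 : a ^ 2 * (1 - δ) ≤ (1 + δ) * (K ^ 2 * P) * (1 - δ) :=
      mul_le_mul_of_nonneg_right hK2 (by linarith only [hδ1])
    have h9 : 0 ≤ K ^ 2 * P := by positivity
    have h9' : (1 + δ) * (K ^ 2 * P) * (1 - δ) = K ^ 2 * P - K ^ 2 * P * δ ^ 2 := by ring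
    have h9'' := mul_nonneg h9 (sq_nonneg δ)
    linarith only [h7, h8, h9'']
  rw [h1]
  have h10 : |x1 - x2| ≤ |a| * δ := by
    have h11 : |a| * (1 - δ) = |a| - |a| * δ := by ring
    rw [h11] at l1 l2
    rw [abs_le]
    constructor
    · linarith only [u2, l1]
    · linarith only [u1, l2]
  calc (x1 - x2) ^ 2 = |x1 - x2| ^ 2 := (sq_abs _).symm
    _ ≤ (|a| * δ) ^ 2 := pow_le_pow_left₀ (abs_nonneg _) h10 2
    _ = a ^ 2 * δ ^ 2 := by rw [mul_pow, haa]

/-- comparison of the polynomial of a mode with the sum over the blocks -/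
theorem poly_est {a sg δ c0 A : ℝ} {P B q : ℕ} (cc : ℕ → ℝ) (hcc : ∀ k, |cc k| ≤ 1)
    (hsg : a = sg * |a|) (hsg1 : |sg| = 1)
    (hP : 0 < P) (hB : 0 < B) (hPB : P * B ≤ q) (hqPB : q ≤ P * B + P)
    (hPq : (P : ℝ) ≤ δ * q) (hδ : 0 < δ) (hδ1 : δ ≤ 1)
    (hK : 0 ≤ c0 * A) (hK1 : (c0 * A) ^ 2 * P ≤ a ^ 2)
    (hK2 : a ^ 2 ≤ (1 + δ) * ((c0 * A) ^ 2 * P)) :
    N2 (fun y => ((Real.sqrt q : ℝ) : ℂ)⁻¹ * ∑ k ∈ range q,
        ((2 * a * cc k : ℝ) : ℂ) * e (k * y)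
      - ((c0 : ℝ) : ℂ) * ∑ k ∈ range (P * B),
        ((A / Real.sqrt B * (2 * sg * cc k) : ℝ) : ℂ) * e (k * y)) ≤ 8 * a ^ 2 * δ := by
  have hq0 : 0 < q := lt_of_lt_of_le (Nat.mul_pos hP hB) hPB
  have hP' : (0 : ℝ) < P := by exact_mod_cast hP
  have hB' : (0 : ℝ) < B := by exact_mod_cast hB
  have hq' : (0 : ℝ) < q := by exact_mod_cast hq0
  have hPB' : (P : ℝ) * B ≤ q := by exact_mod_cast hPB
  have hqPB' : (q : ℝ) ≤ P * B + P := by exact_mod_cast hqPB
  have hest := coef_est hP' hB' hq' hPB' hqPB' hPq hδ1 hK hK1 hK2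
  set n : ℕ := P * B with hn
  let x : ℕ → ℝ := fun k => (Real.sqrt q)⁻¹ * (2 * a * cc k) -
    (if k < n then c0 * (A / Real.sqrt B * (2 * sg * cc k)) else 0)
  have hfun : ∀ y : ℝ, ((Real.sqrt q : ℝ) : ℂ)⁻¹ * ∑ k ∈ range q,
        ((2 * a * cc k : ℝ) : ℂ) * e (k * y)
      - ((c0 : ℝ) : ℂ) * ∑ k ∈ range n,
        ((A / Real.sqrt B * (2 * sg * cc k) : ℝ) : ℂ) * e (k * y)
      = ∑ k ∈ range q, (x k : ℂ) * e (k * y) := by
    intro y
    have h1 : ∑ k ∈ range n, ((A / Real.sqrt B * (2 * sg * cc k) : ℝ) : ℂ) * e (k * y)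
        = ∑ k ∈ range q, if k < n then
          ((A / Real.sqrt B * (2 * sg * cc k) : ℝ) : ℂ) * e (k * y) else 0 := by
      rw [← Finset.sum_filter]
      congr 1
      ext k
      simp only [Finset.mem_range, Finset.mem_filter]
      omega
    rw [h1, Finset.mul_sum, Finset.mul_sum, ← Finset.sum_sub_distrib]
    refine Finset.sum_congr rfl fun k _ => ?_
    simp only [x]
    split_ifs
    · push_cast; ring
    · push_cast; ring
  have hN : N2 (fun y => ((Real.sqrt q : ℝ) : ℂ)⁻¹ * ∑ k ∈ range q,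
        ((2 * a * cc k : ℝ) : ℂ) * e (k * y)
      - ((c0 : ℝ) : ℂ) * ∑ k ∈ range n,
        ((A / Real.sqrt B * (2 * sg * cc k) : ℝ) : ℂ) * e (k * y)) = ∑ k ∈ range q, x k ^ 2 := by
    rw [← Vale.Agent.P110.fin_parseval]
    unfold N2
    congr 1
    funext y
    exact congrArg (fun z : ℂ => ‖z‖ ^ 2) (hfun y)
  rw [hN]
  have hcc2 : ∀ k, cc k ^ 2 ≤ 1 := fun k => by
    rw [← sq_abs]
    exact pow_le_one₀ (abs_nonneg _) (hcc k)
  have hsg2 : sg ^ 2 = 1 := by rw [← sq_abs, hsg1, one_pow]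
  set D : ℝ := |a| / Real.sqrt q - c0 * A / Real.sqrt B with hD
  have hx : ∀ k ∈ range q, x k ^ 2 ≤ if k < n then 4 * D ^ 2 else 4 * a ^ 2 / q := by
    intro k _
    simp only [x]
    split_ifs
    · have h1 : (Real.sqrt q)⁻¹ * (2 * a * cc k) - c0 * (A / Real.sqrt B * (2 * sg * cc k))
          = 2 * sg * cc k * D := by
        rw [hD]
        nth_rewrite 1 [hsg]
        ring
      rw [h1]
      have h2 : (2 * sg * cc k * D) ^ 2 = 4 * sg ^ 2 * (cc k ^ 2 * D ^ 2) := by ring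
      rw [h2, hsg2]
      nlinarith only [hcc2 k, sq_nonneg D]
    · rw [sub_zero]
      have h2 : ((Real.sqrt q)⁻¹ * (2 * a * cc k)) ^ 2
          = 4 * a ^ 2 / (Real.sqrt q ^ 2) * cc k ^ 2 := by
        rw [mul_pow, inv_pow]
        ring
      rw [h2, Real.sq_sqrt hq'.le]
      exact mul_le_of_le_one_right (by positivity) (hcc2 k)
  refine (Finset.sum_le_sum hx).trans ?_
  rw [← Finset.sum_filter_add_sum_filter_not (range q) (fun k => k < n)]
  have s1 : ∑ k ∈ (range q).filter (fun k => k < n), (if k < n then 4 * D ^ 2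
      else 4 * a ^ 2 / q) = n * (4 * D ^ 2) := by
    rw [Finset.sum_congr rfl (g := fun _ => 4 * D ^ 2)
      (fun k hk => if_pos (Finset.mem_filter.1 hk).2), Finset.sum_const, nsmul_eq_mul]
    congr 2
    rw [show (range q).filter (fun k => k < n) = range n by
      ext k; simp only [Finset.mem_range, Finset.mem_filter]; omega, Finset.card_range]
  have s2 : ∑ k ∈ (range q).filter (fun k => ¬ k < n), (if k < n then 4 * D ^ 2
      else 4 * a ^ 2 / q) ≤ P * (4 * a ^ 2 / q) := by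
    rw [Finset.sum_congr rfl (g := fun _ => 4 * a ^ 2 / (q : ℝ))
      (fun k hk => if_neg (Finset.mem_filter.1 hk).2), Finset.sum_const, nsmul_eq_mul]
    apply mul_le_mul_of_nonneg_right _ (by positivity)
    have hcard : ((range q).filter (fun k => ¬ k < n)).card ≤ P := by
      rw [show (range q).filter (fun k => ¬ k < n) = Finset.Ico n q by
        ext k; simp only [Finset.mem_range, Finset.mem_filter, Finset.mem_Ico]; omega,
        Nat.card_Ico]
      omega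
    exact_mod_cast hcard
  rw [s1]
  have s3 : (P : ℝ) * (4 * a ^ 2 / q) ≤ 4 * a ^ 2 * δ := by
    rw [mul_div_assoc', div_le_iff₀ hq']
    nlinarith only [sq_nonneg a, hPq]
  have s4 : (n : ℝ) * (4 * D ^ 2) ≤ 4 * a ^ 2 * δ := by
    have h1 : ((n : ℕ) : ℝ) = P * B := by rw [hn]; push_cast; ring
    rw [h1]
    have h2 : a ^ 2 * δ ^ 2 ≤ a ^ 2 * δ :=
      mul_le_mul_of_nonneg_left (by nlinarith only [hδ, hδ1]) (sq_nonneg a)
    linarith only [hest, h2]
  linarith only [s2, s3, s4]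

end Vale.Agent.P130R.TF
end

section

/-! # TF: every mode has a flat spectrum on a set -/

set_option autoImplicit false

namespace Vale.Agent.P130R

open Finset MeasureTheory Filter Topology
open Vale.Agent.P110 (e dot GoodSet CombSystem)
open Vale.Agent.P110.CellProof
open Vale.Agent.P130R.TF

theorem TF.N2_const_mul (c : ℂ) (f : ℝ → ℂ) : N2 (fun x => c * f x) = ‖c‖ ^ 2 * N2 f := by
  unfold N2
  rw [← intervalIntegral.integral_const_mul]
  congr 1
  funext x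
  rw [norm_mul, mul_pow]

theorem tf (hch : ChirpStatement) (hcomb : Vale.Agent.P110.CombStatement)
    (hGauss : Vale.Agent.P110.GaussStatement) : TFStatement := by
  intro d X V hG a ha ε hε
  classical
  by_cases hX : X = ∅
  · subst hX
    refine ⟨0, fun q _ => ⟨fun _ _ => 0, fun _ => 1, fun _ => none, measurable_const, ?_, ?_,
      ?_, ?_, ?_, ?_, ?_⟩⟩
    · intro χ; simp
    · intro x; simp
    · intro x; rfl
    · intro x; rfl
    · intro x χ h; cases h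
    · intro χ h; exact absurd h (Finset.notMem_empty χ)
    · intro χ h; exact absurd h (Finset.notMem_empty χ)
  have hXne : X.Nonempty := Finset.nonempty_iff_ne_empty.2 hX
  have hsumpos : 0 < ∑ χ' ∈ X, a χ' ^ 2 :=
    Finset.sum_pos (fun χ hχ => by have := ha χ hχ; positivity) hXne
  set c2 : ℝ := 2 * ∑ χ' ∈ X, a χ' ^ 2 with hc2
  have hc2pos : 0 < c2 := by positivity
  have hale : ∀ χ ∈ X, a χ ^ 2 ≤ ∑ χ' ∈ X, a χ' ^ 2 := fun χ hχ =>
    Finset.single_le_sum (f := fun χ => a χ ^ 2) (fun χ _ => sq_nonneg (a χ)) hχ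
  set Aa : ℝ := ∑ χ' ∈ X, a χ' ^ 2 + 1 with hAa
  have hAa1 : 1 ≤ Aa := by rw [hAa]; linarith
  set δ : ℝ := min 1 (ε / (32 * Aa)) with hδ
  have hδpos : 0 < δ := by
    rw [hδ]; exact lt_min one_pos (by positivity)
  have hδ1 : δ ≤ 1 := min_le_left _ _
  have hδ2 : δ * (32 * Aa) ≤ ε := by
    have h : δ ≤ ε / (32 * Aa) := min_le_right _ _
    rwa [le_div_iff₀ (by positivity)] at h
  have hδε : δ ≤ ε := by nlinarith only [hε, hsumpos, hδpos, hδ1, hδ2]
  obtain ⟨S, hS⟩ := hcomb d X V hG (fun χ => a χ ^ 2 / c2)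
    (fun χ hχ => by have := ha χ hχ; positivity)
    (by rw [← Finset.sum_div, ← mul_div_assoc, ← hc2, div_self hc2pos.ne']) δ hδpos
  have hPpos : (0 : ℝ) < S.P := by exact_mod_cast S.P_pos
  have hP1 : (1 : ℝ) ≤ S.P := by exact_mod_cast S.P_pos
  have hgpos : (0 : ℝ) < S.g := by exact_mod_cast S.g_pos
  have hVpos : ∀ χ ∈ X, (0 : ℝ) < dot χ V := fun χ hχ => by exact_mod_cast hG.V_pos χ hχ
  have hqpos : ∀ χ ∈ X, (0 : ℝ) < S.q χ := fun χ hχ => by exact_mod_cast q_pos S hχ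
  have ha2 : ∀ χ ∈ X, 0 < a χ ^ 2 := fun χ hχ => by have := ha χ hχ; positivity
  -- density bounds
  have hd1 : ∀ χ ∈ X, c2 * (dot χ V / (S.q χ * S.g)) * S.P ≤ a χ ^ 2 := by
    intro χ hχ
    have h := (hS χ hχ).1
    have h1 := hqpos χ hχ
    have h2 := ha2 χ hχ
    rw [div_le_iff₀ (by positivity)] at h
    have h3 : c2 * (dot χ V / (S.q χ * S.g)) * S.P = c2 * (S.P * dot χ V) / (S.q χ * S.g) := by
      ring
    rw [h3, div_le_iff₀ (by positivity)]
    have h4 : (S.q χ : ℝ) * (S.g * (a χ ^ 2 / c2)) * c2 = a χ ^ 2 * (S.q χ * S.g) := by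
      field_simp
    nlinarith only [hsumpos, h, h4]
  have hd2 : ∀ χ ∈ X, a χ ^ 2 ≤ (1 + δ) * (c2 * (dot χ V / (S.q χ * S.g)) * S.P) := by
    intro χ hχ
    have h := (hS χ hχ).2
    have h1 := hqpos χ hχ
    have h2 := ha2 χ hχ
    rw [← mul_div_assoc, le_div_iff₀ (by positivity)] at h
    have h3 : (1 + δ) * (c2 * (dot χ V / (S.q χ * S.g)) * S.P)
        = c2 * ((1 + δ) * (S.P * dot χ V)) / (S.q χ * S.g) := by
      ring
    rw [h3, le_div_iff₀ (by positivity)]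
    have h4 : (S.q χ : ℝ) * (S.g * (a χ ^ 2 / c2)) * c2 = a χ ^ 2 * (S.q χ * S.g) := by
      field_simp
    nlinarith only [hsumpos, h, h4]
  have hL : ∀ χ ∈ X, dot χ V ≤ (S.q χ : ℤ) * S.g := by
    intro χ hχ
    have h1 := hqpos χ hχ
    have h2 := hVpos χ hχ
    have h3 := hd1 χ hχ
    have h4 := hale χ hχ
    have h5 : (dot χ V : ℝ) / (S.q χ * S.g) ≤ 1 := by
      by_contra hcon
      push Not at hcon
      have h6 : c2 * 1 ≤ c2 * (dot χ V / (S.q χ * S.g)) :=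
        mul_le_mul_of_nonneg_left hcon.le hc2pos.le
      have h7 : c2 * (dot χ V / (S.q χ * S.g)) * 1 ≤ c2 * (dot χ V / (S.q χ * S.g)) * S.P :=
        mul_le_mul_of_nonneg_left hP1 (by positivity)
      have h8 := hsumpos
      rw [hc2] at h6 h7 h3
      linarith only [hsumpos, h3, h4, h6, h7]
    rw [div_le_one (by positivity)] at h5
    exact_mod_cast h5
  -- lengths
  have hlm : ∀ χ ∈ X, lS S χ * mm S χ = dot χ V / (S.q χ * S.g) := by
    intro χ hχ
    have h1 := hqpos χ hχ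
    have h2 : (0 : ℝ) < mm S χ := by exact_mod_cast mm_pos S χ
    have h3 : (2 * KK S : ℝ) = S.q χ * mm S χ * S.g := by
      have := two_KK S
      rw [← q_mul_mm S hχ] at this
      exact_mod_cast this
    unfold lS
    rw [h3]
    field_simp
  have hlpos : ∀ χ ∈ X, 0 < lS S χ := fun χ hχ => lS_pos S hG hχ
  have hl1 : ∀ χ ∈ X, lS S χ ≤ 1 := by
    intro χ hχ
    have h := tS_add_lS S (⟨0, S.P_pos⟩, ⟨⟨χ, hχ⟩, ⟨0, mm_pos S χ⟩⟩)
    have h2 := tS_nonneg S (⟨0, S.P_pos⟩, ⟨⟨χ, hχ⟩, ⟨0, mm_pos S χ⟩⟩)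
    simp only at h h2
    linarith
  -- phases
  have hw0 : ∀ χ : Fin d → ℤ, ∃ w : ℕ → ℝ, χ ∈ X → ∀ k : ℤ,
      ∑ s ∈ range (mm S χ), e (w s - k * s / (mm S χ)) =
        (Real.sqrt (mm S χ) : ℂ) * e (-((Ac S χ) * k ^ 2 / (mm S χ))) := by
    intro χ
    by_cases hχ : χ ∈ X
    · obtain ⟨w, hw⟩ := hGauss (mm S χ) (mm_odd S χ) (Ac S χ) (Ac_coprime S hχ)
      exact ⟨w, fun _ => hw⟩
    · exact ⟨fun _ => 0, fun h => absurd h hχ⟩
  choose wG hwG using hw0
  let hs : (Fin d → ℤ) → ℝ := fun χ => if a χ < 0 then 1 / 2 else 0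
  let sg : (Fin d → ℤ) → ℝ := fun χ => if a χ < 0 then -1 else 1
  have hh : ∀ χ, ∀ x : ℝ, Real.cos (2 * Real.pi * (x - hs χ)) =
      sg χ * Real.cos (2 * Real.pi * x) := by
    intro χ x
    simp only [hs, sg]
    split_ifs
    · rw [show 2 * Real.pi * (x - 1 / 2) = 2 * Real.pi * x - Real.pi by ring, Real.cos_sub_pi]
      ring
    · rw [sub_zero, one_mul]
  have hsga : ∀ χ, a χ = sg χ * |a χ| := by
    intro χ
    simp only [sg]
    split_ifs with h
    · rw [abs_of_neg h]; ring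
    · rw [abs_of_nonneg (not_lt.1 h)]; ring
  have hsg1 : ∀ χ, |sg χ| = 1 := by
    intro χ
    simp only [sg]
    split_ifs <;> simp
  -- large `q`
  have htend : Tendsto (fun q : ℕ => q / S.P) atTop atTop := Nat.tendsto_div_const_atTop S.P_pos.ne'
  have hev1 : ∀ᶠ q : ℕ in atTop, ∀ χ ∈ X,
      2 * c2 * ((2 * S.P * mm S χ) ^ 2 * chE (lS S χ) (q / S.P)) ≤ ε / 2 := by
    rw [Filter.eventually_all_finset]
    intro χ hχ
    have h1 := (chE_tendsto hch (hlpos χ hχ) (hl1 χ hχ)).comp htend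
    have h2 := (h1.const_mul ((2 * S.P * mm S χ : ℝ) ^ 2)).const_mul (2 * c2)
    rw [mul_zero, mul_zero] at h2
    have h3 : (0 : ℝ) < ε / 2 := by positivity
    exact (h2.eventually_lt_const h3).mono fun q hq => hq.le
  have hev2 : ∀ᶠ q : ℕ in atTop, (S.P : ℝ) ≤ δ * q := by
    have h1 : Tendsto (fun q : ℕ => δ * (q : ℝ)) atTop atTop :=
      Tendsto.const_mul_atTop hδpos tendsto_natCast_atTop_atTop
    exact h1.eventually_ge_atTop _
  have hev3 : ∀ᶠ q : ℕ in atTop, 1 ≤ q / S.P := htend.eventually_ge_atTop 1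
  obtain ⟨q₀, hq₀⟩ := Filter.eventually_atTop.1 (hev1.and (hev2.and hev3))
  refine ⟨q₀, fun q hq => ?_⟩
  obtain ⟨he1, he2, he3⟩ := hq₀ q hq
  set B : ℕ := q / S.P with hB
  have hPB : S.P * B ≤ q := Nat.mul_div_le q S.P
  have hqPB : q ≤ S.P * B + S.P := by
    have h1 := Nat.lt_mul_div_succ q S.P_pos
    rw [Nat.mul_add, Nat.mul_one, ← hB] at h1
    exact h1.le
  obtain ⟨u, M, hu, hM, hu1, hup, hMp, hMX, hform, hvol⟩ := glue_family (TS S)
    (measurable_TS S) (TS_disj S hL) (TS_sub S hG) (GS S wG hs B) (measurable_GS S wG hs B)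
    (norm_GS S wG hs B) (fun j => j.1.2.1.1)
  have hfil : ∀ χ, (univ.filter (fun j : Slot S × Bool => j.1.2.1.1 = χ)) = pcs S χ := by
    intro χ
    unfold pcs
    ext j
    simp only [Finset.mem_filter]
  refine ⟨gam S B, u, M, hu, hM, hu1, hup, hMp, ?_, ?_, ?_⟩
  · intro x χ h
    obtain ⟨j, hj⟩ := hMX x χ h
    rw [← hj]
    exact j.1.2.1.2
  · intro χ hχ
    have hKn : Real.sqrt c2 ^ 2 = c2 := Real.sq_sqrt hc2pos.le
    have hlmn : 0 ≤ lS S χ * mm S χ := by have := hlpos χ hχ; positivity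
    have hAn : Real.sqrt (lS S χ * mm S χ) ^ 2 = lS S χ * mm S χ := Real.sq_sqrt hlmn
    have hKA : (Real.sqrt c2 * Real.sqrt (lS S χ * mm S χ)) ^ 2 * S.P
        = c2 * (dot χ V / (S.q χ * S.g)) * S.P := by
      rw [mul_pow, hKn, hAn, hlm χ hχ]
    have hp := poly_est (a := a χ) (sg := sg χ) (δ := δ) (c0 := Real.sqrt c2)
      (A := Real.sqrt (lS S χ * mm S χ)) (P := S.P) (B := B) (q := q)
      (fun k => Real.cos (2 * Real.pi * ∑ i, (χ i : ℝ) * gam S B k i))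
      (fun k => Real.abs_cos_le_one _) (hsga χ) (hsg1 χ) S.P_pos he3 hPB hqPB he2 hδpos hδ1
      (by positivity) (by rw [hKA]; exact hd1 χ hχ) (by rw [hKA]; exact hd2 χ hχ)
    have hm := mode_err S hG wG hs B hχ
    set poly : ℝ → ℂ := fun y => ((Real.sqrt q : ℝ) : ℂ)⁻¹ * ∑ k ∈ range q,
      ((2 * a χ * Real.cos (2 * Real.pi * ∑ i, (χ i : ℝ) * gam S B k i) : ℝ) : ℂ) * e (k * y)
      with hpoly
    set TT : ℝ → ℂ := fun y => ∑ j ∈ pcs S χ, TTS S wG hs B j y with hTT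
    set FF : ℝ → ℂ := fun y => ∑ j ∈ pcs S χ,
      if Int.fract y ∈ TS S j then GS S wG hs B j (Int.fract y) else 0 with hFF
    have hTTeq : TT = fun y => ∑ k ∈ range (S.P * B),
        ((Real.sqrt (lS S χ * mm S χ) / Real.sqrt B * (2 * sg χ *
        Real.cos (2 * Real.pi * ∑ i, (χ i : ℝ) * gam S B k i)) : ℝ) : ℂ) * e (k * y) := by
      funext y
      exact spec_mode S wG hs sg he3 hχ (hwG χ hχ) (hh χ) (hlpos χ hχ).le y
    have hp2 : N2 (fun y => poly y - ((Real.sqrt c2 : ℝ) : ℂ) * TT y) ≤ 8 * a χ ^ 2 * δ := by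
      rw [hTTeq]
      exact hp
    have hnP : Nice poly := by
      rw [hpoly]
      refine Nice.const_mul ?_ _
      refine Nice.sum _ fun k _ => ?_
      exact (nice_e _ (by fun_prop)).const_mul _
    have hnT : Nice TT := Nice.sum _ fun j _ => nice_TTS S wG hs B j
    have hnF : Nice FF := Nice.sum _ fun j _ => nice_piece S wG hs B j
    have hsplit : ∀ y, poly y - ((Real.sqrt c2 : ℝ) : ℂ) * (if M y = some χ then u y else 0)
        = (poly y - ((Real.sqrt c2 : ℝ) : ℂ) * TT y)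
          + (-((Real.sqrt c2 : ℝ) : ℂ)) * (FF y - TT y) := by
      intro y
      have h1 := hform χ y
      have h2 : (if M y = some χ then u y else 0) = FF y := by
        rw [hFF]
        simp only
        rw [← hfil χ]
        convert h1
      rw [h2]
      ring
    have hgoal : N2 (fun y => poly y - ((Real.sqrt c2 : ℝ) : ℂ) *
        (if M y = some χ then u y else 0)) ≤ ε := by
      have h1 : (fun y => poly y - ((Real.sqrt c2 : ℝ) : ℂ) *
        (if M y = some χ then u y else 0)) = fun y =>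
          (poly y - ((Real.sqrt c2 : ℝ) : ℂ) * TT y)
          + (-((Real.sqrt c2 : ℝ) : ℂ)) * (FF y - TT y) := funext hsplit
      rw [h1]
      have h2 := N2_add_le (hnP.sub (hnT.const_mul ((Real.sqrt c2 : ℝ) : ℂ)))
        ((hnF.sub hnT).const_mul (-((Real.sqrt c2 : ℝ) : ℂ)))
      refine h2.trans ?_
      rw [TF.N2_const_mul (-((Real.sqrt c2 : ℝ) : ℂ)) (fun y => FF y - TT y)]
      have h3 : ‖(-((Real.sqrt c2 : ℝ) : ℂ))‖ ^ 2 = c2 := by
        rw [norm_neg, Complex.norm_real, Real.norm_of_nonneg (Real.sqrt_nonneg _), hKn]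
      rw [h3]
      have h4 : N2 (fun y => FF y - TT y) ≤ (2 * S.P * mm S χ) ^ 2 * chE (lS S χ) B := hm
      have h5 := he1 χ hχ
      have h6 := hale χ hχ
      have h7 : 2 * (c2 * N2 (fun y => FF y - TT y)) ≤ ε / 2 := by
        calc 2 * (c2 * N2 (fun y => FF y - TT y)) ≤ 2 * (c2 * ((2 * S.P * mm S χ) ^ 2 *
              chE (lS S χ) B)) := by gcongr
          _ = 2 * c2 * ((2 * S.P * mm S χ) ^ 2 * chE (lS S χ) B) := by ring
          _ ≤ ε / 2 := h5
      have h8 : a χ ^ 2 * δ ≤ Aa * δ := by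
        apply mul_le_mul_of_nonneg_right _ hδpos.le
        rw [hAa]; linarith only [h6]
      linarith only [hδ2, hp2, h7, h8]
    convert hgoal using 1
    unfold N2
    refine intervalIntegral.integral_congr fun y _ => ?_
    simp only [hpoly]
  · intro χ hχ
    have h1 : ∑ j ∈ univ.filter (fun j : Slot S × Bool => j.1.2.1.1 = χ),
        (volume (TS S j)).toReal = 2 * S.P * (lS S χ * mm S χ) := by
      rw [hfil χ, Finset.sum_congr rfl (g := fun _ => lS S χ), Finset.sum_const, nsmul_eq_mul,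
        card_pcs S hχ]
      · ring
      · intro j hj
        rw [volume_TS S hG j]
        unfold pcs at hj
        rw [(Finset.mem_filter.1 hj).2]
    have h2 : (volume {x : ℝ | 0 ≤ x ∧ x < 1 ∧ M x = some χ}).toReal
        = 2 * S.P * (lS S χ * mm S χ) := by
      rw [hvol χ]
      convert h1
    rw [h2, hlm χ hχ]
    have h3 := hd1 χ hχ
    have h4 := hd2 χ hχ
    have h5 := hale χ hχ
    set ρ : ℝ := dot χ V / (S.q χ * S.g) with hρ
    have hρ0 : 0 ≤ ρ := by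
      have := hqpos χ hχ
      have := hVpos χ hχ
      positivity
    have h6 : 2 * S.P * ρ - 2 * a χ ^ 2 / c2 = 2 * (c2 * ρ * S.P - a χ ^ 2) / c2 := by
      field_simp
    rw [h6, abs_div, abs_of_pos hc2pos, div_le_iff₀ hc2pos, abs_le]
    have h7 : δ * (c2 * ρ * S.P) ≤ δ * c2 / 2 := by
      have : c2 * ρ * S.P ≤ c2 / 2 := by rw [hc2] at *; linarith only [h5, h3]
      nlinarith only [hδpos, h5, h3]
    have h8 : δ * c2 ≤ ε * c2 := mul_le_mul_of_nonneg_right hδε hc2pos.le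
    have h9 : 0 ≤ ε * c2 := by positivity
    constructor
    · linarith only [h4, h7, h8]
    · linarith only [h3, h4, h7, h8]

end Vale.Agent.P130R
end

section

/-!
# P130R, ROUND, part B: mean and second moment from an approximation of the spectrum
-/

set_option autoImplicit false

namespace Vale.Agent.P130R.Round

open Finset MeasureTheory Filter Topology
open Vale.Agent.P110 (e dot GoodSet)

theorem geom_bound (q : ℕ) (x : ℝ) : ‖∑ k ∈ range q, e (k * x)‖ * ‖1 - e x‖ ≤ 2 := by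
  rw [← norm_mul]
  have h : (∑ k ∈ range q, e (k * x)) * (1 - e x) = 1 - e x ^ q := by
    simp_rw [e_nat_mul]
    exact geom_sum_mul_neg (e x) q
  rw [h]
  calc ‖1 - e x ^ q‖ ≤ ‖(1 : ℂ)‖ + ‖e x ^ q‖ := norm_sub_le _ _
    _ ≤ 2 := by rw [norm_pow, norm_e]; norm_num

theorem e_eq_one_imp {x : ℝ} (h0 : 0 < x) (h1 : x < 1) : e x ≠ 1 := by
  intro h
  unfold e at h
  rw [Complex.exp_eq_one_iff] at h
  obtain ⟨n, hn⟩ := h
  have h2 : (x : ℂ) = n := by
    have h3 : (2 * Real.pi * Complex.I : ℂ) ≠ 0 := by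
      simp [Real.pi_ne_zero, Complex.I_ne_zero]
    apply mul_right_cancel₀ h3
    rw [← hn]
    push_cast
    ring
  have h4 : x = n := by exact_mod_cast h2
  rw [h4] at h0 h1
  have h5 : (0 : ℤ) < n := by exact_mod_cast h0
  have h6 : n < (1 : ℤ) := by exact_mod_cast h1
  omega

theorem tendsto_D_pt {x : ℝ} (h0 : 0 < x) (h1 : x < 1) :
    Tendsto (fun q : ℕ => ‖TS q (fun _ => 1) x‖) atTop (𝓝 0) := by
  have h2 : 0 < ‖1 - e x‖ := by
    rw [norm_pos_iff]
    intro h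
    exact e_eq_one_imp h0 h1 (sub_eq_zero.mp h).symm
  have h3 : Tendsto (fun q : ℕ => (Real.sqrt q)⁻¹ * (2 / ‖1 - e x‖)) atTop (𝓝 0) := by
    have h4 : Tendsto (fun q : ℕ => (Real.sqrt q)⁻¹) atTop (𝓝 0) :=
      tendsto_inv_atTop_zero.comp (Real.tendsto_sqrt_atTop.comp tendsto_natCast_atTop_atTop)
    simpa using h4.mul_const (2 / ‖1 - e x‖)
  refine squeeze_zero (fun q => norm_nonneg _) (fun q => ?_) h3
  unfold TS
  rw [norm_mul, norm_inv, Complex.norm_real, Real.norm_of_nonneg (Real.sqrt_nonneg _)]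
  apply mul_le_mul_of_nonneg_left _ (inv_nonneg.mpr (Real.sqrt_nonneg _))
  rw [le_div_iff₀ h2]
  simpa using geom_bound q x

theorem exists_D_small {κ : ℝ} (hκ : 0 < κ) : ∃ q₀ : ℕ, ∀ q : ℕ, q₀ ≤ q →
    ∫ x in (0 : ℝ)..1, ‖TS q (fun _ => 1) x‖ ≤ κ := by
  have hD : Tendsto (fun q : ℕ => ∫ x in (0 : ℝ)..1, min (‖TS q (fun _ => 1) x‖) (2 / κ)) atTop
      (𝓝 (∫ x in (0 : ℝ)..1, (0 : ℝ))) := by
    apply intervalIntegral.tendsto_integral_filter_of_dominated_convergence (fun _ => 2 / κ)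
    · refine Eventually.of_forall fun q => ?_
      exact (((continuous_TS q _).norm).min continuous_const).aestronglyMeasurable
    · refine Eventually.of_forall fun q => Eventually.of_forall fun x _ => ?_
      rw [Real.norm_of_nonneg (le_min (norm_nonneg _) (by positivity))]
      exact min_le_right _ _
    · exact intervalIntegrable_const
    · have h1 : ∀ᵐ x : ℝ, x ≠ 1 := by
        rw [ae_iff]
        simp
      filter_upwards [h1] with x hx hx2
      rw [Set.uIoc_of_le (zero_le_one)] at hx2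
      have h2 := tendsto_D_pt hx2.1 (lt_of_le_of_ne hx2.2 hx)
      refine squeeze_zero (fun q => le_min (norm_nonneg _) (by positivity)) (fun q => ?_) h2
      exact min_le_left _ _
  rw [intervalIntegral.integral_zero] at hD
  have h1 : ∀ᶠ q : ℕ in atTop, ∫ x in (0 : ℝ)..1, min (‖TS q (fun _ => 1) x‖) (2 / κ) < κ / 2 :=
    hD.eventually (gt_mem_nhds (by positivity))
  obtain ⟨q₀, hq₀⟩ := eventually_atTop.mp h1
  refine ⟨max q₀ 1, fun q hq => ?_⟩
  have hq1 : 1 ≤ q := le_trans (le_max_right _ _) hq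
  have h2 := hq₀ q (le_trans (le_max_left _ _) hq)
  have hc : Continuous (fun x => ‖TS q (fun _ => 1) x‖) := (continuous_TS q _).norm
  have h3 : ∫ x in (0 : ℝ)..1, ‖TS q (fun _ => 1) x‖ ≤
      ∫ x in (0 : ℝ)..1, (κ / 2 * ‖TS q (fun _ => 1) x‖ ^ 2 +
        min (‖TS q (fun _ => 1) x‖) (2 / κ)) := by
    apply intervalIntegral.integral_mono_on zero_le_one
    · exact hc.intervalIntegrable _ _
    · apply Continuous.intervalIntegrable
      fun_prop
    · intro x _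
      rcases le_total (‖TS q (fun _ => 1) x‖) (2 / κ) with h | h
      · rw [min_eq_left h]
        have : 0 ≤ κ / 2 * ‖TS q (fun _ => 1) x‖ ^ 2 := by positivity
        linarith only [this]
      · rw [min_eq_right h]
        have h5 : 1 ≤ κ / 2 * ‖TS q (fun _ => 1) x‖ := by
          rw [div_le_iff₀ hκ] at h
          linarith only [h]
        have h6 : ‖TS q (fun _ => 1) x‖ ≤ κ / 2 * ‖TS q (fun _ => 1) x‖ ^ 2 := by
          nlinarith only [norm_nonneg (TS q (fun _ => 1) x), hκ, h5]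
        have : 0 ≤ 2 / κ := by positivity
        linarith only [h6, this]
  rw [intervalIntegral.integral_add (by apply Continuous.intervalIntegrable; fun_prop)
    (by apply Continuous.intervalIntegrable; fun_prop),
    intervalIntegral.integral_const_mul, parseval] at h3
  have h4 : (q : ℝ)⁻¹ * ∑ k ∈ range q, ‖(1 : ℂ)‖ ^ 2 = 1 := by
    have : (q : ℝ) ≠ 0 := by positivity
    simp [this]
  rw [h4] at h3
  linarith only [h2, h3]

/-- mean of real coefficients -/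
theorem mean_bound {q : ℕ} (hq : 1 ≤ q) (g : ℕ → ℝ) (Q : ℝ → ℂ) (hQ : Measurable Q) {c τ κ ε : ℝ}
    (hc : ∀ x, ‖Q x‖ ≤ c) (hτ : 0 < τ)
    (h1 : ∫ x in (0 : ℝ)..1, ‖TS q (fun k => (g k : ℂ)) x - Q x‖ ^ 2 ≤ ε)
    (h2 : ∫ x in (0 : ℝ)..1, ‖TS q (fun _ => 1) x‖ ≤ κ) :
    |(q : ℝ)⁻¹ * ∑ k ∈ range q, g k| ≤ 1 / 2 * (ε / τ + τ) + c * κ := by
  have hc0 : 0 ≤ c := (norm_nonneg _).trans (hc 0)
  have h3 := parseval_inner q (fun k => (g k : ℂ)) (fun _ => 1)
  have h4 : (q : ℂ)⁻¹ * ∑ k ∈ range q, (g k : ℂ) * starRingEnd ℂ 1 =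
      (((q : ℝ)⁻¹ * ∑ k ∈ range q, g k : ℝ) : ℂ) := by
    push_cast
    simp
  rw [h4] at h3
  have h5 : |(q : ℝ)⁻¹ * ∑ k ∈ range q, g k| =
      ‖∫ x in (0 : ℝ)..1, TS q (fun k => (g k : ℂ)) x * starRingEnd ℂ (TS q (fun _ => 1) x)‖ := by
    rw [h3, Complex.norm_real, Real.norm_eq_abs]
  rw [h5]
  have hm1 : Measurable (TS q (fun k => (g k : ℂ))) := (continuous_TS _ _).measurable
  have hm2 : Measurable (TS q (fun _ => 1)) := (continuous_TS _ _).measurable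
  obtain ⟨C1, hC1⟩ : ∃ C, ∀ x, ‖TS q (fun k => (g k : ℂ)) x‖ ≤ C := ⟨_, norm_TS_le q _⟩
  obtain ⟨C2, hC2⟩ : ∃ C, ∀ x, ‖TS q (fun _ => 1) x‖ ≤ C := ⟨_, norm_TS_le q _⟩
  have hC1' : 0 ≤ C1 := (norm_nonneg _).trans (hC1 0)
  have hC2' : 0 ≤ C2 := (norm_nonneg _).trans (hC2 0)
  have hd : ∀ x, ‖TS q (fun k => (g k : ℂ)) x - Q x‖ ≤ C1 + c := fun x =>
    (norm_sub_le _ _).trans (add_le_add (hC1 x) (hc x))
  have i1 : IntervalIntegrable (fun x => ‖TS q (fun k => (g k : ℂ)) x - Q x‖ ^ 2) volume 0 1 := by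
    refine ii (C := (C1 + c) ^ 2) ?_ ?_ _ _
    · exact ((hm1.sub hQ).norm).pow_const 2
    · intro x
      rw [Real.norm_of_nonneg (by positivity)]
      exact pow_le_pow_left₀ (norm_nonneg _) (hd x) 2
  have i2 : IntervalIntegrable (fun x => ‖TS q (fun _ => 1) x‖ ^ 2) volume 0 1 := by
    apply Continuous.intervalIntegrable
    exact ((continuous_TS q _).norm).pow 2
  have i3 : IntervalIntegrable (fun x => ‖TS q (fun _ => 1) x‖) volume 0 1 := by
    apply Continuous.intervalIntegrable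
    exact ((continuous_TS q _).norm)
  have h6 : ‖∫ x in (0 : ℝ)..1, TS q (fun k => (g k : ℂ)) x *
      starRingEnd ℂ (TS q (fun _ => 1) x)‖ ≤
      ∫ x in (0 : ℝ)..1, (1 / 2 * (1 / τ * ‖TS q (fun k => (g k : ℂ)) x - Q x‖ ^ 2 +
        τ * ‖TS q (fun _ => 1) x‖ ^ 2) + c * ‖TS q (fun _ => 1) x‖) := by
    apply intervalIntegral.norm_integral_le_of_norm_le zero_le_one
    · refine Eventually.of_forall fun x _ => ?_
      rw [norm_mul, RCLike.norm_conj]
      have h7 : ‖TS q (fun k => (g k : ℂ)) x‖ ≤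
          ‖TS q (fun k => (g k : ℂ)) x - Q x‖ + ‖Q x‖ := by
        have := norm_add_le (TS q (fun k => (g k : ℂ)) x - Q x) (Q x)
        simpa using this
      have h8 : ∀ a b : ℝ, a * b ≤ 1 / 2 * (1 / τ * a ^ 2 + τ * b ^ 2) := by
        intro a b
        have h9 : 0 ≤ 1 / τ * (a - τ * b) ^ 2 := by positivity
        have h10 : 1 / τ * (a - τ * b) ^ 2 = 1 / τ * a ^ 2 - 2 * (a * b) + τ * b ^ 2 := by
          field_simp
          ring
        linarith only [h9, h10]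
      have h11 := h8 (‖TS q (fun k => (g k : ℂ)) x - Q x‖) (‖TS q (fun _ => 1) x‖)
      have h12 := norm_nonneg (TS q (fun _ => 1) x)
      calc ‖TS q (fun k => (g k : ℂ)) x‖ * ‖TS q (fun _ => 1) x‖ ≤
          (‖TS q (fun k => (g k : ℂ)) x - Q x‖ + ‖Q x‖) * ‖TS q (fun _ => 1) x‖ :=
            mul_le_mul_of_nonneg_right h7 h12
        _ = ‖TS q (fun k => (g k : ℂ)) x - Q x‖ * ‖TS q (fun _ => 1) x‖ +
            ‖Q x‖ * ‖TS q (fun _ => 1) x‖ := by ring
        _ ≤ _ := add_le_add h11 (mul_le_mul_of_nonneg_right (hc x) h12)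
    · exact (((i1.const_mul _).add (i2.const_mul _)).const_mul _).add (i3.const_mul _)
  rw [intervalIntegral.integral_add (((i1.const_mul _).add (i2.const_mul _)).const_mul _)
    (i3.const_mul _), intervalIntegral.integral_const_mul, intervalIntegral.integral_const_mul,
    intervalIntegral.integral_add (i1.const_mul _) (i2.const_mul _),
    intervalIntegral.integral_const_mul, intervalIntegral.integral_const_mul] at h6
  have h13 : ∫ x in (0 : ℝ)..1, ‖TS q (fun _ => 1) x‖ ^ 2 = 1 := by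
    rw [parseval]
    have : (q : ℝ) ≠ 0 := by positivity
    simp [this]
  rw [h13] at h6
  refine h6.trans ?_
  have h14 : 1 / τ * (∫ x in (0 : ℝ)..1, ‖TS q (fun k => (g k : ℂ)) x - Q x‖ ^ 2) ≤ ε / τ := by
    rw [div_mul_eq_mul_div, one_mul]
    exact div_le_div_of_nonneg_right h1 hτ.le
  have h15 := mul_le_mul_of_nonneg_left h2 hc0
  linarith only [h14, h15]

/-- second moment of real coefficients -/
theorem second_bound {q : ℕ} (g : ℕ → ℝ) (Q : ℝ → ℂ) (hQ : Measurable Q) {c τ ε : ℝ}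
    (hc : ∀ x, ‖Q x‖ ≤ c) (hτ : 0 < τ)
    (h1 : ∫ x in (0 : ℝ)..1, ‖TS q (fun k => (g k : ℂ)) x - Q x‖ ^ 2 ≤ ε) :
    |(q : ℝ)⁻¹ * ∑ k ∈ range q, g k ^ 2 - ∫ x in (0 : ℝ)..1, ‖Q x‖ ^ 2| ≤
      ε + ε / τ + τ * c ^ 2 := by
  have hc0 : 0 ≤ c := (norm_nonneg _).trans (hc 0)
  have h3 := parseval q (fun k => (g k : ℂ))
  have h4 : (q : ℝ)⁻¹ * ∑ k ∈ range q, ‖(g k : ℂ)‖ ^ 2 = (q : ℝ)⁻¹ * ∑ k ∈ range q, g k ^ 2 := by
    simp_rw [Complex.norm_real, Real.norm_eq_abs, sq_abs]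
  rw [h4] at h3
  rw [← h3]
  have hm1 : Measurable (TS q (fun k => (g k : ℂ))) := (continuous_TS _ _).measurable
  obtain ⟨C1, hC1⟩ : ∃ C, ∀ x, ‖TS q (fun k => (g k : ℂ)) x‖ ≤ C := ⟨_, norm_TS_le q _⟩
  have hC1' : 0 ≤ C1 := (norm_nonneg _).trans (hC1 0)
  have hd : ∀ x, ‖TS q (fun k => (g k : ℂ)) x - Q x‖ ≤ C1 + c := fun x =>
    (norm_sub_le _ _).trans (add_le_add (hC1 x) (hc x))
  have i1 : IntervalIntegrable (fun x => ‖TS q (fun k => (g k : ℂ)) x - Q x‖ ^ 2) volume 0 1 := by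
    refine ii (C := (C1 + c) ^ 2) ?_ ?_ _ _
    · exact ((hm1.sub hQ).norm).pow_const 2
    · intro x
      rw [Real.norm_of_nonneg (by positivity)]
      exact pow_le_pow_left₀ (norm_nonneg _) (hd x) 2
  have i2 : IntervalIntegrable (fun x => ‖TS q (fun k => (g k : ℂ)) x‖ ^ 2) volume 0 1 := by
    apply Continuous.intervalIntegrable
    exact ((continuous_TS q _).norm).pow 2
  have i3 : IntervalIntegrable (fun x => ‖Q x‖ ^ 2) volume 0 1 := by
    refine ii (C := c ^ 2) ?_ ?_ _ _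
    · exact hQ.norm.pow_const 2
    · intro x
      rw [Real.norm_of_nonneg (by positivity)]
      exact pow_le_pow_left₀ (norm_nonneg _) (hc x) 2
  rw [← intervalIntegral.integral_sub i2 i3, ← Real.norm_eq_abs]
  have h6 : ‖∫ x in (0 : ℝ)..1, (‖TS q (fun k => (g k : ℂ)) x‖ ^ 2 - ‖Q x‖ ^ 2)‖ ≤
      ∫ x in (0 : ℝ)..1, ((1 + 1 / τ) * ‖TS q (fun k => (g k : ℂ)) x - Q x‖ ^ 2 +
        τ * c ^ 2) := by
    apply intervalIntegral.norm_integral_le_of_norm_le zero_le_one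
    · refine Eventually.of_forall fun x _ => ?_
      rw [Real.norm_eq_abs]
      set A := ‖TS q (fun k => (g k : ℂ)) x‖
      set B := ‖Q x‖
      set D := ‖TS q (fun k => (g k : ℂ)) x - Q x‖
      have hAB : |A - B| ≤ D := abs_norm_sub_norm_le _ _
      have hD0 : 0 ≤ D := norm_nonneg _
      have hB0 : 0 ≤ B := norm_nonneg _
      have hBc : B ≤ c := hc x
      have h8 : 2 * (B * D) ≤ 1 / τ * D ^ 2 + τ * B ^ 2 := by
        have h9 : 0 ≤ 1 / τ * (D - τ * B) ^ 2 := by positivity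
        have h10 : 1 / τ * (D - τ * B) ^ 2 = 1 / τ * D ^ 2 - 2 * (B * D) + τ * B ^ 2 := by
          field_simp
          ring
        linarith only [h9, h10]
      have h11 : τ * B ^ 2 ≤ τ * c ^ 2 :=
        mul_le_mul_of_nonneg_left (pow_le_pow_left₀ hB0 hBc 2) hτ.le
      have h12 : |A ^ 2 - B ^ 2| ≤ D ^ 2 + 2 * (B * D) := by
        have h13 : A ^ 2 - B ^ 2 = (A - B) ^ 2 + 2 * B * (A - B) := by ring
        rw [h13]
        calc |(A - B) ^ 2 + 2 * B * (A - B)| ≤ |(A - B) ^ 2| + |2 * B * (A - B)| := abs_add_le _ _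
          _ = |A - B| ^ 2 + 2 * B * |A - B| := by
            rw [abs_pow, abs_mul, abs_of_nonneg (by positivity : 0 ≤ 2 * B)]
          _ ≤ D ^ 2 + 2 * (B * D) := by
            have := mul_le_mul_of_nonneg_left hAB (by positivity : 0 ≤ 2 * B)
            have h14 := pow_le_pow_left₀ (abs_nonneg _) hAB 2
            linarith only [this, h14]
      linarith only [h8, h11, h12]
    · exact (i1.const_mul _).add intervalIntegrable_const
  rw [intervalIntegral.integral_add (i1.const_mul _) intervalIntegrable_const,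
    intervalIntegral.integral_const_mul] at h6
  simp only [intervalIntegral.integral_const, sub_zero, one_smul] at h6
  refine h6.trans ?_
  have h14 : (1 + 1 / τ) * (∫ x in (0 : ℝ)..1, ‖TS q (fun k => (g k : ℂ)) x - Q x‖ ^ 2) ≤
      (1 + 1 / τ) * ε := mul_le_mul_of_nonneg_left h1 (by positivity)
  have h15 : (1 + 1 / τ) * ε = ε + ε / τ := by ring
  linarith only [h14, h15]

end Vale.Agent.P130R.Round
end

section

/-!
# P130R, ROUND, part D: second moments of the surviving mass, rounding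
-/

set_option autoImplicit false

namespace Vale.Agent.P130R.Round

open Finset MeasureTheory Filter Topology
open Vale.Agent.P110 (e dot GoodSet)

theorem sum_lab {ι : Type*} (X : Finset ι) (lab : ι → ℕ) (c : ℕ → ℝ) (F : ι → ℝ) (n : ℕ) :
    ∑ j ∈ range n, c j * ∑ χ ∈ X.filter (fun χ => lab χ = j), F χ =
      ∑ χ ∈ X, (if lab χ < n then c (lab χ) else 0) * F χ := by
  simp_rw [Finset.sum_filter, Finset.mul_sum]
  rw [Finset.sum_comm]
  refine Finset.sum_congr rfl fun χ _ => ?_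
  simp only [mul_ite, mul_zero]
  rw [Finset.sum_ite_eq (range n) (lab χ)]
  simp only [mem_range, ite_mul, zero_mul]

section
variable {ι : Type*} [DecidableEq ι]

/-- second moment of `s - g` for a weighted sum of modes `g` -/
theorem second (X : Finset ι) {M : ℝ → Option ι} {u : ℝ → ℂ} (hu : Measurable u)
    (hM : ∀ χ, MeasurableSet {x | M x = some χ}) (hn : ∀ x, ‖u x‖ = 1)
    (hX : ∀ x χ, M x = some χ → χ ∈ X)
    {q : ℕ} (hq : 1 ≤ q) (φ : ι → ℕ → ℝ) {c : ℝ} (hc : 0 ≤ c) (m : ι → ℝ) {ε κ τ : ℝ}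
    (h : ∀ χ ∈ X, ∫ x in (0 : ℝ)..1, ‖TS q (fun k => (φ χ k : ℂ)) x -
      (c : ℂ) * (if M x = some χ then u x else 0)‖ ^ 2 ≤ ε)
    (hvol : ∀ χ ∈ X, |c ^ 2 * (∫ x in (0 : ℝ)..1, (if M x = some χ then (1 : ℝ) else 0)) - m χ| ≤
      c ^ 2 * ε)
    (w : ι → ℝ) (hw : ∀ χ ∈ X, |w χ| ≤ 1) {s : ℝ} (hs0 : 0 ≤ s) (hs1 : s ≤ 1)
    (hκ : ∫ x in (0 : ℝ)..1, ‖TS q (fun _ => 1) x‖ ≤ κ) (hτ : 0 < τ) :
    |(q : ℝ)⁻¹ * ∑ k ∈ range q, (s - ∑ χ ∈ X, w χ * φ χ k) * (1 - (s - ∑ χ ∈ X, w χ * φ χ k)) -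
      (s - (s ^ 2 + ∑ χ ∈ X, w χ ^ 2 * m χ))| ≤
      (1 / 2 * ((X.card : ℝ) ^ 2 * ε / τ + τ) + c * κ) +
      ((X.card : ℝ) ^ 2 * ε + (X.card : ℝ) ^ 2 * ε / τ + τ * c ^ 2) + X.card * (c ^ 2 * ε) := by
  set g : ℕ → ℝ := fun k => ∑ χ ∈ X, w χ * φ χ k with hg
  have hQm : Measurable (fun x => (c : ℂ) * QQ X M u w x) :=
    measurable_const.mul (measurable_QQ X hu hM w)
  have hQc : ∀ x, ‖(c : ℂ) * QQ X M u w x‖ ≤ c := by
    intro x
    rw [norm_mul, Complex.norm_real, Real.norm_of_nonneg hc]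
    exact mul_le_of_le_one_right hc (norm_QQ_le X hn hX w hw x)
  have h0 := gw X hu hM hn q φ c h w hw
  have h1 := mean_bound hq g _ hQm hQc hτ h0 hκ
  have h2 := second_bound g _ hQm hQc hτ h0
  have h3 : ∫ x in (0 : ℝ)..1, ‖(c : ℂ) * QQ X M u w x‖ ^ 2 =
      ∑ χ ∈ X, w χ ^ 2 * (c ^ 2 * ∫ x in (0 : ℝ)..1, (if M x = some χ then (1 : ℝ) else 0)) := by
    have h4 : ∀ x, ‖(c : ℂ) * QQ X M u w x‖ ^ 2 = c ^ 2 * ‖QQ X M u w x‖ ^ 2 := by
      intro x
      rw [norm_mul, Complex.norm_real, Real.norm_eq_abs, mul_pow, sq_abs]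
    simp_rw [h4]
    rw [intervalIntegral.integral_const_mul, integral_QQ_sq X hn hM hX w, Finset.mul_sum]
    refine Finset.sum_congr rfl fun χ _ => ?_
    ring
  have h5 : |(∫ x in (0 : ℝ)..1, ‖(c : ℂ) * QQ X M u w x‖ ^ 2) - ∑ χ ∈ X, w χ ^ 2 * m χ| ≤
      X.card * (c ^ 2 * ε) := by
    rw [h3, ← Finset.sum_sub_distrib]
    calc |∑ χ ∈ X, (w χ ^ 2 * (c ^ 2 * ∫ x in (0 : ℝ)..1, (if M x = some χ then (1 : ℝ) else 0)) -
          w χ ^ 2 * m χ)| ≤ ∑ χ ∈ X, |w χ ^ 2 * (c ^ 2 * ∫ x in (0 : ℝ)..1,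
            (if M x = some χ then (1 : ℝ) else 0)) - w χ ^ 2 * m χ| :=
          Finset.abs_sum_le_sum_abs _ _
      _ ≤ ∑ χ ∈ X, c ^ 2 * ε := by
          refine Finset.sum_le_sum fun χ hχ => ?_
          rw [← mul_sub, abs_mul, abs_pow]
          calc |w χ| ^ 2 * |c ^ 2 * (∫ x in (0 : ℝ)..1, (if M x = some χ then (1 : ℝ) else 0)) -
              m χ| ≤ 1 * (c ^ 2 * ε) := by
                apply mul_le_mul _ (hvol χ hχ) (abs_nonneg _) zero_le_one
                exact pow_le_one₀ (abs_nonneg _) (hw χ hχ)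
            _ = c ^ 2 * ε := one_mul _
      _ = X.card * (c ^ 2 * ε) := by rw [Finset.sum_const, nsmul_eq_mul]
  have hq0 : (q : ℝ) ≠ 0 := by positivity
  have h6 : (q : ℝ)⁻¹ * ∑ k ∈ range q, (s - g k) * (1 - (s - g k)) =
      s - s ^ 2 + (2 * s - 1) * ((q : ℝ)⁻¹ * ∑ k ∈ range q, g k) -
        (q : ℝ)⁻¹ * ∑ k ∈ range q, g k ^ 2 := by
    have h7 : ∀ k, (s - g k) * (1 - (s - g k)) = (s - s ^ 2) + (2 * s - 1) * g k - g k ^ 2 := by
      intro k
      ring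
    simp_rw [h7]
    rw [Finset.sum_sub_distrib, Finset.sum_add_distrib, ← Finset.mul_sum, Finset.sum_const,
      card_range, nsmul_eq_mul]
    field_simp
  have h8 : (q : ℝ)⁻¹ * ∑ k ∈ range q, (s - ∑ χ ∈ X, w χ * φ χ k) *
      (1 - (s - ∑ χ ∈ X, w χ * φ χ k)) - (s - (s ^ 2 + ∑ χ ∈ X, w χ ^ 2 * m χ)) =
      (2 * s - 1) * ((q : ℝ)⁻¹ * ∑ k ∈ range q, g k) -
      ((q : ℝ)⁻¹ * ∑ k ∈ range q, g k ^ 2 - ∫ x in (0 : ℝ)..1, ‖(c : ℂ) * QQ X M u w x‖ ^ 2) -
      ((∫ x in (0 : ℝ)..1, ‖(c : ℂ) * QQ X M u w x‖ ^ 2) - ∑ χ ∈ X, w χ ^ 2 * m χ) := by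
    rw [h6]
    ring
  rw [h8]
  have h9 : |(2 * s - 1) * ((q : ℝ)⁻¹ * ∑ k ∈ range q, g k)| ≤
      1 / 2 * ((X.card : ℝ) ^ 2 * ε / τ + τ) + c * κ := by
    rw [abs_mul]
    refine le_trans ?_ h1
    apply mul_le_of_le_one_left (abs_nonneg _)
    rw [abs_le]
    constructor <;> linarith
  calc _ ≤ |(2 * s - 1) * ((q : ℝ)⁻¹ * ∑ k ∈ range q, g k) -
      ((q : ℝ)⁻¹ * ∑ k ∈ range q, g k ^ 2 - ∫ x in (0 : ℝ)..1, ‖(c : ℂ) * QQ X M u w x‖ ^ 2)| +
      |(∫ x in (0 : ℝ)..1, ‖(c : ℂ) * QQ X M u w x‖ ^ 2) - ∑ χ ∈ X, w χ ^ 2 * m χ| := abs_sub _ _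
    _ ≤ (|(2 * s - 1) * ((q : ℝ)⁻¹ * ∑ k ∈ range q, g k)| +
      |(q : ℝ)⁻¹ * ∑ k ∈ range q, g k ^ 2 - ∫ x in (0 : ℝ)..1, ‖(c : ℂ) * QQ X M u w x‖ ^ 2|) +
      |(∫ x in (0 : ℝ)..1, ‖(c : ℂ) * QQ X M u w x‖ ^ 2) - ∑ χ ∈ X, w χ ^ 2 * m χ| := by
        gcongr
        exact abs_sub _ _
    _ ≤ _ := by
        gcongr

end

theorem alv_formula (p : ℝ) (f : ℕ → ℝ) (n : ℕ) :
    alv p f n = (1 - p) ^ n - ∑ j ∈ range n, (1 - p) ^ (n - 1 - j) * f j := by
  induction n with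
  | zero => simp [alv_zero]
  | succ n ih =>
    rw [alv_succ, ih, Finset.sum_range_succ]
    have h1 : ∑ j ∈ range n, (1 - p) ^ (n + 1 - 1 - j) * f j =
        (1 - p) * ∑ j ∈ range n, (1 - p) ^ (n - 1 - j) * f j := by
      rw [Finset.mul_sum]
      refine Finset.sum_congr rfl fun j hj => ?_
      have h2 : n + 1 - 1 - j = (n - 1 - j) + 1 := by
        have := mem_range.mp hj
        omega
      rw [h2, pow_succ]
      ring
    rw [h1]
    have h3 : n + 1 - 1 - n = 0 := by omega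
    rw [h3]
    ring

/-- rounding count -/
theorem lt_card_iff {K : ℕ} (A : ℕ → ℝ) (hA : ∀ i < K, A (i + 1) ≤ A i) {i : ℕ} (hi : i < K) :
    i < ((range K).filter (fun i => 1 / 2 < A (i + 1))).card ↔ 1 / 2 < A (i + 1) := by
  have hmono : ∀ j i, i ≤ j → j < K → A (j + 1) ≤ A (i + 1) := by
    intro j i hij
    induction j, hij using Nat.le_induction with
    | base => intro _; exact le_rfl
    | succ j hj ih =>
      intro h
      exact (hA (j + 1) h).trans (ih (by omega))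
  constructor
  · intro h
    by_contra hcon
    have h1 : (range K).filter (fun i => 1 / 2 < A (i + 1)) ⊆ range i := by
      intro j hj
      rw [mem_filter, mem_range] at hj
      rw [mem_range]
      by_contra h2
      have := hmono j i (by omega) hj.1
      exact hcon (lt_of_lt_of_le hj.2 this)
    have h2 := card_le_card h1
    rw [card_range] at h2
    omega
  · intro h
    have h1 : range (i + 1) ⊆ (range K).filter (fun i => 1 / 2 < A (i + 1)) := by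
      intro j hj
      rw [mem_range] at hj
      rw [mem_filter, mem_range]
      exact ⟨by omega, lt_of_lt_of_le h (hmono i j (by omega) hi)⟩
    have h2 := card_le_card h1
    rw [card_range] at h2
    omega

theorem round_sq {A : ℝ} (h0 : 0 ≤ A) (h1 : A ≤ 1) :
    ((if 1 / 2 < A then (1 : ℝ) else 0) - A) ^ 2 ≤ A * (1 - A) := by
  split_ifs with h
  · nlinarith
  · nlinarith only [h0, h]

/-- one coefficient -/
theorem coeff_bound {p a b r s : ℝ} (hp0 : 0 < p) (hp1 : p < 1) :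
    (((1 - p) * r - s) - ((1 - p) * a - b)) ^ 2 ≤ 2 * ((r - a) ^ 2 + (s - b) ^ 2) := by
  have h1 : (((1 - p) * r - s) - ((1 - p) * a - b)) ^ 2 ≤
      2 * (((1 - p) * (r - a)) ^ 2 + (s - b) ^ 2) := by
    linarith only [sq_nonneg ((1 - p) * (r - a) + (s - b))]
  have h2 : ((1 - p) * (r - a)) ^ 2 ≤ (r - a) ^ 2 := by
    rw [mul_pow]
    apply mul_le_of_le_one_left (sq_nonneg _)
    apply pow_le_one₀ <;> linarith
  linarith

end Vale.Agent.P130R.Round
end

section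

/-!
# P130R, ROUND, part E: labels, masses
-/

set_option autoImplicit false

namespace Vale.Agent.P130R.Round

open Finset MeasureTheory Filter Topology
open Vale.Agent.P110 (e dot GoodSet)

/-- weight of a mode in the surviving mass after step `i` -/
noncomputable def wt {ι : Type*} (p : ℝ) (lab : ι → ℕ) (i : ℕ) (χ : ι) : ℝ :=
  if lab χ < i + 1 then (1 - p) ^ (i - lab χ) else 0

theorem abs_wt_le {ι : Type*} {p : ℝ} (hp0 : 0 < p) (hp1 : p < 1) (lab : ι → ℕ) (i : ℕ) (χ : ι) :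
    |wt p lab i χ| ≤ 1 := by
  unfold wt
  split_ifs
  · rw [abs_of_nonneg (pow_nonneg (by linarith) _)]
    exact pow_le_one₀ (by linarith) (by linarith)
  · simp

/-- label of a frequency; `K` means no label -/
def lb {ι : Type*} (K : ℕ) (lab : ι → ℕ) (M : ℝ → Option ι) (x : ℝ) : ℕ :=
  (M x).elim K lab

theorem measurable_lb {ι : Type*} [Countable ι] (K : ℕ) (lab : ι → ℕ) {M : ℝ → Option ι}
    (hM : ∀ χ, MeasurableSet {x | M x = some χ}) : Measurable (lb K lab M) := by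
  apply measurable_to_countable'
  intro n
  have h0 : MeasurableSet {x | M x = none} := by
    have : {x | M x = none} = (⋃ χ, {x | M x = some χ})ᶜ := by
      ext x
      simp only [Set.mem_ofPred_eq, Set.mem_compl_iff, Set.mem_iUnion]
      cases M x <;> simp
    rw [this]
    exact (MeasurableSet.iUnion hM).compl
  have h1 : lb K lab M ⁻¹' {n} = {x | M x = none ∧ K = n} ∪ ⋃ χ, {x | M x = some χ ∧ lab χ = n} := by
    ext x
    simp only [Set.mem_preimage, Set.mem_singleton_iff, Set.mem_union, Set.mem_ofPred_eq,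
      Set.mem_iUnion]
    unfold lb
    cases M x <;> simp
  rw [h1]
  apply MeasurableSet.union
  · by_cases h : K = n
    · simpa [h] using h0
    · simp [h]
  · apply MeasurableSet.iUnion
    intro χ
    by_cases h : lab χ = n
    · simpa [h] using hM χ
    · simp [h]

theorem alv_eq {d : ℕ} (p : ℝ) (X : Finset (Fin d → ℤ)) (a : (Fin d → ℤ) → ℝ)
    (lab : (Fin d → ℤ) → ℕ) (γ : Fin d → ℝ) (i : ℕ) :
    alv p (fl X a lab γ) (i + 1) = (1 - p) ^ (i + 1) -
      ∑ χ ∈ X, wt p lab i χ * (2 * a χ * Real.cos (2 * Real.pi * ∑ j, χ j * γ j)) := by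
  rw [alv_formula]
  congr 1
  unfold fl
  rw [sum_lab X lab (fun j => (1 - p) ^ (i + 1 - 1 - j))]
  refine Finset.sum_congr rfl fun χ _ => ?_
  unfold wt
  simp

theorem mass_eq {d : ℕ} (p : ℝ) (X : Finset (Fin d → ℤ)) (a : (Fin d → ℤ) → ℝ)
    (lab : (Fin d → ℤ) → ℕ) (i : ℕ) :
    ∑ j ∈ range (i + 1), (1 - p) ^ (2 * (i - j)) * ml X a lab j =
      ∑ χ ∈ X, wt p lab i χ ^ 2 * (2 * a χ ^ 2) := by
  unfold ml
  rw [sum_lab X lab (fun j => (1 - p) ^ (2 * (i - j)))]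
  refine Finset.sum_congr rfl fun χ _ => ?_
  unfold wt
  split_ifs
  · rw [← pow_mul, mul_comm 2]
  · simp

theorem total_mass {d : ℕ} (X : Finset (Fin d → ℤ)) (a : (Fin d → ℤ) → ℝ)
    (lab : (Fin d → ℤ) → ℕ) {K : ℕ} (hlab : ∀ χ ∈ X, lab χ < K) :
    ∑ i ∈ range K, ml X a lab i = 2 * ∑ χ ∈ X, a χ ^ 2 := by
  have h := sum_lab X lab (fun _ => 1) (fun χ => 2 * a χ ^ 2) K
  simp only [one_mul] at h
  unfold ml
  rw [h, Finset.mul_sum]
  refine Finset.sum_congr rfl fun χ hχ => ?_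
  rw [if_pos (hlab χ hχ), one_mul]

theorem geom_mass (p : ℝ) (n : ℕ) :
    ∑ i ∈ range n, p * (1 - p) ^ (i + 1) = (1 - p) * (1 - (1 - p) ^ n) := by
  induction n with
  | zero => simp
  | succ n ih =>
    rw [Finset.sum_range_succ, ih]
    ring

/-- the masses are nearly geometric -/
theorem mass_bound {p : ℝ} (hp0 : 0 < p) (hp1 : p < 1) {K : ℕ} {δ : ℝ} (hδ : 0 ≤ δ) (m : ℕ → ℝ)
    (h : ∀ i < K, |(1 - p) ^ (i + 1) - ((1 - p) ^ (2 * (i + 1)) +
      ∑ j ∈ range (i + 1), (1 - p) ^ (2 * (i - j)) * m j)| ≤ δ) {i : ℕ} (hi : i < K) :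
    |m i - p * (1 - p) ^ (i + 1)| ≤ 2 * δ := by
  rcases i with _ | i
  · have h1 := h 0 hi
    rw [Finset.sum_range_one] at h1
    simp only [zero_add, mul_one, pow_one, Nat.sub_zero, mul_zero, pow_zero, one_mul] at h1 ⊢
    rw [abs_sub_comm]
    have h2 : p * (1 - p) - m 0 = 1 - p - ((1 - p) ^ 2 + m 0) := by ring
    rw [h2]
    linarith
  · have h1 := h (i + 1) hi
    have h2 := h i (by omega)
    rw [Finset.sum_range_succ] at h1
    have h3 : ∑ j ∈ range (i + 1), (1 - p) ^ (2 * (i + 1 - j)) * m j =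
        (1 - p) ^ 2 * ∑ j ∈ range (i + 1), (1 - p) ^ (2 * (i - j)) * m j := by
      rw [Finset.mul_sum]
      refine Finset.sum_congr rfl fun j hj => ?_
      have h4 : 2 * (i + 1 - j) = 2 * (i - j) + 2 := by
        have := mem_range.mp hj
        omega
      rw [h4, pow_add]
      ring
    rw [h3] at h1
    simp only [Nat.sub_self, mul_zero, pow_zero, one_mul] at h1
    set R := ∑ j ∈ range (i + 1), (1 - p) ^ (2 * (i - j)) * m j
    have h5 : m (i + 1) - p * (1 - p) ^ (i + 1 + 1) =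
        -((1 - p) ^ (i + 1 + 1) - ((1 - p) ^ (2 * (i + 1 + 1)) + ((1 - p) ^ 2 * R + m (i + 1)))) +
        (1 - p) ^ 2 * ((1 - p) ^ (i + 1) - ((1 - p) ^ (2 * (i + 1)) + R)) := by
      ring
    rw [h5]
    refine (abs_add_le _ _).trans ?_
    rw [abs_neg, abs_mul]
    have h6 : |(1 - p) ^ 2| ≤ 1 := by
      rw [abs_of_nonneg (sq_nonneg _)]
      apply pow_le_one₀ <;> linarith
    have h7 := mul_le_mul h6 h2 (abs_nonneg _) zero_le_one
    linarith

end Vale.Agent.P130R.Round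
end

section

/-!
# P130R, ROUND, part F: rounding, spectrum, volumes, parameters
-/

set_option autoImplicit false

namespace Vale.Agent.P130R

open Finset MeasureTheory Filter Topology
open Vale.Agent.P110 (e dot GoodSet)

namespace Round

/-- rounded coefficient -/
noncomputable def xi (p : ℝ) (S : ℕ → ℕ) (i k : ℕ) : ℝ :=
  (1 - p) * (if i ≤ S k then 1 else 0) - (if i < S k then 1 else 0)

/-- number of spacers -/
noncomputable def SS (K : ℕ) (A : ℕ → ℕ → ℝ) (k : ℕ) : ℕ :=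
  if k = 0 then 0 else ((range K).filter (fun i => 1 / 2 < A k (i + 1))).card

theorem xi_bound {p : ℝ} (hp0 : 0 < p) (hp1 : p < 1) {K : ℕ} {A : ℕ → ℕ → ℝ}
    (hA0 : ∀ k, A k 0 = 1) (hA : ∀ k, ∀ i < K, 0 ≤ A k (i + 1) ∧ A k (i + 1) ≤ A k i)
    (hA1 : ∀ k, ∀ i ≤ K, 0 ≤ A k i ∧ A k i ≤ 1) {i : ℕ} (hi : i < K) (k : ℕ) :
    (xi p (SS K A) i k - ((1 - p) * A k i - A k (i + 1))) ^ 2 ≤
      (if k = 0 then 4 else 0) + 2 * (A k i * (1 - A k i) + A k (i + 1) * (1 - A k (i + 1))) := by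
  have h1 := hA1 k i hi.le
  have h2 := hA1 k (i + 1) hi
  have h3 := hA k i hi
  have h4 : 0 ≤ A k i * (1 - A k i) := mul_nonneg h1.1 (by linarith [h1.2])
  have h5 : 0 ≤ A k (i + 1) * (1 - A k (i + 1)) := mul_nonneg h2.1 (by linarith [h2.2])
  by_cases hk : k = 0
  · rw [if_pos hk]
    have h6 : SS K A k = 0 := by simp [SS, hk]
    have h7 : 0 ≤ xi p (SS K A) i k ∧ xi p (SS K A) i k ≤ 1 := by
      unfold xi
      rw [h6]
      simp only [Nat.not_lt_zero, if_false, sub_zero]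
      split_ifs <;> constructor <;> linarith
    have h8 : (1 - p) * A k i - A k (i + 1) ≤ 1 := by nlinarith only [hp0, h1, h2]
    have h9 : -1 ≤ (1 - p) * A k i - A k (i + 1) := by nlinarith only [hp0, hp1, h1, h3]
    have h10 : (xi p (SS K A) i k - ((1 - p) * A k i - A k (i + 1))) ^ 2 ≤ 4 := by
      nlinarith only [hp0, hp1, h7, h8, h9]
    linarith
  · rw [if_neg hk, zero_add]
    have h6 : SS K A k = ((range K).filter (fun i => 1 / 2 < A k (i + 1))).card := by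
      simp [SS, hk]
    have h7 : (i < SS K A k) ↔ 1 / 2 < A k (i + 1) := by
      rw [h6]
      exact lt_card_iff (A k) (fun j hj => (hA k j hj).2) hi
    have h8 : (i ≤ SS K A k) ↔ 1 / 2 < A k i := by
      rcases i with _ | i
      · simp only [Nat.zero_le, true_iff]
        rw [hA0]
        norm_num
      · rw [h6]
        exact lt_card_iff (A k) (fun j hj => (hA k j hj).2) (by omega)
    unfold xi
    simp only [h7, h8]
    refine (coeff_bound hp0 hp1).trans ?_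
    have h9 := round_sq h1.1 h1.2
    have h10 := round_sq h2.1 h2.2
    linarith only [h9, h10]

theorem sum_xi_bound {p : ℝ} (hp0 : 0 < p) (hp1 : p < 1) {K : ℕ} {A : ℕ → ℕ → ℝ}
    (hA0 : ∀ k, A k 0 = 1) (hA : ∀ k, ∀ i < K, 0 ≤ A k (i + 1) ∧ A k (i + 1) ≤ A k i)
    (hA1 : ∀ k, ∀ i ≤ K, 0 ≤ A k i ∧ A k i ≤ 1) {q : ℕ} {δ : ℝ} (hq : 8 ≤ δ * q)
    (hq1 : 1 ≤ q)
    (hB : ∀ i ≤ K, (q : ℝ)⁻¹ * ∑ k ∈ range q, A k i * (1 - A k i) ≤ 2 * δ)
    {i : ℕ} (hi : i < K) :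
    (q : ℝ)⁻¹ * ∑ k ∈ range q, (xi p (SS K A) i k - ((1 - p) * A k i - A k (i + 1))) ^ 2 ≤
      9 * δ := by
  have hq0 : (0 : ℝ) < q := by exact_mod_cast hq1
  have h1 : ∑ k ∈ range q, (xi p (SS K A) i k - ((1 - p) * A k i - A k (i + 1))) ^ 2 ≤
      4 + 2 * (∑ k ∈ range q, A k i * (1 - A k i) +
        ∑ k ∈ range q, A k (i + 1) * (1 - A k (i + 1))) := by
    calc _ ≤ ∑ k ∈ range q, ((if k = 0 then (4 : ℝ) else 0) +
          2 * (A k i * (1 - A k i) + A k (i + 1) * (1 - A k (i + 1)))) :=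
          Finset.sum_le_sum fun k _ => xi_bound hp0 hp1 hA0 hA hA1 hi k
      _ = _ := by
        rw [Finset.sum_add_distrib, ← Finset.mul_sum, Finset.sum_add_distrib]
        congr 1
        rw [Finset.sum_ite_eq' (range q) 0]
        rw [if_pos (mem_range.mpr (by omega))]
  have h2 := mul_le_mul_of_nonneg_left h1 (inv_nonneg.mpr hq0.le)
  have h3 := hB i hi.le
  have h4 := hB (i + 1) hi
  have h5 : (q : ℝ)⁻¹ * 4 ≤ δ := by
    rw [inv_mul_le_iff₀ hq0]
    linarith only [hp0, hp1, hq]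
  have h6 : (q : ℝ)⁻¹ * (4 + 2 * (∑ k ∈ range q, A k i * (1 - A k i) +
        ∑ k ∈ range q, A k (i + 1) * (1 - A k (i + 1)))) = (q : ℝ)⁻¹ * 4 +
        2 * ((q : ℝ)⁻¹ * ∑ k ∈ range q, A k i * (1 - A k i)) +
        2 * ((q : ℝ)⁻¹ * ∑ k ∈ range q, A k (i + 1) * (1 - A k (i + 1))) := by ring
  rw [h6] at h2
  linarith only [h2, h3, h4, h5]

theorem lb_some {ι : Type*} {K : ℕ} {lab : ι → ℕ} {M : ℝ → Option ι} {x : ℝ} {χ : ι} (h : M x = some χ) :
    lb K lab M x = lab χ := by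
  unfold lb
  rw [h]
  rfl

theorem lb_none {ι : Type*} {K : ℕ} {lab : ι → ℕ} {M : ℝ → Option ι} {x : ℝ} (h : M x = none) :
    lb K lab M x = K := by
  unfold lb
  rw [h]
  rfl

section
variable {ι : Type*} [DecidableEq ι]

/-- spectrum of a small perturbation of a weighted sum of modes -/
theorem spec_bound (X : Finset ι) {M : ℝ → Option ι} {u : ℝ → ℂ} (hu : Measurable u)
    (hM : ∀ χ, MeasurableSet {x | M x = some χ}) (hn : ∀ x, ‖u x‖ = 1)
    (hX : ∀ x χ, M x = some χ → χ ∈ X)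
    {q : ℕ} (φ : ι → ℕ → ℝ) {c : ℝ} (hc0 : 0 ≤ c) {ε : ℝ}
    (h : ∀ χ ∈ X, ∫ x in (0 : ℝ)..1, ‖TS q (fun k => (φ χ k : ℂ)) x -
      (c : ℂ) * (if M x = some χ then u x else 0)‖ ^ 2 ≤ ε)
    (w : ι → ℝ) (hw : ∀ χ ∈ X, |w χ| ≤ 1) (ξ f : ℕ → ℝ)
    (hf : ∀ k, f k = ∑ χ ∈ X, w χ * φ χ k) {D : ℝ}
    (hξ : (q : ℝ)⁻¹ * ∑ k ∈ range q, (ξ k - f k) ^ 2 ≤ D) :
    ∫ x in (0 : ℝ)..1, ‖TS q (fun k => (ξ k : ℂ)) x - (c : ℂ) * QQ X M u w x‖ ^ 2 ≤
      2 * D + 2 * ((X.card : ℝ) ^ 2 * ε) := by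
  have h1 := gw X hu hM hn q φ c h w hw
  simp_rw [← hf] at h1
  have h3 : ∫ x in (0 : ℝ)..1, ‖TS q (fun k => ((ξ k - f k : ℝ) : ℂ)) x‖ ^ 2 ≤ D := by
    rw [parseval]
    simp_rw [Complex.norm_real, Real.norm_eq_abs, sq_abs]
    exact hξ
  have hmQ : Measurable (fun x => (c : ℂ) * QQ X M u w x) :=
    measurable_const.mul (measurable_QQ X hu hM _)
  have hbQ : ∀ x, ‖(c : ℂ) * QQ X M u w x‖ ≤ c := by
    intro x
    rw [norm_mul, Complex.norm_real, Real.norm_of_nonneg hc0]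
    exact mul_le_of_le_one_right hc0 (norm_QQ_le X hn hX _ hw x)
  have hi1 : IntervalIntegrable (fun x => ‖TS q (fun k => (f k : ℂ)) x -
      (c : ℂ) * QQ X M u w x‖ ^ 2) volume 0 1 := by
    refine ii (C := ((Real.sqrt q)⁻¹ * ∑ k ∈ range q, ‖(f k : ℂ)‖ + c) ^ 2) ?_ ?_ _ _
    · exact (((continuous_TS _ _).measurable.sub hmQ).norm).pow_const 2
    · intro x
      rw [Real.norm_of_nonneg (by positivity)]
      refine pow_le_pow_left₀ (norm_nonneg _) ?_ 2
      exact (norm_sub_le _ _).trans (add_le_add (norm_TS_le q _ x) (hbQ x))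
  have hi2 : IntervalIntegrable (fun x => ‖TS q (fun k => ((ξ k - f k : ℝ) : ℂ)) x‖ ^ 2)
      volume 0 1 := by
    apply Continuous.intervalIntegrable
    exact ((continuous_TS _ _).norm).pow 2
  have h4 : ∫ x in (0 : ℝ)..1, ‖TS q (fun k => (ξ k : ℂ)) x -
      (c : ℂ) * QQ X M u w x‖ ^ 2 ≤
      ∫ x in (0 : ℝ)..1, (2 * ‖TS q (fun k => ((ξ k - f k : ℝ) : ℂ)) x‖ ^ 2 +
        2 * ‖TS q (fun k => (f k : ℂ)) x - (c : ℂ) * QQ X M u w x‖ ^ 2) := by
    apply intervalIntegral.integral_mono_on zero_le_one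
    · refine ii (C := ((Real.sqrt q)⁻¹ * ∑ k ∈ range q, ‖(ξ k : ℂ)‖ + c) ^ 2)
        ?_ ?_ _ _
      · exact (((continuous_TS _ _).measurable.sub hmQ).norm).pow_const 2
      · intro x
        rw [Real.norm_of_nonneg (by positivity)]
        refine pow_le_pow_left₀ (norm_nonneg _) ?_ 2
        exact (norm_sub_le _ _).trans (add_le_add (norm_TS_le q _ x) (hbQ x))
    · exact (hi2.const_mul 2).add (hi1.const_mul 2)
    · intro x _
      have h5 : TS q (fun k => (ξ k : ℂ)) x =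
          TS q (fun k => ((ξ k - f k : ℝ) : ℂ)) x + TS q (fun k => (f k : ℂ)) x := by
        rw [← TS_add]
        congr 1
        ext k
        push_cast
        ring
      rw [h5, add_sub_assoc]
      have h6 : ∀ z w : ℂ, ‖z + w‖ ^ 2 ≤ 2 * ‖z‖ ^ 2 + 2 * ‖w‖ ^ 2 := by
        intro z w
        have h7 := norm_add_le z w
        have h8 := pow_le_pow_left₀ (norm_nonneg _) h7 2
        linarith only [sq_nonneg (‖z‖ - ‖w‖), h8]
      exact h6 _ _
  rw [intervalIntegral.integral_add (hi2.const_mul 2) (hi1.const_mul 2),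
    intervalIntegral.integral_const_mul, intervalIntegral.integral_const_mul] at h4
  linarith

theorem vol_no_label [Countable ι] (X : Finset ι) {M : ℝ → Option ι}
    (hM : ∀ χ, MeasurableSet {x | M x = some χ}) (hX : ∀ x χ, M x = some χ → χ ∈ X)
    {K : ℕ} {lab : ι → ℕ} (hlab : ∀ χ ∈ X, lab χ < K) {C e m : ℝ} (hC : 0 < C) (μ : ι → ℝ)
    (hμ : ∑ χ ∈ X, μ χ = C) (hm : m = X.card)
    (hvol : ∀ χ ∈ X, |C * (∫ x in (0 : ℝ)..1, (if M x = some χ then (1 : ℝ) else 0)) - μ χ| ≤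
      C * e) :
    (volume {x : ℝ | 0 ≤ x ∧ x < 1 ∧ lb K lab M x = K}).toReal ≤ m * e := by
  have h1 : (volume {x : ℝ | 0 ≤ x ∧ x < 1 ∧ lb K lab M x = K}).toReal =
      1 - ∑ χ ∈ X, (∫ x in (0 : ℝ)..1, (if M x = some χ then (1 : ℝ) else 0)) := by
    rw [vol_eq (fun x => lb K lab M x = K) (measurable_lb K lab hM (measurableSet_singleton K))]
    have h2 : ∀ x, (if lb K lab M x = K then (1 : ℝ) else 0) =
        1 - ∑ χ ∈ X, 1 * (if M x = some χ then (1 : ℝ) else 0) := by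
      intro x
      rcases h : M x with _ | χ
      · rw [lb_none h, if_pos rfl]
        simp
      · have h3 := sum_some X (fun _ => (1 : ℝ)) h (hX x χ h)
        rw [← h, h3, lb_some h, if_neg (by have := hlab χ (hX x χ h); omega)]
        norm_num
    simp_rw [h2]
    rw [intervalIntegral.integral_sub, integral_sum_ite X hM (fun _ => 1)]
    · simp
    · exact intervalIntegrable_const
    · refine ((IntervalIntegrable.sum X (fun χ _ => ii_ite hM χ))).congr ?_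
      intro x _
      simp [Finset.sum_apply]
  rw [h1]
  have h2 : C * (1 - ∑ χ ∈ X, (∫ x in (0 : ℝ)..1, (if M x = some χ then (1 : ℝ) else 0))) ≤
      C * (m * e) := by
    calc C * (1 - ∑ χ ∈ X, (∫ x in (0 : ℝ)..1, (if M x = some χ then (1 : ℝ) else 0))) =
        ∑ χ ∈ X, (μ χ - C * (∫ x in (0 : ℝ)..1, (if M x = some χ then (1 : ℝ) else 0))) := by
          rw [Finset.sum_sub_distrib, ← Finset.mul_sum, hμ]
          ring
      _ ≤ ∑ χ ∈ X, C * e := Finset.sum_le_sum fun χ hχ => by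
          have := (abs_le.mp (hvol χ hχ)).1
          linarith
      _ = C * (m * e) := by
          rw [Finset.sum_const, nsmul_eq_mul, hm]
          ring
  exact le_of_mul_le_mul_left h2 hC

theorem vol_label [Countable ι] (X : Finset ι) {M : ℝ → Option ι}
    (hM : ∀ χ, MeasurableSet {x | M x = some χ}) (hX : ∀ x χ, M x = some χ → χ ∈ X)
    {K : ℕ} {lab : ι → ℕ} {C e m : ℝ} (hC : 0 < C) (he : 0 ≤ e) (μ : ι → ℝ)
    (hm : m = X.card)
    (hvol : ∀ χ ∈ X, |C * (∫ x in (0 : ℝ)..1, (if M x = some χ then (1 : ℝ) else 0)) - μ χ| ≤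
      C * e) {i : ℕ} (hi : i < K) :
    (volume {x : ℝ | 0 ≤ x ∧ x < 1 ∧ lb K lab M x = i}).toReal * C ≤
      ∑ χ ∈ X.filter (fun χ => lab χ = i), μ χ + m * (C * e) := by
  have hLi : ∀ x, (if lb K lab M x = i then (1 : ℝ) else 0) =
      ∑ χ ∈ X, (if lab χ = i then (1 : ℝ) else 0) * (if M x = some χ then (1 : ℝ) else 0) := by
    intro x
    rcases h : M x with _ | χ
    · rw [lb_none h, if_neg (by omega)]
      simp
    · rw [lb_some h, ← h, sum_some X (fun χ => if lab χ = i then (1 : ℝ) else 0) h (hX x χ h)]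
  have h1 : (volume {x : ℝ | 0 ≤ x ∧ x < 1 ∧ lb K lab M x = i}).toReal =
      ∑ χ ∈ X, (if lab χ = i then (1 : ℝ) else 0) *
        (∫ x in (0 : ℝ)..1, (if M x = some χ then (1 : ℝ) else 0)) := by
    rw [vol_eq (fun x => lb K lab M x = i) (measurable_lb K lab hM (measurableSet_singleton i))]
    simp_rw [hLi]
    rw [integral_sum_ite X hM]
  rw [h1, Finset.sum_filter, Finset.sum_mul]
  calc ∑ χ ∈ X, (if lab χ = i then (1 : ℝ) else 0) *
        (∫ x in (0 : ℝ)..1, (if M x = some χ then (1 : ℝ) else 0)) * C ≤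
      ∑ χ ∈ X, ((if lab χ = i then μ χ else 0) + C * e) := by
        refine Finset.sum_le_sum fun χ hχ => ?_
        have h4 := (abs_le.mp (hvol χ hχ)).2
        split_ifs
        · linarith
        · have : 0 ≤ C * e := by positivity
          linarith
    _ = _ := by
        rw [Finset.sum_add_distrib, Finset.sum_const, nsmul_eq_mul, hm]

end

/-- choice of the small parameters -/
theorem exists_params {c N δ η : ℝ} (hc0 : 0 ≤ c) (hN0 : 0 ≤ N) (hδ0 : 0 < δ) (hδη : 64 * δ ≤ η) :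
    ∃ τ κ ε : ℝ, 0 < τ ∧ τ ≤ 1 ∧ 8 * τ * (1 + c ^ 2) ≤ δ ∧ 0 < κ ∧ 8 * (c * κ) ≤ δ ∧ 0 < ε ∧
      N ^ 2 * ε ≤ τ ^ 2 ∧ 4 * (N * (c ^ 2 * ε)) ≤ δ ∧ N * ε ≤ η := by
  obtain ⟨τ, hτ0, hτ1, hτδ⟩ : ∃ τ : ℝ, 0 < τ ∧ τ ≤ 1 ∧ 8 * τ * (1 + c ^ 2) ≤ δ := by
    refine ⟨min 1 (δ / (8 * (1 + c ^ 2))), by positivity, min_le_left _ _, ?_⟩
    have h1 := min_le_right (1 : ℝ) (δ / (8 * (1 + c ^ 2)))
    rw [le_div_iff₀ (by positivity)] at h1
    linarith
  obtain ⟨κ, hκ0, hκδ⟩ : ∃ κ : ℝ, 0 < κ ∧ 8 * (c * κ) ≤ δ := by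
    refine ⟨δ / (8 * (1 + c)), by positivity, ?_⟩
    rw [mul_div_assoc', mul_div_assoc', div_le_iff₀ (by positivity)]
    linarith only [hδ0]
  refine ⟨τ, κ, min (τ ^ 2 / (1 + N) ^ 2) (δ / (4 * (1 + c ^ 2) * (1 + N))), hτ0, hτ1, hτδ, hκ0,
    hκδ, by positivity, ?_, ?_, ?_⟩
  · have h1 := min_le_left (τ ^ 2 / (1 + N) ^ 2) (δ / (4 * (1 + c ^ 2) * (1 + N)))
    rw [le_div_iff₀ (by positivity)] at h1
    refine le_trans ?_ h1
    rw [mul_comm]
    apply mul_le_mul_of_nonneg_left _ (by positivity)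
    linarith only [hN0]
  · have h1 := min_le_right (τ ^ 2 / (1 + N) ^ 2) (δ / (4 * (1 + c ^ 2) * (1 + N)))
    rw [le_div_iff₀ (by positivity)] at h1
    refine le_trans ?_ h1
    have h2 : 0 < min (τ ^ 2 / (1 + N) ^ 2) (δ / (4 * (1 + c ^ 2) * (1 + N))) := by positivity
    have h3 : N * c ^ 2 ≤ (1 + c ^ 2) * (1 + N) := by nlinarith only [hN0]
    have h4 := mul_le_mul_of_nonneg_right h3 h2.le
    linarith only [h4]
  · have h1 := min_le_right (τ ^ 2 / (1 + N) ^ 2) (δ / (4 * (1 + c ^ 2) * (1 + N)))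
    rw [le_div_iff₀ (by positivity)] at h1
    have h2 : 0 < min (τ ^ 2 / (1 + N) ^ 2) (δ / (4 * (1 + c ^ 2) * (1 + N))) := by positivity
    have h3 : N ≤ 4 * (1 + c ^ 2) * (1 + N) := by nlinarith only [hN0]
    have h4 := mul_le_mul_of_nonneg_right h3 h2.le
    linarith only [hδ0, hδη, h1, h4]

theorem err_bound {c N δ τ κ ε : ℝ} (hτ0 : 0 < τ) (hτ1 : τ ≤ 1) (hτδ : 8 * τ * (1 + c ^ 2) ≤ δ)
    (hκδ : 8 * (c * κ) ≤ δ) (hε1 : N ^ 2 * ε ≤ τ ^ 2) (hε2 : 4 * (N * (c ^ 2 * ε)) ≤ δ) :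
    (1 / 2 * (N ^ 2 * ε / τ + τ) + c * κ) + (N ^ 2 * ε + N ^ 2 * ε / τ + τ * c ^ 2) +
      N * (c ^ 2 * ε) ≤ δ := by
  have h2 : N ^ 2 * ε / τ ≤ τ := by
    rw [div_le_iff₀ hτ0]
    linarith [sq τ]
  have h3 : τ ^ 2 ≤ τ := by nlinarith only [hτ0, hτ1]
  have h4 : 0 ≤ τ * c ^ 2 := by positivity
  linarith only [hτ0, hτδ, hκδ, hε1, hε2, h2, h3, h4]

end Round

end Vale.Agent.P130R
end

section

/-!
# P130R, ROUND: rounding of the torus function along the times of TF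
-/

set_option autoImplicit false

namespace Vale.Agent.P130R

open Finset MeasureTheory Filter Topology
open Vale.Agent.P110 (e dot GoodSet)

open Round

/-- ROUND -/
theorem round_ (hV : VecStatement) (hT : TFStatement) : RoundStatement := by
  intro p hp0 hp K hK η hη
  have hp1 : p < 1 := by linarith
  have hK1 : (1 : ℝ) ≤ K := by exact_mod_cast hK
  have hK0 : (0 : ℝ) < K := by linarith
  obtain ⟨δ, hδ0, hδK⟩ : ∃ δ : ℝ, 0 < δ ∧ 64 * K * δ = η := by
    refine ⟨η / (64 * K), by positivity, ?_⟩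
    field_simp
  have hδη : 64 * δ ≤ η := by
    rw [← hδK]
    nlinarith only [hK1, hδ0]
  obtain ⟨d, X, V, a, lab, hG, ha, hlab, hA, hvec⟩ := hV p hp0 hp1 K hK δ hδ0
  obtain ⟨c, hc⟩ : ∃ c : ℝ, c = Real.sqrt (2 * ∑ χ ∈ X, a χ ^ 2) := ⟨_, rfl⟩
  have hc0 : 0 ≤ c := by rw [hc]; exact Real.sqrt_nonneg _
  have hcsq : c ^ 2 = 2 * ∑ χ ∈ X, a χ ^ 2 := by
    rw [hc, Real.sq_sqrt]
    exact mul_nonneg (by norm_num) (Finset.sum_nonneg fun χ _ => sq_nonneg _)
  have hcsq0 : 0 < c ^ 2 := by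
    rw [hcsq]
    obtain ⟨χ, hχ⟩ := hG.nonempty
    have : 0 < ∑ χ ∈ X, a χ ^ 2 := by
      apply Finset.sum_pos _ hG.nonempty
      intro χ hχ
      have := ha χ hχ
      positivity
    linarith
  -- choice of the small parameters
  obtain ⟨N, hN⟩ : ∃ N : ℝ, N = X.card := ⟨_, rfl⟩
  have hN0 : 0 ≤ N := by rw [hN]; exact Nat.cast_nonneg _
  obtain ⟨τ, κ, ε, hτ0, hτ1, hτδ, hκ0, hκδ, hε0, hε1, hε2, hε3⟩ :=
    exists_params hc0 hN0 hδ0 hδη
  obtain ⟨q₁, hq₁⟩ := hT d X V hG a ha ε hε0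
  obtain ⟨q₂, hq₂⟩ := exists_D_small hκ0
  obtain ⟨q₃, hq₃⟩ := exists_nat_ge (8 / δ)
  refine ⟨max (max q₁ q₂) (max q₃ 1), fun q hq => ?_⟩
  have hqq1 : q₁ ≤ q := le_trans (le_trans (le_max_left _ _) (le_max_left _ _)) hq
  have hqq2 : q₂ ≤ q := le_trans (le_trans (le_max_right _ _) (le_max_left _ _)) hq
  have hqq3 : q₃ ≤ q := le_trans (le_trans (le_max_left _ _) (le_max_right _ _)) hq
  have hq1 : 1 ≤ q := le_trans (le_trans (le_max_right _ _) (le_max_right _ _)) hq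
  have hq0 : (0 : ℝ) < q := by exact_mod_cast hq1
  have hq8 : 8 ≤ δ * q := by
    rw [div_le_iff₀ hδ0] at hq₃
    have : (q₃ : ℝ) ≤ q := by exact_mod_cast hqq3
    nlinarith only [hp0, hp, hη, hK1, hδK, hq₃, this]
  obtain ⟨γ, u, M, hu, hM, hn, hup, hMp, hX, hTF, hvol⟩ := hq₁ q hqq1
  have hκ := hq₂ q hqq2
  rw [← hc] at hTF
  rw [← hcsq] at hvol
  -- modes
  obtain ⟨φ, hφ⟩ : ∃ φ : (Fin d → ℤ) → ℕ → ℝ, φ = fun χ k =>
    2 * a χ * Real.cos (2 * Real.pi * ∑ j, χ j * γ k j) := ⟨_, rfl⟩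
  have hTF' : ∀ χ ∈ X, ∫ x in (0 : ℝ)..1, ‖TS q (fun k => (φ χ k : ℂ)) x -
      (c : ℂ) * (if M x = some χ then u x else 0)‖ ^ 2 ≤ ε := by
    intro χ hχ
    rw [hφ]
    exact hTF χ hχ
  -- volumes
  obtain ⟨v, hv⟩ : ∃ v : (Fin d → ℤ) → ℝ, v = fun χ =>
    ∫ x in (0 : ℝ)..1, (if M x = some χ then (1 : ℝ) else 0) := ⟨_, rfl⟩
  have hvol' : ∀ χ ∈ X, |c ^ 2 * v χ - 2 * a χ ^ 2| ≤ c ^ 2 * ε := by
    intro χ hχ
    have h1 := hvol χ hχ
    rw [vol_eq _ (hM χ)] at h1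
    have h2 : c ^ 2 * v χ - 2 * a χ ^ 2 =
        c ^ 2 * (v χ - 2 * a χ ^ 2 / c ^ 2) := by
      rw [mul_sub, mul_div_cancel₀ _ hcsq0.ne']
    rw [h2, abs_mul, abs_of_pos hcsq0]
    apply mul_le_mul_of_nonneg_left _ hcsq0.le
    rw [hv]
    exact h1
  -- surviving mass
  obtain ⟨A, hAdef⟩ : ∃ A : ℕ → ℕ → ℝ, A = fun k i => alv p (fl X a lab (γ k)) i := ⟨_, rfl⟩
  have hA0 : ∀ k, A k 0 = 1 := by intro k; rw [hAdef]; rfl
  have hAA : ∀ k, ∀ i < K, 0 ≤ A k (i + 1) ∧ A k (i + 1) ≤ A k i := by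
    intro k i hi
    rw [hAdef]
    exact hA (γ k) i hi
  have hA1 : ∀ k, ∀ i ≤ K, 0 ≤ A k i ∧ A k i ≤ 1 := by
    intro k i
    induction i with
    | zero => intro _; rw [hA0]; norm_num
    | succ i ih =>
      intro h
      exact ⟨(hAA k i (by omega)).1, ((hAA k i (by omega)).2).trans (ih (by omega)).2⟩
  have hAeq : ∀ k i, A k (i + 1) = (1 - p) ^ (i + 1) - ∑ χ ∈ X, wt p lab i χ * φ χ k := by
    intro k i
    rw [hAdef, hφ]
    exact alv_eq p X a lab (γ k) i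
  -- second moments
  have hB : ∀ i, |(q : ℝ)⁻¹ * ∑ k ∈ range q, A k (i + 1) * (1 - A k (i + 1)) -
      ((1 - p) ^ (i + 1) - ((1 - p) ^ (2 * (i + 1)) +
        ∑ j ∈ range (i + 1), (1 - p) ^ (2 * (i - j)) * ml X a lab j))| ≤ δ := by
    intro i
    have h1 := second X hu hM hn hX hq1 φ hc0 (fun χ => 2 * a χ ^ 2) hTF'
      (by simpa only [hv] using hvol') (wt p lab i) (fun χ _ => abs_wt_le hp0 hp1 lab i χ)
      (s := (1 - p) ^ (i + 1)) (pow_nonneg (by linarith only [hp0, hp]) _)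
      (pow_le_one₀ (by linarith only [hp0, hp]) (by linarith only [hp0])) hκ hτ0
    rw [← mass_eq p X a lab i, ← pow_mul, mul_comm (i + 1) 2, ← hN] at h1
    simp_rw [← hAeq] at h1
    exact h1.trans (err_bound hτ0 hτ1 hτδ hκδ hε1 hε2)
  have hs : ∀ i < K, |(1 - p) ^ (i + 1) - ((1 - p) ^ (2 * (i + 1)) +
        ∑ j ∈ range (i + 1), (1 - p) ^ (2 * (i - j)) * ml X a lab j)| ≤ δ := by
    intro i hi
    rw [abs_le]
    refine ⟨?_, hvec i hi⟩
    have h1 := (abs_le.mp (hB i)).2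
    have h2 : 0 ≤ (q : ℝ)⁻¹ * ∑ k ∈ range q, A k (i + 1) * (1 - A k (i + 1)) := by
      apply mul_nonneg (inv_nonneg.mpr hq0.le)
      apply Finset.sum_nonneg
      intro k _
      have h3 := hA1 k (i + 1) hi
      exact mul_nonneg h3.1 (by linarith only [h3.2])
    linarith only [h1, h2]
  have hB2 : ∀ i ≤ K, (q : ℝ)⁻¹ * ∑ k ∈ range q, A k i * (1 - A k i) ≤ 2 * δ := by
    intro i hi
    rcases i with _ | i
    · simp_rw [hA0]
      simp only [sub_self, mul_zero, Finset.sum_const_zero]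
      positivity
    · have h1 := (abs_le.mp (hB i)).2
      have h2 := (abs_le.mp (hs i hi)).2
      linarith only [h1, h2]
  have hm : ∀ i < K, |ml X a lab i - p * (1 - p) ^ (i + 1)| ≤ 2 * δ := fun i hi =>
    mass_bound hp0 hp1 hδ0.le _ hs hi
  have hmeasL := measurable_lb K lab hM
  refine ⟨SS K A, u, lb K lab M, c, ?_, ?_, hu, hmeasL, hn, hup, ?_, ?_, hc0, ?_, ?_, ?_, ?_⟩
  · simp [SS]
  · intro k
    unfold SS
    split_ifs
    · omega
    · exact (card_filter_le _ _).trans (by rw [card_range])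
  · intro x
    unfold lb
    rw [hMp]
  · intro x
    rcases h : M x with _ | χ
    · rw [lb_none h]
    · rw [lb_some h]
      exact (hlab χ (hX x χ h)).le
  · rw [hcsq, ← total_mass X a lab hlab, ← geom_mass, ← Finset.sum_sub_distrib]
    calc |∑ i ∈ range K, (ml X a lab i - p * (1 - p) ^ (i + 1))| ≤
        ∑ i ∈ range K, |ml X a lab i - p * (1 - p) ^ (i + 1)| := Finset.abs_sum_le_sum_abs _ _
      _ ≤ ∑ i ∈ range K, 2 * δ := Finset.sum_le_sum fun i hi => hm i (mem_range.mp hi)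
      _ = K * (2 * δ) := by rw [Finset.sum_const, card_range, nsmul_eq_mul]
      _ ≤ η := by linarith only [hδ0, hδK, hδη]
  · intro i hi
    have hQe : ∀ x, (if lb K lab M x = i then u x else 0) =
        QQ X M u (fun χ => if lab χ = i then 1 else 0) x := by
      intro x
      rcases h : M x with _ | χ
      · rw [lb_none h, if_neg (by omega), QQ_none X _ h]
      · rw [lb_some h, QQ_some X _ h (hX x χ h)]
        split_ifs <;> simp
    have hfe : ∀ k, (1 - p) * A k i - A k (i + 1) =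
        ∑ χ ∈ X, (if lab χ = i then (1 : ℝ) else 0) * φ χ k := by
      intro k
      rw [hAdef, hφ]
      simp only [alv_succ]
      unfold fl
      rw [Finset.sum_filter]
      simp only [ite_mul, one_mul, zero_mul]
      ring
    have h2 := sum_xi_bound hp0 hp1 hA0 hAA hA1 hq8 hq1 hB2 hi
    have h3 := spec_bound X hu hM hn hX φ hc0 hTF' (fun χ => if lab χ = i then 1 else 0)
      (fun χ _ => by split_ifs <;> simp) (xi p (SS K A) i)
      (fun k => (1 - p) * A k i - A k (i + 1)) hfe h2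
    simp_rw [← hQe] at h3
    rw [← hN] at h3
    refine le_trans h3 ?_
    have h10 : τ ^ 2 ≤ τ := by nlinarith only [hp0, hp, hτ0, hτ1]
    have h11 : 8 * τ ≤ δ := by nlinarith only [hτ0, hτδ]
    linarith only [hδη, hτ0, hε1, h10, h11]
  · refine (vol_no_label X hM hX hlab hcsq0 (fun χ => 2 * a χ ^ 2) ?_ hN
      (by simpa only [hv] using hvol')).trans hε3
    rw [hcsq, Finset.mul_sum]
  · intro i hi
    have h2 := (abs_le.mp (hm i hi)).2
    have h3 := vol_label X hM hX (lab := lab) hcsq0 hε0.le (fun χ => 2 * a χ ^ 2) hN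
      (by simpa only [hv] using hvol') hi
    unfold ml at h2
    linarith only [hδ0, hδη, hε2, h2, h3]

end Vale.Agent.P130R
end

section

/-!
# P130R-5: flat spacer sequences from the rounded torus function
-/

set_option autoImplicit false

namespace Vale.Agent.P130R.FlatSeq

open Finset MeasureTheory Filter Topology
open Vale.Agent.P130R
open Vale.Agent.P110 (e)

/-! ## Elementary facts on `e` -/

theorem norm_e (t : ℝ) : ‖e t‖ = 1 := by
  unfold Vale.Agent.P110.e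
  rw [Complex.norm_exp_ofReal_mul_I]

theorem e_add (s t : ℝ) : e (s + t) = e s * e t := by
  unfold Vale.Agent.P110.e
  rw [← Complex.exp_add]
  congr 1
  push_cast
  ring

theorem e_nat_mul (n : ℕ) (t : ℝ) : e (n * t) = e t ^ n := by
  unfold Vale.Agent.P110.e
  rw [← Complex.exp_nat_mul]
  congr 1
  push_cast
  ring

theorem continuous_e : Continuous e := by
  unfold Vale.Agent.P110.e
  fun_prop

theorem measurable_e : Measurable e := continuous_e.measurable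

theorem e_int_mul_integral (k : ℤ) :
    ∫ x in (0 : ℝ)..1, e (k * x) = if k = 0 then 1 else 0 := by
  split_ifs with hk
  · subst hk
    simp [Vale.Agent.P110.e]
  · have hc : (2 * Real.pi * k : ℂ) * Complex.I ≠ 0 := by
      refine mul_ne_zero (mul_ne_zero (mul_ne_zero two_ne_zero ?_) ?_) Complex.I_ne_zero
      · exact_mod_cast Real.pi_ne_zero
      · exact_mod_cast hk
    have h1 : ∀ x : ℝ, e (k * x) = Complex.exp (((2 * Real.pi * k : ℂ) * Complex.I) * x) := by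
      intro x
      unfold Vale.Agent.P110.e
      congr 1
      push_cast
      ring
    simp_rw [h1]
    rw [integral_exp_mul_complex hc]
    have h2 : Complex.exp ((2 * Real.pi * k : ℂ) * Complex.I * (1 : ℝ)) = 1 := by
      rw [Complex.exp_eq_one_iff]
      exact ⟨k, by push_cast; ring⟩
    rw [h2]
    simp

/-- Parseval for `∑_{k<q} e(kx)`. -/
theorem parseval_D (q : ℕ) :
    ∫ x in (0 : ℝ)..1, ‖∑ k ∈ range q, e (k * x)‖ ^ 2 = q := by
  have hconj : ∀ t : ℝ, (starRingEnd ℂ) (e t) = e (-t) := by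
    intro t
    unfold Vale.Agent.P110.e
    rw [← Complex.exp_conj]
    congr 1
    rw [map_mul, Complex.conj_ofReal, Complex.conj_I]
    push_cast
    ring
  have h1 : ∀ x : ℝ, ((‖∑ k ∈ range q, e (k * x)‖ ^ 2 : ℝ) : ℂ) =
      ∑ k ∈ range q, ∑ l ∈ range q, e (((k : ℤ) - (l : ℤ) : ℤ) * x) := by
    intro x
    rw [← Complex.normSq_eq_norm_sq, ← Complex.mul_conj, map_sum, sum_mul_sum]
    refine sum_congr rfl fun k _ => sum_congr rfl fun l _ => ?_
    rw [hconj, ← e_add]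
    congr 1
    push_cast
    ring
  have h2 : ((∫ x in (0 : ℝ)..1, ‖∑ k ∈ range q, e (k * x)‖ ^ 2 : ℝ) : ℂ) = q := by
    rw [← intervalIntegral.integral_ofReal]
    simp_rw [h1]
    have hint : ∀ m : ℤ, IntervalIntegrable (fun x : ℝ => e (m * x)) volume 0 1 := fun m =>
      (continuous_e.comp (by fun_prop)).intervalIntegrable 0 1
    rw [intervalIntegral.integral_finsetSum]
    · have : ∀ k ∈ range q, ∫ x in (0 : ℝ)..1, ∑ l ∈ range q, e (((k : ℤ) - (l : ℤ) : ℤ) * x)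
          = 1 := by
        intro k hk
        rw [intervalIntegral.integral_finsetSum (fun l _ => hint _)]
        simp_rw [e_int_mul_integral]
        rw [sum_eq_single k]
        · simp
        · intro l _ hl
          rw [if_neg]
          intro h
          exact hl (by omega)
        · intro h
          exact absurd hk h
      rw [sum_congr rfl this]
      simp
    · intro k _
      exact (continuous_finsetSum _ fun l _ =>
        continuous_e.comp (by fun_prop)).intervalIntegrable 0 1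
  exact_mod_cast h2

/-! ## The algebraic identity -/

theorem xi_sum (r : ℂ) (A : ℕ → ℂ) (z : ℂ) (K : ℕ) (hA : A 0 = 1) :
    ∑ i ∈ range (K + 1), (r * A i - A (i + 1)) * z ^ i * (r * z) ^ (K - i) =
      z ^ K * (r ^ (K + 1) - A (K + 1)) := by
  induction K with
  | zero => simp [hA]
  | succ K ih =>
    rw [sum_range_succ]
    have h1 : ∀ i ∈ range (K + 1), (r * A i - A (i + 1)) * z ^ i * (r * z) ^ (K + 1 - i) =
        (r * z) * ((r * A i - A (i + 1)) * z ^ i * (r * z) ^ (K - i)) := by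
      intro i hi
      have : K + 1 - i = (K - i) + 1 := by
        have := mem_range.1 hi
        omega
      rw [this, pow_succ]
      ring
    rw [sum_congr rfl h1, ← mul_sum, ih]
    simp only [Nat.sub_self, pow_zero, mul_one]
    ring

theorem ident (r : ℂ) (A : ℕ → ℂ) (z : ℂ) (K : ℕ) (hA : A 0 = 1) :
    (1 - r * z) * (1 - (1 - z) * ∑ i ∈ range K, z ^ i * A (i + 1)) =
      (1 - r) + (1 - z) * r * (r * z) ^ K +
        (1 - z) * ∑ i ∈ range K, (r * A i - A (i + 1)) * z ^ i * (1 - (r * z) ^ (K - i)) := by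
  induction K with
  | zero => simp; ring
  | succ K ih =>
    have h1 : ∑ i ∈ range (K + 1), (r * A i - A (i + 1)) * z ^ i * (1 - (r * z) ^ (K + 1 - i)) =
        ∑ i ∈ range K, (r * A i - A (i + 1)) * z ^ i * (1 - (r * z) ^ (K - i)) +
        (1 - r * z) * ∑ i ∈ range (K + 1), (r * A i - A (i + 1)) * z ^ i * (r * z) ^ (K - i) := by
      rw [mul_sum, sum_range_succ, sum_range_succ
        (fun i => (1 - r * z) * ((r * A i - A (i + 1)) * z ^ i * (r * z) ^ (K - i))), ← add_assoc,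
        ← sum_add_distrib]
      congr 1
      · refine sum_congr rfl fun i hi => ?_
        have : K + 1 - i = (K - i) + 1 := by
          have := mem_range.1 hi
          omega
        rw [this, pow_succ]
        ring
      · have : K + 1 - K = 1 := by omega
        rw [this]
        simp
        ring
    rw [h1, xi_sum r A z K hA, sum_range_succ]
    linear_combination ih

/-- the coefficient functions -/
noncomputable def Dc (p : ℝ) (K : ℕ) (z : ℂ) (i : ℕ) : ℂ :=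
  z ^ i * (1 - z) * (1 - (((1 - p : ℝ) : ℂ) * z) ^ (K - i)) / (1 - ((1 - p : ℝ) : ℂ) * z)

noncomputable def cc (p : ℝ) (K : ℕ) (z : ℂ) : ℂ :=
  ((p : ℂ) + (1 - z) * ((1 - p : ℝ) : ℂ) * (((1 - p : ℝ) : ℂ) * z) ^ K) /
    (1 - ((1 - p : ℝ) : ℂ) * z)

theorem one_sub_ne {p : ℝ} (hp1 : p < 1) {z : ℂ} (hz : ‖z‖ = 1) :
    p ≤ ‖1 - ((1 - p : ℝ) : ℂ) * z‖ := by
  have h1 : ‖((1 - p : ℝ) : ℂ) * z‖ = 1 - p := by
    rw [norm_mul, hz, mul_one, Complex.norm_real, Real.norm_of_nonneg (by linarith)]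
  have h2 := norm_sub_norm_le (1 : ℂ) (((1 - p : ℝ) : ℂ) * z)
  rw [h1, norm_one] at h2
  linarith

theorem pow_ident {p : ℝ} (hp : 0 < p) (hp1 : p < 1) {z : ℂ} (hz : ‖z‖ = 1) (K s : ℕ)
    (hs : s ≤ K) :
    z ^ s = cc p K z + ∑ i ∈ range K,
      (((1 - p) * (if i ≤ s then 1 else 0) - (if i < s then 1 else 0) : ℝ) : ℂ) * Dc p K z i := by
  have hne : (1 - ((1 - p : ℝ) : ℂ) * z) ≠ 0 := by
    intro h
    have := one_sub_ne hp1 hz
    rw [h, norm_zero] at this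
    linarith
  set r : ℂ := ((1 - p : ℝ) : ℂ) with hr
  have hA := ident r (fun i => if i ≤ s then 1 else 0) z K (by simp)
  have h1 : (1 - z) * ∑ i ∈ range K, z ^ i * (if i + 1 ≤ s then (1 : ℂ) else 0) = 1 - z ^ s := by
    have h2 : ∑ i ∈ range K, z ^ i * (if i + 1 ≤ s then (1 : ℂ) else 0) =
        ∑ i ∈ range s, z ^ i := by
      simp_rw [mul_ite, mul_one, mul_zero]
      rw [← sum_filter]
      congr 1
      ext i
      simp only [mem_filter, mem_range]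
      omega
    rw [h2, mul_comm]
    exact geom_sum_mul_neg z s
  rw [h1] at hA
  unfold cc Dc
  rw [← hr]
  have h3 : ∀ i ∈ range K,
      (((1 - p) * (if i ≤ s then 1 else 0) - (if i < s then 1 else 0) : ℝ) : ℂ) *
        (z ^ i * (1 - z) * (1 - (r * z) ^ (K - i)) / (1 - r * z)) =
      ((1 - z) * ((r * (if i ≤ s then 1 else 0) - (if i + 1 ≤ s then 1 else 0)) * z ^ i *
        (1 - (r * z) ^ (K - i)))) / (1 - r * z) := by
    intro i _
    have h4 : (((1 - p) * (if i ≤ s then 1 else 0) - (if i < s then 1 else 0) : ℝ) : ℂ) =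
        r * (if i ≤ s then 1 else 0) - (if i + 1 ≤ s then 1 else 0) := by
      rw [hr]
      by_cases h5 : i ≤ s <;> by_cases h6 : i < s <;> simp [h5, h6]
    rw [h4]
    ring
  rw [sum_congr rfl h3, ← sum_div, ← mul_sum, ← add_div, eq_div_iff hne]
  have h7 : (p : ℂ) = 1 - r := by
    rw [hr]; push_cast; ring
  rw [h7]
  linear_combination hA


/-! ## Bounds -/

theorem one_sub_le {p : ℝ} (hp : 0 < p) (hp1 : p < 1) {z : ℂ} (hz : ‖z‖ = 1) :
    ‖1 - z‖ ≤ 2 * ‖1 - ((1 - p : ℝ) : ℂ) * z‖ := by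
  have h1 : (1 - z) = (1 - ((1 - p : ℝ) : ℂ) * z) - (p : ℂ) * z := by
    push_cast; ring
  have h2 : ‖(p : ℂ) * z‖ = p := by
    rw [norm_mul, hz, mul_one, Complex.norm_real, Real.norm_of_nonneg hp.le]
  calc ‖1 - z‖ = ‖(1 - ((1 - p : ℝ) : ℂ) * z) - (p : ℂ) * z‖ := by rw [← h1]
    _ ≤ ‖1 - ((1 - p : ℝ) : ℂ) * z‖ + ‖(p : ℂ) * z‖ := norm_sub_le _ _
    _ ≤ 2 * ‖1 - ((1 - p : ℝ) : ℂ) * z‖ := by
        rw [h2]
        have := one_sub_ne hp1 hz
        linarith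

theorem norm_y_pow {p : ℝ} (hp1 : p < 1) {z : ℂ} (hz : ‖z‖ = 1) (n : ℕ) :
    ‖(((1 - p : ℝ) : ℂ) * z) ^ n‖ = (1 - p) ^ n := by
  rw [norm_pow, norm_mul, hz, mul_one, Complex.norm_real, Real.norm_of_nonneg (by linarith)]

theorem norm_one_sub_le_two {z : ℂ} (hz : ‖z‖ = 1) : ‖1 - z‖ ≤ 2 := by
  calc ‖1 - z‖ ≤ ‖(1 : ℂ)‖ + ‖z‖ := norm_sub_le _ _
    _ = 2 := by rw [hz, norm_one]; norm_num

theorem norm_cc {p : ℝ} (hp : 0 < p) (hp1 : p < 1) {z : ℂ} (hz : ‖z‖ = 1) (K : ℕ) :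
    ‖1 - z‖ * ‖cc p K z‖ ≤ 2 * (p + 2 * (1 - p) ^ K) := by
  have hpos : 0 < ‖1 - ((1 - p : ℝ) : ℂ) * z‖ := lt_of_lt_of_le hp (one_sub_ne hp1 hz)
  unfold cc
  rw [norm_div, mul_div_assoc', div_le_iff₀ hpos]
  have h1 : ‖(p : ℂ) + (1 - z) * ((1 - p : ℝ) : ℂ) * (((1 - p : ℝ) : ℂ) * z) ^ K‖ ≤
      p + 2 * (1 - p) ^ K := by
    refine (norm_add_le _ _).trans ?_
    rw [norm_mul, norm_mul, norm_y_pow hp1 hz, Complex.norm_real, Complex.norm_real,
      Real.norm_of_nonneg hp.le, Real.norm_of_nonneg (by linarith : (0 : ℝ) ≤ 1 - p)]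
    have h2 := norm_one_sub_le_two hz
    have h3 : 0 ≤ (1 - p) ^ K := by
      have : 0 ≤ 1 - p := by linarith
      positivity
    have h4 : ‖1 - z‖ * (1 - p) ≤ 2 * 1 := mul_le_mul h2 (by linarith) (by linarith) (by norm_num)
    nlinarith only [hp, hp1, h3, h4]
  calc ‖1 - z‖ * ‖(p : ℂ) + (1 - z) * ((1 - p : ℝ) : ℂ) * (((1 - p : ℝ) : ℂ) * z) ^ K‖
      ≤ (2 * ‖1 - ((1 - p : ℝ) : ℂ) * z‖) * (p + 2 * (1 - p) ^ K) :=
        mul_le_mul (one_sub_le hp hp1 hz) h1 (norm_nonneg _) (by positivity)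
    _ = _ := by ring

theorem norm_Dc {p : ℝ} (hp : 0 < p) (hp1 : p < 1) {z : ℂ} (hz : ‖z‖ = 1) (K i : ℕ) :
    ‖Dc p K z i‖ ≤ 4 := by
  have hpos : 0 < ‖1 - ((1 - p : ℝ) : ℂ) * z‖ := lt_of_lt_of_le hp (one_sub_ne hp1 hz)
  unfold Dc
  rw [norm_div, div_le_iff₀ hpos, norm_mul, norm_mul, norm_pow, hz, one_pow, one_mul]
  have h1 : ‖1 - (((1 - p : ℝ) : ℂ) * z) ^ (K - i)‖ ≤ 2 := by
    refine (norm_sub_le _ _).trans ?_
    rw [norm_y_pow hp1 hz, norm_one]
    have : (1 - p) ^ (K - i) ≤ 1 := pow_le_one₀ (by linarith) (by linarith)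
    linarith
  calc ‖1 - z‖ * ‖1 - (((1 - p : ℝ) : ℂ) * z) ^ (K - i)‖
      ≤ (2 * ‖1 - ((1 - p : ℝ) : ℂ) * z‖) * 2 :=
        mul_le_mul (one_sub_le hp hp1 hz) h1 (norm_nonneg _) (by positivity)
    _ = _ := by ring

theorem norm_Dc_sub {p : ℝ} (hp : 0 < p) (hp1 : p < 1) {z : ℂ} (hz : ‖z‖ = 1) (K i : ℕ) :
    ‖1 - z‖ * ‖Dc p K z i - z ^ i‖ ≤ 2 * p + 4 * (1 - p) ^ (K - i) := by
  have hpos : 0 < ‖1 - ((1 - p : ℝ) : ℂ) * z‖ := lt_of_lt_of_le hp (one_sub_ne hp1 hz)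
  have hne : (1 - ((1 - p : ℝ) : ℂ) * z) ≠ 0 := norm_pos_iff.1 hpos
  have h1 : Dc p K z i - z ^ i =
      z ^ i * (-((p : ℂ) * z) - (1 - z) * (((1 - p : ℝ) : ℂ) * z) ^ (K - i)) /
        (1 - ((1 - p : ℝ) : ℂ) * z) := by
    unfold Dc
    rw [eq_div_iff hne, sub_mul, div_mul_cancel₀ _ hne]
    push_cast
    ring
  rw [h1, norm_div, mul_div_assoc', div_le_iff₀ hpos, norm_mul, norm_pow, hz, one_pow, one_mul]
  have h2 : ‖-((p : ℂ) * z) - (1 - z) * (((1 - p : ℝ) : ℂ) * z) ^ (K - i)‖ ≤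
      p + 2 * (1 - p) ^ (K - i) := by
    refine (norm_sub_le _ _).trans ?_
    rw [norm_neg, norm_mul, norm_mul, norm_y_pow hp1 hz, hz, Complex.norm_real,
      Real.norm_of_nonneg hp.le]
    have h3 := norm_one_sub_le_two hz
    have h4 : 0 ≤ (1 - p) ^ (K - i) := by
      have : 0 ≤ 1 - p := by linarith
      positivity
    nlinarith only [hp, hp1, h3, h4]
  calc ‖1 - z‖ * ‖-((p : ℂ) * z) - (1 - z) * (((1 - p : ℝ) : ℂ) * z) ^ (K - i)‖
      ≤ (2 * ‖1 - ((1 - p : ℝ) : ℂ) * z‖) * (p + 2 * (1 - p) ^ (K - i)) :=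
        mul_le_mul (one_sub_le hp hp1 hz) h2 (norm_nonneg _) (by positivity)
    _ = _ := by ring

/-! ## Integrals -/

theorem ii_of_bdd {f : ℝ → ℝ} (hf : Measurable f) {B : ℝ} (hB : ∀ x, ‖f x‖ ≤ B) :
    IntervalIntegrable f volume 0 1 := by
  rw [intervalIntegrable_iff]
  exact Measure.integrableOn_of_bounded (M := B) (by simp) hf.aestronglyMeasurable
    (Eventually.of_forall hB)

theorem int_ind {L : ℝ → ℕ} (hL : Measurable L) (i : ℕ) :
    ∫ x in (0 : ℝ)..1, (if L x = i then (1 : ℝ) else 0) =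
      (volume {x : ℝ | 0 ≤ x ∧ x < 1 ∧ L x = i}).toReal := by
  have hm : MeasurableSet {x : ℝ | L x = i} := hL (measurableSet_singleton i)
  rw [intervalIntegral.integral_of_le zero_le_one, ← integral_Ico_eq_integral_Ioc]
  have h1 : (fun x : ℝ => if L x = i then (1 : ℝ) else 0) =
      Set.indicator {x : ℝ | L x = i} (fun _ => (1 : ℝ)) := by
    funext x
    simp [Set.indicator_apply]
  rw [h1, integral_indicator hm, Measure.restrict_restrict hm]
  simp only [integral_const, smul_eq_mul, mul_one, Measure.real, MeasurableSet.univ,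
    Measure.restrict_apply, Set.univ_inter]
  congr 2
  ext x
  simp only [Set.mem_inter_iff, Set.mem_ofPred_eq, Set.mem_Ico]
  tauto


theorem sq_sum_le (K : ℕ) (a : ℕ → ℂ) (b : ℕ → ℂ) (hb : ∀ i, ‖b i‖ ≤ 4) :
    ‖∑ i ∈ range K, b i * a i‖ ^ 2 ≤ 16 * K * ∑ i ∈ range K, ‖a i‖ ^ 2 := by
  have h1 : ‖∑ i ∈ range K, b i * a i‖ ≤ ∑ i ∈ range K, 4 * ‖a i‖ := by
    refine (norm_sum_le _ _).trans (sum_le_sum fun i _ => ?_)
    rw [norm_mul]
    exact mul_le_mul_of_nonneg_right (hb i) (norm_nonneg _)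
  have h2 : (∑ i ∈ range K, 4 * ‖a i‖) ^ 2 ≤ K * ∑ i ∈ range K, (4 * ‖a i‖) ^ 2 := by
    have := sq_sum_le_card_mul_sum_sq (s := range K) (f := fun i => 4 * ‖a i‖)
    simpa using this
  calc ‖∑ i ∈ range K, b i * a i‖ ^ 2 ≤ (∑ i ∈ range K, 4 * ‖a i‖) ^ 2 :=
        pow_le_pow_left₀ (norm_nonneg _) h1 2
    _ ≤ K * ∑ i ∈ range K, (4 * ‖a i‖) ^ 2 := h2
    _ = 16 * K * ∑ i ∈ range K, ‖a i‖ ^ 2 := by
        have : ∀ i ∈ range K, (4 * ‖a i‖) ^ 2 = 16 * ‖a i‖ ^ 2 := fun i _ => by ring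
        rw [sum_congr rfl this, ← mul_sum]
        ring

theorem sq_add4 (a b c d : ℂ) :
    ‖a + b + c + d‖ ^ 2 ≤ 4 * (‖a‖ ^ 2 + ‖b‖ ^ 2 + ‖c‖ ^ 2 + ‖d‖ ^ 2) := by
  have h1 : ‖a + b + c + d‖ ≤ ‖a‖ + ‖b‖ + ‖c‖ + ‖d‖ :=
    (norm_add_le _ _).trans (add_le_add_left ((norm_add_le _ _).trans
      (add_le_add_left (norm_add_le _ _) _)) _)
  have h2 : ‖a + b + c + d‖ ^ 2 ≤ (‖a‖ + ‖b‖ + ‖c‖ + ‖d‖) ^ 2 :=
    pow_le_pow_left₀ (norm_nonneg _) h1 2
  linarith only [sq_nonneg (‖a‖ - ‖b‖), sq_nonneg (‖a‖ - ‖c‖), sq_nonneg (‖a‖ - ‖d‖),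
    sq_nonneg (‖b‖ - ‖c‖), sq_nonneg (‖b‖ - ‖d‖), sq_nonneg (‖c‖ - ‖d‖), h2]

theorem exists_K {p : ℝ} (hp : 0 < p) (hp1 : p < 1) :
    ∃ K : ℕ, 1 ≤ K ∧ (K : ℝ) * (1 - p) ^ K ≤ p ^ 2 := by
  have h1 : Tendsto (fun n : ℕ => (n : ℝ) * (1 - p) ^ n) atTop (𝓝 0) :=
    tendsto_self_mul_const_pow_of_lt_one (by linarith) (by linarith)
  have h2 : ∀ᶠ n : ℕ in atTop, (n : ℝ) * (1 - p) ^ n < p ^ 2 :=
    h1.eventually (gt_mem_nhds (by positivity))
  obtain ⟨K, hK, hK1⟩ := (h2.and (eventually_ge_atTop 1)).exists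
  exact ⟨K, hK1, hK.le⟩

theorem decomp_aux (K q : ℕ) (ξ : ℕ → ℕ → ℂ) (D : ℕ → ℂ) (c z ρ w : ℂ) (g : ℕ → ℂ) (l : ℕ)
    (G E : ℕ → ℂ) (v : ℂ) (h1 : ∀ k, G k = c * E k + ∑ i ∈ range K, D i * (ξ i k * E k))
    (hl : l ≤ K) (hg : ∀ i, g i = if l = i then v else 0) :
    w * ∑ k ∈ range q, G k - v * z ^ l =
      c * (w * ∑ k ∈ range q, E k) +
      ∑ i ∈ range K, D i * (w * ∑ k ∈ range q, ξ i k * E k - ρ * g i) +
      ∑ i ∈ range K, (ρ * D i - z ^ i) * g i + (-(z ^ K * g K)) := by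
  have h2 : v * z ^ l = ∑ i ∈ range K, z ^ i * g i + z ^ K * g K := by
    rw [← sum_range_succ (fun i => z ^ i * g i), sum_eq_single l]
    · rw [hg, if_pos rfl, mul_comm]
    · intro i _ hi
      rw [hg, if_neg (Ne.symm hi), mul_zero]
    · intro h
      exact absurd (mem_range.2 (Nat.lt_succ_of_le hl)) h
  have h3 : ∑ k ∈ range q, G k = c * ∑ k ∈ range q, E k +
      ∑ i ∈ range K, D i * ∑ k ∈ range q, ξ i k * E k := by
    simp_rw [h1]
    rw [sum_add_distrib, sum_comm]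
    simp_rw [← mul_sum]
  have h4 : ∑ i ∈ range K, D i * (w * ∑ k ∈ range q, ξ i k * E k - ρ * g i) =
      w * ∑ i ∈ range K, D i * ∑ k ∈ range q, ξ i k * E k - ∑ i ∈ range K, ρ * D i * g i := by
    rw [mul_sum, ← sum_sub_distrib]
    exact sum_congr rfl fun i _ => by ring
  have h5 : ∑ i ∈ range K, (ρ * D i - z ^ i) * g i =
      ∑ i ∈ range K, ρ * D i * g i - ∑ i ∈ range K, z ^ i * g i := by
    rw [← sum_sub_distrib]
    exact sum_congr rfl fun i _ => by ring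
  rw [h2, h3, h4, h5]
  ring

/-- pointwise decomposition -/
theorem decomp {p : ℝ} (hp : 0 < p) (hp1 : p < 1) (K q : ℕ) (S : ℕ → ℕ) (hS : ∀ k, S k ≤ K)
    (u : ℝ → ℂ) (L : ℝ → ℕ) (hL : ∀ x, L x ≤ K) (ρ : ℝ) (θ x : ℝ) :
    ((Real.sqrt q : ℝ) : ℂ)⁻¹ * ∑ k ∈ range q, e (k * x + S k * θ) - u x * e (L x * θ) =
      cc p K (e θ) * (((Real.sqrt q : ℝ) : ℂ)⁻¹ * ∑ k ∈ range q, e (k * x)) +
      ∑ i ∈ range K, Dc p K (e θ) i *
        (((Real.sqrt q : ℝ) : ℂ)⁻¹ * ∑ k ∈ range q,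
            (((1 - p) * (if i ≤ S k then 1 else 0) - (if i < S k then 1 else 0) : ℝ) : ℂ) *
              e (k * x) - (ρ : ℂ) * (if L x = i then u x else 0)) +
      ∑ i ∈ range K, ((ρ : ℂ) * Dc p K (e θ) i - e θ ^ i) * (if L x = i then u x else 0) +
      (-(e θ ^ K * (if L x = K then u x else 0))) := by
  rw [e_nat_mul (L x) θ]
  refine decomp_aux K q (fun i k =>
    (((1 - p) * (if i ≤ S k then 1 else 0) - (if i < S k then 1 else 0) : ℝ) : ℂ))
    (fun i => Dc p K (e θ) i) (cc p K (e θ)) (e θ) ρ _ (fun i => if L x = i then u x else 0)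
    (L x) (fun k => e (k * x + S k * θ)) (fun k => e (k * x)) (u x) ?_ (hL x) (fun i => rfl)
  intro k
  rw [e_add, e_nat_mul (S k) θ, pow_ident hp hp1 (norm_e θ) K (S k) (hS k), mul_add, mul_sum]
  congr 1
  · ring
  · exact sum_congr rfl fun i _ => by ring

/-- the mass of label `i` -/
noncomputable def mm (L : ℝ → ℕ) (i : ℕ) : ℝ :=
  (volume {x : ℝ | 0 ≤ x ∧ x < 1 ∧ L x = i}).toReal

/-- the error function of label `i` -/
noncomputable def GG (p : ℝ) (q : ℕ) (S : ℕ → ℕ) (u : ℝ → ℂ) (L : ℝ → ℕ) (ρ : ℝ) (i : ℕ)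
    (x : ℝ) : ℂ :=
  ((Real.sqrt q : ℝ) : ℂ)⁻¹ * ∑ k ∈ range q,
    (((1 - p) * (if i ≤ S k then 1 else 0) - (if i < S k then 1 else 0) : ℝ) : ℂ) * e (k * x)
    - (ρ : ℂ) * (if L x = i then u x else 0)

theorem measurable_e_mul (k : ℕ) : Measurable fun x : ℝ => e (k * x) :=
  measurable_e.comp (measurable_const.mul measurable_id)

theorem measurable_ite_u {u : ℝ → ℂ} (hu : Measurable u) {L : ℝ → ℕ} (hL : Measurable L) (i : ℕ) :
    Measurable fun x : ℝ => if L x = i then u x else 0 :=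
  Measurable.ite (hL (measurableSet_singleton i)) hu measurable_const

theorem norm_ite_u {u : ℝ → ℂ} (hu1 : ∀ x, ‖u x‖ = 1) (L : ℝ → ℕ) (i : ℕ) (x : ℝ) :
    ‖(if L x = i then u x else 0 : ℂ)‖ ≤ 1 := by
  split_ifs
  · exact (hu1 x).le
  · simp

theorem ii_GG (p : ℝ) (q : ℕ) (S : ℕ → ℕ) {u : ℝ → ℂ} {L : ℝ → ℕ} {ρ : ℝ} (hρ0 : 0 ≤ ρ)
    (hu : Measurable u) (hL : Measurable L) (hu1 : ∀ x, ‖u x‖ = 1) (i : ℕ) :
    IntervalIntegrable (fun x => ‖GG p q S u L ρ i x‖ ^ 2) volume 0 1 := by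
  have hm : Measurable (GG p q S u L ρ i) :=
    ((Finset.measurable_sum _ fun k _ => (measurable_e_mul k).const_mul _).const_mul _).sub
      ((measurable_ite_u hu hL i).const_mul _)
  refine ii_of_bdd (B := (‖((Real.sqrt q : ℝ) : ℂ)⁻¹‖ * (∑ k ∈ range q,
    ‖(((1 - p) * (if i ≤ S k then 1 else 0) - (if i < S k then 1 else 0) : ℝ) : ℂ)‖) + ρ) ^ 2)
    (hm.norm.pow_const 2) fun x => ?_
  rw [Real.norm_of_nonneg (by positivity)]
  refine pow_le_pow_left₀ (norm_nonneg _) ((norm_sub_le _ _).trans (add_le_add ?_ ?_)) 2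
  · rw [norm_mul]
    refine mul_le_mul_of_nonneg_left ((norm_sum_le _ _).trans ?_) (norm_nonneg _)
    refine sum_le_sum fun k _ => ?_
    rw [norm_mul, norm_e, mul_one]
  · rw [norm_mul, Complex.norm_real, Real.norm_of_nonneg hρ0]
    exact mul_le_of_le_one_right hρ0 (norm_ite_u hu1 L i x)

theorem ii_F (q : ℕ) (S : ℕ → ℕ) {u : ℝ → ℂ} {L : ℝ → ℕ}
    (hu : Measurable u) (hL : Measurable L) (hu1 : ∀ x, ‖u x‖ = 1) (θ : ℝ) :
    IntervalIntegrable (fun x => ‖((Real.sqrt q : ℝ) : ℂ)⁻¹ *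
      ∑ k ∈ range q, e (k * x + S k * θ) - u x * e (L x * θ)‖ ^ 2) volume 0 1 := by
  have hmL : Measurable fun x : ℝ => e ((L x : ℝ) * θ) :=
    measurable_e.comp ((measurable_from_top.comp hL).mul_const θ)
  refine ii_of_bdd (B := (‖((Real.sqrt q : ℝ) : ℂ)⁻¹‖ * q + 1) ^ 2) ?_ fun x => ?_
  · refine (Measurable.norm (Measurable.sub (Measurable.const_mul ?_ _) (hu.mul hmL))).pow_const 2
    exact Finset.measurable_sum _ fun k _ => measurable_e.comp
      ((measurable_const.mul measurable_id).add measurable_const)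
  · rw [Real.norm_of_nonneg (by positivity)]
    refine pow_le_pow_left₀ (norm_nonneg _) ((norm_sub_le _ _).trans (add_le_add ?_ ?_)) 2
    · rw [norm_mul]
      refine mul_le_mul_of_nonneg_left ((norm_sum_le _ _).trans ?_) (norm_nonneg _)
      simp [norm_e]
    · rw [norm_mul, hu1, norm_e, mul_one]

theorem ii_Dn (q : ℕ) : IntervalIntegrable (fun x => ‖((Real.sqrt q : ℝ) : ℂ)⁻¹ *
    ∑ k ∈ range q, e (k * x)‖ ^ 2) volume 0 1 := by
  have hm : Measurable fun x : ℝ => ((Real.sqrt q : ℝ) : ℂ)⁻¹ * ∑ k ∈ range q, e (k * x) :=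
    (Finset.measurable_sum _ fun k _ => measurable_e_mul k).const_mul _
  refine ii_of_bdd (B := (‖((Real.sqrt q : ℝ) : ℂ)⁻¹‖ * q) ^ 2) (hm.norm.pow_const 2)
    fun x => ?_
  rw [Real.norm_of_nonneg (by positivity)]
  refine pow_le_pow_left₀ (norm_nonneg _) ?_ 2
  rw [norm_mul]
  refine mul_le_mul_of_nonneg_left ((norm_sum_le _ _).trans ?_) (norm_nonneg _)
  simp [norm_e]

theorem int_Dn_le (q : ℕ) : ∫ x in (0 : ℝ)..1, ‖((Real.sqrt q : ℝ) : ℂ)⁻¹ *
    ∑ k ∈ range q, e (k * x)‖ ^ 2 ≤ 1 := by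
  have h1 : ∀ x : ℝ, ‖((Real.sqrt q : ℝ) : ℂ)⁻¹ * ∑ k ∈ range q, e (k * x)‖ ^ 2 =
      ‖((Real.sqrt q : ℝ) : ℂ)⁻¹‖ ^ 2 * ‖∑ k ∈ range q, e (k * x)‖ ^ 2 :=
    fun x => by rw [norm_mul, mul_pow]
  simp_rw [h1]
  rw [intervalIntegral.integral_const_mul, parseval_D, norm_inv, Complex.norm_real,
    Real.norm_of_nonneg (Real.sqrt_nonneg _), inv_pow, Real.sq_sqrt (Nat.cast_nonneg q)]
  by_cases hq0 : (q : ℝ) = 0
  · rw [hq0]; simp
  · rw [inv_mul_cancel₀ hq0]

theorem ii_ind {L : ℝ → ℕ} (hL : Measurable L) (i : ℕ) :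
    IntervalIntegrable (fun x => if L x = i then (1 : ℝ) else 0) volume 0 1 := by
  refine ii_of_bdd (B := 1) (Measurable.ite (hL (measurableSet_singleton i)) measurable_const
    measurable_const) fun x => ?_
  split_ifs <;> simp

theorem mm_nonneg (L : ℝ → ℕ) (i : ℕ) : 0 ≤ mm L i := ENNReal.toReal_nonneg

theorem ii_sum (K : ℕ) {f : ℕ → ℝ → ℝ} (hf : ∀ i, IntervalIntegrable (f i) volume 0 1) :
    IntervalIntegrable (fun x => ∑ i ∈ range K, f i x) volume 0 1 := by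
  have h1 : (fun x => ∑ i ∈ range K, f i x) = ∑ i ∈ range K, fun x => f i x := by
    funext x
    rw [Finset.sum_apply]
  rw [h1]
  exact IntervalIntegrable.sum (range K) (f := fun i x => f i x) (fun i _ => hf i)

theorem sum_mm_le {L : ℝ → ℕ} (hL : Measurable L) (K : ℕ) : ∑ i ∈ range K, mm L i ≤ 1 := by
  have h1 : ∑ i ∈ range K, mm L i =
      ∫ x in (0 : ℝ)..1, ∑ i ∈ range K, (if L x = i then (1 : ℝ) else 0) := by
    rw [intervalIntegral.integral_finsetSum (fun i _ => ii_ind hL i)]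
    exact sum_congr rfl fun i _ => (int_ind hL i).symm
  rw [h1]
  have h4 := intervalIntegral.integral_mono_on zero_le_one (ii_sum K (fun i => ii_ind hL i))
    (_root_.intervalIntegrable_const (c := (1 : ℝ))) (fun x _ => by
      show ∑ i ∈ range K, (if L x = i then (1 : ℝ) else 0) ≤ 1
      rw [sum_ite_eq]
      split_ifs <;> norm_num)
  refine h4.trans ?_
  simp

theorem key_pt {p : ℝ} (hp : 0 < p) (hp1 : p < 1) (K q : ℕ) (S : ℕ → ℕ) (hS : ∀ k, S k ≤ K)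
    {u : ℝ → ℂ} (hu1 : ∀ x, ‖u x‖ = 1) (L : ℝ → ℕ) (hL : ∀ x, L x ≤ K) (ρ : ℝ) (θ x : ℝ) :
    ‖((Real.sqrt q : ℝ) : ℂ)⁻¹ * ∑ k ∈ range q, e (k * x + S k * θ)
      - u x * e (L x * θ)‖ ^ 2 ≤ 4 * (‖cc p K (e θ)‖ ^ 2 *
        ‖((Real.sqrt q : ℝ) : ℂ)⁻¹ * ∑ k ∈ range q, e (k * x)‖ ^ 2 +
        16 * K * ∑ i ∈ range K, ‖GG p q S u L ρ i x‖ ^ 2 +
        ∑ i ∈ range K, ‖(ρ : ℂ) * Dc p K (e θ) i - e θ ^ i‖ ^ 2 *
          (if L x = i then (1 : ℝ) else 0) + (if L x = K then (1 : ℝ) else 0)) := by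
  have hz := norm_e θ
  rw [decomp hp hp1 K q S hS u L hL ρ θ x]
  refine (sq_add4 _ _ _ _).trans (mul_le_mul_of_nonneg_left ?_ (by norm_num))
  refine add_le_add (add_le_add (add_le_add ?_ ?_) ?_) ?_
  · rw [norm_mul, mul_pow]
  · exact sq_sum_le K (fun i => GG p q S u L ρ i x) _ (fun i => norm_Dc hp hp1 hz K i)
  · have h1 : ‖∑ i ∈ range K, ((ρ : ℂ) * Dc p K (e θ) i - e θ ^ i) *
        (if L x = i then u x else 0)‖ ^ 2 =
        ∑ i ∈ range K, ‖(ρ : ℂ) * Dc p K (e θ) i - e θ ^ i‖ ^ 2 *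
          (if L x = i then (1 : ℝ) else 0) := by
      simp only [mul_ite, mul_zero, mul_one, sum_ite_eq]
      split_ifs
      · rw [norm_mul, hu1, mul_one]
      · simp
    exact h1.le
  · rw [norm_neg, norm_mul, norm_pow, hz, one_pow, one_mul]
    split_ifs
    · simp [hu1]
    · simp

theorem int_bound {p : ℝ} (hp : 0 < p) (hp1 : p < 1) (K q : ℕ) (S : ℕ → ℕ) (hS : ∀ k, S k ≤ K)
    {u : ℝ → ℂ} (hu : Measurable u) (hu1 : ∀ x, ‖u x‖ = 1) {L : ℝ → ℕ} (hL : Measurable L)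
    (hLK : ∀ x, L x ≤ K) {ρ : ℝ} (hρ0 : 0 ≤ ρ) (θ : ℝ) :
    ∫ x in (0 : ℝ)..1, ‖((Real.sqrt q : ℝ) : ℂ)⁻¹ * ∑ k ∈ range q, e (k * x + S k * θ)
      - u x * e (L x * θ)‖ ^ 2 ≤ 4 * (‖cc p K (e θ)‖ ^ 2 +
        16 * K * ∑ i ∈ range K, (∫ x in (0 : ℝ)..1, ‖GG p q S u L ρ i x‖ ^ 2) +
        ∑ i ∈ range K, ‖(ρ : ℂ) * Dc p K (e θ) i - e θ ^ i‖ ^ 2 * mm L i + mm L K) := by
  set w : ℕ → ℝ := fun i => ‖(ρ : ℂ) * Dc p K (e θ) i - e θ ^ i‖ ^ 2 with hw
  have i2 := (ii_Dn q).const_mul (‖cc p K (e θ)‖ ^ 2)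
  have i3 : ∀ i, IntervalIntegrable (fun x => ‖GG p q S u L ρ i x‖ ^ 2) volume 0 1 := fun i =>
    ii_GG p q S hρ0 hu hL hu1 i
  have i5 := (ii_sum K i3).const_mul (16 * K : ℝ)
  have i6 := ii_sum K (fun i => (ii_ind hL i).const_mul (w i))
  have h1 := intervalIntegral.integral_mono_on zero_le_one (ii_F q S hu hL hu1 θ)
    ((((i2.add i5).add i6).add (ii_ind hL K)).const_mul 4)
    (fun x _ => key_pt hp hp1 K q S hS hu1 L hLK ρ θ x)
  refine h1.trans ?_
  rw [intervalIntegral.integral_const_mul, intervalIntegral.integral_add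
    ((i2.add i5).add i6) (ii_ind hL K), intervalIntegral.integral_add (i2.add i5) i6,
    intervalIntegral.integral_add i2 i5,
    intervalIntegral.integral_const_mul, intervalIntegral.integral_const_mul,
    intervalIntegral.integral_finsetSum (fun i _ => i3 i),
    intervalIntegral.integral_finsetSum (fun i _ => (ii_ind hL i).const_mul (w i)), int_ind hL K]
  have h2 : ∀ i ∈ range K, ∫ x in (0 : ℝ)..1, w i * (if L x = i then (1 : ℝ) else 0) =
      w i * mm L i := by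
    intro i _
    rw [intervalIntegral.integral_const_mul, int_ind hL i]
    rfl
  rw [sum_congr rfl h2]
  have h3 := int_Dn_le q
  have h4 : ‖cc p K (e θ)‖ ^ 2 * (∫ x in (0 : ℝ)..1, ‖((Real.sqrt q : ℝ) : ℂ)⁻¹ *
    ∑ k ∈ range q, e (k * x)‖ ^ 2) ≤ ‖cc p K (e θ)‖ ^ 2 :=
    mul_le_of_le_one_right (by positivity) h3
  have h5 : (volume {x : ℝ | 0 ≤ x ∧ x < 1 ∧ L x = K}).toReal = mm L K := rfl
  rw [h5]
  linarith only [h4]

theorem rho_bounds {p ρ η : ℝ} {K : ℕ} (hp : 0 < p) (hp2 : p < 1 / 2) (hρ0 : 0 ≤ ρ)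
    (hKp : (1 - p) ^ K ≤ p ^ 2) (hηp2 : η ≤ p ^ 2)
    (hρ : |ρ ^ 2 - (1 - p) * (1 - (1 - p) ^ K)| ≤ η) : ρ ≤ 1 ∧ 1 - ρ ≤ 2 * p := by
  have hr0 : 0 ≤ 1 - p := by linarith
  have hpow0 : 0 ≤ (1 - p) ^ K := by positivity
  have hpp : p ^ 2 ≤ p / 2 := by nlinarith only [hp, hp2]
  have hρ2 := abs_le.1 hρ
  have hρup : ρ ^ 2 ≤ 1 := by
    have : (1 - p) * (1 - (1 - p) ^ K) ≤ 1 - p := by nlinarith only [hp2, hpow0]
    linarith only [hρ2.2, hp, hηp2, hpp, this]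
  have hρ1 : ρ ≤ 1 := by nlinarith only [hp, hp2, hρ0, hρup]
  refine ⟨hρ1, ?_⟩
  have h1 : 1 - ρ ^ 2 ≤ 2 * p := by
    have h2 : 1 - (1 - p) * (1 - (1 - p) ^ K) ≤ p + p ^ 2 := by nlinarith only [hp, hKp, hpow0]
    linarith only [hρ2.1, hηp2, hpp, h2]
  nlinarith only [hp, hp2, hρ0, hKp, hηp2, hpp, hρ2, hρ1]

theorem T3i {p ρ η : ℝ} {K : ℕ} (hp : 0 < p) (hp1 : p < 1) (hρ0 : 0 ≤ ρ) (hη0 : 0 ≤ η)
    (hρ1 : ρ ≤ 1) (hρlow : 1 - ρ ≤ 2 * p) {z : ℂ} (hz : ‖z‖ = 1) {i : ℕ} (hiK : i < K)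
    {m : ℝ} (hm0 : 0 ≤ m) (hmass : m * ρ ^ 2 ≤ p * (1 - p) ^ (i + 1) + η) :
    ‖1 - z‖ ^ 2 * (‖(ρ : ℂ) * Dc p K z i - z ^ i‖ ^ 2 * m) ≤
      (60 * p ^ 2) * m + 48 * (p * (1 - p) ^ (K + 1) + η) := by
  have hr0 : 0 ≤ 1 - p := by linarith
  have hr1 : 1 - p ≤ 1 := by linarith
  have hN2 : ‖1 - z‖ ≤ 2 := norm_one_sub_le_two hz
  have hN0 : 0 ≤ ‖1 - z‖ := norm_nonneg _
  obtain ⟨t, ht⟩ : ∃ t, t = (1 - p) ^ (K - i) := ⟨_, rfl⟩
  have ht0 : 0 ≤ t := by rw [ht]; positivity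
  have ht1 : t ≤ 1 := by rw [ht]; exact pow_le_one₀ hr0 hr1
  have h1 : ‖1 - z‖ * ‖(ρ : ℂ) * Dc p K z i - z ^ i‖ ≤
      2 * p + 4 * (ρ * t) + 4 * p := by
    have h2 : (ρ : ℂ) * Dc p K z i - z ^ i = (ρ : ℂ) * (Dc p K z i - z ^ i) -
        ((1 - ρ : ℝ) : ℂ) * z ^ i := by push_cast; ring
    have h3 : ‖(ρ : ℂ) * Dc p K z i - z ^ i‖ ≤ ρ * ‖Dc p K z i - z ^ i‖ + (1 - ρ) := by
      rw [h2]
      refine (norm_sub_le _ _).trans (le_of_eq ?_)
      rw [norm_mul, norm_mul, norm_pow, hz, one_pow, mul_one, Complex.norm_real,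
        Complex.norm_real, Real.norm_of_nonneg hρ0, Real.norm_of_nonneg (by linarith)]
    have h4 := norm_Dc_sub hp hp1 hz K i
    rw [← ht] at h4
    calc ‖1 - z‖ * ‖(ρ : ℂ) * Dc p K z i - z ^ i‖
        ≤ ‖1 - z‖ * (ρ * ‖Dc p K z i - z ^ i‖ + (1 - ρ)) :=
          mul_le_mul_of_nonneg_left h3 hN0
      _ = ρ * (‖1 - z‖ * ‖Dc p K z i - z ^ i‖) + ‖1 - z‖ * (1 - ρ) := by ring
      _ ≤ ρ * (2 * p + 4 * t) + 2 * (2 * p) := by
          refine add_le_add (mul_le_mul_of_nonneg_left h4 hρ0) ?_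
          exact mul_le_mul hN2 hρlow (by linarith) (by norm_num)
      _ ≤ 2 * p + 4 * (ρ * t) + 4 * p := by nlinarith only [hp, hρ1]
  have h5 : ‖1 - z‖ ^ 2 * ‖(ρ : ℂ) * Dc p K z i - z ^ i‖ ^ 2 ≤
      3 * ((2 * p) ^ 2 + (4 * (ρ * t)) ^ 2 + (4 * p) ^ 2) := by
    rw [← mul_pow]
    refine (pow_le_pow_left₀ (by positivity) h1 2).trans ?_
    linarith only [sq_nonneg (2 * p - 4 * (ρ * t)), sq_nonneg (2 * p - 4 * p),
      sq_nonneg (4 * (ρ * t) - 4 * p)]
  have h8 : (1 - p) ^ (i + 1) * t = (1 - p) ^ (K + 1) := by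
    rw [ht, ← pow_add]
    congr 1
    omega
  have h9 : m * ρ ^ 2 * t ^ 2 ≤ p * (1 - p) ^ (K + 1) + η := by
    have h11 : t ^ 2 ≤ t := by nlinarith only [hp, hp1, ht0, ht1]
    calc m * ρ ^ 2 * t ^ 2 ≤ (p * (1 - p) ^ (i + 1) + η) * t ^ 2 :=
          mul_le_mul_of_nonneg_right hmass (by positivity)
      _ ≤ (p * (1 - p) ^ (i + 1) + η) * t :=
          mul_le_mul_of_nonneg_left h11 (by positivity)
      _ = p * ((1 - p) ^ (i + 1) * t) + η * t := by ring
      _ ≤ p * (1 - p) ^ (K + 1) + η := by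
          rw [h8]
          nlinarith only [hp, hp1, hη0, ht1]
  calc ‖1 - z‖ ^ 2 * (‖(ρ : ℂ) * Dc p K z i - z ^ i‖ ^ 2 * m)
      = (‖1 - z‖ ^ 2 * ‖(ρ : ℂ) * Dc p K z i - z ^ i‖ ^ 2) * m := by ring
    _ ≤ (3 * ((2 * p) ^ 2 + (4 * (ρ * t)) ^ 2 + (4 * p) ^ 2)) * m :=
        mul_le_mul_of_nonneg_right h5 hm0
    _ = (60 * p ^ 2) * m + 48 * (m * ρ ^ 2 * t ^ 2) := by ring
    _ ≤ _ := by linarith only [h9]

theorem final_num {p ρ η : ℝ} {K : ℕ} (hp : 0 < p) (hp2 : p < 1 / 2) (hρ0 : 0 ≤ ρ)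
    (hη0 : 0 ≤ η) (hK : (K : ℝ) * (1 - p) ^ K ≤ p ^ 2) (hKp : (1 - p) ^ K ≤ p ^ 2)
    (hηK : (K : ℝ) ^ 2 * η ≤ p ^ 2) (hηp : (K : ℝ) * η ≤ p ^ 2) (hηp2 : η ≤ p ^ 2)
    (hρ : |ρ ^ 2 - (1 - p) * (1 - (1 - p) ^ K)| ≤ η) {z : ℂ} (hz : ‖z‖ = 1)
    {m g : ℕ → ℝ} (hm0 : ∀ i, 0 ≤ m i) (hmass : ∀ i < K, m i * ρ ^ 2 ≤ p * (1 - p) ^ (i + 1) + η)
    (hmsum : ∑ i ∈ range K, m i ≤ 1) (hmK : m K ≤ η) (hg : ∀ i < K, g i ≤ η) :
    ‖1 - z‖ ^ 2 * (4 * (‖cc p K z‖ ^ 2 + 16 * K * ∑ i ∈ range K, g i +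
        ∑ i ∈ range K, ‖(ρ : ℂ) * Dc p K z i - z ^ i‖ ^ 2 * m i + m K)) ≤ 960 * p ^ 2 := by
  have hp1 : p < 1 := by linarith
  have hr0 : 0 ≤ 1 - p := by linarith
  have hr1 : 1 - p ≤ 1 := by linarith
  obtain ⟨hρ1, hρlow⟩ := rho_bounds hp hp2 hρ0 hKp hηp2 hρ
  have hN2 : ‖1 - z‖ ≤ 2 := norm_one_sub_le_two hz
  have hN0 : 0 ≤ ‖1 - z‖ := norm_nonneg _
  have hNsq : ‖1 - z‖ ^ 2 ≤ 4 := by nlinarith only [hp, hp2, hN2, hN0]
  have hG1 : ∑ i ∈ range K, g i ≤ K * η := by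
    calc ∑ i ∈ range K, g i ≤ ∑ i ∈ range K, η :=
          sum_le_sum fun i hi => hg i (mem_range.1 hi)
      _ = K * η := by simp
  have T1 : ‖1 - z‖ ^ 2 * ‖cc p K z‖ ^ 2 ≤ 16 * p ^ 2 := by
    have h1 := norm_cc hp hp1 hz K
    have hpp : p ^ 2 ≤ p / 2 := by nlinarith only [hp, hp2]
    have h2 : ‖1 - z‖ * ‖cc p K z‖ ≤ 4 * p := by linarith only [hKp, h1, hpp]
    have h3 : 0 ≤ ‖1 - z‖ * ‖cc p K z‖ := by positivity
    calc ‖1 - z‖ ^ 2 * ‖cc p K z‖ ^ 2 = (‖1 - z‖ * ‖cc p K z‖) ^ 2 := by ring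
      _ ≤ (4 * p) ^ 2 := pow_le_pow_left₀ h3 h2 2
      _ = 16 * p ^ 2 := by ring
  have T3 : ‖1 - z‖ ^ 2 * ∑ i ∈ range K, ‖(ρ : ℂ) * Dc p K z i - z ^ i‖ ^ 2 * m i ≤
      156 * p ^ 2 := by
    rw [mul_sum]
    refine (sum_le_sum fun i hi => T3i hp hp1 hρ0 hη0 hρ1 hρlow hz (mem_range.1 hi) (hm0 i)
      (hmass i (mem_range.1 hi))).trans ?_
    rw [sum_add_distrib, ← mul_sum]
    simp only [sum_const, card_range, nsmul_eq_mul]
    have h1 : (K : ℝ) * (p * (1 - p) ^ (K + 1)) ≤ p ^ 2 := by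
      have h0 : 0 ≤ (1 - p) ^ K := by positivity
      have h2 : (1 - p) ^ (K + 1) ≤ (1 - p) ^ K := by
        rw [pow_succ]
        nlinarith only [hp, h0]
      calc (K : ℝ) * (p * (1 - p) ^ (K + 1)) ≤ (K : ℝ) * (p * (1 - p) ^ K) := by
            refine mul_le_mul_of_nonneg_left ?_ (by positivity)
            exact mul_le_mul_of_nonneg_left h2 hp.le
        _ = p * (K * (1 - p) ^ K) := by ring
        _ ≤ p * p ^ 2 := mul_le_mul_of_nonneg_left hK hp.le
        _ ≤ p ^ 2 := by nlinarith only [sq_nonneg p, hp2]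
    have h3 : 60 * p ^ 2 * ∑ i ∈ range K, m i ≤ 60 * p ^ 2 :=
      mul_le_of_le_one_right (by positivity) hmsum
    have h4 : (K : ℝ) * (48 * (p * (1 - p) ^ (K + 1) + η)) =
        48 * (K * (p * (1 - p) ^ (K + 1))) + 48 * (K * η) := by ring
    rw [h4]
    linarith only [hηp, h1, h3]
  have T2 : ‖1 - z‖ ^ 2 * (16 * K * ∑ i ∈ range K, g i) ≤ 64 * p ^ 2 := by
    have h1 : 16 * (K : ℝ) * ∑ i ∈ range K, g i ≤ 16 * K * (K * η) :=
      mul_le_mul_of_nonneg_left hG1 (by positivity)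
    calc ‖1 - z‖ ^ 2 * (16 * K * ∑ i ∈ range K, g i)
        ≤ ‖1 - z‖ ^ 2 * (16 * K * (K * η)) := mul_le_mul_of_nonneg_left h1 (by positivity)
      _ ≤ 4 * (16 * K * (K * η)) := mul_le_mul_of_nonneg_right hNsq (by positivity)
      _ = 64 * ((K : ℝ) ^ 2 * η) := by ring
      _ ≤ 64 * p ^ 2 := by linarith
  have T4 : ‖1 - z‖ ^ 2 * m K ≤ 4 * p ^ 2 := by
    calc ‖1 - z‖ ^ 2 * m K ≤ 4 * η := mul_le_mul hNsq hmK (hm0 K) (by norm_num)
      _ ≤ 4 * p ^ 2 := by linarith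
  calc ‖1 - z‖ ^ 2 * (4 * (‖cc p K z‖ ^ 2 + 16 * K * ∑ i ∈ range K, g i +
        ∑ i ∈ range K, ‖(ρ : ℂ) * Dc p K z i - z ^ i‖ ^ 2 * m i + m K))
      = 4 * (‖1 - z‖ ^ 2 * ‖cc p K z‖ ^ 2 +
        ‖1 - z‖ ^ 2 * (16 * K * ∑ i ∈ range K, g i) +
        ‖1 - z‖ ^ 2 * (∑ i ∈ range K, ‖(ρ : ℂ) * Dc p K z i - z ^ i‖ ^ 2 * m i) +
        ‖1 - z‖ ^ 2 * m K) := by ring
    _ ≤ 960 * p ^ 2 := by linarith only [T1, T3, T2, T4]

end Vale.Agent.P130R.FlatSeq

namespace Vale.Agent.P130R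

open FlatSeq Finset MeasureTheory in
/-- FLAT from ROUND. -/
theorem flat (h : RoundStatement) : FlatStatement := by
  refine ⟨960, fun p hp hp2 => ?_⟩
  have hp1 : p < 1 := by linarith
  obtain ⟨K, hK1, hK⟩ := exists_K hp hp1
  have hKR : (1 : ℝ) ≤ K := by exact_mod_cast hK1
  have hKp : (1 - p) ^ K ≤ p ^ 2 := by
    have h0 : 0 ≤ (1 - p) ^ K := by
      have : 0 ≤ 1 - p := by linarith only [hp, hp2]
      positivity
    nlinarith only [hp, hp2, hK, hKR, h0]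
  obtain ⟨η, hη0, hηK, hηp, hηp2⟩ : ∃ η : ℝ, 0 < η ∧ (K : ℝ) ^ 2 * η ≤ p ^ 2 ∧
      (K : ℝ) * η ≤ p ^ 2 ∧ η ≤ p ^ 2 := by
    have hK2 : (1 : ℝ) ≤ (K : ℝ) ^ 2 := one_le_pow₀ hKR
    refine ⟨p ^ 2 / (K : ℝ) ^ 2, by positivity, ?_, ?_, ?_⟩
    · rw [mul_div_cancel₀]
      positivity
    · rw [mul_div_assoc', div_le_iff₀ (by positivity)]
      have : (K : ℝ) ≤ (K : ℝ) ^ 2 := by nlinarith only [hKR]
      nlinarith only [sq_nonneg p, this]
    · exact div_le_self (by positivity) hK2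
  obtain ⟨q₀, hq⟩ := h p hp hp2 K hK1 η hη0
  refine ⟨K, q₀, fun q hqq => ?_⟩
  obtain ⟨S, u, L, ρ, hS0, hSK, hu, hL, hu1, hup, hLp, hLK, hρ0, hρ, hXi, hLast, hmass⟩ := hq q hqq
  refine ⟨S, hS0, hSK, u, L, hu, hL, hu1, hup, hLp, hLK, fun θ => ?_⟩
  refine (mul_le_mul_of_nonneg_left (int_bound hp hp1 K q S hSK hu hu1 hL hLK hρ0 θ)
    (by positivity)).trans ?_
  exact final_num hp hp2 hρ0 hη0.le hK hKp hηK hηp hηp2 hρ (norm_e θ) (mm_nonneg L)
    (fun i hi => hmass i hi) (sum_mm_le hL K) hLast (fun i hi => hXi i hi)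

end Vale.Agent.P130R
end

section

/-! # A rank one transformation with simple Lebesgue spectrum -/

namespace Vale.Agent.P130R

theorem flatSpacers : FlatStatement :=
  flat (round_ vec (tf chirp (P110.comb P110.coloring) P110.gaussStatement))

theorem cutsExist : CutsStatement := cuts flatSpacers decouple

end Vale.Agent.P130R
end
end
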